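import Crest.Agent.R188.ATp

/-!
# Cyclic Adams operations: definitions
-/

set_option autoImplicit false

open scoped ENNReal NNReal TensorProduct

namespace Crest.Agent.R188

open Crest.Agent.R183

/-- `ζ` is a `k`-th root of unity, primitive in every residue field -/
structure RootU {B : Type} [CommRing B] (k : ℕ) (ζ : B) : Prop where
  pow : ζ ^ k = 1
  unit : IsUnit (k : B)
  sub : ∀ i, 0 < i → i < k → IsUnit (ζ ^ i - 1)

section psi

variable {B : Type} [CommRing B] {X : Type} [AddCommGroup X] [Module B X]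

/-- eigenspaces -/
def eig (σ : X →ₗ[B] X) (c : B) : Submodule B X := LinearMap.eqLocus σ (LinearMap.lsmul B X c)

theorem mem_eig {σ : X →ₗ[B] X} {c : B} {x : X} : x ∈ eig σ c ↔ σ x = c • x := Iff.rfl

/-- `σ` is a chain automorphism of order dividing `k` -/
structure Eqv (C : DG B X) (k : ℕ) (σ : X →ₗ[B] X) : Prop where
  isMap : DG.IsMap C C σ
  pow : ∀ x, (σ ^ k) x = x

/-- `σ`-stable subcomplexes -/
structure Stab (C : DG B X) (σ : X →ₗ[B] X) (A : Submodule B X) : Prop where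
  sub : C.Sub A
  mem : ∀ x ∈ A, σ x ∈ A

/-- the trace of `σ` on the Euler characteristic of `A / A'` -/
noncomputable def psi (C : DG B X) (μ : LF B) (k : ℕ) (ζ : B) (σ : X →ₗ[B] X)
    (A A' : Submodule B X) : ℂ :=
  ∑ i ∈ Finset.range k, Complex.exp (2 * Real.pi * Complex.I * i / k) *
    (C.ech μ (A ⊓ eig σ (ζ ^ i)) (A' ⊓ eig σ (ζ ^ i)) : ℝ)

end psi

namespace MC

variable {B : Type} [CommRing B]

/-- the `k`-th tensor power -/
def tp (E : MC B) (k : ℕ) : MC B where
  ι := Fin k → E.ι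
  deg t := ∑ l, E.deg (t l)
  d := tpd E k
  hdeg := tpd_deg E k
  dd := tpd_mul_tpd E k

/-- the cyclic permutation of the factors, with the Koszul sign -/
def cyc (E : MC B) (k : ℕ) [NeZero k] : Matrix (E.tp k).ι (E.tp k).ι B := fun t t' =>
  if t' = t ∘ finRotate k then
    ((sg (E.deg (t 0) * (∑ l, E.deg (t l) - E.deg (t 0))) : ℤ) : B) else 0

/-- the associated graded complex for a filtration of the basis -/
def gr (E : MC B) (pat : E.ι → ℕ) (h : ∀ i j, E.d i j ≠ 0 → pat i ≤ pat j) : MC B where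
  ι := E.ι
  deg := E.deg
  d := grd E pat
  hdeg i j hij := E.hdeg i j fun h0 => hij (by simp [grd, h0])
  dd := grd_mul_grd E pat h

/-- the cyclic Adams trace on a subquotient of `E^{⊗k} ⊗ M` -/
noncomputable def psiL (E : MC B) (μ : LF B) (k : ℕ) [NeZero k] (ζ : B) (M : Type)
    [AddCommGroup M] [Module B M] (A A' : Submodule B ((Fin k → E.ι) → M)) : ℂ :=
  psi ((E.tp k).ap M) μ k ζ (matApp (E.cyc k) M) A A'

/-- the cyclic Adams trace on `E^{⊗k} ⊗ M` -/
noncomputable abbrev Psi (E : MC B) (μ : LF B) (k : ℕ) [NeZero k] (ζ : B) (M : Type)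
    [AddCommGroup M] [Module B M] : ℂ :=
  E.psiL μ k ζ M ⊤ ⊥

/-- `σ`-stable subcomplexes of `E^{⊗k} ⊗ M` -/
abbrev StabL (E : MC B) (k : ℕ) [NeZero k] (M : Type) [AddCommGroup M] [Module B M]
    (A : Submodule B ((Fin k → E.ι) → M)) : Prop :=
  Stab ((E.tp k).ap M) (matApp (E.cyc k) M) A

/-- finiteness of the homology of a subquotient of `E^{⊗k} ⊗ M` -/
abbrev FinL (E : MC B) (μ : LF B) (k : ℕ) (M : Type) [AddCommGroup M] [Module B M]
    (A A' : Submodule B ((Fin k → E.ι) → M)) : Prop :=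
  ((E.tp k).ap M).FinH μ A A'

end MC

end Crest.Agent.R188
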