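import Crest.Agent.R188.HRes

/-!
# Existence of resolutions, direct summands, dévissage
-/

set_option autoImplicit false
set_option linter.unusedVariables false

open scoped ENNReal NNReal TensorProduct

namespace Crest.Agent.R188

open Crest.Agent.R183 Crest.Agent.R183.DG IsLocalRing

variable {B : Type} [CommRing B]

theorem HDev_matApp {ι κ : Type} [Fintype κ] (f : Matrix ι κ B) (x : κ → B) :
    matApp f B x = f.mulVec x := rfl

theorem HDev_mul_ne {ι κ σ : Type} [Fintype κ] {f : Matrix ι κ B} {g : Matrix κ σ B} {i : ι}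
    {k : σ} (h : (f * g) i k ≠ 0) : ∃ j, f i j ≠ 0 ∧ g j k ≠ 0 := by
  obtain ⟨j, -, hj⟩ := Finset.exists_ne_zero_of_sum_ne_zero h
  exact ⟨j, left_ne_zero_of_mul hj, right_ne_zero_of_mul hj⟩

/-- A resolution by `Ξ`-modules which are free over `B`, with `Ξ`-linear homotopies. -/
def HDev_P (B Ξ : Type) [CommRing B] [CommRing Ξ] [Algebra B Ξ] (r : ℕ) (N : Type)
    [AddCommGroup N] [Module Ξ N] : Prop :=
  ∃ (X : Type) (_ : AddCommGroup X) (_ : Module Ξ X) (_ : Module B X) (_ : IsScalarTower B Ξ X)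
    (C : DG Ξ X) (ι : Type) (_ : Fintype ι) (b : Module.Basis ι B X) (deg : ι → ℤ)
    (ε : X →ₗ[Ξ] N), (∀ i, 0 ≤ deg i ∧ deg i ≤ r) ∧
    (∀ k x i, b.repr (C.π k x) i = if deg i = k then b.repr x i else 0) ∧
    QI C (single Ξ N) ε ∧ ∀ f : X →ₗ[Ξ] X, IsMap C C f → (∀ x, ε (f x) = 0) →
      ∃ h : X →ₗ[Ξ] X, (∀ k x, h (C.π k x) = C.π (k + 1) (h x)) ∧
        ∀ x, C.D (h x) + h (C.D x) = f x

theorem HDev_single_π {R M : Type} [CommRing R] [AddCommGroup M] [Module R M] (k : ℤ) (x : M) :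
    (single R M).π k x = if k = 0 then x else 0 := by
  by_cases hk : k = 0 <;> simp [single, hk]

theorem HDev_single_D {R M : Type} [CommRing R] [AddCommGroup M] [Module R M] (x : M) :
    (single R M).D x = 0 := rfl

section step

variable {Ξ : Type} [CommRing Ξ] [Algebra B Ξ]

omit [Algebra B Ξ] in
theorem HDev_single_repr {M : Type} [AddCommGroup M] [Module Ξ M] [Module B M] {ι : Type}
    (b : Module.Basis ι B M) (k : ℤ) (x : M) (i : ι) :
    b.repr ((single Ξ M).π k x) i = if (0 : ℤ) = k then b.repr x i else 0 := by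
  rw [HDev_single_π]
  by_cases hk : k = 0
  · simp [hk]
  · simp [hk, Ne.symm hk]

theorem HDev_base (r : ℕ) (N : Type) [AddCommGroup N] [Module Ξ N] [Module B N]
    [IsScalarTower B Ξ N] [Module.Free B N] [Module.Finite B N] : HDev_P B Ξ r N :=
  ⟨N, _, _, _, inferInstance, single Ξ N, _, inferInstance, Module.Free.chooseBasis B N,
    fun _ => 0, LinearMap.id, fun _ => ⟨le_rfl, Nat.cast_nonneg r⟩, HDev_single_repr _, QI.id _,
    fun f _ hf => ⟨0, fun _ _ => by simp, fun x => by simpa using (hf x).symm⟩⟩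

theorem HDev_step {r : ℕ} {N F : Type} [AddCommGroup N] [Module Ξ N] [AddCommGroup F] [Module Ξ F]
    [Module B F] [IsScalarTower B Ξ F] [Module.Free B F] [Module.Finite B F]
    [Module.Projective Ξ F] (q : F →ₗ[Ξ] N) (hq : Function.Surjective q)
    (H : HDev_P B Ξ r (LinearMap.ker q)) : HDev_P B Ξ (r + 1) N := by
  obtain ⟨X, _, _, _, _, C, ι, _, b, deg, ε, h1, h2, h3, h4⟩ := H
  have hneg : ∀ k < 0, ∀ x, C.π k x = 0 := fun k hk x => b.ext_elem fun i => by
    rw [h2, if_neg (by have := (h1 i).1; omega), map_zero, Finsupp.zero_apply]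
  have hu : IsMap C (single Ξ F) ((LinearMap.ker q).subtype ∘ₗ ε) :=
    h3.toIsMap.comp (single_isMap _)
  have hε0 : ∀ x, ε (C.π 0 x) = ε x := fun x => by rw [h3.π, HDev_single_π, if_pos rfl]
  refine ⟨F × X, _, _, _, inferInstance, DG.cone hu, _, inferInstance,
    (Module.Free.chooseBasis B F).prod b, Sum.elim (fun _ => 0) fun i => deg i + 1,
    (q ∘ₗ LinearMap.fst Ξ F _) ∘ₗ LinearMap.prodMap LinearMap.id ε, ?_, ?_,
    (cone_qi hu (single_isMap (LinearMap.ker q).subtype) h3 (QI.id _) fun _ => rfl).comp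
      (cone_qi_of_exact _ (single_isMap q) Subtype.val_injective hq
        (LinearMap.exact_subtype_ker_map q)), fun f hf hf0 => ?_⟩
  · rintro (i | i)
    · exact ⟨le_rfl, Nat.cast_nonneg _⟩
    · have := h1 i
      simp only [Sum.elim_inr]
      push_cast
      omega
  · rintro k x (i | i)
    · exact HDev_single_repr _ k x.1 i
    · refine (h2 (k - 1) x.2 i).trans (if_congr ?_ rfl rfl)
      simp only [Sum.elim_inr]
      omega
  have hπ0 : ∀ p : F × X, (DG.cone hu).π 0 p = (p.1, 0) := fun p => by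
    rw [cone_π, HDev_single_π, if_pos rfl, hneg _ (by norm_num)]
  let f₀ : F →ₗ[Ξ] F := LinearMap.fst Ξ F X ∘ₗ f ∘ₗ LinearMap.inl Ξ F X
  let f₁ : X →ₗ[Ξ] X := LinearMap.snd Ξ F X ∘ₗ f ∘ₗ LinearMap.inr Ξ F X
  have e : ∀ p : F × X, f p = (f₀ p.1, f₁ p.2) := fun p => by
    have a1 := hf.π 0 (p.1, 0)
    have a2 := hf.π 0 (0, p.2)
    rw [hπ0, hπ0] at a1 a2
    have a3 : f p = f (p.1, 0) + f (0, p.2) := by rw [← map_add]; simp
    have a4 : (f (0, p.2)).1 = 0 :=
      (congrArg Prod.fst a2).symm.trans (congrArg Prod.fst (map_zero f))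
    have a5 : (f (p.1, 0)).2 = 0 := congrArg Prod.snd a1
    rw [a3]
    exact Prod.ext (by rw [Prod.fst_add, a4, add_zero]; rfl) (by rw [Prod.snd_add, a5, zero_add]; rfl)
  have hs : Function.Surjective ε := fun y => by
    obtain ⟨x, z, -, -, a⟩ := h3.surj 0 y (by rw [HDev_single_π, if_pos rfl]) rfl
    exact ⟨x, by rw [a, HDev_single_D, add_zero]⟩
  obtain ⟨g, hg⟩ := Module.projective_lifting_property ε
    (f₀.codRestrict (LinearMap.ker q) fun a => hf0 (a, 0)) hs
  have hg' : ∀ a, (ε (C.π 0 (g a)) : F) = f₀ a := fun a => by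
    rw [hε0]
    exact congrArg Subtype.val (LinearMap.congr_fun hg a)
  have hgD : ∀ a, C.D (C.π 0 (g a)) = 0 := fun a => by
    rw [← neg_add_cancel (1 : ℤ), ← C.πD, hneg _ (by norm_num)]
  have hD : ∀ x, f₀ (ε x) = ε (f₁ x) ∧ f₁ (C.D x) = C.D (f₁ x) := fun x => by
    have a := hf.D (0, x)
    rw [e, e, cone_D, cone_D] at a
    simpa [HDev_single_D] using a
  have hπ : ∀ k x, f₁ (C.π k x) = C.π k (f₁ x) := fun k x => by
    have a := congrArg Prod.snd (hf.π (k + 1) (0, x))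
    rw [e, e, cone_π, cone_π, add_sub_cancel_right] at a
    exact a
  have hgπ : ∀ k a, C.π 0 (g ((single Ξ F).π k a)) = C.π k (C.π 0 (g a)) := fun k a => by
    rw [HDev_single_π]
    split_ifs with hk
    · rw [hk, C.ππ]
    · rw [map_zero, map_zero, C.ππ' k 0 hk]
  obtain ⟨h, a1, a2⟩ := h4 (f₁ - C.π 0 ∘ₗ g ∘ₗ (LinearMap.ker q).subtype ∘ₗ ε)
    ⟨fun x => by
      simp only [LinearMap.sub_apply, LinearMap.comp_apply, map_sub, hgD, (hD x).2, h3.D,
        HDev_single_D, map_zero],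
    fun k x => by
      have := hu.π k x
      simp only [LinearMap.sub_apply, LinearMap.comp_apply, map_sub, hπ] at this ⊢
      rw [this, hgπ]⟩
    fun x => Subtype.ext (by
      simp only [LinearMap.sub_apply, LinearMap.comp_apply, map_sub, Submodule.coe_sub, hg',
        Submodule.subtype_apply, (hD x).1, sub_self, Submodule.coe_zero])
  have a3 : ∀ x, ε (h x) = 0 := fun x => by
    rw [← hε0, ← neg_add_cancel (1 : ℤ), ← a1, hneg _ (by norm_num), map_zero, map_zero]
  refine ⟨LinearMap.inr Ξ F X ∘ₗ ((C.π 0 ∘ₗ g) ∘ₗ LinearMap.fst Ξ F X - h ∘ₗ LinearMap.snd Ξ F X),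
    fun k p => ?_, fun p => ?_⟩
  · have := a1 (k - 1) p.2
    rw [sub_add_cancel] at this
    simp only [cone_π, LinearMap.comp_apply, LinearMap.sub_apply, LinearMap.fst_apply,
      LinearMap.snd_apply, LinearMap.inr_apply, map_zero, map_sub, add_sub_cancel_right, hgπ, this]
  · have := a2 p.2
    simp only [LinearMap.sub_apply, LinearMap.comp_apply] at this
    rw [e, ← sub_add_cancel (f₁ p.2) (C.π 0 (g ((LinearMap.ker q).subtype (ε p.2)))), ← this]
    simp only [cone_D, LinearMap.comp_apply, LinearMap.sub_apply, LinearMap.fst_apply,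
      LinearMap.snd_apply, LinearMap.inr_apply, map_sub, HDev_single_D, zero_add, a3, hgD,
      Submodule.subtype_apply, hg', map_neg, Submodule.coe_zero, add_zero, sub_neg_eq_add]
    rw [add_comm (C.π 0 _), add_assoc]
    simp

theorem HDev_ind [IsNoetherianRing B] [IsLocalRing B] {d : ℕ} {x : Fin d → B} (hx : RegL B x)
    [Module.Free B Ξ] [Module.Finite B Ξ] (r : ℕ) : ∀ (j : ℕ) (N : Type) [AddCommGroup N]
    [Module B N] [Module Ξ N] [IsScalarTower B Ξ N] [Module.Finite B N], d ≤ j + r →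
    RingTheory.Sequence.IsWeaklyRegular N ((List.ofFn x).take j) → HDev_P B Ξ r N := by
  induction r with
  | zero =>
    intro j N _ _ _ _ _ hj h
    rw [List.take_of_length_le (by simpa using hj)] at h
    have := hx.free N h
    exact HDev_base 0 N
  | succ r ih =>
    intro j N _ _ _ _ _ hj h
    have := Module.Finite.of_restrictScalars_finite B Ξ N
    obtain ⟨m, q, hq⟩ := Module.Finite.exists_fin' Ξ N
    have hF : RingTheory.Sequence.IsWeaklyRegular (Fin m → Ξ) (List.ofFn x) :=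
      ((TensorProduct.lid B (Fin m → Ξ)).isWeaklyRegular_congr _).1 hx.reg.isWeaklyRegular_rTensor
    have h1 := reg_syzygy x hx.mem_max hF (LinearMap.ker (q.restrictScalars B))
      ((((q.restrictScalars B).quotKerEquivOfSurjective hq).isWeaklyRegular_congr _).2 h)
    have : Module.Finite B (LinearMap.ker q) :=
      inferInstanceAs (Module.Finite B (LinearMap.ker (q.restrictScalars B)))
    exact HDev_step q hq (ih (j + 1) (LinearMap.ker q) (by omega) h1)

end step

/-- Resolutions by modules over a finite free algebra `Ξ`, free over `B`: the elements of `Ξ` act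
by commuting chain maps and the annihilator acts by `Ξ`-linearly null-homotopic maps. -/
theorem exists_res_over [IsNoetherianRing B] [IsLocalRing B] {d : ℕ} {x : Fin d → B}
    (hx : RegL B x) (Ξ : Type) [CommRing Ξ] [Algebra B Ξ] [Module.Free B Ξ] [Module.Finite B Ξ]
    (N : Type) [AddCommGroup N] [Module B N] [Module Ξ N] [IsScalarTower B Ξ N]
    [Module.Finite Ξ N] :
    ∃ (G : MC B) (act : Ξ →ₐ[B] Matrix G.ι G.ι B) (ε : (G.ι → B) →ₗ[B] N),
      (∀ i, 0 ≤ G.deg i ∧ G.deg i ≤ d) ∧ QI (G.ap B) (single B N) ε ∧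
      (∀ t, MC.IsHom G G (act t)) ∧ (∀ t v, ε (matApp (act t) B v) = t • ε v) ∧
      ∀ t : Ξ, (∀ n : N, t • n = 0) → ∃ h : Matrix G.ι G.ι B,
        (∀ i j, h i j ≠ 0 → G.deg i = G.deg j + 1) ∧ G.d * h + h * G.d = act t ∧
        ∀ t', h * act t' = act t' * h := by
  classical
  have := Module.Finite.trans (R := B) Ξ N
  obtain ⟨X, _, _, _, _, C, ι, _, b, deg, ε, h1, h2, h3, h4⟩ :=
    HDev_ind (Ξ := Ξ) hx d 0 N (by omega) (by simp)
  let M : (X →ₗ[Ξ] X) → Matrix ι ι B := fun g => LinearMap.toMatrix b b (g.restrictScalars B)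
  have hM : ∀ g g' : X →ₗ[Ξ] X, M g * M g' = M (g ∘ₗ g') := fun g g' =>
    (LinearMap.toMatrix_comp b b b _ _).symm
  have hMd : ∀ (g : X →ₗ[Ξ] X) (s : ℤ), (∀ k y, g (C.π k y) = C.π (k + s) (g y)) →
      ∀ i j, M g i j ≠ 0 → deg i = deg j + s := by
    intro g s hg i j hij
    have a1 : C.π (deg j) (b j) = b j := b.ext_elem fun l => by
      rw [h2]
      split_ifs with hl
      · rfl
      · rw [b.repr_self, Finsupp.single_eq_of_ne fun h => hl (by rw [h])]
    by_contra hne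
    refine hij ?_
    refine (LinearMap.toMatrix_apply b b _ i j).trans ?_
    rw [LinearMap.restrictScalars_apply, ← a1, hg, h2, if_neg hne]
  have hMv : ∀ (g : X →ₗ[Ξ] X) (v : ι → B),
      b.equivFun.symm (matApp (M g) B v) = g (b.equivFun.symm v) := by
    intro g v
    obtain ⟨y, rfl⟩ := b.equivFun.surjective v
    rw [LinearEquiv.symm_apply_apply, LinearEquiv.symm_apply_eq]
    exact LinearMap.toMatrix_mulVec_repr b b (g.restrictScalars B) y
  let G : MC B := ⟨ι, deg, M C.D, fun i j hij => by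
      have := hMd C.D (-1) (fun k y => by rw [C.πD, neg_add_cancel_right]) i j hij
      omega, by
      rw [hM, show C.D ∘ₗ C.D = 0 from LinearMap.ext C.DD]
      exact map_zero (LinearMap.toMatrix b b)⟩
  let act : Ξ →ₐ[B] Matrix ι ι B :=
    (LinearMap.toMatrixAlgEquiv b).toAlgHom.comp (Algebra.lsmul B B X)
  have hact : ∀ t, act t = M (LinearMap.lsmul Ξ X t) := fun t => rfl
  have hcomm : ∀ (g : X →ₗ[Ξ] X) t, M g * act t = act t * M g := fun g t => by
    rw [hact, hM, hM]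
    congr 1
    ext y
    simp
  have hG : IsMap (G.ap B) (C.res B) b.equivFun.symm.toLinearMap := by
    refine ⟨fun v => ?_, fun k v => b.ext_elem fun i => ?_⟩
    · rw [G.ap_D]
      exact hMv C.D v
    · refine Eq.trans ?_ (h2 k (b.equivFun.symm v) i).symm
      have a : ∀ w : ι → B, b.repr (b.equivFun.symm w) i = w i := fun w =>
        congrFun (b.equivFun.apply_symm_apply w) i
      rw [a]
      exact (a _).trans (G.ap_π k v i)
  refine ⟨G, act, ε.restrictScalars B ∘ₗ b.equivFun.symm.toLinearMap, h1, ?_, fun t => ⟨?_, ?_⟩,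
    fun t v => ?_, fun t ht => ?_⟩
  · rw [← res_single B (B := Ξ) N]
    exact (QI.of_bijective hG b.equivFun.symm.bijective).comp (h3.res B)
  · intro i j hij
    simpa using hMd _ 0 (fun k y => by simp) i j (hact t ▸ hij)
  · exact (hcomm C.D t).symm
  · show ε (b.equivFun.symm (matApp (M (LinearMap.lsmul Ξ X t)) B v)) = t • ε (b.equivFun.symm v)
    rw [hMv, LinearMap.lsmul_apply, map_smul]
  · obtain ⟨h, a1, a2⟩ := h4 _ (C.isMap_smul t) fun y => by
      rw [LinearMap.lsmul_apply, map_smul, ht]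
    refine ⟨M h, hMd h 1 a1, ?_, hcomm h⟩
    show M C.D * M h + M h * M C.D = act t
    rw [hM, hM, hact, ← show C.D ∘ₗ h + h ∘ₗ C.D = LinearMap.lsmul Ξ X t from LinearMap.ext a2]
    exact (map_add (LinearMap.toMatrix b b) _ _).symm

theorem RegL.hasRes [IsNoetherianRing B] [IsLocalRing B] {d : ℕ} {x : Fin d → B}
    (hx : RegL B x) : HasRes B d := by
  intro N _ _ _
  obtain ⟨G, -, ε, h1, h2, -⟩ := exists_res_over hx B N
  exact ⟨G, ⟨fun i => (h1 i).1, ε, h2⟩, fun i => (h1 i).2⟩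

/-- idempotent matrices over a local ring split -/
theorem HDev_split [IsLocalRing B] {ι : Type} [Fintype ι] [DecidableEq ι] {e : Matrix ι ι B}
    (hee : e * e = e) : ∃ (n : ℕ) (u : Matrix ι (Fin n) B) (r : Matrix (Fin n) ι B),
      r * u = 1 ∧ u * r = e := by
  let P := LinearMap.range (Matrix.toLin' e)
  have h1 : (Matrix.toLin' e).rangeRestrict ∘ₗ P.subtype = LinearMap.id := by
    ext ⟨_, x, rfl⟩ : 1
    refine Subtype.ext ?_
    show Matrix.toLin' e (Matrix.toLin' e x) = Matrix.toLin' e x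
    rw [← Matrix.toLin'_mul_apply, hee]
  have : Module.Projective B P := Module.Projective.of_split _ _ h1
  have : Module.Free B P := Module.free_of_flat_of_isLocalRing
  let φ := (Module.finBasis B P).equivFun
  refine ⟨_, LinearMap.toMatrix' (P.subtype ∘ₗ φ.symm.toLinearMap),
    LinearMap.toMatrix' (φ.toLinearMap ∘ₗ (Matrix.toLin' e).rangeRestrict), ?_, ?_⟩
  · rw [← LinearMap.toMatrix'_comp, LinearMap.comp_assoc, ← LinearMap.comp_assoc _ P.subtype, h1,
      LinearMap.id_comp, LinearEquiv.comp_symm, LinearMap.toMatrix'_id]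
  · rw [← LinearMap.toMatrix'_comp, LinearMap.comp_assoc, ← LinearMap.comp_assoc _ φ.toLinearMap,
      LinearEquiv.symm_comp, LinearMap.id_comp]
    exact LinearMap.toMatrix'_toLin' e

/-- a direct summand of a finite free complex over a local ring is a finite free complex -/
theorem MC.exists_summand [IsLocalRing B] (E : MC B) {e : Matrix E.ι E.ι B}
    (he : MC.IsHom E E e) (hee : e * e = e) :
    ∃ (E₁ : MC B) (u : Matrix E.ι E₁.ι B) (r : Matrix E₁.ι E.ι B),
      MC.IsHom E₁ E u ∧ MC.IsHom E E₁ r ∧ r * u = 1 ∧ u * r = e := by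
  classical
  let p : ℤ → Matrix E.ι E.ι B := fun k i j => if E.deg i = k then e i j else 0
  have hp : ∀ k i j, p k i j ≠ 0 → E.deg i = k ∧ E.deg j = k := fun k i j h => by
    by_cases hi : E.deg i = k
    · exact ⟨hi, (he.deg i j (by simpa [p, hi] using h)).symm.trans hi⟩
    · simp [p, hi] at h
  have hpp : ∀ k, p k * p k = p k := fun k => by
    ext i j
    rw [Matrix.mul_apply]
    by_cases hi : E.deg i = k
    · simp only [p, if_pos hi]
      conv_rhs => rw [← hee, Matrix.mul_apply]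
      refine Finset.sum_congr rfl fun l _ => ?_
      by_cases hl : e i l = 0
      · rw [hl, zero_mul, zero_mul]
      · rw [if_pos ((he.deg i l hl).symm.trans hi)]
    · simp [p, hi]
  choose n u r hru hur using fun k => HDev_split (hpp k)
  have hu : ∀ k i j, u k i j ≠ 0 → E.deg i = k := fun k i j h => by
    rw [← Matrix.mul_one (u k), ← hru k, ← Matrix.mul_assoc, hur] at h
    obtain ⟨l, hl, -⟩ := HDev_mul_ne h
    exact (hp k i l hl).1
  have hr : ∀ k j i, r k j i ≠ 0 → E.deg i = k := fun k j i h => by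
    rw [← Matrix.one_mul (r k), ← hru k, Matrix.mul_assoc, hur] at h
    obtain ⟨l, -, hl⟩ := HDev_mul_ne h
    exact (hp k l i hl).2
  let S : Finset ℤ := Finset.univ.image E.deg
  let U : Matrix E.ι (Σ k : S, Fin (n k)) B := fun i j => u j.1 i j.2
  let R : Matrix (Σ k : S, Fin (n k)) E.ι B := fun j i => r j.1 j.2 i
  have hRU : R * U = 1 := by
    ext ⟨k, j⟩ ⟨k', j'⟩
    by_cases hk : k = k'
    · subst hk
      refine (congrFun (congrFun (hru k) j) j').trans ?_
      simp [Matrix.one_apply]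
    · rw [Matrix.one_apply_ne fun h => hk (congrArg Sigma.fst h)]
      by_contra h
      obtain ⟨l, a1, a2⟩ := HDev_mul_ne h
      exact hk (Subtype.ext ((hr _ _ _ a1).symm.trans (hu _ _ _ a2)))
  have hUR : U * R = e := by
    ext i j
    rw [Matrix.mul_apply, Fintype.sum_sigma,
      Finset.sum_eq_single (⟨E.deg i, Finset.mem_image_of_mem _ (Finset.mem_univ i)⟩ : S)]
    · exact (congrFun (congrFun (hur (E.deg i)) i) j).trans (if_pos rfl)
    · intro k _ hk
      exact (congrFun (congrFun (hur k) i) j).trans (if_neg fun h => hk (Subtype.ext h.symm))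
    · simp
  have heU : e * U = U := by rw [← hUR, Matrix.mul_assoc, hRU, Matrix.mul_one]
  have hRe : R * e = R := by rw [← hUR, ← Matrix.mul_assoc, hRU, Matrix.one_mul]
  have c1 : U * (R * E.d * U) = E.d * U := by
    rw [← Matrix.mul_assoc, ← Matrix.mul_assoc, hUR, he.comm, Matrix.mul_assoc, heU]
  refine ⟨⟨Σ k : S, Fin (n k), fun j => j.1, R * E.d * U, fun i j h => ?_, ?_⟩, U, R,
    ⟨fun i j h => hu _ _ _ h, c1⟩, ⟨fun j i h => (hr _ _ _ h).symm, ?_⟩, hRU, hUR⟩
  · obtain ⟨l, a1, a2⟩ := HDev_mul_ne h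
    obtain ⟨l', a3, a4⟩ := HDev_mul_ne a1
    rw [← hu _ _ _ a2, ← hr _ _ _ a3]
    exact E.hdeg _ _ a4
  · rw [Matrix.mul_assoc, c1, Matrix.mul_assoc, ← Matrix.mul_assoc E.d, E.dd, Matrix.zero_mul,
      Matrix.mul_zero]
  · show R * E.d = R * E.d * U * R
    rw [Matrix.mul_assoc, hUR, Matrix.mul_assoc, ← he.comm, ← Matrix.mul_assoc, hRe]

theorem MC.Supp.of_retract {E E₁ : MC B} {u : Matrix E.ι E₁.ι B} {r : Matrix E₁.ι E.ι B}
    (hu : MC.IsHom E₁ E u) (hr : MC.IsHom E E₁ r) (h : r * u = 1) {J : Ideal B}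
    (hE : E.Supp J) : E₁.Supp J := by
  intro a ha
  obtain ⟨c, s, h1, h2⟩ := hE a ha
  refine ⟨c, r * s * u, fun i j hij => ?_, ?_⟩
  · obtain ⟨l, a1, a2⟩ := HDev_mul_ne hij
    obtain ⟨l', a3, a4⟩ := HDev_mul_ne a1
    rw [hr.deg _ _ a3, h1 _ _ a4, hu.deg _ _ a2]
  · rw [Matrix.mul_assoc (r * s), hu.comm, ← Matrix.mul_assoc, ← Matrix.mul_assoc, ← hr.comm,
      ← Matrix.mul_assoc, ← Matrix.add_mul, Matrix.mul_assoc r, Matrix.mul_assoc r,
      ← Matrix.mul_add, h2, Matrix.scalar_apply, Matrix.scalar_apply,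
      ← Matrix.smul_one_eq_diagonal, ← Matrix.smul_one_eq_diagonal, Matrix.mul_smul,
      Matrix.smul_mul, Matrix.mul_one, h]

section ex

variable {X X' : Type} [AddCommGroup X] [Module B X] [AddCommGroup X'] [Module B X']

/-- exactness in degree `k` -/
def HDev_Ex (C : DG B X) (k : ℤ) : Prop := ∀ x, C.π k x = x → C.D x = 0 → ∃ y, C.D y = x

theorem HDev_ex_iso {C : DG B X} {C' : DG B X'} (h : C.Iso C') {k : ℤ} (h' : HDev_Ex C' k) :
    HDev_Ex C k := by
  obtain ⟨f, hf⟩ := h.qi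
  intro x h1 h2
  obtain ⟨y, hy⟩ := h' (f x) (by rw [← hf.π, h1]) (by rw [← hf.D, h2, map_zero])
  obtain ⟨w, hw⟩ := hf.inj k x h1 h2 y hy.symm
  exact ⟨w, hw.symm⟩

theorem HDev_ex_cone {C : DG B X} {C' : DG B X'} {f : X →ₗ[B] X'} (hf : IsMap C C' f) (k : ℤ)
    (hi : ∀ x, C.π (k - 1) x = x → C.D x = 0 → ∀ z, f x = C'.D z → ∃ w, x = C.D w)
    (hs : ∀ y, C'.π k y = y → C'.D y = 0 → ∃ x z, C.D x = 0 ∧ y = f x + C'.D z) :
    HDev_Ex (DG.cone hf) k := by
  rintro ⟨y, x⟩ h1 h2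
  simp only [cone_π, cone_D, Prod.mk.injEq, Prod.mk_eq_zero, neg_eq_zero] at h1 h2
  obtain ⟨w', hw'⟩ := hi x h1.2 h2.2 (-y) (by rw [map_neg]; exact eq_neg_of_add_eq_zero_right h2.1)
  obtain ⟨w, a1, a2⟩ := C.HCone_hom (sub_add_cancel k 1) h1.2 hw'
  obtain ⟨x', z, a3, a4⟩ := hs (y + f w) (by rw [map_add, h1.1, ← hf.π, a1])
    (by rw [map_add, ← hf.D, ← a2, h2.1])
  refine ⟨(z, x' - w), ?_⟩
  rw [cone_D, map_sub, map_sub, a3, ← a2, zero_sub, neg_neg, eq_sub_of_add_eq a4]
  exact Prod.ext (by simp only; abel) rfl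

end ex

theorem HDev_shift_D (G : MC B) (n : ℤ) (x : G.ι → B) :
    ((G.shift n).ap B).D x = sg n • (G.ap B).D x := by
  rw [MC.ap_D, MC.ap_D, HDev_matApp, HDev_matApp]
  exact Matrix.smul_mulVec _ _ _

theorem HDev_shift_π (G : MC B) (n k : ℤ) (x : G.ι → B) :
    ((G.shift n).ap B).π k x = (G.ap B).π (k - n) x := by
  funext i
  rw [G.ap_π]
  exact ((G.shift n).ap_π k x i).trans (if_congr eq_sub_iff_add_eq.symm rfl rfl)

theorem HDev_sg (n : ℤ) {M : Type} [AddCommGroup M] (x : M) : sg n • sg n • x = x := by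
  rw [smul_smul, ← Units.val_mul, Int.units_mul_self, Units.val_one, one_smul]

/-- killing the top homology -/
theorem HDev_kill [IsNoetherianRing B] {d : ℕ} (hB : HasRes B d) (E : MC B) (n : ℤ)
    (hn : ∀ k, n < k → HDev_Ex (E.ap B) k) :
    ∃ (N : Type) (_ : AddCommGroup N) (_ : Module B N) (_ : Module.Finite B N) (G : MC B)
      (f : Matrix E.ι (G.shift n).ι B) (hf : MC.IsHom (G.shift n) E f), G.IsRes N ∧
      (∀ a, E.Null a → ∀ y : N, a • y = 0) ∧
      ∀ k, k = n ∨ HDev_Ex (E.ap B) k → HDev_Ex ((MC.cone hf).ap B) k := by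
  let φ := (LinearMap.range (E.ap B).D).mkQ
  let N := ((E.ap B).Z n ⊤ ⊥).map φ
  have hφ : ∀ x, φ x = 0 ↔ ∃ y, (E.ap B).D y = x := fun x => Submodule.Quotient.mk_eq_zero _
  obtain ⟨G, hG, -⟩ := hB N
  obtain ⟨h0, ε, hε⟩ := id hG
  choose z hz hz' using fun i : G.ι => (ε (Pi.single i 1)).2
  have hζ : ∀ v : G.ι → B, φ (∑ i, v i • z i) = ε v := fun v => by
    conv_rhs => rw [pi_eq_sum_univ' v]
    simp only [map_sum, map_smul, hz', Submodule.coe_sum, Submodule.coe_smul]
  have hcol : ∀ j, ε (fun i => (G.shift n).d i j) = 0 := fun j => by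
    have a : ((G.shift n).ap B).D (Pi.single j 1) = fun i => (G.shift n).d i j := by
      rw [MC.ap_D, HDev_matApp]
      exact Matrix.mulVec_single_one _ _
    refine (congrArg ε a).symm.trans ?_
    rw [HDev_shift_D, map_zsmul, hε.D, HDev_single_D, smul_zero]
  obtain ⟨f, hf, hfz⟩ := MC.exists_lift (G.shift n) n
    (fun i => le_add_of_nonneg_left (h0 i)) (E.ap B) hn z
    (fun i _ => ⟨(hz i).1.2, (hz i).2⟩) fun j _ => (hφ _).1 ((hζ _).trans
      (congrArg Subtype.val (hcol j)))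
  have hfζ : ∀ v : G.ι → B, (G.ap B).π 0 v = v → φ (f v) = ε v := fun v hv => by
    rw [← hζ]
    conv_lhs => rw [pi_eq_sum_univ' v]
    refine congrArg φ ((map_sum f _ _).trans (Finset.sum_congr rfl fun i _ => ?_))
    by_cases hi : G.deg i = 0
    · exact (map_smul f _ _).trans (congrArg _ (hfz i (by show G.deg i + n = n; omega)))
    · have : v i = 0 := by rw [← hv, G.ap_π, if_neg hi]
      rw [this, zero_smul, zero_smul]
      exact map_zero f
  obtain ⟨hF, hF'⟩ := MC.isHom_of_isMap hf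
  refine ⟨N, _, _, inferInstance, G, _, hF, hG, fun a ha y => Subtype.ext ?_, fun k hk =>
    HDev_ex_iso (MC.app_cone_iso hF (single B B)) (HDev_ex_cone _ k ?_ ?_)⟩
  · obtain ⟨_, x, hx, rfl⟩ := y
    obtain ⟨w, -, hw⟩ := (ha.nullH (single B B)).smul_mem hx.1.2 hx.2
    exact (map_smul φ a x).symm.trans ((hφ _).2 ⟨w, hw⟩)
  · intro x a1 a2 w a3
    rw [HDev_shift_π] at a1
    rw [hF'] at a3
    have a4 : (G.ap B).D x = 0 := by
      rw [← HDev_sg n ((G.ap B).D x), ← HDev_shift_D, a2]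
      exact smul_zero (A := G.ι → B) (sg n)
    have a5 : ε x = 0 := by
      by_cases h : k - 1 - n = 0
      · rw [h] at a1
        exact Subtype.ext ((hfζ x a1).symm.trans ((hφ _).2 ⟨w, a3.symm⟩))
      · rw [← a1, hε.π, HDev_single_π, if_neg h]
    obtain ⟨v, hv⟩ := hε.inj _ x a1 a4 0 a5
    exact ⟨sg n • v, by rw [HDev_shift_D, map_zsmul, HDev_sg]; exact hv⟩
  · intro y a1 a2
    rcases hk with rfl | hk
    · obtain ⟨x, w, a3, a4, a5⟩ := hε.surj 0 ⟨φ y, y, ⟨⟨trivial, a1⟩, a2⟩, rfl⟩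
        (by rw [HDev_single_π, if_pos rfl]) rfl
      rw [HDev_single_D, add_zero] at a5
      obtain ⟨v, hv⟩ := (hφ (y - f x)).1 (by
        rw [map_sub, hfζ x a3, ← a5]
        exact sub_self _)
      exact ⟨x, v, by rw [HDev_shift_D, a4, smul_zero]; rfl, by rw [hF', hv, add_sub_cancel]⟩
    · obtain ⟨v, hv⟩ := hk y a1 a2
      exact ⟨0, v, map_zero _, by rw [map_zero, zero_add, hv]⟩

/-- dévissage: an additive function on complexes supported on `V(J)` which vanishes on
resolutions of the `B / 𝔭` vanishes -/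
theorem devissage [IsNoetherianRing B] {d : ℕ} (hB : HasRes B d) (J : Ideal B) (Φ : MC B → ℂ)
    (hcone : ∀ (E E' : MC B) (f : Matrix E'.ι E.ι B) (hf : MC.IsHom E E' f), E.Supp J →
      E'.Supp J → Φ (MC.cone hf) = Φ E' - Φ E)
    (hacyc : ∀ E : MC B, E.Null 1 → Φ E = 0)
    (hshift : ∀ (E : MC B) (n : ℤ), E.Supp J → Φ (E.shift n) = sg n * Φ E)
    (hprime : ∀ 𝔭 : Ideal B, 𝔭.IsPrime → J ≤ 𝔭 → ∃ E : MC B, E.IsRes (B ⧸ 𝔭) ∧ Φ E = 0)
    (E : MC B) (hE : E.Supp J) : Φ E = 0 := by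
  have hS : ∀ (N : Type) [AddCommGroup N] [Module B N], (∀ a ∈ J, ∃ c : ℕ, ∀ y : N, a ^ c • y = 0) →
      ∀ G : MC B, G.IsRes N → G.Supp J := fun N _ _ h G hG a ha =>
    (h a ha).imp fun c hc => hG.null hc
  have h1 : ∀ (N : Type) [AddCommGroup N] [Module B N] [hN : Module.Finite B N],
      (∀ a ∈ J, ∃ c : ℕ, ∀ y : N, a ^ c • y = 0) → ∀ G : MC B, G.IsRes N → Φ G = 0 := by
    intro N _ _ hN
    induction hN using IsNoetherianRing.induction_on_isQuotientEquivQuotientPrime B with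
    | subsingleton N => exact fun _ G hG => hacyc G hG.null_one
    | quotient N p e =>
      intro h G hG
      obtain ⟨G', hG', h0⟩ := hprime p.1 p.2 fun a ha => by
        obtain ⟨c, hc⟩ := h a ha
        have := congrArg e (hc (e.symm 1))
        rw [map_smul, e.apply_symm_apply, map_zero, ← Algebra.algebraMap_eq_smul_one] at this
        exact p.2.mem_of_pow_mem c (Ideal.Quotient.eq_zero_iff_mem.1 this)
      replace hG' := hG'.congr e.symm
      obtain ⟨f, hf, hq⟩ := hG.exists_hom hG'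
      obtain ⟨g, hg⟩ := (MC.app_cone_iso hf (single B B)).qi
      have a1 := hacyc _ (MC.null_one_of_acyc _ (hg.acyc_iff.2 ((cone_acyc_iff _).2 hq)))
      rw [hcone _ _ _ hf (hS N h G hG) (hS N h G' hG'), h0, zero_sub, neg_eq_zero] at a1
      exact a1
    | exact N₁ N₂ N₃ f g hf hg hfg i₁ i₃ =>
      intro h G hG
      have k₁ : ∀ a ∈ J, ∃ c : ℕ, ∀ y : N₁, a ^ c • y = 0 := fun a ha =>
        (h a ha).imp fun c hc y => hf (by rw [map_smul, hc, map_zero])
      have k₃ : ∀ a ∈ J, ∃ c : ℕ, ∀ y : N₃, a ^ c • y = 0 := fun a ha =>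
        (h a ha).imp fun c hc y => by
          obtain ⟨y, rfl⟩ := hg y
          rw [← map_smul, hc, map_zero]
      obtain ⟨G₁, hG₁, -⟩ := hB N₁
      obtain ⟨u, hu, hc⟩ := hG₁.cone hG hf hg hfg
      have a1 := i₃ k₃ _ hc
      rw [hcone _ _ _ hu (hS N₁ k₁ G₁ hG₁) (hS N₂ h G hG), i₁ k₁ _ hG₁, sub_zero] at a1
      exact a1
  have h2 : ∀ (lo : ℤ) (m : ℕ) (E : MC B), E.Supp J →
      (∀ k, k < lo ∨ lo + m ≤ k → HDev_Ex (E.ap B) k) → Φ E = 0 := by
    intro lo m
    induction m with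
    | zero =>
      intro E _ h
      refine hacyc E (E.null_one_of_acyc fun k x _ a1 a2 => ?_)
      obtain ⟨y, hy⟩ := h k (by omega) x a1 a2
      exact ⟨y, trivial, hy⟩
    | succ m ih =>
      intro E hE h
      obtain ⟨N, _, _, _, G, f, hf, hG, a1, a2⟩ := HDev_kill hB E (lo + m) fun k hk =>
        h k (Or.inr (by push_cast; omega))
      have k₁ : ∀ a ∈ J, ∃ c : ℕ, ∀ y : N, a ^ c • y = 0 := fun a ha =>
        (hE a ha).imp fun c hc => a1 _ hc
      have a3 := hS N k₁ G hG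
      have a4 := ih _ (MC.Supp.cone hf (a3.shift _) hE) fun k hk => a2 k (by
        by_cases hk' : k = lo + m
        · exact Or.inl hk'
        · exact Or.inr (h k (by push_cast; omega)))
      rw [hcone _ _ _ hf (a3.shift _) hE, hshift _ _ a3, h1 N k₁ G hG, mul_zero, sub_zero] at a4
      exact a4
  obtain ⟨L, hL⟩ := E.ap_bdd B
  refine h2 (-L) (2 * L + 1) E hE fun k hk x a1 _ => ⟨0, ?_⟩
  rw [← a1, hL k (by rw [lt_abs]; push_cast at hk; omega), map_zero]

end Crest.Agent.R188
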