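import Crest.Agent.R188.AMod
import Crest.Agent.R188.HDev

/-!
# The eigenvalue of the Adams trace on the resolution of a prime
-/

set_option autoImplicit false
set_option linter.unusedVariables false

open scoped ENNReal NNReal TensorProduct

namespace Crest.Agent.R188

open Crest.Agent.R183 Crest.Agent.R183.DG IsLocalRing

/-- the length after a flat base change -/
noncomputable def AE_lf (B A : Type) [CommRing B] [CommRing A] [Algebra B A] [Module.Flat B A] :
    LF B where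
  val M _ _ := (LF.length A).val (A ⊗[B] M)
  congr e := (LF.length A).congr (e.baseChange B A _ _)
  add P := (LF.length A).val_eq_add_of_exact (P.subtype.baseChange A) (P.mkQ.baseChange A)
    (Module.Flat.lTensor_preserves_injective_linearMap _ P.injective_subtype)
    (LinearMap.lTensor_surjective A P.mkQ_surjective)
    (lTensor_exact A (LinearMap.exact_subtype_mkQ P) P.mkQ_surjective)
  zero M _ _ _ := (LF.length A).zero _

/-- the length at a prime -/
theorem exists_lf_loc {B : Type} [CommRing B] (Q : Ideal B) [Q.IsPrime] :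
    ∃ μ : LF B, μ.val (B ⧸ Q) = 1 ∧ ∀ s ∉ Q, μ.Null s := by
  refine ⟨AE_lf B (Localization.AtPrime Q), ?_, fun s hs M _ _ hM => ?_⟩
  · change (LF.length _).val (Localization.AtPrime Q ⊗[B] (B ⧸ Q)) = 1
    rw [← (LF.length _).congr (Algebra.TensorProduct.quotIdealMapEquivTensorQuot
      (Localization.AtPrime Q) Q).toLinearEquiv, Localization.AtPrime.map_eq_maximalIdeal,
      LF.length_val, hsBasic_length_residue]
    simp
  · obtain ⟨u, hu⟩ := IsLocalization.map_units (Localization.AtPrime Q) (⟨s, hs⟩ : Q.primeCompl)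
    have h0 : ∀ z : Localization.AtPrime Q ⊗[B] M, z = 0 := fun z => by
      rw [← u.isUnit.smul_eq_zero (x := z), hu, algebraMap_smul]
      induction z using TensorProduct.induction_on with
      | zero => simp
      | tmul a m => rw [← TensorProduct.tmul_smul, hM, TensorProduct.tmul_zero]
      | add a b ha hb => rw [smul_add, ha, hb, add_zero]
    have : Subsingleton (Localization.AtPrime Q ⊗[B] M) := subsingleton_of_forall_eq 0 h0
    exact (LF.length _).zero (Localization.AtPrime Q ⊗[B] M)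

theorem AE_val_quot {B : Type} [CommRing B] {μ : LF B} {s : B} (h : μ.Null s) {I : Ideal B}
    (hs : s ∈ I) : μ.val (B ⧸ I) = 0 :=
  h _ (LF.LFkill_quot_ideal le_rfl s hs)

theorem lf_loc_ne_top {B : Type} [CommRing B] [IsNoetherianRing B] {Q : Ideal B} {μ : LF B}
    (h1 : μ.val (B ⧸ Q) = 1) (hN : ∀ s ∉ Q, μ.Null s) {I : Ideal B}
    (hI : ∀ 𝔭 : Ideal B, 𝔭.IsPrime → I ≤ 𝔭 → 𝔭 ≤ Q → 𝔭 = Q) (c : ℕ) :
    μ.val (B ⧸ I ^ c) ≠ ⊤ := by
  have key : ∀ (N : Type) [AddCommGroup N] [Module B N] [hN' : Module.Finite B N],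
      (∀ a ∈ I ^ c, ∀ x : N, a • x = 0) → μ.val N ≠ ⊤ := by
    intro N _ _ hN'
    induction hN' using IsNoetherianRing.induction_on_isQuotientEquivQuotientPrime B with
    | subsingleton N => exact fun _ => by rw [μ.zero]; exact ENNReal.zero_ne_top
    | quotient N p f =>
      intro h
      have hle : I ^ c ≤ p.1 := fun a ha => by
        have h2 := congrArg f (h a ha (f.symm 1))
        rw [map_smul, map_zero, f.apply_symm_apply, Algebra.smul_def, mul_one] at h2
        exact Ideal.Quotient.eq_zero_iff_mem.1 h2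
      have hIp : I ≤ p.1 := p.2.le_of_pow_le hle
      rw [μ.congr f]
      by_cases hp : p.1 ≤ Q
      · rw [hI p.1 p.2 hIp hp, h1]
        exact ENNReal.one_ne_top
      · obtain ⟨s, hs, hsQ⟩ := SetLike.not_le_iff_exists.1 hp
        rw [AE_val_quot (hN s hsQ) hs]
        exact ENNReal.zero_ne_top
    | exact N₁ N₂ N₃ f g hf hg hfg h₁ h₃ =>
      intro h
      rw [μ.val_eq_add_of_exact f g hf hg hfg]
      refine ENNReal.add_ne_top.2 ⟨h₁ fun a ha x => hf ?_, h₃ fun a ha x => ?_⟩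
      · rw [map_smul, h a ha, map_zero]
      · obtain ⟨y, rfl⟩ := hg x
        rw [← map_smul, h a ha, map_zero]
  exact key _ (LF.LFkill_quot_ideal le_rfl)

section mat

variable {B : Type} [CommRing B] {ι : Type} [Fintype ι] [DecidableEq ι] {X : Type}
  [AddCommGroup X] [Module B X]

theorem AE_matApp_one (x : ι → X) : matApp (1 : Matrix ι ι B) X x = x := by
  funext i
  simp [matApp_apply, Matrix.one_apply]

theorem AE_matApp_pow (f : Matrix ι ι B) (j : ℕ) (x : ι → X) :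
    matApp (f ^ j) X x = (matApp f X ^ j) x := by
  induction j with
  | zero => rw [pow_zero, pow_zero, AE_matApp_one]; rfl
  | succ j ih => rw [pow_succ', pow_succ', matApp_mul, ih]; rfl

theorem AE_matApp_poly (f : Matrix ι ι B) (s : Finset ℕ) (c : ℕ → B) (x : ι → X) :
    matApp (∑ j ∈ s, c j • f ^ j) X x = ∑ j ∈ s, c j • (matApp f X ^ j) x := by
  simp only [← AE_matApp_pow]
  funext i
  simp only [matApp_apply, Matrix.sum_apply, Matrix.smul_apply, Finset.sum_apply, Pi.smul_apply,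
    Finset.sum_smul, Finset.smul_sum, smul_eq_mul, mul_smul]
  exact Finset.sum_comm

theorem AE_isHom_poly {E : MC B} {f : Matrix E.ι E.ι B} (hf : MC.IsHom E E f) (s : Finset ℕ)
    (c : ℕ → B) : MC.IsHom E E (∑ j ∈ s, c j • f ^ j) := by
  have hp : ∀ j : ℕ, MC.IsHom E E (f ^ j) := fun j => by
    induction j with
    | zero => simpa using E.isHom_scalar 1
    | succ j ih => rw [pow_succ]; exact hf.comp ih
  refine ⟨fun a b h => ?_, ?_⟩
  · rw [Matrix.sum_apply] at h
    obtain ⟨j, -, hj⟩ := Finset.exists_ne_zero_of_sum_ne_zero h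
    exact (hp j).deg a b (right_ne_zero_of_mul hj)
  · simp only [Finset.sum_mul, Finset.mul_sum, Matrix.smul_mul, Matrix.mul_smul, (hp _).comm]

end mat

/-- the eigenspaces of the cyclic action are finite free complexes -/
theorem MC.exists_eig {R : Type} [CommRing R] [IsLocalRing R] {k : ℕ} [NeZero k] {ζ : R}
    (hζ : RootU k ζ) (E : MC R) {J : Ideal R} (hE : E.Supp J) :
    ∃ F : ℕ → MC R, (∀ i, (F i).Supp J) ∧ ∀ (μ : LF R) (M : Type) [AddCommGroup M] [Module R M],
      E.Psi μ k ζ M = ∑ i ∈ Finset.range k,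
        Complex.exp (2 * Real.pi * Complex.I * i / k) * ((F i).chi μ M : ℝ) := by
  obtain ⟨c, hc⟩ := hζ.exists_proj (Nat.pos_of_neZero k)
  have key : ∀ i : ℕ, ∃ F : MC R, F.Supp J ∧ (i < k →
      ∀ (μ : LF R) (M : Type) [AddCommGroup M] [Module R M],
        ((E.tp k).ap M).ech μ (⊤ ⊓ eig (matApp (E.cyc k) M) (ζ ^ i))
          (⊥ ⊓ eig (matApp (E.cyc k) M) (ζ ^ i)) = F.chi μ M) := by
    intro i
    by_cases hi : i < k
    swap
    · exact ⟨E, hE, fun h => absurd h hi⟩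
    have h1 : ∀ (M : Type) [AddCommGroup M] [Module R M] (x : (E.tp k).ι → M),
        matApp (∑ j ∈ Finset.range k, c i j • E.cyc k ^ j) M x ∈
          eig (matApp (E.cyc k) M) (ζ ^ i) := fun M _ _ x => by
      rw [AE_matApp_poly]
      exact (hc _ _ (E.eqv_cyc k M).pow).1 i hi x
    have h2 : ∀ (M : Type) [AddCommGroup M] [Module R M],
        ∀ x ∈ eig (matApp (E.cyc k) M) (ζ ^ i),
          matApp (∑ j ∈ Finset.range k, c i j • E.cyc k ^ j) M x = x := fun M _ _ x hx => by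
      rw [AE_matApp_poly]
      exact (hc _ _ (E.eqv_cyc k M).pow).2.1 i hi x hx
    obtain ⟨F, u, r, hu, hr, hru, hur⟩ := (E.tp k).exists_summand
      (AE_isHom_poly (E.isHom_cyc k) (Finset.range k) (c i)) (by
        refine Matrix.toLin'.injective (LinearMap.ext fun x => ?_)
        rw [Matrix.toLin'_apply, Matrix.toLin'_apply, ← HDev_matApp, ← HDev_matApp, matApp_mul]
        exact h2 R _ (h1 R x))
    refine ⟨F, MC.Supp.of_retract hu hr hru (hE.tp k), fun _ μ M _ _ => ?_⟩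
    have hl : ∀ y : F.ι → M, matApp r M (matApp u M y) = y := fun y => by
      rw [← matApp_mul, hru, AE_matApp_one]
    have hrange : eig (matApp (E.cyc k) M) (ζ ^ i) = Submodule.map (matApp u M) ⊤ := by
      refine le_antisymm (fun x hx => ⟨matApp r M x, trivial, by
        rw [← matApp_mul, hur, h2 M x hx]⟩) ?_
      · rintro _ ⟨y, -, rfl⟩
        have := h1 M (matApp u M y)
        rwa [← hur, matApp_mul, hl] at this
    rw [top_inf_eq, bot_inf_eq, hrange]
    refine ech_congr fun n => ?_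
    rw [← (hu.isMap (single R M)).h_map (Function.LeftInverse.injective hl) (sub_top _)
      (sub_bot _) bot_le μ n, Submodule.map_bot]
  choose F hF using key
  refine ⟨F, fun i => (hF i).1, fun μ M _ _ => ?_⟩
  unfold MC.Psi MC.psiL psi
  exact Finset.sum_congr rfl fun i hi => by rw [← (hF i).2 (Finset.mem_range.1 hi)]; rfl

theorem AE_chi_res {B : Type} [CommRing B] {N : Type} [AddCommGroup N] [Module B N] {E : MC B}
    (h : E.IsRes N) (μ : LF B) : E.chi μ B = (μ.val N).toReal := by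
  obtain ⟨-, ε, hε⟩ := h
  rw [← single_ech]
  exact hε.ech_eq μ

theorem Psi_res_prime {R : Type} [CommRing R] [IsNoetherianRing R] [IsLocalRing R] {d : ℕ}
    {x : Fin d → R} (hx : RegL R x) (Q : Ideal R) [Q.IsPrime] {a' : ℕ} (y : Fin a' → R)
    (hy : RingTheory.Sequence.IsWeaklyRegular R (List.ofFn y)) (hyQ : ∀ i, y i ∈ Q)
    (hmin : ∀ 𝔭 : Ideal R, 𝔭.IsPrime → sp y ≤ 𝔭 → 𝔭 ≤ Q → 𝔭 = Q)
    {F : MC R} (hF : F.IsRes (R ⧸ Q)) (M : Type) [AddCommGroup M] [Module R M]
    [Module.Finite R M] (hM : ∃ c : ℕ, maximalIdeal R ^ c ≤ Q ⊔ Module.annihilator R M)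
    (hvan : ∀ 𝔭 : Ideal R, 𝔭.IsPrime → Q < 𝔭 → ∀ E : MC R, E.IsRes (R ⧸ 𝔭) →
      E.chi (LF.length R) M = 0)
    {k : ℕ} [NeZero k] (hk : Odd k) {ζ : R} (hζ : RootU k ζ) :
    F.Psi (LF.length R) k ζ M = (k : ℂ) ^ a' * (F.chi (LF.length R) M : ℝ) := by
  obtain ⟨μ, h1, hN⟩ := exists_lf_loc Q
  have hR := hx.hasRes
  have hyQ' : sp y ≤ Q := Ideal.span_le.2 (Set.range_subset_iff.2 hyQ)
  have hμ : ∀ c : ℕ, μ.val (R ⧸ (sp y ⊔ Module.annihilator R R) ^ c) ≠ ⊤ :=
    lf_loc_ne_top h1 hN fun p hp hle => hmin p hp (le_sup_left.trans hle)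
  have finM : ∀ E : MC R, E.Supp Q → E.Fin' (LF.length R) M := fun E hE => hE.fin'_length hM
  have finR : ∀ E : MC R, E.Supp (sp y) → E.Fin' μ R := fun E hE => hE.fin' hμ
  have finQ : ∀ E : MC R, E.Supp Q → E.Fin' μ R := fun E hE =>
    finR E (hE.mono (hyQ'.trans Ideal.le_radical))
  have hF1 : F.chi μ R = 1 := by rw [AE_chi_res hF, h1]; rfl
  -- the first dévissage
  have d1 := devissage hR Q
    (fun E => (E.chi (LF.length R) M : ℝ) - (E.chi μ R : ℝ) * (F.chi (LF.length R) M : ℝ))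
    (fun E E' f hf h h' => by
      rw [MC.chi_cone hf _ _ (finM E h) (finM E' h'), MC.chi_cone hf _ _ (finQ E h) (finQ E' h')]
      push_cast
      ring)
    (fun E h => by simp [MC.chi_of_null_one h])
    (fun E n h => by
      simp only [MC.shift_app_ech]
      push_cast
      ring)
    (fun p hp hle => by
      rcases hle.eq_or_lt with rfl | hlt
      · exact ⟨F, hF, by simp [hF1]⟩
      · obtain ⟨E, hE, -⟩ := hR (R ⧸ p)
        obtain ⟨s, hs, hsQ⟩ := SetLike.exists_of_lt hlt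
        exact ⟨E, hE, by simp [hvan p hp hlt E hE, AE_chi_res hE, AE_val_quot (hN s hsQ) hs]⟩)
  obtain ⟨G, hG, hG'⟩ := MC.exists_eig hζ F hF.supp_quot
  have e1 : F.Psi (LF.length R) k ζ M = F.Psi μ k ζ R * (F.chi (LF.length R) M : ℝ) := by
    rw [hG', hG', Finset.sum_mul]
    exact Finset.sum_congr rfl fun i _ => by rw [sub_eq_zero.1 (d1 _ (hG i)), ← mul_assoc]
  -- the second dévissage
  have d2 := devissage hR (sp y) (fun E => E.Psi μ k ζ R - F.Psi μ k ζ R * (E.chi μ R : ℝ))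
    (fun E E' f hf h h' => by
      rw [MC.Psi_cone hζ finR hf h h', MC.chi_cone hf _ _ (finR E h) (finR E' h')]
      push_cast
      ring)
    (fun E h => by simp [MC.chi_of_null_one h, MC.Psi_of_null_one hζ h])
    (fun E n h => by
      simp only [MC.shift_app_ech, MC.Psi_shift hζ finR h]
      push_cast
      ring)
    (fun p hp hle => by
      by_cases hpQ : p ≤ Q
      · obtain rfl := hmin p hp hle hpQ
        exact ⟨F, hF, by simp [hF1]⟩
      · obtain ⟨E, hE, -⟩ := hR (R ⧸ p)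
        obtain ⟨s, hs, hsQ⟩ := SetLike.not_le_iff_exists.1 hpQ
        have hn := ((hE.null (LF.LFkill_quot_ideal le_rfl s hs)).tp k).nullH (single R R)
        have h0 : E.Psi μ k ζ R = 0 := psi_eq_zero_of_h hζ (E.eqv_cyc k R)
          (Stab.top (E.eqv_cyc k R).isMap) (Stab.bot (E.eqv_cyc k R).isMap) bot_le
          (hn.H_eq_zero (hN s hsQ))
        exact ⟨E, hE, by simp [h0, AE_chi_res hE, AE_val_quot (hN s hsQ) hs]⟩)
    (kos y) (kos_supp y)
  have e2 : (sp y • ⊤ : Submodule R R) = sp y := by rw [smul_eq_mul, Ideal.mul_top]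
  have hm0 : μ.val (R ⧸ sp y) ≠ 0 := (one_pos.trans_le (h1.ge.trans (μ.quot_anti hyQ'))).ne'
  have hm1 : μ.val (R ⧸ sp y) ≠ ⊤ := by
    have := lf_loc_ne_top h1 hN hmin 1
    rwa [pow_one] at this
  have hm : (((μ.val (R ⧸ sp y)).toReal : ℝ) : ℂ) ≠ 0 :=
    Complex.ofReal_ne_zero.2 (ENNReal.toReal_ne_zero.2 ⟨hm0, hm1⟩)
  simp only [MC.Psi_kos hζ hk y hy hμ, AE_chi_res (kos_isRes y hy)] at d2
  rw [e2, sub_eq_zero] at d2
  rw [e1, mul_right_cancel₀ hm d2]

section dim

variable {R : Type} [CommRing R]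

/-- `dim R / J ≤ e` -/
def AE_Dim (J : Ideal R) (e : ℕ) : Prop :=
  ∀ p : PrimeSpectrum R, J ≤ p.asIdeal → Order.coheight p ≤ e

theorem AE_dim_quot (p : PrimeSpectrum R) : ringKrullDim (R ⧸ p.asIdeal) = Order.coheight p := by
  rw [ringKrullDim_quotient, Order.coheight_eq_krullDim_Ici]
  rfl

variable [IsNoetherianRing R] [IsLocalRing R]

omit [IsNoetherianRing R] in
theorem AE_step {J : Ideal R} {e : ℕ} (h : AE_Dim J (e + 1)) {z : R}
    (hz : ∀ q ∈ J.minimalPrimes, q ≠ maximalIdeal R → z ∉ q) : AE_Dim (J ⊔ Ideal.span {z}) e := by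
  intro p hp
  by_cases hm : p.asIdeal = maximalIdeal R
  · have : IsMax p := fun q _ => by
      change q.asIdeal ≤ p.asIdeal
      rw [hm]
      exact le_maximalIdeal q.2.ne_top
    rw [Order.coheight_eq_zero.2 this]
    exact zero_le
  · obtain ⟨q, hq, hqp⟩ := Ideal.exists_minimalPrimes_le (le_sup_left.trans hp)
    have hqm : q ≠ maximalIdeal R := fun e =>
      hm (le_antisymm (le_maximalIdeal p.2.ne_top) (e ▸ hqp))
    have hlt : (⟨q, hq.1.1⟩ : PrimeSpectrum R) < p := lt_of_le_of_ne hqp fun e =>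
      hz q hq hqm (by
        have : z ∈ p.asIdeal := hp (Ideal.mem_sup_right (Ideal.mem_span_singleton_self z))
        rwa [← e] at this)
    have h1 := (Order.coheight_add_one_le hlt).trans (h _ hq.1.2)
    rw [Nat.cast_add_one] at h1
    exact (ENat.add_le_add_iff_right ENat.one_ne_top).1 h1

theorem AE_iter (n : ℕ) : ∀ (J₁ J₂ : Ideal R) (e₁ e₂ : ℕ), AE_Dim J₁ (e₁ + n) →
    AE_Dim J₂ (e₂ + n) → ∃ z : Fin n → R, (∀ i, z i ∈ maximalIdeal R) ∧
      AE_Dim (J₁ ⊔ sp z) e₁ ∧ AE_Dim (J₂ ⊔ sp z) e₂ := by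
  induction n with
  | zero =>
    exact fun J₁ J₂ e₁ e₂ h₁ h₂ => ⟨Fin.elim0, fun i => i.elim0,
      fun p hp => h₁ p (le_sup_left.trans hp), fun p hp => h₂ p (le_sup_left.trans hp)⟩
  | succ n ih =>
    intro J₁ J₂ e₁ e₂ h₁ h₂
    have hfin : ((J₁.minimalPrimes ∪ J₂.minimalPrimes) \ {maximalIdeal R}).Finite :=
      ((Ideal.finite_minimalPrimes_of_isNoetherianRing R J₁).union
        (Ideal.finite_minimalPrimes_of_isNoetherianRing R J₂)).sdiff
    have hpr : ∀ q ∈ (J₁.minimalPrimes ∪ J₂.minimalPrimes) \ {maximalIdeal R}, q.IsPrime :=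
      fun q hq => hq.1.elim (fun h => h.1.1) fun h => h.1.1
    have hnot := (Ideal.subset_union_prime_finite hfin (f := id) ⊤ ⊤ (fun q hq _ _ => hpr q hq)
      (I := maximalIdeal R)).not.2 (by
        rintro ⟨q, hq, hle⟩
        exact hq.2 (le_antisymm (le_maximalIdeal (hpr q hq).ne_top) hle))
    obtain ⟨z₀, hz₀, hz⟩ := Set.not_subset.1 hnot
    have hz' : ∀ q ∈ J₁.minimalPrimes ∪ J₂.minimalPrimes, q ≠ maximalIdeal R → z₀ ∉ q :=
      fun q hq hm h => hz (Set.mem_biUnion (Set.mem_sdiff_of_mem hq hm) h)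
    obtain ⟨z, h0, h1, h2⟩ := ih _ _ e₁ e₂ (AE_step h₁ fun q hq => hz' q (Or.inl hq))
      (AE_step h₂ fun q hq => hz' q (Or.inr hq))
    refine ⟨Fin.cons z₀ z, fun i => Fin.cases hz₀ h0 i, ?_, ?_⟩ <;>
      rwa [HKos_sp_succ, Fin.cons_zero, Fin.tail_cons, ← sup_assoc]

omit [IsNoetherianRing R] in
theorem AE_rad {J : Ideal R} (h : AE_Dim J 0) : maximalIdeal R ≤ J.radical := by
  rw [Ideal.radical_eq_sInf]
  refine le_sInf fun p hp => ?_
  have h1 : IsMax (⟨p, hp.2⟩ : PrimeSpectrum R) :=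
    Order.coheight_eq_zero.1 (nonpos_iff_eq_zero.1 (h ⟨p, hp.2⟩ hp.1))
  exact h1 (b := ⟨maximalIdeal R, inferInstance⟩) (le_maximalIdeal hp.2.ne_top)

theorem AE_of_rad {n : ℕ} {z : Fin n → R} (hz : ∀ i, z i ∈ maximalIdeal R) {J : Ideal R}
    (h : maximalIdeal R ≤ (J ⊔ sp z).radical) : AE_Dim J n := by
  intro p hp
  have : Nontrivial (R ⧸ p.asIdeal) := Ideal.Quotient.nontrivial_iff.2 p.2.ne_top
  have : IsLocalRing (R ⧸ p.asIdeal) :=
    IsLocalRing.of_surjective' (Ideal.Quotient.mk _) Ideal.Quotient.mk_surjective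
  have hmap : (maximalIdeal R).map (Ideal.Quotient.mk p.asIdeal) = maximalIdeal _ :=
    IsLocalRing.map_maximalIdeal_of_surjective _ Ideal.Quotient.mk_surjective
  obtain ⟨c, hc⟩ := Ideal.exists_pow_le_of_le_radical_of_fg h (IsNoetherian.noetherian _)
  have h1 := ringKrullDim_le_of_sop (R ⧸ p.asIdeal) (fun i => Ideal.Quotient.mk _ (z i))
    (fun i => hmap ▸ Ideal.mem_map_of_mem _ (hz i)) (c := c) (by
      rw [← hmap, ← Ideal.map_pow]
      refine (Ideal.map_mono hc).trans ?_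
      rw [Ideal.map_sup, Ideal.map_span, ← Set.range_comp]
      refine sup_le (Ideal.map_le_iff_le_comap.2 fun a ha => ?_) le_rfl
      rw [Ideal.mem_comap, Ideal.Quotient.eq_zero_iff_mem.2 (hp ha)]
      exact zero_mem _)
  rw [AE_dim_quot] at h1
  exact_mod_cast h1

end dim

/-- a prime of coheight `b` is minimal over a regular sequence of length `d - b` -/
theorem RegL.exists_ht_seq {R : Type} [CommRing R] [IsNoetherianRing R] [IsLocalRing R] {d : ℕ}
    {x : Fin d → R} (hx : RegL R x) (Q : Ideal R) [Q.IsPrime] {a' b : ℕ} (h : a' + b = d)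
    (hb : ringKrullDim (R ⧸ Q) = b) :
    ∃ y : Fin a' → R, RingTheory.Sequence.IsWeaklyRegular R (List.ofFn y) ∧ (∀ i, y i ∈ Q) ∧
      ∀ 𝔭 : Ideal R, 𝔭.IsPrime → sp y ≤ 𝔭 → 𝔭 ≤ Q → 𝔭 = Q := by
  subst h
  have hQ : Order.coheight (⟨Q, inferInstance⟩ : PrimeSpectrum R) = b := by
    have := AE_dim_quot (⟨Q, inferInstance⟩ : PrimeSpectrum R)
    rw [hb] at this
    exact_mod_cast this.symm
  have h1 : AE_Dim Q (0 + b) := fun p hp => by
    rw [zero_add, ← hQ]
    exact Order.coheight_anti hp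
  have h2 : AE_Dim (⊥ : Ideal R) (a' + b) := fun p _ => by
    have := Order.coheight_le_krullDim p
    rw [← ringKrullDim, hx.dim] at this
    exact_mod_cast this
  obtain ⟨z, hz, h3, h4⟩ := AE_iter b _ _ 0 a' h1 h2
  rw [← zero_add a'] at h4
  obtain ⟨y', hy', h5, -⟩ := AE_iter a' _ _ 0 0 h4 h4
  have h6 : ∀ i, ∃ y ∈ Q, ∃ w ∈ sp z, ∃ n : ℕ, y + w = y' i ^ n := fun i => by
    obtain ⟨n, hn⟩ := AE_rad h3 (hy' i)
    obtain ⟨y, hy, w, hw, e⟩ := Submodule.mem_sup.1 hn
    exact ⟨y, hy, w, hw, n, e⟩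
  choose y hy w hw n hn using h6
  have hQm : Q ≤ maximalIdeal R := le_maximalIdeal Ideal.IsPrime.ne_top'
  have h7 : maximalIdeal R ≤ (sp y ⊔ sp z).radical := by
    refine (AE_rad h5).trans (Ideal.radical_le_radical_iff.2 (sup_le (sup_le bot_le
      (le_sup_right.trans Ideal.le_radical)) (Ideal.span_le.2 ?_)))
    rintro _ ⟨i, rfl⟩
    exact ⟨n i, hn i ▸ add_mem (Ideal.mem_sup_left (Ideal.subset_span ⟨i, rfl⟩))
      (Ideal.mem_sup_right (hw i))⟩
  obtain ⟨c, hc⟩ := Ideal.exists_pow_le_of_le_radical_of_fg h7 (IsNoetherian.noetherian _)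
  refine ⟨y, reg_left_of_append y z R (hx.reg_of_sop _ (fun i => ?_) (c := c) (hc.trans ?_)), hy,
    fun p hp hle hpQ => ?_⟩
  · refine Fin.addCases (fun i => ?_) (fun i => ?_) i
    · rw [Fin.append_left]; exact hQm (hy i)
    · rw [Fin.append_right]; exact hz i
  · refine sup_le (Ideal.span_mono ?_) (Ideal.span_mono ?_)
    · rintro _ ⟨i, rfl⟩
      exact ⟨_, Fin.append_left y z i⟩
    · rintro _ ⟨i, rfl⟩
      exact ⟨_, Fin.append_right y z i⟩
  · by_contra hne
    have hlt : (⟨p, hp⟩ : PrimeSpectrum R) < ⟨Q, inferInstance⟩ :=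
      lt_of_le_of_ne hpQ fun e => hne (congrArg PrimeSpectrum.asIdeal e)
    have h8 := (Order.coheight_add_one_le hlt).trans (AE_of_rad hz h7 ⟨p, hp⟩ hle)
    rw [hQ] at h8
    norm_cast at h8
    omega

end Crest.Agent.R188
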