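import Crest.Agent.R188.HKos
import Crest.Agent.R183.HSBasic

/-!
# Regular sequences over Noetherian local rings
-/

set_option autoImplicit false
set_option linter.unusedVariables false
set_option linter.unusedSectionVars false

open scoped ENNReal NNReal TensorProduct

namespace Crest.Agent.R188

open Crest.Agent.R183 Crest.Agent.R183.DG IsLocalRing RingTheory.Sequence

variable {B : Type} [CommRing B] [IsNoetherianRing B] [IsLocalRing B]

omit [IsNoetherianRing B] [IsLocalRing B] in
theorem HReg_ofList {n : ℕ} (y : Fin n → B) : Ideal.ofList (List.ofFn y) = sp y :=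
  congrArg Ideal.span (Set.ext fun _ => List.mem_ofFn)

/-- Nakayama for the homology of a cone -/
theorem HReg_H_of_coneS {X : Type} [AddCommGroup X] [Module B X] [Module.Finite B X] (C : DG B X)
    {a : B} (ha : a ∈ maximalIdeal B) {k : ℤ} (h : (C.coneS a).H (LF.length B) k = 0) :
    C.H (LF.length B) k = 0 := by
  rw [DG.h_length_eq_zero_iff] at h ⊢
  refine Submodule.le_of_le_smul_of_le_jacobson_bot (I := maximalIdeal B)
    (IsNoetherian.noetherian _) (maximalIdeal_le_jacobson _) fun x hx => ?_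
  obtain ⟨⟨-, hx1⟩, hx2⟩ := C.mem_Z.1 hx
  rw [Submodule.mem_bot] at hx2
  have h1 : (C.coneS a).π k (x, 0) = (x, 0) := by simp [cone_π, hx1]
  have h2 : ((x, 0) : X × X) ∈ (C.coneS a).Z k ⊤ ⊥ :=
    (C.coneS a).mem_Z.2 ⟨⟨trivial, h1⟩, by simp [cone_D, hx2]⟩
  obtain ⟨w, -, b, hb, hw⟩ := (C.coneS a).mem_Bd.1 (h h2)
  rw [Submodule.mem_bot] at hb
  rw [hb, add_zero] at hw
  obtain ⟨⟨u, v⟩, hπ, hD⟩ := HCone_hom (C.coneS a) rfl h1 hw.symm
  rw [cone_π] at hπ
  rw [cone_D] at hD
  have e1 : C.π k v = v := by simpa using congrArg Prod.snd hπ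
  have e2 : C.D v = 0 := by simpa using congrArg Prod.snd hD
  have e3 : x = C.D u + a • v := by simpa using congrArg Prod.fst hD
  rw [e3]
  refine Submodule.add_mem_sup (C.D_mem_Bd _ trivial) (Submodule.smul_mem_smul ha ?_)
  exact C.mem_Z.2 ⟨⟨trivial, e1⟩, by simp [e2]⟩

omit [IsNoetherianRing B] [IsLocalRing B] in
theorem HReg_reg_of_coneS (N : Type) [AddCommGroup N] [Module B N] {a : B}
    (h : ((single B N).coneS a).H (LF.length B) 1 = 0) : IsSMulRegular N a := by
  rw [DG.h_length_eq_zero_iff] at h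
  refine IsSMulRegular.of_right_eq_zero_of_smul fun x hx => ?_
  have h2 : ((0, x) : N × N) ∈ ((single B N).coneS a).Z 1 ⊤ ⊥ :=
    ((single B N).coneS a).mem_Z.2 ⟨⟨trivial, by simp [cone_π, single]⟩,
      by simp [cone_D, single, hx]⟩
  obtain ⟨w, -, b, hb, hw⟩ := ((single B N).coneS a).mem_Bd.1 (h h2)
  rw [Submodule.mem_bot] at hb
  rw [hb, add_zero, cone_D] at hw
  simpa [single] using (congrArg Prod.snd hw).symm

/-- vanishing of the first Koszul homology implies regularity -/
theorem reg_of_K {n : ℕ} (y : Fin n → B) (hy : ∀ i, y i ∈ maximalIdeal B) (M : Type)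
    [AddCommGroup M] [Module B M] [Module.Finite B M]
    (h : (K y (single B M)).H (LF.length B) 1 = 0) : IsWeaklyRegular M (List.ofFn y) := by
  induction n with
  | zero => simp
  | succ n ih =>
    rw [(K_succ_iso y (single B M)).H_eq] at h
    have h1 := ih (Fin.tail y) (fun i => hy i.succ) (HReg_H_of_coneS _ (hy 0) h)
    obtain ⟨ε, hε⟩ := K_qi_of_reg (Fin.tail y) M h1
    rw [(coneS_qi hε (y 0)).H_eq] at h
    have h2 := HReg_reg_of_coneS _ h
    have h3 : IsWeaklyRegular M (List.ofFn (Fin.tail y) ++ [y 0]) := by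
      rw [isWeaklyRegular_append_iff, isWeaklyRegular_singleton_iff, HReg_ofList]
      exact ⟨h1, h2⟩
    rw [List.ofFn_succ]
    refine IsLocalRing.isWeaklyRegular_of_perm_of_subset_maximalIdeal h3
      List.perm_append_comm fun r hr => ?_
    rcases List.mem_append.1 hr with hr | hr
    · obtain ⟨i, rfl⟩ := List.mem_ofFn.1 hr
      exact hy i.succ
    · rw [List.mem_singleton.1 hr]
      exact hy 0

omit [IsNoetherianRing B] [IsLocalRing B] in
theorem HReg_ann_le (M : Type) [AddCommGroup M] [Module B M] :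
    Module.annihilator B M ≤ (single B M).nullI := fun _ ha =>
  single_nullH (Module.mem_annihilator.1 ha)

/-- a system of parameters of a Cohen–Macaulay module is a regular sequence -/
theorem reg_of_rad {n m : ℕ} (hmn : m ≤ n) (x : Fin n → B) (z : Fin m → B)
    (hz : ∀ i, z i ∈ maximalIdeal B) (M : Type) [AddCommGroup M] [Module B M] [Module.Finite B M]
    (hx : IsWeaklyRegular M (List.ofFn x))
    (h : ∀ i, ∃ c : ℕ, x i ^ c ∈ sp z ⊔ Module.annihilator B M) :
    IsWeaklyRegular M (List.ofFn z) := by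
  choose c hc using h
  have hle : sp z ⊔ Module.annihilator B M ≤ sp z ⊔ (single B M).nullI :=
    sup_le_sup_left (HReg_ann_le M) _
  refine reg_of_K z hz M (nonpos_iff_eq_zero.1 ?_)
  have h1 := K_H_le_rt (C := single B M) (ys := fun i => x i ^ c i) (zs := z) hmn
    (fun i => K_nullH z _ (hle (hc i))) (LF.length B) (c := 0)
    (fun j hj => by
      have h2 := K_H_pow_le x c (single B M) (LF.length B) j
      rwa [K_H_eq_zero_of_reg x M hx _ hj.ne', mul_zero] at h2) (k := 1) one_pos
  rwa [mul_zero] at h1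

theorem RegL.mem_max {d : ℕ} {x : Fin d → B} (hx : RegL B x) (i : Fin d) :
    x i ∈ maximalIdeal B := by
  rw [← hx.max]
  exact Ideal.subset_span ⟨i, rfl⟩

theorem RegL.reg_of_sop {d : ℕ} {x : Fin d → B} (hx : RegL B x) (z : Fin d → B)
    (hz : ∀ i, z i ∈ maximalIdeal B) {c : ℕ} (h : maximalIdeal B ^ c ≤ sp z) :
    IsWeaklyRegular B (List.ofFn z) :=
  reg_of_rad le_rfl x z hz B hx.reg fun i =>
    ⟨c, Ideal.mem_sup_left (h (Ideal.pow_mem_pow (hx.mem_max i) c))⟩

theorem RegL.of_span {d : ℕ} {x : Fin d → B} (hx : RegL B x) (z : Fin d → B)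
    (hz : sp z = maximalIdeal B) : RegL B z :=
  ⟨hx.reg_of_sop z (fun i => hz ▸ Ideal.subset_span ⟨i, rfl⟩) (c := 1) (by rw [pow_one, hz]), hz⟩

theorem reg_left_of_append {n m : ℕ} (y : Fin n → B) (z : Fin m → B) (M : Type) [AddCommGroup M]
    [Module B M] (h : IsWeaklyRegular M (List.ofFn (Fin.append y z))) :
    IsWeaklyRegular M (List.ofFn y) := by
  rw [List.ofFn_fin_append, isWeaklyRegular_append_iff] at h
  exact h.1

theorem reg_right_of_append {n m : ℕ} (y : Fin n → B) (z : Fin m → B) (M : Type) [AddCommGroup M]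
    [Module B M] (h : IsWeaklyRegular M (List.ofFn (Fin.append y z))) :
    IsWeaklyRegular (M ⧸ (sp y • ⊤ : Submodule B M)) (List.ofFn z) := by
  rw [List.ofFn_fin_append, isWeaklyRegular_append_iff, HReg_ofList] at h
  exact h.2

omit [IsNoetherianRing B] in
/-- passing to the quotient by the first parameter -/
theorem HReg_tail {d : ℕ} {x : Fin (d + 1) → B} (hx : RegL B x) :
    IsSMulRegular B (x 0) ∧ ∃ _ : IsLocalRing (B ⧸ Ideal.span {x 0}),
      RegL (B ⧸ Ideal.span {x 0}) fun i => Ideal.Quotient.mk _ (x (Fin.succ i)) := by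
  have h0 : x 0 ∈ maximalIdeal B := hx.max ▸ Ideal.subset_span ⟨0, rfl⟩
  have hne : Ideal.span {x 0} ≠ ⊤ := fun h =>
    (mem_maximalIdeal _).1 h0 (Ideal.span_singleton_eq_top.1 h)
  have := Ideal.Quotient.nontrivial_iff.2 hne
  have hl : IsLocalRing (B ⧸ Ideal.span {x 0}) :=
    IsLocalRing.of_surjective' (Ideal.Quotient.mk _) Ideal.Quotient.mk_surjective
  have h1 := hx.reg
  rw [List.ofFn_succ, isWeaklyRegular_cons_iff] at h1
  refine ⟨h1.1, hl, ?_, ?_⟩
  · have e : QuotSMulTop (x 0) B ≃ₗ[B] B ⧸ Ideal.span {x 0} :=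
      Submodule.quotEquivOfEq _ _ (by
        rw [← Submodule.ideal_span_singleton_smul, smul_eq_mul, Ideal.mul_top])
    have h2 := (e.isWeaklyRegular_congr _).1 h1.2
    rw [← isWeaklyRegular_map_algebraMap_iff (B ⧸ Ideal.span {x 0}), List.map_ofFn] at h2
    exact h2
  · rw [← map_maximalIdeal_of_surjective (Ideal.Quotient.mk (Ideal.span {x 0}))
      Ideal.Quotient.mk_surjective, ← hx.max, sp_map]
    refine le_antisymm (Ideal.span_mono ?_) (Ideal.span_le.2 ?_)
    · rintro _ ⟨i, rfl⟩
      exact ⟨i.succ, rfl⟩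
    · rintro _ ⟨i, rfl⟩
      refine Fin.cases ?_ (fun j => Ideal.subset_span ⟨j, rfl⟩) i
      change Ideal.Quotient.mk _ (x 0) ∈ _
      rw [Ideal.Quotient.eq_zero_iff_mem.2 (Ideal.mem_span_singleton_self _)]
      exact Submodule.zero_mem _

omit [IsNoetherianRing B] in
theorem HReg_isField {x : Fin 0 → B} (hx : RegL B x) : IsField B := by
  rw [isField_iff_maximalIdeal_eq, ← hx.max]
  simp [sp]

theorem HReg_isDomain {r : B} (hr : r ∈ maximalIdeal B) (h : IsSMulRegular B r)
    (hp : (Ideal.span {r}).IsPrime) : IsDomain B := by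
  have hc : ∀ a b : B, r * a * b = 0 → a * b = 0 := fun a b hab =>
    h.right_eq_zero_of_smul (by rw [smul_eq_mul, ← mul_assoc, hab])
  have h1 : ∀ a : B, a ∉ Ideal.span {r} → ∀ b, a * b = 0 → b = 0 := by
    intro a ha b hb
    have h2 : LinearMap.ker (LinearMap.lsmul B B a) ≤ ⊥ := by
      refine Submodule.le_of_le_smul_of_le_jacobson_bot (I := maximalIdeal B)
        (IsNoetherian.noetherian _) (maximalIdeal_le_jacobson _) fun z hz => ?_
      have hz' : a * z = 0 := hz
      obtain ⟨z', rfl⟩ := Ideal.mem_span_singleton.1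
        ((hp.mem_or_mem (hz' ▸ Submodule.zero_mem _)).resolve_left ha)
      refine Submodule.mem_sup_right (Submodule.smul_mem_smul hr ?_)
      exact hc a z' (by rw [← hz']; ring)
    exact h2 hb
  have h3 : ∀ (i : ℕ) (a : B), a ∉ Ideal.span {r} ^ i → ∀ b, a * b = 0 → b = 0 := by
    intro i
    induction i with
    | zero => intro a ha; simp at ha
    | succ i ih =>
      intro a ha b hb
      by_cases har : a ∈ Ideal.span {r}
      · obtain ⟨a', rfl⟩ := Ideal.mem_span_singleton.1 har
        refine ih a' (fun h' => ha ?_) b (hc a' b hb)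
        rw [pow_succ']
        exact Ideal.mul_mem_mul (Ideal.mem_span_singleton_self r) h'
      · exact h1 a har b hb
  have : NoZeroDivisors B := ⟨fun {a b} hab => by
    by_cases ha : ∀ i : ℕ, a ∈ Ideal.span {r} ^ i
    · left
      have h4 := Ideal.iInf_pow_eq_bot_of_isLocalRing (Ideal.span {r}) hp.ne_top
      rw [← Ideal.mem_bot, ← h4]
      exact Ideal.mem_iInf.2 ha
    · obtain ⟨i, hi⟩ := not_forall.1 ha
      exact Or.inr (h3 i a hi b hab)⟩
  exact NoZeroDivisors.to_isDomain B

theorem RegL.isDomain {d : ℕ} {x : Fin d → B} (hx : RegL B x) : IsDomain B := by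
  induction d generalizing B with
  | zero => exact (HReg_isField hx).isDomain
  | succ d ih =>
    obtain ⟨h1, _, h2⟩ := HReg_tail hx
    exact HReg_isDomain (hx.mem_max 0) h1 ((Ideal.Quotient.isDomain_iff_prime _).1 (ih h2))

theorem RegL.dim {d : ℕ} {x : Fin d → B} (hx : RegL B x) : ringKrullDim B = d := by
  have h1 : IsRegular B (List.ofFn x) :=
    IsRegular.of_isWeaklyRegular_of_mem_maximalIdeal B (fun r hr => by
      obtain ⟨i, rfl⟩ := List.mem_ofFn.1 hr
      exact hx.mem_max i) hx.reg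
  have h2 := ringKrullDim_add_length_eq_ringKrullDim_of_isRegular _ h1
  rw [HReg_ofList, hx.max, ringKrullDim_eq_zero_of_isField
    ((Ideal.Quotient.maximal_ideal_iff_isField_quotient _).1 inferInstance), zero_add,
    List.length_ofFn] at h2
  exact h2.symm

/-- a finite module on which a regular system of parameters is regular is free -/
theorem RegL.free {d : ℕ} {x : Fin d → B} (hx : RegL B x) (M : Type) [AddCommGroup M]
    [Module B M] [Module.Finite B M] (h : IsWeaklyRegular M (List.ofFn x)) : Module.Free B M := by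
  induction d generalizing B M with
  | zero =>
    let := (HReg_isField hx).toField
    exact Module.Free.of_divisionRing B M
  | succ d ih =>
    obtain ⟨-, _, h2⟩ := HReg_tail hx
    rw [List.ofFn_succ, isWeaklyRegular_cons_iff', List.map_ofFn] at h
    have := Module.finitePresentation_of_finite B M
    have := Module.Finite.of_restrictScalars_finite B (B ⧸ Ideal.span {x 0}) (QuotSMulTop (x 0) M)
    exact (Module.free_quotSMulTop_iff_free B M (maximalIdeal_le_jacobson _ (hx.mem_max 0)) h.1).1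
      (ih h2 _ h.2)

omit [IsNoetherianRing B] [IsLocalRing B] in
theorem HReg_syzygy (j : ℕ) : ∀ (rs : List B) {P F Q : Type} [AddCommGroup P] [Module B P]
    [AddCommGroup F] [Module B F] [AddCommGroup Q] [Module B Q] (f : P →ₗ[B] F) (g : F →ₗ[B] Q),
    Function.Injective f → Function.Surjective g → Function.Exact f g → IsWeaklyRegular F rs →
    IsWeaklyRegular Q (rs.take j) → IsWeaklyRegular P (rs.take (j + 1)) := by
  induction j with
  | zero =>
    rintro (_ | ⟨r, rs⟩) P F Q _ _ _ _ _ _ f g hf hg he hF hQ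
    · exact IsWeaklyRegular.nil B P
    · rw [isWeaklyRegular_cons_iff] at hF
      rw [List.take_succ_cons, List.take_zero, isWeaklyRegular_singleton_iff]
      exact hF.1.of_injective f hf
  | succ j ih =>
    rintro (_ | ⟨r, rs⟩) P F Q _ _ _ _ _ _ f g hf hg he hF hQ
    · exact IsWeaklyRegular.nil B P
    · rw [List.take_succ_cons] at hQ ⊢
      rw [isWeaklyRegular_cons_iff] at hF hQ ⊢
      refine ⟨hF.1.of_injective f hf, ih rs (QuotSMulTop.map r f) (QuotSMulTop.map r g) ?_
        (QuotSMulTop.map_surjective r hg) (QuotSMulTop.map_exact r he hg) hF.2 hQ.2⟩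
      have h0 : Function.Exact (0 : P →ₗ[B] P) f := by
        rw [LinearMap.exact_iff, LinearMap.range_zero, LinearMap.ker_eq_bot]
        exact hf
      have h1 := QuotSMulTop.map_first_exact_on_four_term_exact_of_isSMulRegular_last h0 he hQ.1
      rwa [map_zero, LinearMap.exact_iff, LinearMap.range_zero, LinearMap.ker_eq_bot] at h1

/-- the syzygy lemma -/
theorem reg_syzygy {n : ℕ} (y : Fin n → B) (hy : ∀ i, y i ∈ maximalIdeal B) {j : ℕ}
    {F : Type} [AddCommGroup F] [Module B F] [Module.Finite B F]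
    (hF : IsWeaklyRegular F (List.ofFn y)) (P : Submodule B F)
    (h : IsWeaklyRegular (F ⧸ P) ((List.ofFn y).take j)) :
    IsWeaklyRegular P ((List.ofFn y).take (j + 1)) :=
  HReg_syzygy j _ P.subtype P.mkQ P.injective_subtype P.mkQ_surjective
    (LinearMap.exact_subtype_mkQ P) hF h

omit [IsNoetherianRing B] [IsLocalRing B] in
theorem HReg_H_zero {n : ℕ} (y : Fin n → B) :
    (K y (single B B)).H (LF.length B) 0 = (Module.length B (B ⧸ sp y) : ℝ≥0∞) := by
  rw [K_H_zero_single, ← LF.length_val]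
  exact (LF.length B).congr (Submodule.quotEquivOfEq _ _ (by rw [smul_eq_mul, Ideal.mul_top]))

theorem RegL.length_quot_pow {d : ℕ} {x : Fin d → B} (hx : RegL B x) (κ : Fin d → ℕ) :
    Module.length B (B ⧸ sp fun i => x i ^ κ i) = (∏ i, κ i : ℕ) := by
  have h0 : (K x (single B B)).H (LF.length B) 0 = 1 := by
    rw [HReg_H_zero, hx.max, hsBasic_length_residue]
    simp
  have h1 : ∀ k, k ≠ 0 → (K x (single B B)).H (LF.length B) k = 0 := fun k hk =>
    K_H_eq_zero_of_reg x B hx.reg _ hk
  have hf : (K x (single B B)).FinH (LF.length B) ⊤ ⊥ := fun k => by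
    by_cases hk : k = 0
    · rw [hk]
      exact ne_of_eq_of_ne h0 ENNReal.one_ne_top
    · exact ne_of_eq_of_ne (h1 k hk) ENNReal.zero_ne_top
  have h2 := K_ech_pow x κ (single_bdd B) hf
  have h3 : ∀ k, k ≠ 0 → (K (fun i => x i ^ κ i) (single B B)).H (LF.length B) k = 0 := by
    intro k hk
    have h4 := K_H_pow_le x κ (single B B) (LF.length B) k
    rwa [h1 k hk, mul_zero, nonpos_iff_eq_zero] at h4
  have h5 := K_H_pow_le x κ (single B B) (LF.length B) 0
  rw [h0, mul_one, HReg_H_zero] at h5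
  rw [ech_eq_single 0 h3, ech_eq_single 0 h1] at h2
  change _ * ((K (fun i => x i ^ κ i) (single B B)).H (LF.length B) 0).toReal =
    _ * (_ * ((K x (single B B)).H (LF.length B) 0).toReal) at h2
  rw [h0, HReg_H_zero] at h2
  have h6 := ne_top_of_le_ne_top (ENNReal.natCast_ne_top _) h5
  have h7 : (Module.length B (B ⧸ sp fun i => x i ^ κ i) : ℝ≥0∞) = ((∏ i, κ i : ℕ) : ℝ≥0∞) := by
    rw [← ENNReal.toReal_eq_toReal_iff' h6 (ENNReal.natCast_ne_top _), ENNReal.toReal_natCast]
    simpa using h2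
  exact ENat.toENNReal_inj.1 (h7.trans (ENat.toENNReal_coe _).symm)

/-- Koszul homology of a module of small dimension -/
theorem K_th_growth {n δ : ℕ} (y : Fin n → B) {c : ℕ} (hy : maximalIdeal B ^ c ≤ sp y) (M : Type)
    [AddCommGroup M] [Module B M] [Module.Finite B M]
    (hd : ringKrullDim (B ⧸ Module.annihilator B M) ≤ δ) :
    ∃ C : ℕ, ∀ κ : ℕ, (K (fun i => y i ^ κ) (single B M)).th (LF.length B) ≤
      (C * (κ + 1) ^ δ : ℕ) := by
  by_cases hA : Module.annihilator B M = ⊤
  · refine ⟨0, fun κ => (MC.app_th_le _ _ _).trans ?_⟩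
    have : Subsingleton M := Module.annihilator_eq_top_iff.1 hA
    rw [single_th, (LF.length B).zero M]
    simp
  have := Ideal.Quotient.nontrivial_iff.2 hA
  have hl : IsLocalRing (B ⧸ Module.annihilator B M) :=
    IsLocalRing.of_surjective' (Ideal.Quotient.mk _) Ideal.Quotient.mk_surjective
  obtain ⟨z', hz', c', hc'⟩ := exists_sop (B ⧸ Module.annihilator B M) δ hd
  have hm := map_maximalIdeal_of_surjective (Ideal.Quotient.mk (Module.annihilator B M))
    Ideal.Quotient.mk_surjective
  rw [← hm] at hz' hc'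
  choose z hz hzz using fun i =>
    (Ideal.mem_map_iff_of_surjective _ Ideal.Quotient.mk_surjective).1 (hz' i)
  have h1 : maximalIdeal B ^ c' ≤ sp z ⊔ Module.annihilator B M := by
    rw [← Ideal.map_pow, ← funext hzz, ← sp_map, Ideal.map_le_iff_le_comap,
      Ideal.comap_map_of_surjective _ Ideal.Quotient.mk_surjective, ← RingHom.ker_eq_comap_bot,
      Ideal.mk_ker] at hc'
    exact hc'
  have hfin : (K z (single B M)).th (LF.length B) ≠ ⊤ :=
    th_ne_top (K_bdd z (single_bdd M)) (MC.Supp.fin'_length (kos_supp z) ⟨c', h1⟩)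
  obtain ⟨T, hT⟩ := ENNReal.exists_nat_gt hfin
  refine ⟨2 ^ n * ((c * (n + 1)) ^ δ * T), fun κ => ?_⟩
  have h2 : ∀ i, (K (fun i => y i ^ κ) (single B M)).NullH (z i ^ (c * (n * κ + 1))) := by
    intro i
    refine K_nullH _ _ (Ideal.mem_sup_left ?_)
    have h3 := sp_pow_le_sp_pow y κ
    rw [Fintype.card_fin] at h3
    rw [pow_mul]
    exact h3 (Ideal.pow_mem_pow (hy (Ideal.pow_mem_pow (hz i) c)) _)
  have h4 : (K (fun i => z i ^ (c * (n * κ + 1))) (single B M)).th (LF.length B) ≤
      ((c * (n * κ + 1)) ^ δ : ℕ) * (K z (single B M)).th (LF.length B) := by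
    unfold DG.th
    rw [← ENNReal.tsum_mul_left]
    refine ENNReal.tsum_le_tsum fun k => ?_
    have h5 := K_H_pow_le z (fun _ => c * (n * κ + 1)) (single B M) (LF.length B) k
    rwa [Finset.prod_const, Finset.card_univ, Fintype.card_fin] at h5
  refine (K_th_le_rad h2 (LF.length B)).trans ((mul_le_mul_right
    (h4.trans (mul_le_mul_right hT.le _)) _).trans ?_)
  have h6 : 2 ^ n * ((c * (n * κ + 1)) ^ δ * T) ≤ 2 ^ n * ((c * (n + 1)) ^ δ * T) * (κ + 1) ^ δ := by
    have h7 : c * (n * κ + 1) ≤ c * (n + 1) * (κ + 1) := by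
      rw [mul_assoc]
      exact Nat.mul_le_mul_left _ (by nlinarith)
    calc _ ≤ 2 ^ n * ((c * (n + 1) * (κ + 1)) ^ δ * T) :=
          Nat.mul_le_mul_left _ (Nat.mul_le_mul_right _ (Nat.pow_le_pow_left h7 _))
      _ = _ := by rw [mul_pow]; ring
  exact_mod_cast h6

end Crest.Agent.R188
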