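import Crest.Agent.R188.APat
import Crest.Agent.R188.HReg

/-!
# The Adams trace `Psi` of cones and Koszul complexes
-/

set_option autoImplicit false
set_option linter.unusedVariables false

open scoped ENNReal NNReal TensorProduct Pointwise

namespace Crest.Agent.R188

open Crest.Agent.R183 Crest.Agent.R183.DG

section aux

variable {B : Type} [CommRing B] {μ : LF B}

theorem AMod_psi_map {X X' : Type} [AddCommGroup X] [Module B X] [AddCommGroup X'] [Module B X']
    {C : DG B X} {C' : DG B X'} {σ : X →ₗ[B] X} {σ' : X' →ₗ[B] X'} {f : X →ₗ[B] X'}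
    (hf : IsMap C C' f) (hi : Function.Injective f) (hσ : IsMap C C σ)
    (hs : ∀ x, f (σ x) = σ' (f x)) {A A' : Submodule B X} (sA : C.Sub A) (sA' : C.Sub A')
    (hA : A' ≤ A) (k : ℕ) (ζ : B) :
    psi C' μ k ζ σ' (A.map f) (A'.map f) = psi C μ k ζ σ A A' := by
  have key : ∀ (P : Submodule B X) (c : B), P.map f ⊓ eig σ' c = (P ⊓ eig σ c).map f := by
    intro P c
    ext y
    constructor
    · rintro ⟨⟨x, hx, rfl⟩, h2⟩
      refine ⟨x, ⟨hx, mem_eig.2 (hi ?_)⟩, rfl⟩
      rw [hs, map_smul]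
      exact mem_eig.1 h2
    · rintro ⟨x, ⟨hx, h2⟩, rfl⟩
      refine ⟨⟨x, hx, rfl⟩, mem_eig.2 ?_⟩
      rw [← hs, mem_eig.1 h2, map_smul]
  unfold psi
  refine Finset.sum_congr rfl fun i _ => ?_
  rw [key, key, ech_congr fun n => hf.h_map hi (sA.inf (sub_eig hσ _)) (sA'.inf (sub_eig hσ _))
    (inf_le_inf_right _ hA) μ n]

theorem AMod_mem_smul_top {M : Type} [AddCommGroup M] [Module B M] {a : B} {x : M} :
    x ∈ (a • ⊤ : Submodule B M) ↔ ∃ z, a • z = x := by
  simp [Submodule.mem_smul_pointwise_iff_exists]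

theorem AMod_sz_inf {M : Type} [AddCommGroup M] [Module B M] (P : Submodule B M) (s : Finset ℕ)
    (Q : ℕ → Submodule B M) : μ.sz P (s.inf Q) ≤ ∑ r ∈ s, μ.sz P (Q r) := by
  induction s using Finset.induction_on with
  | empty => simp [μ.sz_eq_zero_of_le le_top]
  | insert a s ha ih =>
    rw [Finset.inf_insert, Finset.sum_insert ha]
    exact (μ.sz_inf_le _ _ _).trans (add_le_add le_rfl ih)

/-- finiteness for a lattice depending on a weight preserved by the differential -/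
theorem AMod_fin_weight {M : Type} [AddCommGroup M] [Module B M] (T : MC B) (w : T.ι → ℕ)
    (hw : ∀ i j, T.d i j ≠ 0 → w i = w j) (P : ℕ → Submodule B M)
    (h : ∀ r, (T.ap M).FinH μ ⊤ (cst T.ι (P r))) :
    (T.ap M).FinH μ ⊤ (Submodule.pi Set.univ fun t => P (w t)) := by
  intro n
  let pr : ℕ → (T.ι → M) →ₗ[B] (T.ι → M) := fun r =>
    LinearMap.pi fun t => if w t = r then LinearMap.proj t else 0
  have hpr : ∀ r x t, pr r x t = if w t = r then x t else 0 := by
    intro r x t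
    simp only [pr, LinearMap.pi_apply]
    split_ifs <;> rfl
  have hD : ∀ r x, (T.ap M).D (pr r x) = pr r ((T.ap M).D x) := by
    intro r x
    funext t
    rw [hpr, MC.ap_D, MC.ap_D, matApp_apply, matApp_apply]
    split_ifs with ht
    · refine Finset.sum_congr rfl fun j _ => ?_
      by_cases hj : T.d t j = 0
      · simp [hj]
      · rw [hpr, if_pos ((hw t j hj).symm.trans ht)]
    · refine Finset.sum_eq_zero fun j _ => ?_
      by_cases hj : T.d t j = 0
      · simp [hj]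
      · rw [hpr, if_neg fun e => ht ((hw t j hj).trans e), smul_zero]
  have hπ : ∀ r x, (T.ap M).π n (pr r x) = pr r ((T.ap M).π n x) := by
    intro r x
    funext t
    rw [hpr, MC.ap_π, MC.ap_π, hpr]
    split_ifs <;> rfl
  let s : Finset ℕ := Finset.univ.image w
  have hsum : ∀ x, ∑ r ∈ s, pr r x = x := by
    intro x
    funext t
    rw [Finset.sum_apply]
    simp only [hpr]
    rw [Finset.sum_ite_eq, if_pos (Finset.mem_image_of_mem w (Finset.mem_univ t))]
  set L : Submodule B (T.ι → M) := Submodule.pi Set.univ fun t => P (w t) with hL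
  have h1 : (T.ap M).h μ n ⊤ L ≤ μ.sz ((T.ap M).Z n ⊤ L)
      (s.inf fun r => ((T.ap M).Bd ⊤ (cst T.ι (P r))).comap (pr r)) := by
    refine DG_le_right μ fun x hx => ?_
    rw [← hsum x]
    refine Submodule.sum_mem _ fun r hr => ?_
    have h2 : pr r x ∈ (T.ap M).Bd ⊤ (cst T.ι (P r)) :=
      (Finset.inf_le (f := fun r => ((T.ap M).Bd ⊤ (cst T.ι (P r))).comap (pr r)) hr) hx.2
    obtain ⟨a, -, b, hb, e⟩ := (T.ap M).mem_Bd.1 h2
    refine (T.ap M).mem_Bd.2 ⟨pr r a, trivial, pr r b, fun t _ => ?_, ?_⟩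
    · rw [hpr]
      split_ifs with ht
      · exact (congrArg P ht).ge (hb t trivial)
      · exact Submodule.zero_mem _
    · rw [hD, ← map_add, e]
      funext t
      simp only [hpr]
      split_ifs <;> rfl
  refine ne_top_of_le_ne_top ?_ (h1.trans (AMod_sz_inf _ _ _))
  refine ENNReal.sum_ne_top.2 fun r _ => ne_top_of_le_ne_top (h r n) ?_
  rw [← μ.sz_map_eq]
  refine μ.sz_mono ?_ le_rfl
  rintro _ ⟨x, hx, rfl⟩
  obtain ⟨⟨-, h2⟩, h3⟩ := (T.ap M).mem_Z.1 hx
  refine (T.ap M).mem_Z.2 ⟨⟨trivial, by rw [hπ, h2]⟩, fun t _ => ?_⟩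
  rw [hD, hpr]
  split_ifs with ht
  · rw [← ht]
    exact h3 t trivial
  · exact Submodule.zero_mem _

/-- regularity passes to extensions -/
theorem AMod_reg_ext (rs : List B) : ∀ {P F Q : Type} [AddCommGroup P] [Module B P]
    [AddCommGroup F] [Module B F] [AddCommGroup Q] [Module B Q] (f : P →ₗ[B] F) (g : F →ₗ[B] Q),
    Function.Injective f → Function.Surjective g → Function.Exact f g →
    RingTheory.Sequence.IsWeaklyRegular P rs → RingTheory.Sequence.IsWeaklyRegular Q rs →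
    RingTheory.Sequence.IsWeaklyRegular F rs := by
  induction rs with
  | nil =>
    intro P F Q _ _ _ _ _ _ f g hf hg he hP hQ
    exact RingTheory.Sequence.IsWeaklyRegular.nil B F
  | cons r rs ih =>
    intro P F Q _ _ _ _ _ _ f g hf hg he hP hQ
    rw [RingTheory.Sequence.isWeaklyRegular_cons_iff] at hP hQ ⊢
    refine ⟨isSMulRegular_of_range_eq_ker hf (LinearMap.exact_iff.1 he).symm hP.1 hQ.1,
      ih (QuotSMulTop.map r f) (QuotSMulTop.map r g) ?_
        (QuotSMulTop.map_surjective r hg) (QuotSMulTop.map_exact r he hg) hP.2 hQ.2⟩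
    have h0 : Function.Exact (0 : P →ₗ[B] P) f := by
      rw [LinearMap.exact_iff, LinearMap.range_zero, LinearMap.ker_eq_bot]
      exact hf
    have h1 := QuotSMulTop.map_first_exact_on_four_term_exact_of_isSMulRegular_last h0 he hQ.1
    rwa [map_zero, LinearMap.exact_iff, LinearMap.range_zero, LinearMap.ker_eq_bot] at h1

theorem AMod_reg_pow {M : Type} [AddCommGroup M] [Module B M] {y : B} (hy : IsSMulRegular M y)
    {rs : List B} (h : RingTheory.Sequence.IsWeaklyRegular (QuotSMulTop y M) rs) (r : ℕ) :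
    RingTheory.Sequence.IsWeaklyRegular (QuotSMulTop (y ^ (r + 1)) M) rs := by
  induction r with
  | zero => rwa [zero_add, pow_one]
  | succ r ih =>
    have h1 : (y • ⊤ : Submodule B M) ≤
        (y ^ (r + 1 + 1) • ⊤ : Submodule B M).comap (LinearMap.lsmul B M (y ^ (r + 1))) := by
      intro x hx
      obtain ⟨z, rfl⟩ := AMod_mem_smul_top.1 hx
      exact AMod_mem_smul_top.2 ⟨z, by rw [LinearMap.lsmul_apply, smul_smul, ← pow_succ]⟩
    have h2 : (y ^ (r + 1 + 1) • ⊤ : Submodule B M) ≤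
        (y ^ (r + 1) • ⊤ : Submodule B M).comap LinearMap.id := by
      intro x hx
      obtain ⟨z, rfl⟩ := AMod_mem_smul_top.1 hx
      exact AMod_mem_smul_top.2 ⟨y • z, by rw [smul_smul, ← pow_succ]⟩
    refine AMod_reg_ext rs (Submodule.mapQ _ _ _ h1) (Submodule.mapQ _ _ _ h2) ?_ ?_ ?_ h ih
    · rw [injective_iff_map_eq_zero]
      intro x hx
      obtain ⟨x, rfl⟩ := Submodule.Quotient.mk_surjective _ x
      rw [Submodule.mapQ_apply, Submodule.Quotient.mk_eq_zero] at hx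
      obtain ⟨z, hz⟩ := AMod_mem_smul_top.1 hx
      rw [LinearMap.lsmul_apply, pow_succ, mul_smul] at hz
      exact (Submodule.Quotient.mk_eq_zero _).2 (AMod_mem_smul_top.2 ⟨z, hy.pow _ hz⟩)
    · intro x
      obtain ⟨x, rfl⟩ := Submodule.Quotient.mk_surjective _ x
      exact ⟨Submodule.Quotient.mk x, rfl⟩
    · intro x
      obtain ⟨x, rfl⟩ := Submodule.Quotient.mk_surjective _ x
      rw [Submodule.mapQ_apply, Submodule.Quotient.mk_eq_zero, LinearMap.id_apply,
        AMod_mem_smul_top]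
      constructor
      · rintro ⟨z, rfl⟩
        exact ⟨Submodule.Quotient.mk z, rfl⟩
      · rintro ⟨z, hz⟩
        obtain ⟨z, rfl⟩ := Submodule.Quotient.mk_surjective _ z
        rw [Submodule.mapQ_apply, Submodule.Quotient.eq, LinearMap.lsmul_apply] at hz
        obtain ⟨u, hu⟩ := AMod_mem_smul_top.1 hz
        refine ⟨z - y • u, ?_⟩
        rw [smul_sub, smul_smul, ← pow_succ, hu, sub_sub_cancel]

theorem AMod_val_fin {M : Type} [AddCommGroup M] [Module B M] {n : ℕ} (y : Fin (n + 1) → B)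
    (hμ : ∀ c : ℕ, μ.val (B ⧸ (sp y ⊔ Module.annihilator B M) ^ c) ≠ ⊤) (r c : ℕ) :
    μ.val (B ⧸ (sp (Fin.tail y) ⊔ Module.annihilator B (QuotSMulTop (y 0 ^ r) M)) ^ c) ≠ ⊤ := by
  set I := sp (Fin.tail y) ⊔ Module.annihilator B (QuotSMulTop (y 0 ^ r) M) with hI
  have h1 : sp y ⊔ Module.annihilator B M ≤ Ideal.span {y 0} ⊔ I := by
    refine sup_le (Ideal.span_le.2 ?_) ?_
    · rintro _ ⟨i, rfl⟩
      refine Fin.cases ?_ (fun j => ?_) i
      · exact Ideal.mem_sup_left (Ideal.mem_span_singleton_self _)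
      · exact Ideal.mem_sup_right (Ideal.mem_sup_left (Ideal.subset_span ⟨j, rfl⟩))
    · exact le_sup_of_le_right (le_sup_of_le_right
        (LinearMap.annihilator_le_of_surjective _ (Submodule.mkQ_surjective _)))
  have h2 : Ideal.span {y 0} ^ r ≤ I := by
    rw [Ideal.span_singleton_pow, Ideal.span_singleton_le_iff_mem]
    refine Ideal.mem_sup_right (Module.mem_annihilator.2 fun x => ?_)
    obtain ⟨x, rfl⟩ := Submodule.Quotient.mk_surjective _ x
    rw [← Submodule.Quotient.mk_smul, Submodule.Quotient.mk_eq_zero]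
    exact AMod_mem_smul_top.2 ⟨x, rfl⟩
  have h3 : (sp y ⊔ Module.annihilator B M) ^ (r + 1) ≤ I :=
    (Ideal.pow_right_mono h1 _).trans (Ideal.sup_pow_add_le_pow_sup_pow.trans
      (sup_le h2 (by rw [pow_one])))
  refine ne_top_of_le_ne_top (hμ ((r + 1) * c)) (μ.quot_anti ?_)
  rw [pow_mul]
  exact Ideal.pow_right_mono h3 c

end aux

namespace MC

variable {B : Type} [CommRing B] {μ : LF B} {k : ℕ} [NeZero k] {ζ : B}
  {M : Type} [AddCommGroup M] [Module B M]

theorem AMod_cyc_comm (E : MC B) {M' : Type} [AddCommGroup M'] [Module B M'] (g : M →ₗ[B] M')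
    (x : (Fin k → E.ι) → M) :
    g.compLeft (Fin k → E.ι) (matApp (E.cyc k) M x) =
      matApp (E.cyc k) M' (g.compLeft (Fin k → E.ι) x) := by
  funext t
  rw [matApp_cyc]
  change g (matApp (E.cyc k) M x t) = _
  rw [matApp_cyc, map_zsmul]
  rfl

theorem AMod_psiL_inj (E : MC B) {M' : Type} [AddCommGroup M'] [Module B M'] (g : M →ₗ[B] M')
    (hg : Function.Injective g) :
    E.Psi μ k ζ M = E.psiL μ k ζ M' (cst _ (LinearMap.range g)) ⊥ := by
  have h := AMod_psi_map (μ := μ) ((E.tp k).app_isMap (single_isMap g)) hg.comp_left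
    (E.eqv_cyc k M).isMap (E.AMod_cyc_comm g) (sub_top _) (sub_bot _) bot_le k ζ
  rw [Submodule.map_bot] at h
  refine h.symm.trans ?_
  unfold psiL
  congr 1
  ext x
  constructor
  · rintro ⟨z, -, rfl⟩ t _
    exact ⟨z t, rfl⟩
  · intro hx
    choose z hz using fun t => hx t trivial
    exact ⟨z, trivial, funext hz⟩

theorem Psi_congr (E : MC B) {M' : Type} [AddCommGroup M'] [Module B M'] (e : M ≃ₗ[B] M') :
    E.Psi μ k ζ M = E.Psi μ k ζ M' := by
  rw [E.AMod_psiL_inj e.toLinearMap e.injective, LinearEquiv.range, cst, Submodule.pi_top]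

theorem Psi_sub (E : MC B) (P : Submodule B M) :
    E.Psi μ k ζ P = E.psiL μ k ζ M (cst _ P) ⊥ := by
  rw [E.AMod_psiL_inj P.subtype P.injective_subtype, Submodule.range_subtype]

theorem Psi_quot (hζ : RootU k ζ) (E : MC B) (P : Submodule B M) :
    E.Psi μ k ζ (M ⧸ P) = E.psiL μ k ζ M ⊤ (cst _ P) := by
  have hm := (E.tp k).app_isMap (single_isMap P.mkQ)
  refine (psi_transport hζ (E.eqv_cyc k M) (E.eqv_cyc k (M ⧸ P)) (P.mkQ.compLeft _)
    (Stab.top (E.eqv_cyc k M).isMap) (E.stabL_cst P) (Stab.top (E.eqv_cyc k _).isMap)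
    (Stab.bot (E.eqv_cyc k _).isMap) le_top bot_le ?_ ?_ (fun x _ => ?_) (fun n x _ => ?_)
    fun x _ => ?_).symm
  · rw [sup_bot_eq, Submodule.map_top, LinearMap.range_eq_top]
    exact P.mkQ_surjective.comp_left
  · rw [top_inf_eq]
    ext x
    exact funext_iff.trans ⟨fun h i _ => (Submodule.Quotient.mk_eq_zero P).1 (h i),
      fun h i => (Submodule.Quotient.mk_eq_zero P).2 (h i trivial)⟩
  · exact sub_eq_zero.2 (hm.D x)
  · exact sub_eq_zero.2 (hm.π n x)
  · exact sub_eq_zero.2 (E.AMod_cyc_comm P.mkQ x)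

theorem psiL_map {S : Type} [CommRing S] [Algebra S B] [Module S M] [IsScalarTower S B M]
    (E : MC S) (μ : LF S) (ζ : S) (A A' : Submodule B ((Fin k → E.ι) → M)) :
    (E.map (algebraMap S B)).psiL (μ.comap (algebraMap S B)) k (algebraMap S B ζ) M A A' =
      E.psiL μ k ζ M (A.restrictScalars S) (A'.restrictScalars S) := by
  refine (psi_res _ μ k ζ _ A A').trans ?_
  unfold psiL
  congr 1
  · refine HApp_ext (fun x => funext fun t => ?_) fun n x => funext fun t =>
      (ap_π ((E.map (algebraMap S B)).tp k) n x t).trans (ap_π (E.tp k) n x t).symm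
    have h1 := congrFun (ap_D ((E.map (algebraMap S B)).tp k) x) t
    have h2 := congrFun (ap_D (E.tp k) x) t
    refine h1.trans (Eq.trans ?_ h2.symm)
    refine (matApp_tpd (E.map (algebraMap S B)) k x t).trans
      (Eq.trans ?_ (matApp_tpd E k x t).symm)
    refine Finset.sum_congr rfl fun l _ => Finset.sum_congr rfl fun j _ => ?_
    exact congrArg _ (algebraMap_smul B (E.d (t l) j) _)
  · refine LinearMap.ext fun x => funext fun t => ?_
    exact (matApp_cyc (E.map (algebraMap S B)) x t).trans (matApp_cyc E x t).symm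

theorem Psi_of_null_one (hζ : RootU k ζ) {E : MC B} (h : E.Null 1) : E.Psi μ k ζ M = 0 :=
  psi_eq_zero_of_h hζ (E.eqv_cyc k M) (Stab.top (E.eqv_cyc k M).isMap)
    (Stab.bot (E.eqv_cyc k M).isMap) bot_le
    fun n => ((h.tp k).nullH (single B M)).acyc.h_eq_zero μ n

/-- the filtration of the basis of a cone -/
def AMod_pat (E E' : MC B) : E'.ι ⊕ E.ι → ℕ := Sum.elim (fun _ => 0) fun _ => 1

theorem AMod_pat_le {E E' : MC B} {f : Matrix E'.ι E.ι B} (hf : IsHom E E' f) :
    ∀ i j, (cone hf).d i j ≠ 0 → AMod_pat E E' i ≤ AMod_pat E E' j := by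
  rintro (i | i) (j | j) h
  · exact le_rfl
  · exact Nat.zero_le _
  · exact absurd rfl h
  · exact le_rfl

/-- the associated graded of a cone -/
abbrev AMod_gr {E E' : MC B} {f : Matrix E'.ι E.ι B} (hf : IsHom E E' f) : MC B :=
  (cone hf).gr (AMod_pat E E') (AMod_pat_le hf)

theorem AMod_gr_pat {E E' : MC B} {f : Matrix E'.ι E.ι B} (hf : IsHom E E' f) :
    ∀ i j, (AMod_gr hf).d i j ≠ 0 → AMod_pat E E' i = AMod_pat E E' j := fun i j h => by
  by_contra h'
  exact h (if_neg h')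

theorem AMod_gr_d {E E' : MC B} {f : Matrix E'.ι E.ι B} (hf : IsHom E E' f) {i j : E'.ι ⊕ E.ι}
    (h : AMod_pat E E' i = AMod_pat E E' j) : (AMod_gr hf).d i j = (cone hf).d i j := if_pos h

theorem AMod_gr_supp {E E' : MC B} {f : Matrix E'.ι E.ι B} (hf : IsHom E E' f) {J : Ideal B}
    (h : E.Supp J) (h' : E'.Supp J) : (AMod_gr hf).Supp J := by
  have hz : IsHom E E' 0 := ⟨fun _ _ h => absurd rfl h, by simp⟩
  have e : AMod_gr hf = cone hz := by
    unfold AMod_gr gr cone
    congr 1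
    ext (i | i) (j | j) <;> simp [grd, AMod_pat]
  rw [e]
  exact Supp.cone hz h h'

theorem AMod_gr_psi (hζ : RootU k ζ) {E E' : MC B} {f : Matrix E'.ι E.ι B} (hf : IsHom E E' f)
    {𝒢 : (Fin k → E'.ι ⊕ E.ι) → Submodule B M}
    (sG : (AMod_gr hf).StabL k M (Submodule.pi Set.univ 𝒢))
    (hfin : (AMod_gr hf).FinL μ k M (Submodule.pi Set.univ fun _ => ⊤) (Submodule.pi Set.univ 𝒢))
    {P₀ P₁ : Submodule B M} (h₀ : ∀ t, (∀ l, AMod_pat E E' (t l) = 0) → 𝒢 t = P₀)
    (h₁ : ∀ t, (∀ l, AMod_pat E E' (t l) = 1) → 𝒢 t = P₁) :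
    (AMod_gr hf).psiL μ k ζ M (Submodule.pi Set.univ fun _ => ⊤) (Submodule.pi Set.univ 𝒢) =
      E'.psiL μ k ζ M ⊤ (cst _ P₀) + (E.shift 1).psiL μ k ζ M ⊤ (cst _ P₁) := by
  have h := psiL_const (μ := μ) hζ (AMod_gr hf) (AMod_pat E E') (AMod_gr_pat hf)
    ((AMod_gr hf).stabL_cst ⊤) sG (fun _ => le_top) hfin {0, 1} (by
      rintro (i | i) <;> simp [AMod_pat])
  rw [Finset.sum_pair (by norm_num)] at h
  have e₀ : (fun t : Fin k → E'.ι ⊕ E.ι => if ∀ l, AMod_pat E E' (t l) = 0 then 𝒢 t else ⊥) =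
      fun t => if ∀ l, AMod_pat E E' (t l) = 0 then P₀ else ⊥ :=
    funext fun t => if_ctx_congr Iff.rfl (h₀ t) fun _ => rfl
  have e₁ : (fun t : Fin k → E'.ι ⊕ E.ι => if ∀ l, AMod_pat E E' (t l) = 1 then 𝒢 t else ⊥) =
      fun t => if ∀ l, AMod_pat E E' (t l) = 1 then P₁ else ⊥ :=
    funext fun t => if_ctx_congr Iff.rfl (h₁ t) fun _ => rfl
  have k₀ := psiL_sub (μ := μ) (M := M) hζ (E₀ := E') (E := AMod_gr hf) Sum.inl Sum.inl_injective
    (fun _ => rfl) (fun _ _ => AMod_gr_d hf rfl) (by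
      rintro (i | i) j hij
      · exact ⟨i, rfl⟩
      · exact absurd (AMod_gr_pat hf _ _ hij) (by simp [AMod_pat]))
    (fun i => AMod_pat E E' i = 0) (by rintro (i | i) <;> simp [AMod_pat])
    (le_top : P₀ ≤ ⊤)
  have k₁ := psiL_sub (μ := μ) (M := M) hζ (E₀ := E.shift 1) (E := AMod_gr hf) Sum.inr
    Sum.inr_injective (fun _ => rfl)
    (fun i j => (AMod_gr_d hf (i := Sum.inr i) (j := Sum.inr j) rfl).trans (by
      change -E.d i j = sg 1 • E.d i j
      simp [sg])) (by
      rintro (i | i) j hij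
      · exact absurd (AMod_gr_pat hf _ _ hij) Nat.zero_ne_one
      · exact ⟨i, rfl⟩)
    (fun i => AMod_pat E E' i = 1) (by
      rintro (i | i)
      · exact iff_of_false Nat.zero_ne_one fun ⟨_, h⟩ => Sum.inr_ne_inl h
      · exact iff_of_true rfl ⟨i, rfl⟩)
    (le_top : P₁ ≤ ⊤)
  rw [cst, Submodule.pi_top] at k₀ k₁
  rw [h, ← k₀, ← k₁]
  congr 1
  · exact congrArg _ (congrArg _ e₀)
  · exact congrArg _ (congrArg _ e₁)

theorem AMod_Psi_cone (hζ : RootU k ζ) {J : Ideal B} (hfin : ∀ E : MC B, E.Supp J → E.Fin' μ M)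
    {E E' : MC B} {f : Matrix E'.ι E.ι B} (hf : IsHom E E' f) (h : E.Supp J) (h' : E'.Supp J) :
    (cone hf).Psi μ k ζ M = E'.Psi μ k ζ M + (E.shift 1).Psi μ k ζ M := by
  have f1 : (AMod_gr hf).FinL μ k M (Submodule.pi Set.univ fun _ => ⊤)
      (Submodule.pi Set.univ fun _ => ⊥) := by
    rw [Submodule.pi_top, Submodule.pi_univ_bot]
    exact hfin _ ((AMod_gr_supp hf h h').tp k)
  have h1 := (psiL_gr hζ (cone hf) (AMod_pat E E') (AMod_pat_le hf) ((cone hf).stabL_cst ⊤)
    ((cone hf).stabL_cst ⊥) (Submodule.pi_mono fun _ _ => bot_le) (isGr_pi _ _) (isGr_pi _ _) f1).2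
  have h2 := AMod_gr_psi hζ hf ((AMod_gr hf).stabL_cst ⊥) f1 (P₀ := ⊥) (P₁ := ⊥)
    (fun _ _ => rfl) fun _ _ => rfl
  have h3 := h1.trans h2
  simpa only [cst, Submodule.pi_top, Submodule.pi_univ_bot] using h3

theorem AMod_coneS_null (E : MC B) : (E.coneS 1).Null 1 :=
  null_iff.2 ((E.coneS_app_iso 1 _).symm.nullH (nullH_coneS_self _ 1))

theorem AMod_Psi_shift_one (hζ : RootU k ζ) {J : Ideal B}
    (hfin : ∀ E : MC B, E.Supp J → E.Fin' μ M) {E : MC B} (h : E.Supp J) :
    (E.shift 1).Psi μ k ζ M = -E.Psi μ k ζ M := by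
  have h1 := AMod_Psi_cone (k := k) hζ hfin (E.isHom_scalar 1) h h
  rw [Psi_of_null_one hζ E.AMod_coneS_null] at h1
  linear_combination -h1

theorem AMod_shift_shift (E : MC B) (m n : ℤ) : (E.shift m).shift n = E.shift (m + n) := by
  unfold shift
  congr 1
  · funext i
    exact add_assoc _ _ _
  · rw [smul_smul, HApp_sg_add, mul_comm]

theorem AMod_shift_zero (E : MC B) : E.shift 0 = E := by
  cases E
  unfold shift
  congr 1
  · funext i
    exact add_zero _
  · simp [sg]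

theorem Psi_shift (hζ : RootU k ζ) {J : Ideal B} (hfin : ∀ E : MC B, E.Supp J → E.Fin' μ M)
    {E : MC B} (h : E.Supp J) (n : ℤ) :
    (E.shift n).Psi μ k ζ M = sg n * E.Psi μ k ζ M := by
  have step : ∀ m : ℤ, (E.shift (m + 1)).Psi μ k ζ M = -(E.shift m).Psi μ k ζ M := fun m => by
    rw [← AMod_shift_shift, AMod_Psi_shift_one hζ hfin (h.shift m)]
  induction n using Int.induction_on with
  | zero => rw [AMod_shift_zero]; simp [sg]
  | succ n ih => rw [step, ih, HApp_sg_succ]; push_cast; ring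
  | pred n ih =>
    have h1 := step (-(n : ℤ) - 1)
    have h2 := HApp_sg_succ (-(n : ℤ) - 1)
    rw [sub_add_cancel] at h1 h2
    rw [h1, h2] at ih
    push_cast at ih
    linear_combination -ih

theorem Psi_cone (hζ : RootU k ζ) {J : Ideal B} (hfin : ∀ E : MC B, E.Supp J → E.Fin' μ M)
    {E E' : MC B} {f : Matrix E'.ι E.ι B} (hf : IsHom E E' f) (h : E.Supp J) (h' : E'.Supp J) :
    (cone hf).Psi μ k ζ M = E'.Psi μ k ζ M - E.Psi μ k ζ M := by
  rw [AMod_Psi_cone hζ hfin hf h h', AMod_Psi_shift_one hζ hfin h, sub_eq_add_neg]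

/-- the number of factors in the second summand -/
def AMod_w (E : MC B) (t : Fin k → E.ι ⊕ E.ι) : ℕ := ∑ l, AMod_pat E E (t l)

omit [NeZero k] in
theorem AMod_w_le (E : MC B) (t : Fin k → E.ι ⊕ E.ι) : AMod_w E t ≤ k := by
  refine (Finset.sum_le_card_nsmul _ _ 1 fun l _ => ?_).trans (by simp)
  rcases t l with i | i <;> simp [AMod_pat]

omit [NeZero k] in
theorem AMod_w_update (E : MC B) (t : Fin k → E.ι ⊕ E.ι) (l : Fin k) (j : E.ι ⊕ E.ι) :
    AMod_w E (Function.update t l j) + AMod_pat E E (t l) = AMod_w E t + AMod_pat E E j := by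
  unfold AMod_w
  rw [← Finset.add_sum_erase _ _ (Finset.mem_univ l),
    ← Finset.add_sum_erase _ (fun l => AMod_pat E E (t l)) (Finset.mem_univ l),
    Function.update_self, Finset.sum_congr rfl fun l' hl' => by
      rw [Function.update_of_ne (Finset.ne_of_mem_erase hl')]]
  ring

omit [NeZero k] in
theorem AMod_d_w (E : MC B) (y : B) (t : Fin k → E.ι ⊕ E.ι) (l : Fin k) (j : E.ι ⊕ E.ι) :
    (E.coneS y).d (t l) j * y ^ (k - AMod_w E (Function.update t l j)) =
      y ^ (k - AMod_w E t) * (E.coneS 1).d (t l) j := by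
  have h1 := AMod_w_update E t l j
  have h2 := AMod_w_le E (Function.update t l j)
  rcases e : t l with i | i <;> rcases j with j | j <;> rw [e] at h1 <;>
    simp only [AMod_pat, Sum.elim_inl, Sum.elim_inr, add_zero, add_left_inj] at h1
  · rw [h1, mul_comm]
    rfl
  · have h3 : k - AMod_w E t = k - AMod_w E (Function.update t l (Sum.inr j)) + 1 := by omega
    change Matrix.scalar E.ι y i j * _ = _ * Matrix.scalar E.ι 1 i j
    rw [h3, pow_succ]
    by_cases hij : i = j
    · simp [hij, mul_comm]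
    · simp [Matrix.diagonal_apply_ne _ hij]
  · change 0 * _ = _ * 0
    rw [zero_mul, mul_zero]
  · rw [h1, mul_comm]
    rfl

theorem Psi_coneS (hζ : RootU k ζ) {J : Ideal B} {y : B} (hy : IsSMulRegular M y)
    (hfin : ∀ (E : MC B) (r : ℕ), E.Supp J → E.Fin' μ (QuotSMulTop (y ^ r) M))
    {E : MC B} (h : E.Supp J) :
    (E.coneS y).Psi μ k ζ M = E.Psi μ k ζ (QuotSMulTop (y ^ k) M) := by
  let 𝒢 : (Fin k → E.ι ⊕ E.ι) → Submodule B M := fun t => y ^ (k - AMod_w E t) • ⊤
  have sL : (E.coneS y).StabL k M (Submodule.pi Set.univ 𝒢) := by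
    refine stabL_pi (E.coneS y) 𝒢 (fun t l j x hx => ?_) fun t => le_of_eq ?_
    · obtain ⟨z, rfl⟩ := AMod_mem_smul_top.1 hx
      refine AMod_mem_smul_top.2 ⟨(E.coneS 1).d (t l) j • z, ?_⟩
      rw [smul_smul, smul_smul]
      exact congrArg (· • z) (AMod_d_w E y t l j).symm
    · have : AMod_w E (t ∘ finRotate k) = AMod_w E t :=
        Equiv.sum_comp (finRotate k) fun l => AMod_pat E E (t l)
      simp only [𝒢]
      exact congrArg (fun r => (y ^ (k - r) • ⊤ : Submodule B M)) this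
  let φ : ((Fin k → E.ι ⊕ E.ι) → M) →ₗ[B] ((Fin k → E.ι ⊕ E.ι) → M) :=
    LinearMap.pi fun t => y ^ (k - AMod_w E t) • LinearMap.proj t
  have hφ : ∀ x t, φ x t = y ^ (k - AMod_w E t) • x t := fun _ _ => rfl
  have hm : IsMap (((E.coneS 1).tp k).ap M) (((E.coneS y).tp k).ap M) φ := by
    refine ⟨fun x => funext fun t => ?_, fun n x => funext fun t => ?_⟩
    · have h1 := (congrFun (ap_D ((E.coneS 1).tp k) x) t).trans (matApp_tpd _ k x t)
      have h2 := (congrFun (ap_D ((E.coneS y).tp k) (φ x)) t).trans (matApp_tpd _ k (φ x) t)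
      refine (hφ _ t).trans ((congrArg _ h1).trans (Eq.trans ?_ h2.symm))
      rw [Finset.smul_sum]
      refine Finset.sum_congr rfl fun l _ => ?_
      rw [Finset.smul_sum]
      refine Finset.sum_congr rfl fun j _ => ?_
      rw [smul_comm (y ^ (k - AMod_w E t)), smul_smul (y ^ (k - AMod_w E t))]
      refine congrArg _ ((congrArg (· • x (Function.update t l j)) (AMod_d_w E y t l j)).symm.trans
        ?_)
      exact mul_smul _ _ _
    · exact (map_smul ((single B M).π _) _ _).symm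
  have hi : Function.Injective φ := fun x x' e => funext fun t => hy.pow _ (congrFun e t)
  have hr : Submodule.map φ ⊤ = Submodule.pi Set.univ 𝒢 := by
    ext x
    constructor
    · rintro ⟨z, -, rfl⟩ t _
      exact AMod_mem_smul_top.2 ⟨z t, rfl⟩
    · intro hx
      choose z hz using fun t => AMod_mem_smul_top.1 (hx t trivial)
      exact ⟨z, trivial, funext hz⟩
  have h0 : ∀ n, (((E.coneS y).tp k).ap M).h μ n (Submodule.pi Set.univ 𝒢) ⊥ = 0 := fun n => by
    have h1 := hm.h_map hi (sub_top _) (sub_bot _) bot_le μ n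
    rw [Submodule.map_bot, ((E.AMod_coneS_null.tp k).nullH (single B M)).acyc.h_eq_zero μ n] at h1
    exact (congrArg (fun A => (((E.coneS y).tp k).ap M).h μ n A ⊥) hr).symm.trans h1
  have f1 : (AMod_gr (E.isHom_scalar y)).FinL μ k M (Submodule.pi Set.univ fun _ => ⊤)
      (Submodule.pi Set.univ 𝒢) := by
    rw [Submodule.pi_top]
    refine AMod_fin_weight ((AMod_gr (E.isHom_scalar y)).tp k) (AMod_w E) (fun t t' htt => ?_)
      (fun r => y ^ (k - r) • ⊤) fun r n => ?_
    · have htt' : tpd (AMod_gr (E.isHom_scalar y)) k t t' ≠ 0 := htt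
      unfold tpd at htt'
      obtain ⟨l, -, hl⟩ := Finset.exists_ne_zero_of_sum_ne_zero htt'
      have h1 : ∀ l', l' ≠ l → t l' = t' l' := by
        by_contra h2
        exact hl (if_neg h2)
      rw [if_pos h1] at hl
      refine Finset.sum_congr rfl fun l' _ => ?_
      by_cases e : l' = l
      · rw [e]
        exact AMod_gr_pat _ _ _ (right_ne_zero_of_smul hl)
      · rw [h1 l' e]
    · rw [← ap_H_quot]
      exact hfin _ (k - r) ((AMod_gr_supp _ h h).tp k) n
  obtain ⟨f2, h1⟩ := psiL_gr hζ (E.coneS y) (AMod_pat E E) (AMod_pat_le _)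
    ((E.coneS y).stabL_cst ⊤) sL (Submodule.pi_mono fun _ _ => le_top) (isGr_pi _ _)
    (isGr_pi _ _) f1
  have h2 := AMod_gr_psi hζ (E.isHom_scalar y) (IsGr.stabL (AMod_pat_le _) sL (isGr_pi _ _)) f1
    (P₀ := y ^ k • ⊤) (P₁ := ⊤) (fun t ht => by
      have : AMod_w E t = 0 := Finset.sum_eq_zero fun l _ => ht l
      simp only [𝒢, this, Nat.sub_zero]) fun t ht => by
      have : AMod_w E t = k := by
        unfold AMod_w
        simp [ht]
      simp only [𝒢, this, Nat.sub_self, pow_zero, one_smul]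
  have h3 := h1.trans h2
  rw [cst, Submodule.pi_top] at f2
  rw [cst, cst, cst, Submodule.pi_top, Submodule.pi_top] at h3
  have e := (E.coneS y).eqv_cyc k M
  have h4 := psi_add (ap_bdd _ M) hζ e (Stab.top e.isMap) sL (Stab.bot e.isMap) le_top bot_le f2
    fun n => ne_of_eq_of_ne (h0 n) ENNReal.zero_ne_top
  rw [psi_eq_zero_of_h hζ e sL (Stab.bot e.isMap) bot_le h0, zero_add] at h4
  refine h4.trans (h3.trans ?_)
  have h5 : (E.shift 1).psiL μ k ζ M ⊤ ⊤ = 0 := psi_self _
  rw [Psi_quot hζ, h5, add_zero]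

theorem AMod_ech_reg {n : ℕ} (y : Fin n → B)
    (hy : RingTheory.Sequence.IsWeaklyRegular M (List.ofFn y)) :
    (K y (single B M)).ech μ ⊤ ⊥ = (μ.val (M ⧸ (sp y • ⊤ : Submodule B M))).toReal := by
  rw [ech_eq_single 0 fun j hj => K_H_eq_zero_of_reg y M hy μ hj, ← K_H_zero_single]
  simp [sg]

theorem Psi_kos [IsNoetherianRing B] (hζ : RootU k ζ) (hk : Odd k) {n : ℕ} (y : Fin n → B)
    [Module.Finite B M] (hy : RingTheory.Sequence.IsWeaklyRegular M (List.ofFn y))
    (hμ : ∀ c : ℕ, μ.val (B ⧸ (sp y ⊔ Module.annihilator B M) ^ c) ≠ ⊤) :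
    (kos y).Psi μ k ζ M =
      (k : ℂ) ^ n * ((μ.val (M ⧸ (sp y • ⊤ : Submodule B M))).toReal : ℝ) := by
  induction n generalizing M with
  | zero =>
    have h1 := psiL_single (μ := μ) (M := M) hζ hk (free B Unit 0) rfl () (fun _ => ⊤) (fun _ => ⊥)
      bot_le (fun t ht => absurd rfl ht) fun t ht => rfl
    rw [Submodule.pi_top, Submodule.pi_univ_bot] at h1
    refine h1.trans ?_
    have h2 : (sp y • ⊤ : Submodule B M) = ⊥ := by simp [sp]
    rw [← μ.sz_top, h2]
    simp [sg, free]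
  | succ n ih =>
    have hy' := hy
    rw [List.ofFn_succ, RingTheory.Sequence.isWeaklyRegular_cons_iff] at hy'
    obtain ⟨r, hr⟩ := Nat.exists_eq_succ_of_ne_zero (NeZero.ne k)
    have h1 : RingTheory.Sequence.IsWeaklyRegular (QuotSMulTop (y 0 ^ k) M)
        (List.ofFn (Fin.tail y)) := by
      rw [hr]
      exact AMod_reg_pow hy'.1 hy'.2 r
    rw [kos_succ, Psi_coneS hζ hy'.1 (fun E r hE => Supp.fin' hE (AMod_val_fin y hμ r))
      (kos_supp _), ih _ h1 (AMod_val_fin y hμ k)]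
    let κ : Fin (n + 1) → ℕ := Fin.cons k fun _ => 1
    have e1 : List.ofFn (fun i => y i ^ κ i) = y 0 ^ k :: List.ofFn (Fin.tail y) := by
      rw [List.ofFn_succ]
      simp only [κ, Fin.cons_zero, Fin.cons_succ, pow_one]
      rfl
    have h2 : RingTheory.Sequence.IsWeaklyRegular M (List.ofFn fun i => y i ^ κ i) := by
      rw [e1, RingTheory.Sequence.isWeaklyRegular_cons_iff]
      exact ⟨hy'.1.pow k, h1⟩
    have h3 := K_ech_pow (μ := μ) y κ (single_bdd M) (Supp.fin' (kos_supp y) hμ)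
    rw [AMod_ech_reg _ h2, AMod_ech_reg _ hy, ← HReg_ofList, e1,
      μ.congr (Submodule.quotOfListConsSMulTopEquivQuotSMulTopInner M _ _), HReg_ofList] at h3
    rw [h3]
    simp [κ, Fin.prod_univ_succ, pow_succ, mul_assoc]

end MC

end Crest.Agent.R188
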