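import Crest.Agent.R188.HCone

/-!
# The tensor product `E.app C` of a finite free complex with a complex
-/

set_option autoImplicit false
set_option linter.unusedVariables false

open scoped ENNReal NNReal TensorProduct

namespace Crest.Agent.R188

open Crest.Agent.R183 Crest.Agent.R183.DG

namespace MC

variable {B : Type} [CommRing B] {X : Type} [AddCommGroup X] [Module B X]
  {X' : Type} [AddCommGroup X'] [Module B X'] {X'' : Type} [AddCommGroup X''] [Module B X'']
  {C : DG B X} {C' : DG B X'} {C'' : DG B X''} {μ : LF B}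

theorem HApp_sg_sg (n : ℤ) (x : X) : sg n • sg n • x = x := by
  rw [smul_smul, ← Units.val_mul, Int.units_mul_self, Units.val_one, one_smul]

theorem HApp_sg_succ (n : ℤ) : sg (n + 1) = -sg n := by
  rw [sg, Int.negOnePow_succ, Units.val_neg]

theorem HApp_sg_add (m n : ℤ) : sg (m + n) = sg m * sg n := by
  rw [sg, Int.negOnePow_add, Units.val_mul]

theorem HApp_ext {C C' : DG B X} (hD : ∀ x, C.D x = C'.D x) (hπ : ∀ k x, C.π k x = C'.π k x) :
    C = C' := by
  cases C
  cases C'
  congr 1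
  · exact LinearMap.ext hD
  · exact funext fun k => LinearMap.ext (hπ k)

theorem HApp_iso {f : X →ₗ[B] X'} (hf : IsMap C C' f) (hb : Function.Bijective f) : C.Iso C' :=
  ⟨LinearEquiv.ofBijective f hb, hf⟩

theorem HApp_cone_congr {f g : X →ₗ[B] X'} (hf : IsMap C C' f) (hg : IsMap C C' g) (h : f = g) :
    (DG.cone hf).Iso (DG.cone hg) := by
  subst h
  exact Iso.refl _

theorem HApp_iso_acyc (h : C.Iso C') : C.Acyc ↔ C'.Acyc :=
  let ⟨_, hf⟩ := h.qi
  hf.acyc_iff

/-- the complex shifted by `n` -/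
def HApp_tw (C : DG B X) (n : ℤ) : DG B X where
  D := sg n • C.D
  π k := C.π (k - n)
  DD x := by simp only [LinearMap.smul_apply, map_zsmul, C.DD, smul_zero]
  πD k x := by
    simp only [LinearMap.smul_apply, map_zsmul, C.πD]
    congr 4
    ring
  ππ k x := C.ππ _ x
  ππ' k j h x := C.ππ' _ _ (by omega) x

theorem HApp_tw_h (C : DG B X) (n : ℤ) (μ : LF B) (k : ℤ) (A A' : Submodule B X) :
    (HApp_tw C n).h μ k A A' = C.h μ (k - n) A A' := by
  unfold DG.h
  congr 1
  · ext x
    simp only [mem_Z]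
    refine and_congr_right fun _ => ⟨fun h => ?_, fun h => zsmul_mem h _⟩
    rw [← HApp_sg_sg n (C.D x)]
    exact zsmul_mem h _
  · unfold Bd
    congr 1
    ext y
    constructor
    · rintro ⟨x, hx, rfl⟩
      exact ⟨sg n • x, zsmul_mem hx _, map_zsmul _ _ _⟩
    · rintro ⟨x, hx, rfl⟩
      refine ⟨sg n • x, zsmul_mem hx _, ?_⟩
      change sg n • C.D (sg n • x) = C.D x
      rw [map_zsmul, HApp_sg_sg]

/-- induction on the basis, by increasing degree -/
theorem HApp_ind0 (E : MC B) (p : Finset E.ι → Prop) (h0 : p ∅)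
    (hs : ∀ a s, a ∉ s → (∀ j ∈ s, E.deg j ≤ E.deg a) → (∀ i, E.deg i < E.deg a → i ∈ s) →
      p s → p (insert a s)) : p Finset.univ := by
  have key : ∀ s : Finset E.ι, (∀ j ∈ s, ∀ i, E.deg i < E.deg j → i ∈ s) → p s := by
    intro s
    induction s using Finset.induction_on_max_value E.deg with
    | empty => exact fun _ => h0
    | insert a s ha hm ih =>
      intro hc
      have h1 : ∀ i, E.deg i < E.deg a → i ∈ s := fun i hi =>
        (Finset.mem_insert.1 (hc a (Finset.mem_insert_self _ _) i hi)).resolve_left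
          fun e => by rw [e] at hi; exact lt_irrefl _ hi
      exact hs a s ha hm h1 (ih fun j hj i hi => h1 i (hi.trans_le (hm j hj)))
  exact key _ fun _ _ _ _ => Finset.mem_univ _

variable (X) in
/-- tuples supported in `s` -/
def HApp_F (E : MC B) (s : Finset E.ι) : Submodule B (E.ι → X) :=
  Submodule.pi {i | i ∉ s} fun _ => ⊥

theorem HApp_mem_F {E : MC B} {s : Finset E.ι} {x : E.ι → X} :
    x ∈ HApp_F X E s ↔ ∀ i ∉ s, x i = 0 := Iff.rfl

theorem HApp_sub_F (E : MC B) (C : DG B X) {s : Finset E.ι}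
    (hs : ∀ j ∈ s, ∀ i, E.deg i < E.deg j → i ∈ s) : (E.app C).Sub (HApp_F X E s) := by
  refine ⟨fun x hx => HApp_mem_F.2 fun i hi => ?_, fun k x hx => HApp_mem_F.2 fun i hi => ?_⟩
  · rw [app_D, HApp_mem_F.1 hx i hi, map_zero, smul_zero, add_zero]
    refine Finset.sum_eq_zero fun j _ => ?_
    by_cases h : E.d i j = 0
    · rw [h, zero_smul]
    · rw [HApp_mem_F.1 hx j fun hj => hi (hs j hj i (by rw [E.hdeg i j h]; omega)), smul_zero]
  · rw [app_π, HApp_mem_F.1 hx i hi, map_zero]

/-- the filtration of `E.app C` with quotients shifts of `C` -/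
theorem HApp_ind (E : MC B) (C : DG B X) (p : Finset E.ι → Submodule B (E.ι → X) → Prop)
    (h0 : p ∅ ⊥)
    (hs : ∀ a s A A', a ∉ s → (E.app C).Sub A → (E.app C).Sub A' → A' ≤ A →
      (∀ μ k, (E.app C).h μ k A A' = C.H μ (k - E.deg a)) → p s A' → p (insert a s) A) :
    p Finset.univ ⊤ := by
  have e0 : HApp_F X E ∅ = ⊥ :=
    eq_bot_iff.2 fun x hx => funext fun i => HApp_mem_F.1 hx i (Finset.notMem_empty i)
  have e1 : HApp_F X E Finset.univ = ⊤ :=
    eq_top_iff.2 fun x _ => HApp_mem_F.2 fun i hi => absurd (Finset.mem_univ i) hi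
  rw [← e1]
  refine HApp_ind0 E (fun s => p s (HApp_F X E s)) (by rw [e0]; exact h0)
    fun a s ha hm hc ih => ?_
  have s1 : (E.app C).Sub (HApp_F X E (insert a s)) := HApp_sub_F E C fun j hj i hi =>
    Finset.mem_insert_of_mem (hc i (hi.trans_le (by
      rcases Finset.mem_insert.1 hj with rfl | hj
      · exact le_rfl
      · exact hm j hj)))
  have s2 : (E.app C).Sub (HApp_F X E s) :=
    HApp_sub_F E C fun j hj i hi => hc i (hi.trans_le (hm j hj))
  have hle : HApp_F X E s ≤ HApp_F X E (insert a s) := fun x hx =>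
    HApp_mem_F.2 fun i hi => HApp_mem_F.1 hx i fun h => hi (Finset.mem_insert_of_mem h)
  refine hs a s _ _ ha s1 s2 hle (fun μ k => ?_) ih
  have := ((E.app C).h_transport μ (HApp_tw C (E.deg a)) (LinearMap.proj a) s1 s2
    (sub_top _) (sub_bot _) hle bot_le ?_ ?_ ?_ 0 ?_ k).1
  · rw [this, HApp_tw_h, add_zero]
  · rw [sup_bot_eq, eq_top_iff]
    intro y _
    refine ⟨Pi.single a y, HApp_mem_F.2 fun i hi => Pi.single_eq_of_ne ?_ _, by simp⟩
    rintro rfl
    exact hi (Finset.mem_insert_self _ _)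
  · ext x
    constructor
    · rintro ⟨h1, h2⟩
      refine HApp_mem_F.2 fun i hi => ?_
      by_cases e : i = a
      · rw [e]
        exact h2
      · exact HApp_mem_F.1 h1 i fun h => hi ((Finset.mem_insert.1 h).resolve_left e)
    · exact fun h => ⟨hle h, HApp_mem_F.1 h a ha⟩
  · intro x hx
    change ∑ j, E.d a j • x j + sg (E.deg a) • C.D (x a) - sg (E.deg a) • C.D (x a) = 0
    rw [add_sub_cancel_right]
    refine Finset.sum_eq_zero fun j _ => ?_
    by_cases h : E.d a j = 0
    · rw [h, zero_smul]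
    · rw [HApp_mem_F.1 hx j fun hj => ?_, smul_zero]
      have e := E.hdeg a j h
      rcases Finset.mem_insert.1 hj with rfl | hj
      · omega
      · have := hm j hj
        omega
  · intro k x hx
    change C.π (k - E.deg a) (x a) - C.π (k + 0 - E.deg a) (x a) = 0
    rw [add_zero, sub_self]

theorem app_bdd (E : MC B) (hC : C.Bdd) : (E.app C).Bdd := by
  obtain ⟨L, hL⟩ := hC
  refine ⟨L + ∑ i, (E.deg i).natAbs, fun k hk x => funext fun i => hL _ ?_ _⟩
  have h1 : (E.deg i).natAbs ≤ ∑ i, (E.deg i).natAbs :=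
    Finset.single_le_sum (f := fun i => (E.deg i).natAbs) (fun _ _ => Nat.zero_le _)
      (Finset.mem_univ i)
  rw [Nat.cast_add] at hk
  rw [lt_abs] at hk ⊢
  omega

theorem ap_bdd (E : MC B) (M : Type) [AddCommGroup M] [Module B M] : (E.ap M).Bdd := by
  exact E.app_bdd (single_bdd M)

theorem ap_D (E : MC B) {M : Type} [AddCommGroup M] [Module B M] (x : E.ι → M) :
    (E.ap M).D x = matApp E.d M x := by
  funext i
  rw [app_D, matApp_apply]
  exact add_eq_left.2 (smul_zero _)

theorem ap_π (E : MC B) {M : Type} [AddCommGroup M] [Module B M] (k : ℤ) (x : E.ι → M) (i : E.ι) :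
    (E.ap M).π k x i = if E.deg i = k then x i else 0 := by
  rw [app_π]
  change (if k - E.deg i = 0 then LinearMap.id else 0 : M →ₗ[B] M) (x i) = _
  by_cases h : E.deg i = k
  · rw [if_pos h, if_pos (by omega)]
    rfl
  · rw [if_neg h, if_neg (by omega)]
    rfl

theorem app_isMap (E : MC B) {f : X →ₗ[B] X'} (hf : IsMap C C' f) :
    IsMap (E.app C) (E.app C') (f.compLeft E.ι) := by
  refine ⟨fun x => funext fun i => ?_, fun k x => funext fun i => hf.π _ _⟩
  change f ((E.app C).D x i) = (E.app C').D (fun i => f (x i)) i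
  simp only [app_D, map_add, map_sum, map_smul, map_zsmul, hf.D]

theorem IsHom.isMap {E E' : MC B} {f : Matrix E'.ι E.ι B} (hf : IsHom E E' f) (C : DG B X) :
    IsMap (E.app C) (E'.app C) (matApp f X) := by
  refine ⟨fun x => funext fun i => ?_, fun k x => funext fun i => ?_⟩
  · have h1 := congrFun (matApp_mul f E.d x) i
    have h2 := congrFun (matApp_mul E'.d f x) i
    rw [hf.comm, h2] at h1
    simp only [matApp_apply] at h1
    simp only [app_D, matApp_apply, smul_add, Finset.sum_add_distrib, map_sum, map_smul]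
    rw [← h1, Finset.smul_sum (r := sg (E'.deg i))]
    congr 1
    refine Finset.sum_congr rfl fun j _ => ?_
    by_cases h : f i j = 0
    · simp [h]
    · rw [hf.deg i j h, smul_comm]
  · simp only [app_π, matApp_apply, map_sum, map_smul]
    refine Finset.sum_congr rfl fun j _ => ?_
    by_cases h : f i j = 0
    · simp [h]
    · rw [hf.deg i j h]

theorem IsHom.comp {E E' E'' : MC B} {f : Matrix E'.ι E.ι B} {g : Matrix E''.ι E'.ι B}
    (hf : IsHom E E' f) (hg : IsHom E' E'' g) : IsHom E E'' (g * f) := by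
  refine ⟨fun i j h => ?_, ?_⟩
  · rw [Matrix.mul_apply] at h
    obtain ⟨l, -, hl⟩ := Finset.exists_ne_zero_of_sum_ne_zero h
    exact (hg.deg i l (left_ne_zero_of_mul hl)).trans (hf.deg l j (right_ne_zero_of_mul hl))
  · rw [Matrix.mul_assoc, hf.comm, ← Matrix.mul_assoc, hg.comm, Matrix.mul_assoc]

theorem IsHom.map {B' : Type} [CommRing B'] {E E' : MC B} {f : Matrix E'.ι E.ι B}
    (hf : IsHom E E' f) (φ : B →+* B') : IsHom (E.map φ) (E'.map φ) (f.map φ) := by
  refine ⟨fun i j h => hf.deg i j fun h0 => h (by simp [h0]), ?_⟩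
  change f.map φ * E.d.map φ = E'.d.map φ * f.map φ
  rw [← Matrix.map_mul, ← Matrix.map_mul, hf.comm]

theorem cone_map {B' : Type} [CommRing B'] {E E' : MC B} {f : Matrix E'.ι E.ι B}
    (hf : IsHom E E' f) (φ : B →+* B') : (cone hf).map φ = cone (hf.map φ) := by
  unfold cone MC.map
  congr 1
  ext (i | i) (j | j) <;> simp

theorem map_map {B' B'' : Type} [CommRing B'] [CommRing B''] (E : MC B) (φ : B →+* B')
    (ψ : B' →+* B'') : (E.map φ).map ψ = E.map (ψ.comp φ) := by
  rfl

theorem map_id (E : MC B) : E.map (RingHom.id B) = E := by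
  rfl

theorem app_cone_iso {E E' : MC B} {f : Matrix E'.ι E.ι B} (hf : IsHom E E' f) (C : DG B X) :
    ((cone hf).app C).Iso (DG.cone (hf.isMap C)) := by
  refine ⟨LinearEquiv.sumArrowLequivProdArrow E'.ι E.ι B X, fun x => ?_, fun k x => ?_⟩
  · refine Prod.ext (funext fun i => ?_) (funext fun i => ?_)
    · change ∑ j : E'.ι ⊕ E.ι, Matrix.fromBlocks E'.d f 0 (-E.d) (Sum.inl i) j • x j +
        sg (E'.deg i) • C.D (x (Sum.inl i)) = ∑ j, E'.d i j • x (Sum.inl j) +
        sg (E'.deg i) • C.D (x (Sum.inl i)) + ∑ j, f i j • x (Sum.inr j)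
      rw [Fintype.sum_sum_type]
      simp only [Matrix.fromBlocks_apply₁₁, Matrix.fromBlocks_apply₁₂]
      abel
    · change ∑ j : E'.ι ⊕ E.ι, Matrix.fromBlocks E'.d f 0 (-E.d) (Sum.inr i) j • x j +
        sg (E.deg i + 1) • C.D (x (Sum.inr i)) = -(∑ j, E.d i j • x (Sum.inr j) +
        sg (E.deg i) • C.D (x (Sum.inr i)))
      rw [Fintype.sum_sum_type, HApp_sg_succ]
      simp only [Matrix.fromBlocks_apply₂₁, Matrix.fromBlocks_apply₂₂, Matrix.zero_apply,
        zero_smul, Finset.sum_const_zero, zero_add, Matrix.neg_apply, neg_smul,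
        Finset.sum_neg_distrib, neg_add]
  · refine Prod.ext rfl (funext fun i => ?_)
    change C.π (k - (E.deg i + 1)) (x (Sum.inr i)) = C.π (k - 1 - E.deg i) (x (Sum.inr i))
    congr 2
    ring

theorem coneS_app_iso (E : MC B) (a : B) (C : DG B X) :
    ((E.coneS a).app C).Iso ((E.app C).coneS a) := by
  refine (app_cone_iso _ C).trans (HApp_cone_congr _ _ ?_)
  refine LinearMap.ext fun x => funext fun i => ?_
  simp [matApp_apply, Matrix.diagonal_apply, ite_smul]

theorem cone_app_iso (E : MC B) {f : X →ₗ[B] X'} (hf : IsMap C C' f) :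
    (E.app (DG.cone hf)).Iso (DG.cone (E.app_isMap hf)) := by
  refine HApp_iso (f := LinearMap.prod ((LinearMap.fst B X' X).compLeft E.ι)
    (LinearMap.pi fun i => sg (E.deg i) • (LinearMap.snd B X' X ∘ₗ LinearMap.proj i)))
    ⟨fun x => ?_, fun k x => ?_⟩ ⟨fun x y h => ?_, fun y => ?_⟩
  · refine Prod.ext (funext fun i => ?_) (funext fun i => ?_)
    · change (∑ j, E.d i j • x j + sg (E.deg i) • (DG.cone hf).D (x i)).1 =
        ∑ j, E.d i j • (x j).1 + sg (E.deg i) • C'.D (x i).1 + f (sg (E.deg i) • (x i).2)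
      simp only [Prod.fst_add, Prod.fst_sum, Prod.smul_fst, cone_D, smul_add, map_zsmul, add_assoc]
    · change sg (E.deg i) • (∑ j, E.d i j • x j + sg (E.deg i) • (DG.cone hf).D (x i)).2 =
        -(∑ j, E.d i j • sg (E.deg j) • (x j).2 + sg (E.deg i) • C.D (sg (E.deg i) • (x i).2))
      simp only [Prod.snd_add, Prod.snd_sum, Prod.smul_snd, cone_D, smul_add, map_zsmul,
        HApp_sg_sg, neg_add, Finset.smul_sum, ← Finset.sum_neg_distrib]
      congr 1
      refine Finset.sum_congr rfl fun j _ => ?_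
      by_cases h : E.d i j = 0
      · simp [h]
      · rw [E.hdeg i j h, HApp_sg_succ, neg_smul, smul_neg, neg_neg, smul_comm]
  · refine Prod.ext rfl (funext fun i => ?_)
    change sg (E.deg i) • C.π (k - E.deg i - 1) (x i).2 =
      C.π (k - 1 - E.deg i) (sg (E.deg i) • (x i).2)
    rw [map_zsmul, sub_right_comm]
  · funext i
    have h1 : (x i).1 = (y i).1 := congrFun (congrArg Prod.fst h) i
    have h2 : sg (E.deg i) • (x i).2 = sg (E.deg i) • (y i).2 := congrFun (congrArg Prod.snd h) i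
    refine Prod.ext h1 ?_
    rw [← HApp_sg_sg (E.deg i) (x i).2, h2, HApp_sg_sg]
  · exact ⟨fun i => (y.1 i, sg (E.deg i) • y.2 i),
      Prod.ext rfl (funext fun i => HApp_sg_sg _ _)⟩

theorem app_coneS_iso (E : MC B) (a : B) (C : DG B X) :
    (E.app (C.coneS a)).Iso ((E.app C).coneS a) := by
  exact (cone_app_iso E _).trans (HApp_cone_congr _ _ rfl)

theorem swap_iso (E E' : MC B) (C : DG B X) : (E.app (E'.app C)).Iso (E'.app (E.app C)) := by
  refine HApp_iso (f := LinearMap.pi fun i' => LinearMap.pi fun i =>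
    sg (E.deg i * E'.deg i') • (LinearMap.proj (R := B) (φ := fun _ => X) i' ∘ₗ
      LinearMap.proj (R := B) (φ := fun _ => E'.ι → X) i))
    ⟨fun x => ?_, fun k x => ?_⟩ ⟨fun x y h => ?_, fun y => ?_⟩
  · funext i' i
    change sg (E.deg i * E'.deg i') •
        (∑ j, E.d i j • x j + sg (E.deg i) • (E'.app C).D (x i)) i' =
      (∑ j', E'.d i' j' • (fun i => sg (E.deg i * E'.deg j') • x i j') +
        sg (E'.deg i') • (E.app C).D (fun i => sg (E.deg i * E'.deg i') • x i i')) i
    simp only [Pi.add_apply, Finset.sum_apply, Pi.smul_apply, app_D, smul_add, map_zsmul,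
      Finset.smul_sum]
    rw [add_left_comm]
    congr 1
    · refine Finset.sum_congr rfl fun j _ => ?_
      by_cases h : E'.d i' j = 0
      · simp [h]
      · rw [E'.hdeg i' j h, mul_add, mul_one, HApp_sg_add, mul_smul, smul_comm (E'.d i' j),
          smul_comm (E'.d i' j)]
    · congr 1
      · refine Finset.sum_congr rfl fun j _ => ?_
        by_cases h : E.d i j = 0
        · simp [h]
        · rw [E.hdeg i j h, add_mul, one_mul, HApp_sg_add, mul_comm (sg _), mul_smul,
            smul_comm (E.d i j), HApp_sg_sg, smul_comm (E.d i j)]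
      · simp only [smul_smul]
        congr 1
        ring
  · funext i' i
    change sg (E.deg i * E'.deg i') • C.π (k - E.deg i - E'.deg i') (x i i') =
      C.π (k - E'.deg i' - E.deg i) (sg (E.deg i * E'.deg i') • x i i')
    rw [map_zsmul, sub_right_comm]
  · funext i i'
    have h2 : sg (E.deg i * E'.deg i') • x i i' = sg (E.deg i * E'.deg i') • y i i' :=
      congrFun (congrFun h i') i
    rw [← HApp_sg_sg (E.deg i * E'.deg i') (x i i'), h2, HApp_sg_sg]
  · exact ⟨fun i i' => sg (E.deg i * E'.deg i') • y i' i,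
      funext fun i' => funext fun i => HApp_sg_sg _ _⟩

theorem app_iso (E : MC B) (h : C.Iso C') : (E.app C).Iso (E.app C') := by
  obtain ⟨e, he⟩ := h
  exact HApp_iso (E.app_isMap he) ⟨e.injective.comp_left, e.surjective.comp_left⟩

theorem app_H_le (E : MC B) (C : DG B X) (μ : LF B) (n : ℤ) :
    (E.app C).H μ n ≤ ∑ i, C.H μ (n - E.deg i) := by
  refine HApp_ind E C (fun s A => (E.app C).h μ n A ⊥ ≤ ∑ i ∈ s, C.H μ (n - E.deg i))
    (by rw [h_self]; exact zero_le) fun a s A A' ha sA sA' hle he ih => ?_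
  rw [Finset.sum_insert ha, ← he, add_comm]
  exact ((E.app C).h_le_add μ sA sA' (sub_bot _) hle bot_le n).trans (add_le_add ih le_rfl)

theorem app_th_le (E : MC B) (C : DG B X) (μ : LF B) :
    (E.app C).th μ ≤ Fintype.card E.ι * C.th μ := by
  refine (ENNReal.tsum_le_tsum fun k => E.app_H_le C μ k).trans (le_of_eq ?_)
  rw [Summable.tsum_finsetSum fun _ _ => ENNReal.summable]
  have : ∀ i, ∑' k : ℤ, C.H μ (k - E.deg i) = C.th μ := fun i =>
    (Equiv.subRight (E.deg i)).tsum_eq fun k => C.H μ k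
  simp [this]

theorem app_finH (E : MC B) (h : C.FinH μ ⊤ ⊥) : (E.app C).FinH μ ⊤ ⊥ := by
  exact fun k => ne_top_of_le_ne_top (ENNReal.sum_ne_top.2 fun i _ => h _) (E.app_H_le C μ k)

theorem app_acyc (E : MC B) (h : C.Acyc) : (E.app C).Acyc := by
  refine acycOn_of_length fun k => le_antisymm ((E.app_H_le C _ k).trans (le_of_eq ?_)) zero_le
  exact Finset.sum_eq_zero fun i _ => h.h_eq_zero _ _

theorem app_qi (E : MC B) {f : X →ₗ[B] X'} (hf : QI C C' f) :
    QI (E.app C) (E.app C') (f.compLeft E.ι) := by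
  exact (cone_acyc_iff _).1 ((HApp_iso_acyc (E.cone_app_iso hf.toIsMap)).1
    (E.app_acyc ((cone_acyc_iff _).2 hf)))

theorem ech_app (E : MC B) (hC : C.Bdd) (h : C.FinH μ ⊤ ⊥) :
    (E.app C).ech μ ⊤ ⊥ = (∑ i, (sg (E.deg i) : ℝ)) * C.ech μ ⊤ ⊥ := by
  refine (HApp_ind E C (fun s A => (E.app C).FinH μ A ⊥ ∧
    (E.app C).ech μ A ⊥ = (∑ i ∈ s, (sg (E.deg i) : ℝ)) * C.ech μ ⊤ ⊥)
    ⟨fun k => by rw [h_self]; exact ENNReal.zero_ne_top, by
      rw [ech_eq_zero fun k => h_self _ _ k _, Finset.sum_empty, zero_mul]⟩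
    fun a s A A' ha sA sA' hle he ih => ?_).2
  have f1 : (E.app C).FinH μ A A' := fun k => by rw [he]; exact h _
  refine ⟨FinH.mid sA sA' (sub_bot _) hle bot_le f1 ih.1, ?_⟩
  rw [ech_add (E.app_bdd hC) sA sA' (sub_bot _) hle bot_le f1 ih.1, ih.2, Finset.sum_insert ha,
    ech_shift (-E.deg a) fun k => (he μ k).trans (by rw [sub_eq_add_neg]), sg, Int.negOnePow_neg]
  ring

theorem Null.nullH {E : MC B} {a : B} (h : E.Null a) (C : DG B X) : (E.app C).NullH a := by
  obtain ⟨h, h1, h2⟩ := h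
  refine ⟨matApp h X, fun k x => funext fun i => ?_, fun x => funext fun i => ?_⟩
  · simp only [app_π, matApp_apply, map_sum, map_smul]
    refine Finset.sum_congr rfl fun j _ => ?_
    by_cases e : h i j = 0
    · simp [e]
    · rw [h1 i j e, add_sub_add_right_eq_sub]
  · have a1 := congrFun (matApp_mul E.d h x) i
    have a2 := congrFun (matApp_mul h E.d x) i
    have a3 : matApp (E.d * h) X x i + matApp (h * E.d) X x i = a • x i := by
      rw [matApp_apply, matApp_apply, ← Finset.sum_add_distrib]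
      simp only [← add_smul, ← Matrix.add_apply, h2]
      simp [Matrix.diagonal_apply, ite_smul]
    rw [a1, a2] at a3
    simp only [matApp_apply] at a3
    have a4 : ∑ j, sg (E.deg i) • h i j • C.D (x j) + ∑ j, h i j • sg (E.deg j) • C.D (x j) = 0 := by
      rw [← Finset.sum_add_distrib]
      refine Finset.sum_eq_zero fun j _ => ?_
      by_cases e : h i j = 0
      · simp [e]
      · rw [h1 i j e, HApp_sg_succ, neg_smul, smul_comm (h i j), neg_add_cancel]
    simp only [Pi.add_apply, Pi.smul_apply, app_D, matApp_apply, smul_add,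
      Finset.sum_add_distrib, map_sum, map_smul]
    rw [Finset.smul_sum (r := sg (E.deg i)), add_add_add_comm, a3, a4, add_zero]

theorem app_nullH (E : MC B) {a : B} (h : C.NullH a) : (E.app C).NullH a := by
  obtain ⟨h, h1, h2⟩ := h
  refine ⟨LinearMap.pi fun i => sg (E.deg i) • (h ∘ₗ LinearMap.proj i),
    fun k x => funext fun i => ?_, fun x => funext fun i => ?_⟩
  · change sg (E.deg i) • h (C.π (k - E.deg i) (x i)) =
      C.π (k + 1 - E.deg i) (sg (E.deg i) • h (x i))
    rw [h1, map_zsmul, sub_add_eq_add_sub]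
  · change ∑ j, E.d i j • sg (E.deg j) • h (x j) + sg (E.deg i) • C.D (sg (E.deg i) • h (x i)) +
      sg (E.deg i) • h (∑ j, E.d i j • x j + sg (E.deg i) • C.D (x i)) = a • x i
    have a4 : ∑ j, E.d i j • sg (E.deg j) • h (x j) + ∑ j, sg (E.deg i) • E.d i j • h (x j) = 0 := by
      rw [← Finset.sum_add_distrib]
      refine Finset.sum_eq_zero fun j _ => ?_
      by_cases e : E.d i j = 0
      · simp [e]
      · rw [E.hdeg i j e, HApp_sg_succ, neg_smul, smul_neg, smul_comm (E.d i j), neg_add_cancel]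
    simp only [map_add, map_sum, map_smul, map_zsmul, smul_add, HApp_sg_sg]
    rw [Finset.smul_sum (r := sg (E.deg i)), add_add_add_comm, a4, h2, zero_add]

theorem HApp_matApp_mulVec {ι κ : Type} [Fintype κ] (f : Matrix ι κ B) (x : κ → B) :
    matApp f B x = f.mulVec x := rfl

theorem null_iff {E : MC B} {a : B} : E.Null a ↔ (E.ap B).NullH a := by
  refine ⟨fun h => h.nullH _, ?_⟩
  rintro ⟨h, h1, h2⟩
  have key : ∀ x, h x = matApp (LinearMap.toMatrix' h) B x := fun x => by
    rw [HApp_matApp_mulVec, LinearMap.toMatrix'_mulVec]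
  refine ⟨LinearMap.toMatrix' h, fun i j hij => ?_, ?_⟩
  · by_contra hc
    apply hij
    have e : (E.ap B).π (E.deg j) (Pi.single j 1) = Pi.single j 1 := by
      funext l
      rw [ap_π]
      split_ifs with hl
      · rfl
      · rw [Pi.single_eq_of_ne]
        rintro rfl
        exact hl rfl
    change h (Pi.single j 1) i = 0
    rw [← e, h1, ap_π, if_neg hc]
  · ext i j
    have := congrFun (h2 (Pi.single j 1)) i
    rw [ap_D, ap_D, key, key, ← matApp_mul, ← matApp_mul] at this
    simpa [matApp_apply, Pi.single_apply, Matrix.diagonal_apply] using this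

theorem Null.map {B' : Type} [CommRing B'] {E : MC B} {a : B} (h : E.Null a) (φ : B →+* B') :
    (E.map φ).Null (φ a) := by
  obtain ⟨h, h1, h2⟩ := h
  refine ⟨h.map φ, fun i j e => h1 i j fun h0 => e (by simp [h0]), ?_⟩
  change E.d.map φ * h.map φ + h.map φ * E.d.map φ = Matrix.scalar E.ι (φ a)
  rw [← Matrix.map_mul, ← Matrix.map_mul, ← Matrix.map_add _ (map_add φ), h2]
  ext i j
  simp [Matrix.diagonal_apply, apply_ite φ]

theorem Null.mul {E : MC B} {a : B} (h : E.Null a) (c : B) : E.Null (c * a) := by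
  exact null_iff.2 ((null_iff.1 h).mul c)

theorem Null.add {E : MC B} {a b : B} (h : E.Null a) (h' : E.Null b) : E.Null (a + b) := by
  exact null_iff.2 ((null_iff.1 h).add (null_iff.1 h'))

theorem Supp.mono {E : MC B} {J J' : Ideal B} (h : E.Supp J) (hJ : J' ≤ J.radical) :
    E.Supp J' := by
  intro a ha
  obtain ⟨n, hn⟩ := hJ ha
  obtain ⟨c, hc⟩ := h _ hn
  exact ⟨n * c, by rwa [pow_mul]⟩

theorem Supp.map {B' : Type} [CommRing B'] {E : MC B} {J : Ideal B} (h : E.Supp J)
    (φ : B →+* B') : (E.map φ).Supp (J.map φ) := by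
  have : J.map φ ≤ ((E.map φ).ap B').nullI.radical := Ideal.map_le_iff_le_comap.2 fun a ha => by
    obtain ⟨c, hc⟩ := h a ha
    exact ⟨c, by rw [← map_pow]; exact null_iff.1 (hc.map φ)⟩
  intro a ha
  obtain ⟨c, hc⟩ := this ha
  exact ⟨c, null_iff.2 hc⟩

theorem Supp.cone {E E' : MC B} {f : Matrix E'.ι E.ι B} (hf : IsHom E E' f) {J : Ideal B}
    (h : E.Supp J) (h' : E'.Supp J) : (cone hf).Supp J := by
  intro a ha
  obtain ⟨c, hc⟩ := h a ha
  obtain ⟨c', hc'⟩ := h' a ha
  refine ⟨(c + c') * 2, null_iff.2 ((app_cone_iso hf _).symm.nullH ?_)⟩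
  rw [pow_mul]
  refine NullH.cone _ ?_ ?_
  · rw [pow_add, mul_comm]
    exact (hc.mul _).nullH _
  · rw [pow_add]
    exact (hc'.mul _).nullH _

theorem Supp.shift {E : MC B} {J : Ideal B} (h : E.Supp J) (n : ℤ) : (E.shift n).Supp J := by
  intro a ha
  obtain ⟨c, g, h1, h2⟩ := h a ha
  refine ⟨c, sg n • g, fun i j e => ?_, ?_⟩
  · have := h1 i j fun h0 => e (by simp [h0])
    change E.deg i + n = E.deg j + n + 1
    omega
  · change sg n • E.d * sg n • g + sg n • g * sg n • E.d = Matrix.scalar E.ι (a ^ c)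
    rw [Matrix.smul_mul, Matrix.mul_smul, Matrix.smul_mul, Matrix.mul_smul, HApp_sg_sg,
      HApp_sg_sg, h2]

theorem shift_app_H (E : MC B) (n : ℤ) (C : DG B X) (μ : LF B) (k : ℤ) :
    ((E.shift n).app C).H μ k = (E.app C).H μ (k - n) := by
  have : (E.shift n).app C = HApp_tw (E.app C) n := by
    refine HApp_ext (fun x => funext fun i => ?_) fun k x => funext fun i => ?_
    · change ∑ j, (sg n • E.d i j) • x j + sg (E.deg i + n) • C.D (x i) =
        sg n • (∑ j, E.d i j • x j + sg (E.deg i) • C.D (x i))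
      rw [smul_add, Finset.smul_sum, HApp_sg_add, mul_comm, mul_smul]
      simp only [smul_assoc]
    · change C.π (k - (E.deg i + n)) (x i) = C.π (k - n - E.deg i) (x i)
      congr 2
      ring
  exact (congrArg (fun Y : DG B (E.ι → X) => Y.H μ k) this).trans (HApp_tw_h _ n μ k ⊤ ⊥)

theorem shift_app_ech (E : MC B) (n : ℤ) (C : DG B X) (μ : LF B) :
    ((E.shift n).app C).ech μ ⊤ ⊥ = sg n * (E.app C).ech μ ⊤ ⊥ := by
  rw [ech_shift (E := E.app C) (μ' := μ) (P := ⊤) (P' := ⊥) (-n)
    fun k => (E.shift_app_H n C μ k).trans (by rw [sub_eq_add_neg]), sg, Int.negOnePow_neg]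

theorem free_app_iso (C : DG B X) : ((free B Unit 0).app C).Iso C := by
  refine HApp_iso (f := LinearMap.proj (φ := fun _ : Unit => X) ()) ⟨fun x => ?_, fun k x => ?_⟩
    ⟨fun x y h => funext fun _ => h, fun y => ⟨fun _ => y, rfl⟩⟩
  · change ∑ j : Unit, (0 : B) • x j + sg 0 • C.D (x ()) = C.D (x ())
    simp [sg]
  · change C.π (k - 0) (x ()) = C.π k (x ())
    rw [sub_zero]

theorem free_app_H (κ : Type) [Fintype κ] [DecidableEq κ] (n : ℤ) (C : DG B X) (μ : LF B)
    (k : ℤ) : ((free B κ n).app C).H μ k = Fintype.card κ * C.H μ (k - n) := by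
  have hD : ∀ (x : κ → X) (i : κ), ((free B κ n).app C).D x i = (HApp_tw C n).D (x i) := by
    intro x i
    change ∑ j : κ, (0 : B) • x j + sg n • C.D (x i) = sg n • C.D (x i)
    simp
  have e1 : ((free B κ n).app C).Z k ⊤ ⊥ =
      Submodule.pi Set.univ fun _ : κ => (HApp_tw C n).Z k ⊤ ⊥ := by
    ext x
    rw [mem_Z]
    constructor
    · rintro ⟨⟨-, h1⟩, h2⟩ i _
      exact (mem_Z _).2 ⟨⟨trivial, congrFun h1 i⟩, (hD x i).symm.trans (congrFun h2 i)⟩
    · intro h
      exact ⟨⟨trivial, funext fun i => ((mem_Z _).1 (h i trivial)).1.2⟩,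
        funext fun i => (hD x i).trans ((mem_Z _).1 (h i trivial)).2⟩
  have e2 : ((free B κ n).app C).Bd ⊤ ⊥ =
      Submodule.pi Set.univ fun _ : κ => (HApp_tw C n).Bd ⊤ ⊥ := by
    ext x
    simp only [Bd, sup_bot_eq]
    constructor
    · rintro ⟨y, -, rfl⟩ i _
      exact ⟨y i, trivial, (hD y i).symm⟩
    · intro h
      choose y _ hy using fun i => h i trivial
      exact ⟨y, trivial, funext fun i => (hD y i).trans (hy i)⟩
  refine (congrArg₂ μ.sz e1 e2).trans ((μ.sz_pi _ _).trans ?_)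
  rw [Finset.sum_const, Finset.card_univ, nsmul_eq_mul]
  exact congrArg _ (HApp_tw_h C n μ k ⊤ ⊥)

section res

variable {S : Type} [CommRing S] [Algebra S B] [Module S X] [IsScalarTower S B X]

theorem map_app_res (E : MC S) (C : DG B X) :
    ((E.map (algebraMap S B)).app C).res S = E.app (C.res S) := by
  refine HApp_ext (fun x => funext fun i => ?_) fun k x => rfl
  change ∑ j : E.ι, algebraMap S B (E.d i j) • x j + sg (E.deg i) • C.D (x i) =
    ∑ j, E.d i j • x j + sg (E.deg i) • C.D (x i)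
  simp only [algebraMap_smul]

theorem map_ap_h (E : MC S) (μ : LF S) (k : ℤ) (A A' : Submodule B (E.ι → X)) :
    ((E.map (algebraMap S B)).ap X).h (μ.comap (algebraMap S B)) k A A' =
      (E.ap X).h μ k (A.restrictScalars S) (A'.restrictScalars S) := by
  have e : ((E.map (algebraMap S B)).ap X).res S = E.ap X :=
    (map_app_res E (single B X)).trans (congrArg E.app (res_single S X))
  exact (res_h S _ μ k A A').trans (congrArg (fun Y : DG S (E.ι → X) =>
    Y.h μ k (A.restrictScalars S) (A'.restrictScalars S)) e)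

theorem map_ap_H (E : MC S) (μ : LF S) (k : ℤ) :
    ((E.map (algebraMap S B)).ap X).H (μ.comap (algebraMap S B)) k = (E.ap X).H μ k := by
  exact map_ap_h E μ k ⊤ ⊥

theorem chi_map (E : MC S) (μ : LF S) :
    (E.map (algebraMap S B)).chi (μ.comap (algebraMap S B)) X = E.chi μ X := by
  exact ech_congr (map_ap_H E μ)

end res

section modules

variable (E : MC B) {M : Type} [AddCommGroup M] [Module B M] {M' : Type} [AddCommGroup M']
  [Module B M'] {M'' : Type} [AddCommGroup M''] [Module B M'']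

theorem sub_cst (P : Submodule B M) : (E.ap M).Sub (cst E.ι P) := by
  refine ⟨fun x hx i _ => ?_, fun k x hx i _ => ?_⟩
  · rw [ap_D, matApp_apply]
    exact P.sum_mem fun j _ => P.smul_mem _ (hx j trivial)
  · rw [ap_π]
    split_ifs
    · exact hx i trivial
    · exact P.zero_mem

theorem ap_iso (e : M ≃ₗ[B] M') : (E.ap M).Iso (E.ap M') := by
  exact E.app_iso ⟨e, single_isMap _⟩

theorem ap_H_sub (P : Submodule B M) (μ : LF B) (k : ℤ) :
    (E.ap P).H μ k = (E.ap M).h μ k (cst E.ι P) ⊥ := by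
  rw [← HCone_h_sub (E.app_isMap (single_isMap P.subtype)) P.injective_subtype.comp_left]
  congr 1
  ext x
  constructor
  · rintro ⟨y, rfl⟩ i _
    exact (y i).2
  · exact fun h => ⟨fun i => ⟨x i, h i trivial⟩, rfl⟩

theorem ap_H_quot (P : Submodule B M) (μ : LF B) (k : ℤ) :
    (E.ap (M ⧸ P)).H μ k = (E.ap M).h μ k ⊤ (cst E.ι P) := by
  have := (E.app_isMap (single_isMap P.mkQ)).h_comap P.mkQ_surjective.comp_left (sub_top _)
    (sub_bot _) bot_le μ k
  rw [H, ← this, Submodule.comap_top]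
  congr 1
  ext x
  exact funext_iff.trans ⟨fun h i _ => (Submodule.Quotient.mk_eq_zero P).1 (h i),
    fun h i => (Submodule.Quotient.mk_eq_zero P).2 (h i trivial)⟩

theorem ap_h_cst_le (P P' : Submodule B M) (μ : LF B) (k : ℤ) :
    (E.ap M).h μ k (cst E.ι P) (cst E.ι P') ≤ Fintype.card E.ι * μ.sz P P' := by
  refine (h_le_sz _ _ k).trans ((μ.sz_mono inf_le_left le_rfl).trans (le_of_eq ?_))
  rw [μ.sz_pi, Finset.sum_const, Finset.card_univ, nsmul_eq_mul]

theorem HApp_single_finH (h : μ.val M ≠ ⊤) : (single B M).FinH μ ⊤ ⊥ := fun k => by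
  rw [← H, single_H]
  split_ifs
  · exact h
  · exact ENNReal.zero_ne_top

theorem HApp_exact {f : M →ₗ[B] M'} {g : M' →ₗ[B] M''} (he : Function.Exact f g) :
    Function.Exact (f.compLeft E.ι) (g.compLeft E.ι) := by
  intro y
  constructor
  · intro h
    choose x hx using fun i => (he (y i)).1 (congrFun h i)
    exact ⟨x, funext hx⟩
  · rintro ⟨x, rfl⟩
    exact funext fun i => he.apply_apply_eq_zero (x i)

theorem fin'_of_val (h : μ.val M ≠ ⊤) : E.Fin' μ M := by
  exact E.app_finH (HApp_single_finH h)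

theorem chi_of_val (h : μ.val M ≠ ⊤) :
    E.chi μ M = (∑ i, (sg (E.deg i) : ℝ)) * (μ.val M).toReal := by
  rw [← single_ech M μ]
  exact E.ech_app (single_bdd M) (HApp_single_finH h)

variable {E} in
theorem Fin'.ses_mid {f : M →ₗ[B] M'} {g : M' →ₗ[B] M''} (hi : Function.Injective f)
    (hs : Function.Surjective g) (he : Function.Exact f g) (h₁ : E.Fin' μ M) (h₃ : E.Fin' μ M'') :
    E.Fin' μ M' := by
  exact fun k => ne_top_of_le_ne_top (ENNReal.add_ne_top.2 ⟨h₁ k, h₃ k⟩)
    (ses_mid_le (E.app_isMap (single_isMap f)) (E.app_isMap (single_isMap g)) hi.comp_left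
      hs.comp_left (HApp_exact E he) μ k)

theorem chi_ses {f : M →ₗ[B] M'} {g : M' →ₗ[B] M''} (hi : Function.Injective f)
    (hs : Function.Surjective g) (he : Function.Exact f g) (h₁ : E.Fin' μ M) (h₃ : E.Fin' μ M'') :
    E.chi μ M' = E.chi μ M + E.chi μ M'' := by
  exact ech_ses (E.app_isMap (single_isMap f)) (E.app_isMap (single_isMap g)) hi.comp_left
    hs.comp_left (HApp_exact E he) (E.ap_bdd M') h₁ h₃

variable {E} in
/-- finiteness of the homology from the support -/
theorem Supp.fin' [IsNoetherianRing B] {J : Ideal B} (h : E.Supp J) [Module.Finite B M]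
    (hμ : ∀ c : ℕ, μ.val (B ⧸ (J ⊔ Module.annihilator B M) ^ c) ≠ ⊤) : E.Fin' μ M := by
  have : J ⊔ Module.annihilator B M ≤ (E.ap M).nullI.radical := by
    refine sup_le (fun a ha => ?_) fun a ha => Ideal.le_radical ?_
    · obtain ⟨c, hc⟩ := h a ha
      exact ⟨c, hc.nullH _⟩
    · exact E.app_nullH (single_nullH (Module.mem_annihilator.1 ha))
  exact finH_of_nullH _ this hμ

variable {E} in
/-- the local case: `J + Ann M` is primary to the maximal ideal -/
theorem Supp.fin'_length [IsNoetherianRing B] [IsLocalRing B] {J : Ideal B} (h : E.Supp J)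
    [Module.Finite B M]
    (hJ : ∃ c : ℕ, IsLocalRing.maximalIdeal B ^ c ≤ J ⊔ Module.annihilator B M) :
    E.Fin' (LF.length B) M := by
  obtain ⟨c₀, hc₀⟩ := hJ
  refine h.fin' fun c => ?_
  rw [LF.length_val]
  refine ENat.toENNReal_ne_top.2 (length_ne_top_of_pow (IsLocalRing.maximalIdeal B)
    (IsNoetherian.noetherian _) _ ⟨c₀ * c, LF.LFkill_quot_ideal ?_⟩)
  rw [pow_mul]
  exact Ideal.pow_right_mono hc₀ c

end modules

/-- an acyclic finite free complex is contractible -/
theorem null_one_of_acyc (E : MC B) (h : (E.ap B).Acyc) : E.Null 1 := by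
  have key := HApp_ind0 E (fun s => ∃ g : Matrix E.ι E.ι B,
    (∀ i j, g i j ≠ 0 → E.deg i = E.deg j + 1) ∧
      ∀ j ∈ s, ∀ i, (E.d * g + g * E.d) i j = (1 : Matrix E.ι E.ι B) i j)
    ⟨0, fun i j e => absurd rfl e, fun j hj => absurd hj (Finset.notMem_empty j)⟩ ?_
  · obtain ⟨g, h1, h2⟩ := key
    refine ⟨g, h1, ?_⟩
    rw [map_one]
    ext i j
    exact h2 j (Finset.mem_univ j) i
  rintro a s ha hm hc ⟨g, h1, h2⟩
  have hz : (E.ap B).π (E.deg a) (fun i => (1 - g * E.d) i a) = fun i => (1 - g * E.d) i a := by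
    funext i
    rw [ap_π]
    split_ifs with hi
    · rfl
    · rw [Matrix.sub_apply, Matrix.one_apply_ne fun e => hi (by rw [e]), Matrix.mul_apply,
        Finset.sum_eq_zero, sub_zero]
      intro l _
      by_contra hl
      have b1 := h1 i l (left_ne_zero_of_mul hl)
      have b2 := E.hdeg l a (right_ne_zero_of_mul hl)
      omega
  have hD : (E.ap B).D (fun i => (1 - g * E.d) i a) = 0 := by
    funext i
    have b1 : ((E.d * g + g * E.d) * E.d) i a = ((1 : Matrix E.ι E.ι B) * E.d) i a := by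
      rw [Matrix.mul_apply, Matrix.mul_apply]
      refine Finset.sum_congr rfl fun l _ => ?_
      by_cases e : E.d l a = 0
      · rw [e, mul_zero, mul_zero]
      · rw [h2 l (hc l (by rw [E.hdeg l a e]; omega))]
    rw [Matrix.add_mul, Matrix.mul_assoc g, E.dd, Matrix.mul_zero, add_zero, Matrix.one_mul,
      Matrix.mul_assoc] at b1
    rw [ap_D]
    change (E.d * (1 - g * E.d)) i a = 0
    rw [Matrix.mul_sub, Matrix.mul_one, Matrix.sub_apply, b1, sub_self]
  obtain ⟨y, -, hy⟩ := h _ _ trivial hz hD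
  obtain ⟨w, hw1, hw2⟩ := (E.ap B).HCone_hom rfl hz hy.symm
  have hgd : ∀ j ∈ insert a s, ∀ i, (g.updateCol a w * E.d) i j = (g * E.d) i j := by
    intro j hj i
    rw [Matrix.mul_apply, Matrix.mul_apply]
    refine Finset.sum_congr rfl fun l _ => ?_
    by_cases e : E.d l j = 0
    · rw [e, mul_zero, mul_zero]
    · rw [Matrix.updateCol_ne]
      rintro rfl
      have b := E.hdeg l j e
      rcases Finset.mem_insert.1 hj with rfl | hj
      · omega
      · have := hm j hj
        omega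
  refine ⟨g.updateCol a w, fun i j e => ?_, fun j hj i => ?_⟩
  · by_cases hj : j = a
    · subst hj
      rw [Matrix.updateCol_self, ← hw1, ap_π] at e
      by_contra hc'
      exact e (if_neg hc')
    · rw [Matrix.updateCol_ne hj] at e
      exact h1 i j e
  · rw [Matrix.add_apply, hgd j hj]
    rcases Finset.mem_insert.1 hj with rfl | hj'
    · have b := congrFun hw2 i
      rw [ap_D, matApp_apply, Matrix.sub_apply, sub_eq_iff_eq_add] at b
      rw [b, Matrix.mul_apply]
      simp only [Matrix.updateCol_self, smul_eq_mul]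
    · rw [← h2 j hj' i, Matrix.add_apply, Matrix.mul_apply, Matrix.mul_apply (M := E.d)]
      have hja : j ≠ a := fun e => ha (e ▸ hj')
      simp only [Matrix.updateCol_ne hja]

theorem IsHom.qi_app {E E' : MC B} {f : Matrix E'.ι E.ι B} (hf : IsHom E E' f)
    (h : QI (E.ap B) (E'.ap B) (matApp f B)) (C : DG B X) :
    QI (E.app C) (E'.app C) (matApp f X) := by
  have h1 : ((cone hf).ap B).Acyc :=
    (HApp_iso_acyc (app_cone_iso hf _)).2 ((cone_acyc_iff _).2 h)
  exact (cone_acyc_iff _).1 ((HApp_iso_acyc (app_cone_iso hf C)).1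
    ((null_one_of_acyc _ h1).nullH C).acyc)

theorem app_π_neg (E : MC B) (hE : ∀ i, 0 ≤ E.deg i) (hC : ∀ k < 0, ∀ x, C.π k x = 0) :
    ∀ k < 0, ∀ x, (E.app C).π k x = 0 := by
  intro k hk x
  funext i
  have := hE i
  exact hC _ (by omega) _

theorem H_neg (hC : ∀ k < 0, ∀ x, C.π k x = 0) (μ : LF B) {k : ℤ} (hk : k < 0) : C.H μ k = 0 := by
  refine μ.sz_eq_zero_of_le fun x hx => ?_
  rw [← (C.mem_Z.1 hx).1.2, hC k hk]
  exact Submodule.zero_mem _

theorem ap_H_eq_zero (E : MC B) (M : Type) [AddCommGroup M] [Module B M] (μ : LF B) {k : ℤ}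
    (hk : ∀ i, E.deg i ≠ k) : (E.ap M).H μ k = 0 := by
  refine μ.sz_eq_zero_of_le fun x hx => ?_
  have : x = 0 := by
    rw [← ((E.ap M).mem_Z.1 hx).1.2]
    funext i
    rw [ap_π, if_neg (hk i)]
    rfl
  rw [this]
  exact Submodule.zero_mem _

end MC

end Crest.Agent.R188
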