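import Crest.Agent.R188.APsi
import Crest.Agent.R188.HApp

/-!
# Filtrations of a complex of tuples by a weight on the index set
-/

set_option autoImplicit false
set_option linter.unusedVariables false

open scoped ENNReal NNReal TensorProduct

namespace Crest.Agent.R188

open Crest.Agent.R183 Crest.Agent.R183.DG

section general

variable {B : Type} [CommRing B] {X : Type} [AddCommGroup X] [Module B X]
  {X' : Type} [AddCommGroup X'] [Module B X'] {C : DG B X} {C' : DG B X'}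

/-- transport along an isomorphism of complexes, with no hypothesis on the submodules -/
theorem APat_h_equiv (e : X ≃ₗ[B] X') (he : IsMap C C' e.toLinearMap) (E E' : Submodule B X')
    (μ : LF B) (n : ℤ) :
    C.h μ n (E.comap e.toLinearMap) (E'.comap e.toLinearMap) = C'.h μ n E E' := by
  have hD : ∀ x, e (C.D x) = C'.D (e x) := he.D
  have hπ : ∀ k x, e (C.π k x) = C'.π k (e x) := he.π
  have h1 : C'.Z n E E' = (C.Z n (E.comap e.toLinearMap) (E'.comap e.toLinearMap)).map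
      e.toLinearMap := by
    ext y
    obtain ⟨x, rfl⟩ := e.surjective y
    constructor
    · intro hy
      refine ⟨x, ?_, rfl⟩
      rw [mem_Z] at hy
      refine C.mem_Z.2 ⟨⟨hy.1.1, e.injective ?_⟩, ?_⟩
      · rw [hπ, hy.1.2]
      · change e (C.D x) ∈ E'
        rw [hD]
        exact hy.2
    · rintro ⟨x', hx', h⟩
      have h' : x' = x := e.injective h
      subst h'
      have hx := C.mem_Z.1 hx'
      refine C'.mem_Z.2 ⟨⟨hx.1.1, ?_⟩, ?_⟩
      · rw [← hπ, hx.1.2]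
      · rw [← hD]
        exact hx.2
  have h2 : (C'.Bd E E').comap e.toLinearMap =
      C.Bd (E.comap e.toLinearMap) (E'.comap e.toLinearMap) := by
    ext x
    rw [Submodule.mem_comap, mem_Bd, mem_Bd]
    constructor
    · rintro ⟨a, ha, b, hb, h⟩
      obtain ⟨a, rfl⟩ := e.surjective a
      obtain ⟨b, rfl⟩ := e.surjective b
      refine ⟨a, ha, b, hb, e.injective ?_⟩
      rw [map_add, hD]
      exact h
    · rintro ⟨a, ha, b, hb, rfl⟩
      refine ⟨e a, ha, e b, hb, ?_⟩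
      change _ = e (C.D a + b)
      rw [map_add, hD]
  unfold DG.h
  rw [h1, μ.sz_map_eq, h2]

/-- the homology of a direct summand is smaller -/
theorem APat_h_summand (p : X →ₗ[B] X) (hp : ∀ x, p (C.D x) = C.D (p x))
    {A A' W W' : Submodule B X} (h : W ≤ A) (h' : W' ≤ A') (hA : ∀ x ∈ A, p x ∈ W)
    (hA' : ∀ x ∈ A', p x ∈ W') (hW : ∀ x ∈ W, p x = x) (μ : LF B) (n : ℤ) :
    C.h μ n W W' ≤ C.h μ n A A' := by
  unfold DG.h
  refine le_trans (DG_le_right μ (Q' := C.Bd A A') ?_) (μ.sz_mono (C.Z_mono n h h') le_rfl)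
  rintro x ⟨hx, hx'⟩
  obtain ⟨a, ha, b, hb, hab⟩ := C.mem_Bd.1 hx'
  refine C.mem_Bd.2 ⟨p a, hA a ha, p b, hA' b hb, ?_⟩
  rw [← hp, ← map_add, hab]
  exact hW x (C.mem_Z.1 hx).1.1

end general

section filt

variable {B : Type} [CommRing B] {ι : Type} {M : Type} [AddCommGroup M] [Module B M]

variable (B M) in
/-- the projection on the weight `D` -/
def APat_p (w : ι → ℕ) (D : ℕ) : (ι → M) →ₗ[B] (ι → M) where
  toFun x t := if w t = D then x t else 0
  map_add' x y := by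
    funext t
    simp only [Pi.add_apply]
    split_ifs <;> simp
  map_smul' c x := by
    funext t
    simp only [Pi.smul_apply, RingHom.id_apply]
    split_ifs <;> simp

theorem APat_p_apply (w : ι → ℕ) (D : ℕ) (x : ι → M) (t : ι) :
    APat_p B M w D x t = if w t = D then x t else 0 := rfl

variable (B M) in
/-- tuples supported in weight `< D` -/
def APat_F (w : ι → ℕ) (D : ℕ) : Submodule B (ι → M) :=
  Submodule.pi {t | D ≤ w t} fun _ => ⊥

theorem APat_mem_F {w : ι → ℕ} {D : ℕ} {x : ι → M} :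
    x ∈ APat_F B M w D ↔ ∀ t, D ≤ w t → x t = 0 := Iff.rfl

/-- the weight `D` part of a coordinatewise lattice -/
def APat_W (w : ι → ℕ) (D : ℕ) (𝒢 : ι → Submodule B M) : Submodule B (ι → M) :=
  Submodule.pi Set.univ fun t => if w t = D then 𝒢 t else ⊥

theorem APat_mem_W {w : ι → ℕ} {D : ℕ} {𝒢 : ι → Submodule B M} {x : ι → M} :
    x ∈ APat_W w D 𝒢 ↔ ∀ t, (w t = D → x t ∈ 𝒢 t) ∧ (w t ≠ D → x t = 0) := by
  unfold APat_W
  rw [Submodule.mem_pi]
  refine forall_congr' fun t => ?_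
  by_cases h : w t = D <;> simp [h]

/-- the associated graded of a lattice -/
structure APat_Gr (w : ι → ℕ) (L : Submodule B (ι → M)) (𝒢 : ι → Submodule B M) : Prop where
  up : ∀ x ∈ L, ∀ t, (∀ t', w t < w t' → x t' = 0) → x t ∈ 𝒢 t
  gen : ∀ t, ∀ y ∈ 𝒢 t, ∃ x ∈ L, x t = y ∧ ∀ t', t' ≠ t → w t ≤ w t' → x t' = 0

theorem APat_gr_pi [DecidableEq ι] (w : ι → ℕ) (𝒢 : ι → Submodule B M) :
    APat_Gr w (Submodule.pi Set.univ 𝒢) 𝒢 where
  up x hx t _ := hx t trivial
  gen t y hy := by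
    refine ⟨Pi.single t y, fun t' _ => ?_, Pi.single_eq_same _ _,
      fun t' ht _ => Pi.single_eq_of_ne ht _⟩
    by_cases ht : t' = t
    · subst ht
      rw [Pi.single_eq_same]
      exact hy
    · rw [Pi.single_eq_of_ne ht]
      exact zero_mem _

theorem APat_Gr.le {w : ι → ℕ} {L L' : Submodule B (ι → M)} {𝒢 𝒢' : ι → Submodule B M}
    (hL : APat_Gr w L 𝒢) (hL' : APat_Gr w L' 𝒢') (h : L' ≤ L) (t : ι) : 𝒢' t ≤ 𝒢 t := by
  intro y hy
  obtain ⟨x, hx, rfl, h0⟩ := hL'.gen t y hy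
  exact hL.up x (h hx) t fun t' ht' => h0 t' (fun he => by simp [he] at ht') ht'.le

theorem APat_W_mono {w : ι → ℕ} {D : ℕ} {𝒢 𝒢' : ι → Submodule B M} (h : ∀ t, 𝒢' t ≤ 𝒢 t) :
    APat_W w D 𝒢' ≤ APat_W w D 𝒢 := fun x hx =>
  APat_mem_W.2 fun t => ⟨fun ht => h t ((APat_mem_W.1 hx t).1 ht), (APat_mem_W.1 hx t).2⟩

theorem APat_W_le {w : ι → ℕ} {D : ℕ} {𝒢 : ι → Submodule B M} :
    APat_W w D 𝒢 ≤ Submodule.pi Set.univ 𝒢 := by
  intro x hx t _
  by_cases h : w t = D
  · exact (APat_mem_W.1 hx t).1 h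
  · rw [(APat_mem_W.1 hx t).2 h]
    exact zero_mem _

theorem APat_p_mem_W {w : ι → ℕ} {D : ℕ} {𝒢 : ι → Submodule B M} {x : ι → M}
    (hx : x ∈ Submodule.pi Set.univ 𝒢) : APat_p B M w D x ∈ APat_W w D 𝒢 := by
  refine APat_mem_W.2 fun t => ⟨fun ht => ?_, fun ht => ?_⟩
  · rw [APat_p_apply, if_pos ht]
    exact hx t trivial
  · rw [APat_p_apply, if_neg ht]

theorem APat_p_of_mem_W {w : ι → ℕ} {D : ℕ} {𝒢 : ι → Submodule B M} {x : ι → M}
    (hx : x ∈ APat_W w D 𝒢) : APat_p B M w D x = x := by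
  funext t
  rw [APat_p_apply]
  split_ifs with h
  · rfl
  · exact ((APat_mem_W.1 hx t).2 h).symm

theorem APat_Gr.map_p [Fintype ι] [DecidableEq ι] {w : ι → ℕ} {L : Submodule B (ι → M)}
    {𝒢 : ι → Submodule B M} (hL : APat_Gr w L 𝒢) (D : ℕ) :
    (L ⊓ APat_F B M w (D + 1)).map (APat_p B M w D) = APat_W w D 𝒢 := by
  apply le_antisymm
  · rintro _ ⟨x, ⟨hx, hx'⟩, rfl⟩
    refine APat_mem_W.2 fun t => ⟨fun ht => ?_, fun ht => ?_⟩
    · rw [APat_p_apply, if_pos ht]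
      exact hL.up x hx t fun t' ht' => APat_mem_F.1 hx' t' (by omega)
    · rw [APat_p_apply, if_neg ht]
  · intro y hy
    rw [← Finset.univ_sum_single y]
    refine Submodule.sum_mem _ fun t _ => ?_
    by_cases ht : w t = D
    · obtain ⟨x, hx, hxt, h0⟩ := hL.gen t (y t) ((APat_mem_W.1 hy t).1 ht)
      refine ⟨x, ⟨hx, APat_mem_F.2 fun t' ht' => h0 t' (fun he => ?_) (by omega)⟩, ?_⟩
      · rw [he] at ht'
        omega
      · funext t'
        rw [APat_p_apply]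
        by_cases he : t' = t
        · subst he
          rw [if_pos ht, Pi.single_eq_same, hxt]
        · rw [Pi.single_eq_of_ne he]
          split_ifs with h
          · exact h0 t' he (by omega)
          · rfl
    · rw [(APat_mem_W.1 hy t).2 ht, Pi.single_zero]
      exact zero_mem _

/-- `C'` is the associated graded complex of `C` -/
structure APat_Cmp (C C' : DG B (ι → M)) (σ σ' : (ι → M) →ₗ[B] (ι → M)) (w : ι → ℕ) : Prop where
  F : ∀ D, Stab C σ (APat_F B M w D)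
  D : ∀ D, ∀ x ∈ APat_F B M w (D + 1), APat_p B M w D (C.D x) = C'.D (APat_p B M w D x)
  π : ∀ D n x, APat_p B M w D (C.π n x) = C'.π n (APat_p B M w D x)
  s : ∀ D x, APat_p B M w D (σ x) = σ' (APat_p B M w D x)

variable [Fintype ι] [DecidableEq ι] {C C' : DG B (ι → M)} {σ σ' : (ι → M) →ₗ[B] (ι → M)}
  {w : ι → ℕ} {μ : LF B} {k : ℕ} {ζ : B}

theorem APat_Cmp.stab_W (h : APat_Cmp C C' σ σ' w) {L : Submodule B (ι → M)}
    {𝒢 : ι → Submodule B M} (sL : Stab C σ L) (hL : APat_Gr w L 𝒢) (D : ℕ) :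
    Stab C' σ' (APat_W w D 𝒢) := by
  have s := sL.inf (h.F (D + 1))
  rw [← hL.map_p D]
  refine ⟨⟨?_, ?_⟩, ?_⟩
  · rintro _ ⟨x, hx, rfl⟩
    exact ⟨C.D x, s.sub.1 x hx, h.D D x hx.2⟩
  · rintro n _ ⟨x, hx, rfl⟩
    exact ⟨C.π n x, s.sub.2 n x hx, h.π D n x⟩
  · rintro _ ⟨x, hx, rfl⟩
    exact ⟨σ x, s.mem x hx, h.s D x⟩

omit [DecidableEq ι] in
theorem APat_exists_bound (w : ι → ℕ) : ∃ N, ∀ t, w t < N :=
  ⟨Finset.univ.sup w + 1, fun t => Nat.lt_succ_of_le (Finset.le_sup (Finset.mem_univ t))⟩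

omit [Fintype ι] [DecidableEq ι] in
theorem APat_sum_p {N : ℕ} (hN : ∀ t, w t < N) (x : ι → M) :
    ∑ D ∈ Finset.range N, APat_p B M w D x = x := by
  funext t
  rw [Finset.sum_apply, Finset.sum_eq_single (w t)]
  · rw [APat_p_apply, if_pos rfl]
  · intro D _ hD
    rw [APat_p_apply, if_neg hD.symm]
  · intro h
    exact absurd (Finset.mem_range.2 (hN t)) h

theorem APat_Cmp.stab_pi (h : APat_Cmp C C' σ σ' w) {L : Submodule B (ι → M)}
    {𝒢 : ι → Submodule B M} (sL : Stab C σ L) (hL : APat_Gr w L 𝒢) :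
    Stab C' σ' (Submodule.pi Set.univ 𝒢) := by
  obtain ⟨N, hN⟩ := APat_exists_bound w
  have key : ∀ φ : (ι → M) →ₗ[B] (ι → M), (∀ D, ∀ x ∈ APat_W w D 𝒢, φ x ∈ APat_W w D 𝒢) →
      ∀ x ∈ Submodule.pi Set.univ 𝒢, φ x ∈ Submodule.pi Set.univ 𝒢 := by
    intro φ hφ x hx
    rw [← APat_sum_p (B := B) hN x, map_sum]
    exact Submodule.sum_mem _ fun D _ => APat_W_le (hφ D _ (APat_p_mem_W hx))
  exact ⟨⟨key _ fun D => (h.stab_W sL hL D).sub.1, fun n => key _ fun D =>
    (h.stab_W sL hL D).sub.2 n⟩, key _ fun D => (h.stab_W sL hL D).mem⟩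

theorem APat_Cmp.filt (h : APat_Cmp C C' σ σ' w) (hC : C.Bdd) (hζ : RootU k ζ)
    (hσ : Eqv C k σ) (hσ' : Eqv C' k σ') {L L' : Submodule B (ι → M)}
    {𝒢 𝒢' : ι → Submodule B M} (sL : Stab C σ L) (sL' : Stab C σ L') (hLL : L' ≤ L)
    (hL : APat_Gr w L 𝒢) (hL' : APat_Gr w L' 𝒢')
    (hf : ∀ D, C'.FinH μ (APat_W w D 𝒢) (APat_W w D 𝒢')) (N : ℕ) :
    C.FinH μ (L ⊓ APat_F B M w N) (L' ⊓ APat_F B M w N) ∧
      psi C μ k ζ σ (L ⊓ APat_F B M w N) (L' ⊓ APat_F B M w N) =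
        ∑ D ∈ Finset.range N, psi C' μ k ζ σ' (APat_W w D 𝒢) (APat_W w D 𝒢') := by
  induction N with
  | zero =>
    have h0 : APat_F B M w 0 = ⊥ := by
      refine eq_bot_iff.2 fun x hx => ?_
      exact funext fun t => APat_mem_F.1 hx t (Nat.zero_le _)
    rw [h0, inf_bot_eq, inf_bot_eq, Finset.sum_range_zero]
    refine ⟨fun n => ?_, psi_self _⟩
    rw [C.h_self]
    exact ENNReal.zero_ne_top
  | succ D ih =>
    have hFF : APat_F B M w D ≤ APat_F B M w (D + 1) := fun x hx =>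
      APat_mem_F.2 fun t ht => APat_mem_F.1 hx t (by omega)
    have s₁ := sL.inf (h.F (D + 1))
    have s₃ := sL'.inf (h.F (D + 1))
    have s₄ := sL.inf (h.F D)
    have s₅ := sL'.inf (h.F D)
    have s₂ := s₄.sup s₃
    have h₁₂ : L ⊓ APat_F B M w D ⊔ L' ⊓ APat_F B M w (D + 1) ≤ L ⊓ APat_F B M w (D + 1) :=
      sup_le (inf_le_inf_left _ hFF) (inf_le_inf_right _ hLL)
    have h₂₃ : L' ⊓ APat_F B M w (D + 1) ≤
        L ⊓ APat_F B M w D ⊔ L' ⊓ APat_F B M w (D + 1) := le_sup_right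
    have h₄₅ : L' ⊓ APat_F B M w D ≤ L ⊓ APat_F B M w D := inf_le_inf_right _ hLL
    -- first transport
    have a1 : (L ⊓ APat_F B M w D).map LinearMap.id ⊔ L' ⊓ APat_F B M w (D + 1) =
        L ⊓ APat_F B M w D ⊔ L' ⊓ APat_F B M w (D + 1) := by rw [Submodule.map_id]
    have a2 : (L ⊓ APat_F B M w D) ⊓ (L' ⊓ APat_F B M w (D + 1)).comap LinearMap.id =
        L' ⊓ APat_F B M w D := by
      rw [Submodule.comap_id]
      exact le_antisymm (fun x hx => ⟨hx.2.1, hx.1.2⟩) fun x hx =>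
        ⟨⟨hLL hx.1, hx.2⟩, hx.1, hFF hx.2⟩
    have t1 := psi_transport (μ := μ) hζ hσ hσ LinearMap.id s₄ s₅ s₂ s₃ h₄₅ h₂₃ a1 a2
      (fun x _ => by simp) (fun n x _ => by simp) (fun x _ => by simp)
    have f1 : C.FinH μ (L ⊓ APat_F B M w D ⊔ L' ⊓ APat_F B M w (D + 1))
        (L' ⊓ APat_F B M w (D + 1)) := by
      intro n
      have := (C.h_transport μ C LinearMap.id s₄.sub s₅.sub s₂.sub s₃.sub h₄₅ h₂₃ a1 a2
        (fun x _ => by simp) 0 (fun n x _ => by simp) n).1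
      rw [add_zero] at this
      rw [← this]
      exact ih.1 n
    -- second transport
    have sW := h.stab_W sL hL D
    have sW' := h.stab_W sL' hL' D
    have hW : APat_W w D 𝒢' ≤ APat_W w D 𝒢 := APat_W_mono (hL.le hL' hLL)
    have b1 : (L ⊓ APat_F B M w (D + 1)).map (APat_p B M w D) ⊔ APat_W w D 𝒢' =
        APat_W w D 𝒢 := by
      rw [hL.map_p D, sup_eq_left.2 hW]
    have b2 : (L ⊓ APat_F B M w (D + 1)) ⊓ (APat_W w D 𝒢').comap (APat_p B M w D) =
        L ⊓ APat_F B M w D ⊔ L' ⊓ APat_F B M w (D + 1) := by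
      apply le_antisymm
      · rintro x ⟨hx, hx'⟩
        rw [← hL'.map_p D] at hx'
        obtain ⟨x', hx', he⟩ := hx'
        have : x = (x - x') + x' := by abel
        rw [this]
        refine Submodule.add_mem_sup ⟨sub_mem hx.1 (hLL hx'.1), APat_mem_F.2 fun t ht => ?_⟩ hx'
        rcases ht.eq_or_lt with ht | ht
        · have := congrFun he t
          rw [APat_p_apply, APat_p_apply, if_pos ht.symm, if_pos ht.symm] at this
          rw [Pi.sub_apply, this, sub_self]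
        · rw [Pi.sub_apply, APat_mem_F.1 hx.2 t ht, APat_mem_F.1 hx'.2 t ht, sub_self]
      · refine le_inf h₁₂ (sup_le ?_ ?_)
        · intro x hx
          have : APat_p B M w D x = 0 := by
            funext t
            rw [APat_p_apply]
            split_ifs with ht
            · exact APat_mem_F.1 hx.2 t ht.ge
            · rfl
          rw [Submodule.mem_comap, this]
          exact zero_mem _
        · intro x hx
          rw [Submodule.mem_comap, ← hL'.map_p D]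
          exact ⟨x, hx, rfl⟩
    have t2 := psi_transport (μ := μ) hζ hσ hσ' (APat_p B M w D) s₁ s₂ sW sW' h₁₂ hW b1 b2
      (fun x hx => by rw [h.D D x hx.2, sub_self]; exact zero_mem _)
      (fun n x _ => by rw [h.π, sub_self]; exact zero_mem _)
      (fun x _ => by rw [h.s, sub_self]; exact zero_mem _)
    have f2 : C.FinH μ (L ⊓ APat_F B M w (D + 1))
        (L ⊓ APat_F B M w D ⊔ L' ⊓ APat_F B M w (D + 1)) := by
      intro n
      have := (C.h_transport μ C' (APat_p B M w D) s₁.sub s₂.sub sW.sub sW'.sub h₁₂ hW b1 b2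
        (fun x hx => by rw [h.D D x hx.2, sub_self]; exact zero_mem _) 0
        (fun n x _ => by rw [h.π, add_zero, sub_self]; exact zero_mem _) n).1
      rw [add_zero] at this
      rw [this]
      exact hf D n
    refine ⟨FinH.mid s₁.sub s₂.sub s₃.sub h₁₂ h₂₃ f2 f1, ?_⟩
    rw [psi_add hC hζ hσ s₁ s₂ s₃ h₁₂ h₂₃ f2 f1, Finset.sum_range_succ, ← ih.2, t1, t2]

theorem APat_Cmp.filt' (h : APat_Cmp C C' σ σ' w) (hC : C.Bdd) (hζ : RootU k ζ)
    (hσ : Eqv C k σ) (hσ' : Eqv C' k σ') {L L' : Submodule B (ι → M)}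
    {𝒢 𝒢' : ι → Submodule B M} (sL : Stab C σ L) (sL' : Stab C σ L') (hLL : L' ≤ L)
    (hL : APat_Gr w L 𝒢) (hL' : APat_Gr w L' 𝒢')
    (hf : ∀ D, C'.FinH μ (APat_W w D 𝒢) (APat_W w D 𝒢')) {N : ℕ} (hN : ∀ t, w t < N) :
    C.FinH μ L L' ∧ psi C μ k ζ σ L L' =
        ∑ D ∈ Finset.range N, psi C' μ k ζ σ' (APat_W w D 𝒢) (APat_W w D 𝒢') := by
  have := h.filt hC hζ hσ hσ' sL sL' hLL hL hL' hf N
  have h0 : APat_F B M w N = ⊤ :=
    eq_top_iff.2 fun x _ => APat_mem_F.2 fun t ht => absurd (hN t) (by omega)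
  rwa [h0, inf_top_eq, inf_top_eq] at this

/-- complexes and automorphisms given by matrices -/
structure APat_Mat (C : DG B (ι → M)) (σ : (ι → M) →ₗ[B] (ι → M)) (d : Matrix ι ι B)
    (dg : ι → ℤ) (s : ι → ℤ) (ρ : ι → ι) : Prop where
  D : ∀ x, C.D x = matApp d M x
  π : ∀ n x t, C.π n x t = if dg t = n then x t else 0
  s : ∀ x t, σ x t = s t • x (ρ t)

omit [DecidableEq ι] in
theorem APat_Mat.cmp {d d' : Matrix ι ι B} {dg s : ι → ℤ} {ρ : ι → ι}
    (h : APat_Mat C σ d dg s ρ) (h' : APat_Mat C' σ' d' dg s ρ) (hρ : ∀ t, w (ρ t) = w t)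
    (hd : ∀ t t', d t t' ≠ 0 → w t ≤ w t')
    (hd' : ∀ t t', d' t t' = if w t = w t' then d t t' else 0) : APat_Cmp C C' σ σ' w where
  F D := by
    refine ⟨⟨fun x hx => APat_mem_F.2 fun t ht => ?_, fun n x hx => APat_mem_F.2 fun t ht => ?_⟩,
      fun x hx => APat_mem_F.2 fun t ht => ?_⟩
    · rw [h.D, matApp_apply]
      refine Finset.sum_eq_zero fun t' _ => ?_
      by_cases h0 : d t t' = 0
      · rw [h0, zero_smul]
      · rw [APat_mem_F.1 hx t' (ht.trans (hd t t' h0)), smul_zero]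
    · rw [h.π, APat_mem_F.1 hx t ht, ite_self]
    · rw [h.s, APat_mem_F.1 hx (ρ t) (by rw [hρ]; exact ht), smul_zero]
  D D x hx := by
    funext t
    rw [APat_p_apply, h.D, h'.D, matApp_apply, matApp_apply]
    split_ifs with ht
    · refine Finset.sum_congr rfl fun t' _ => ?_
      rw [hd', APat_p_apply]
      by_cases h1 : w t' = D
      · rw [if_pos h1, if_pos (ht.trans h1.symm)]
      · rw [if_neg h1, smul_zero]
        by_cases h0 : d t t' = 0
        · rw [h0, zero_smul]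
        · have := hd t t' h0
          rw [APat_mem_F.1 hx t' (by omega), smul_zero]
    · refine (Finset.sum_eq_zero fun t' _ => ?_).symm
      rw [hd', APat_p_apply]
      by_cases h1 : w t' = D
      · rw [if_neg (fun h2 => ht (h2.trans h1)), zero_smul]
      · rw [if_neg h1, smul_zero]
  π D n x := by
    funext t
    rw [APat_p_apply, h.π, h'.π, APat_p_apply]
    split_ifs <;> rfl
  s D x := by
    funext t
    rw [APat_p_apply, h.s, h'.s, APat_p_apply, hρ]
    split_ifs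
    · rfl
    · rw [smul_zero]

omit [DecidableEq ι] in
theorem APat_Mat.finH_W {d : Matrix ι ι B} {dg s : ι → ℤ} {ρ : ι → ι}
    (h : APat_Mat C σ d dg s ρ) (hd : ∀ t t', d t t' ≠ 0 → w t = w t')
    {𝒢 𝒢' : ι → Submodule B M}
    (hf : C.FinH μ (Submodule.pi Set.univ 𝒢) (Submodule.pi Set.univ 𝒢')) (D : ℕ) :
    C.FinH μ (APat_W w D 𝒢) (APat_W w D 𝒢') := by
  intro n
  refine ne_top_of_le_ne_top (hf n) (APat_h_summand (APat_p B M w D) (fun x => ?_) APat_W_le
    APat_W_le (fun x hx => APat_p_mem_W hx) (fun x hx => APat_p_mem_W hx)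
    (fun x hx => APat_p_of_mem_W hx) μ n)
  funext t
  rw [APat_p_apply, h.D, h.D, matApp_apply, matApp_apply]
  split_ifs with ht
  · refine Finset.sum_congr rfl fun t' _ => ?_
    rw [APat_p_apply]
    by_cases h0 : d t t' = 0
    · rw [h0, zero_smul, zero_smul]
    · rw [if_pos ((hd t t' h0).symm.trans ht)]
  · refine (Finset.sum_eq_zero fun t' _ => ?_).symm
    rw [APat_p_apply]
    by_cases h0 : d t t' = 0
    · rw [h0, zero_smul]
    · rw [if_neg (fun h2 => ht ((hd t t' h0).trans h2)), smul_zero]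

omit [DecidableEq ι] in
theorem APat_Mat.cmp_self {d : Matrix ι ι B} {dg s : ι → ℤ} {ρ : ι → ι}
    (h : APat_Mat C σ d dg s ρ) (hρ : ∀ t, w (ρ t) = w t)
    (hd : ∀ t t', d t t' ≠ 0 → w t = w t') : APat_Cmp C C σ σ w := by
  refine h.cmp h hρ (fun t t' h0 => (hd t t' h0).le) fun t t' => ?_
  split_ifs with h1
  · rfl
  · by_contra h0
    exact h1 (hd t t' h0)

/-- splitting along an invariant weight -/
theorem APat_Mat.split {d : Matrix ι ι B} {dg s : ι → ℤ} {ρ : ι → ι}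
    (h : APat_Mat C σ d dg s ρ) (hρ : ∀ t, w (ρ t) = w t)
    (hd : ∀ t t', d t t' ≠ 0 → w t = w t') (hC : C.Bdd) (hζ : RootU k ζ) (hσ : Eqv C k σ)
    {𝒢 𝒢' : ι → Submodule B M} (sG : Stab C σ (Submodule.pi Set.univ 𝒢))
    (sG' : Stab C σ (Submodule.pi Set.univ 𝒢')) (hG : ∀ t, 𝒢' t ≤ 𝒢 t)
    (hf : C.FinH μ (Submodule.pi Set.univ 𝒢) (Submodule.pi Set.univ 𝒢'))
    {N : ℕ} (hN : ∀ t, w t < N) :
    psi C μ k ζ σ (Submodule.pi Set.univ 𝒢) (Submodule.pi Set.univ 𝒢') =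
      ∑ D ∈ Finset.range N, psi C μ k ζ σ (APat_W w D 𝒢) (APat_W w D 𝒢') :=
  ((h.cmp_self hρ hd).filt' hC hζ hσ hσ sG sG' (Submodule.pi_mono fun t _ => hG t)
    (APat_gr_pi w 𝒢) (APat_gr_pi w 𝒢') (h.finH_W hd hf) hN).2

omit [DecidableEq ι] in
/-- the twisting argument -/
theorem APat_Mat.twist {d : Matrix ι ι B} {dg s : ι → ℤ} {ρ : ι → ι}
    (h : APat_Mat C σ d dg s ρ) (hζ : RootU k ζ) (hσ : Eqv C k σ)
    {𝒢 𝒢' : ι → Submodule B M} (sG : Stab C σ (Submodule.pi Set.univ 𝒢))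
    (sG' : Stab C σ (Submodule.pi Set.univ 𝒢')) (hG : ∀ t, 𝒢' t ≤ 𝒢 t)
    (e : ι → ℕ) (hd : ∀ t t', d t t' ≠ 0 → e t = e t') {r : ℕ} (hr : 0 < r) (hrk : r < k)
    (he : ∀ t, 𝒢 (ρ t) = ⊥ ∨ ζ ^ e (ρ t) = ζ ^ r * ζ ^ e t) :
    psi C μ k ζ σ (Submodule.pi Set.univ 𝒢) (Submodule.pi Set.univ 𝒢') = 0 := by
  have hu : IsUnit ζ := IsUnit.of_pow_eq_one hζ.pow (by omega)
  obtain ⟨u, hu⟩ := hu
  let τ : (ι → M) ≃ₗ[B] (ι → M) :=
    { toFun := fun x t => ζ ^ e t • x t
      invFun := fun x t => ((u⁻¹ : Bˣ) : B) ^ e t • x t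
      map_add' := fun x y => by
        funext t
        simp
      map_smul' := fun c x => by
        funext t
        simp only [Pi.smul_apply, RingHom.id_apply]
        exact smul_comm _ _ _
      left_inv := fun x => by
        funext t
        simp only [smul_smul]
        rw [← mul_pow, ← hu, Units.inv_mul, one_pow, one_smul]
      right_inv := fun x => by
        funext t
        simp only [smul_smul]
        rw [← mul_pow, ← hu, Units.mul_inv, one_pow, one_smul] }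
  have hτ : ∀ x t, τ x t = ζ ^ e t • x t := fun _ _ => rfl
  have hmem : ∀ (𝒢 : ι → Submodule B M) x,
      x ∈ Submodule.pi Set.univ 𝒢 ↔ τ x ∈ Submodule.pi Set.univ 𝒢 := by
    intro 𝒢 x
    refine forall_congr' fun t => imp_congr_right fun _ => ?_
    rw [hτ]
    exact ((𝒢 t).smul_mem_iff_of_isUnit (hu ▸ u.isUnit.pow _)).symm
  refine psi_twist hζ hσ sG sG' (Submodule.pi_mono fun t _ => hG t) τ ⟨fun x => ?_, fun n x => ?_⟩
    (hmem 𝒢) (hmem 𝒢') hr hrk fun x hx => ?_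
  · funext t
    change τ (C.D x) t = C.D (τ x) t
    rw [hτ, h.D, h.D, matApp_apply, matApp_apply, Finset.smul_sum]
    refine Finset.sum_congr rfl fun t' _ => ?_
    rw [hτ]
    by_cases h0 : d t t' = 0
    · rw [h0, zero_smul, zero_smul, smul_zero]
    · rw [hd t t' h0, smul_comm]
  · funext t
    change τ (C.π n x) t = C.π n (τ x) t
    rw [hτ, h.π, h.π, hτ]
    split_ifs
    · rfl
    · rw [smul_zero]
  · funext t
    rw [Pi.smul_apply, h.s, hτ, hτ, h.s]
    rcases he t with h0 | h0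
    · have : x (ρ t) = 0 := by
        have this : x (ρ t) ∈ 𝒢 (ρ t) := hx (ρ t) trivial
        rw [h0] at this
        exact this
      simp only [this, smul_zero]
    · rw [h0, smul_smul (ζ ^ r), smul_comm]

end filt

/-- an index along the orbits of a periodic map -/
theorem APat_idx {P : Type} (R : P → P) {k : ℕ} (hk : 0 < k) (hR : ∀ p, R^[k] p = p) :
    ∃ j : P → ℕ, ∀ p, j (R p) ≡ j p + 1 [MOD Function.minimalPeriod R p] := by
  have hper : ∀ p, p ∈ Function.periodicPts R := fun p =>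
    Function.mk_mem_periodicPts hk (hR p)
  have hmul : ∀ m p, R^[m * k] p = p := fun m p =>
    (Function.IsPeriodicPt.const_mul (f := R) (hR p) m)
  let S : Setoid P :=
    { r := fun p q => ∃ n, R^[n] p = q
      iseqv := ⟨fun p => ⟨0, rfl⟩, fun {p q} ⟨n, hn⟩ => ⟨n * (k - 1), by
          rw [← hn, ← Function.iterate_add_apply]
          have : n * (k - 1) + n = n * k := by
            obtain ⟨k', rfl⟩ : ∃ k', k = k' + 1 := ⟨k - 1, by omega⟩
            simp [Nat.mul_succ]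
          rw [this, hmul]⟩,
        fun {p q r} ⟨m, hm⟩ ⟨n, hn⟩ => ⟨n + m, by rw [Function.iterate_add_apply, hm, hn]⟩⟩ }
  have hb : ∀ p, ∃ n, R^[n] (Quotient.mk S p).out = p := fun p => Quotient.mk_out (s := S) p
  choose j hj using hb
  refine ⟨j, fun p => ?_⟩
  have e1 : Quotient.mk S (R p) = Quotient.mk S p :=
    (Quotient.sound (s := S) ⟨1, rfl⟩).symm
  have h1 := hj (R p)
  rw [e1] at h1
  have h2 := hj p
  set b := (Quotient.mk S p).out
  have h3 : Function.minimalPeriod R p = Function.minimalPeriod R b := by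
    rw [← h2, Function.minimalPeriod_apply_iterate (hper b)]
  have h4 : R^[j (R p)] b = R^[j p + 1] b := by
    rw [Function.iterate_succ_apply', h2, h1]
  have hpos : 0 < Function.minimalPeriod R b := Function.minimalPeriod_pos_of_mem_periodicPts (hper b)
  rw [h3]
  rw [← Function.iterate_mod_minimalPeriod_eq (f := R) (x := b) (n := j (R p)),
    ← Function.iterate_mod_minimalPeriod_eq (f := R) (x := b) (n := j p + 1)] at h4
  exact (Function.iterate_eq_iterate_iff_of_lt_minimalPeriod (Nat.mod_lt _ hpos)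
    (Nat.mod_lt _ hpos)).1 h4

end Crest.Agent.R188
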