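import Crest.Agent.R188.APsi
import Crest.Agent.R188.HApp
import Crest.Agent.R188.APatAux

/-!
# Tensor powers; the pattern lemmas
-/

set_option autoImplicit false
set_option linter.unusedVariables false
set_option linter.unusedSectionVars false

open scoped ENNReal NNReal TensorProduct

namespace Crest.Agent.R188

open Crest.Agent.R183 Crest.Agent.R183.DG

theorem APat_matApp_ext {B : Type} [CommRing B] {ι κ : Type} [Fintype κ] [DecidableEq κ]
    {f g : Matrix ι κ B} (h : ∀ x : κ → B, matApp f B x = matApp g B x) : f = g := by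
  ext i j
  have := congrFun (h (Pi.single j 1)) i
  simpa [matApp_apply, Pi.single_apply] using this

theorem APat_matApp_one {B : Type} [CommRing B] {ι : Type} [Fintype ι] [DecidableEq ι]
    {X : Type} [AddCommGroup X] [Module B X] (x : ι → X) :
    matApp (1 : Matrix ι ι B) X x = x := by
  funext i
  simp [matApp_apply, Matrix.one_apply, ite_smul]

theorem APat_matApp_pow {B : Type} [CommRing B] {ι : Type} [Fintype ι] [DecidableEq ι]
    (f : Matrix ι ι B) {X : Type} [AddCommGroup X] [Module B X] (j : ℕ) (x : ι → X) :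
    matApp (f ^ j) X x = ((matApp f X : Module.End B (ι → X)) ^ j) x := by
  induction j with
  | zero => rw [pow_zero, pow_zero, APat_matApp_one]; rfl
  | succ j ih => rw [pow_succ', pow_succ', matApp_mul, ih]; rfl

theorem APat_sg_eq {a b : ℤ} (h : Even (a - b)) : sg a = sg b := by
  unfold sg
  rw [(Int.negOnePow_eq_iff a b).2 h]

theorem APat_rot_castSucc {n : ℕ} (i : Fin n) : finRotate (n + 1) i.castSucc = i.succ := by
  rw [finRotate_apply, Fin.coeSucc_eq_succ]

theorem APat_sum_rot {n : ℕ} (f : Fin (n + 1) → ℤ) (m : Fin (n + 1)) :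
    ∑ l ∈ Finset.univ.filter (· < m), f (finRotate (n + 1) l) + f 0 =
      ∑ l ∈ Finset.univ.filter (· ≤ m), f l := by
  rw [Finset.sum_filter, Finset.sum_filter, Fin.sum_univ_castSucc, Fin.sum_univ_succ,
    if_neg (not_lt.2 (Fin.le_last m)), if_pos (Fin.zero_le m), add_zero, add_comm]
  congr 1
  refine Finset.sum_congr rfl fun i _ => ?_
  rw [APat_rot_castSucc]
  exact if_congr Fin.castSucc_lt_iff_succ_le rfl rfl

theorem APat_sum_update {k : ℕ} {ι : Type} (dg : ι → ℤ) (t : Fin k → ι) (l : Fin k) (j : ι)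
    (s : Finset (Fin k)) (hl : l ∈ s) :
    ∑ l' ∈ s, dg (Function.update t l j l') = ∑ l' ∈ s, dg (t l') + (dg j - dg (t l)) := by
  rw [← Finset.add_sum_erase s _ hl, ← Finset.add_sum_erase s (fun l' => dg (t l')) hl,
    Function.update_self]
  have : ∑ x ∈ s.erase l, dg (Function.update t l j x) = ∑ x ∈ s.erase l, dg (t x) :=
    Finset.sum_congr rfl fun x hx => by rw [Function.update_of_ne (Finset.ne_of_mem_erase hx)]
  rw [this]
  ring

theorem APat_sign {n : ℕ} {ι : Type} (dg : ι → ℤ) (t : Fin (n + 1) → ι) (m : Fin (n + 1))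
    (j : ι) (hj : dg j = dg (t (finRotate (n + 1) m)) + 1) :
    sg (dg (t 0) * (∑ l, dg (t l) - dg (t 0))) *
        sg (∑ l ∈ Finset.univ.filter (· < m), dg (t (finRotate (n + 1) l))) =
      sg (∑ l ∈ Finset.univ.filter (· < finRotate (n + 1) m), dg (t l)) *
        sg (dg (Function.update t (finRotate (n + 1) m) j 0) *
          (∑ l, dg (Function.update t (finRotate (n + 1) m) j l) -
            dg (Function.update t (finRotate (n + 1) m) j 0))) := by
  rw [← MC.HApp_sg_add, ← MC.HApp_sg_add, APat_sum_update _ _ _ _ _ (Finset.mem_univ _), hj]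
  have h1 := APat_sum_rot (fun l => dg (t l)) m
  refine APat_sg_eq ?_
  induction m using Fin.lastCases with
  | last =>
    rw [finRotate_last] at hj ⊢
    have h2 : Finset.univ.filter (· < (0 : Fin (n + 1))) = ∅ := by simp
    have h3 : Finset.univ.filter (· ≤ Fin.last n) = Finset.univ :=
      Finset.filter_true_of_mem fun x _ => Fin.le_last x
    rw [h3] at h1
    rw [h2, Finset.sum_empty, Function.update_self, hj, ← h1]
    exact ⟨0, by ring⟩
  | cast i =>
    rw [APat_rot_castSucc]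
    have h3 : Finset.univ.filter (· ≤ i.castSucc) = Finset.univ.filter (· < i.succ) :=
      Finset.filter_congr fun x _ => Fin.le_castSucc_iff
    rw [h3] at h1
    rw [Function.update_of_ne (Fin.succ_ne_zero i).symm, ← h1]
    exact ⟨-dg (t 0), by ring⟩

theorem APat_rot_iterate {n : ℕ} (j : ℕ) (l : Fin (n + 1)) :
    (finRotate (n + 1))^[j] l = l + Fin.ofNat (n + 1) j := by
  induction j with
  | zero => simp
  | succ j ih =>
    rw [Function.iterate_succ_apply', ih, finRotate_apply, add_assoc]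
    congr 1
    ext
    simp [Fin.val_add, Fin.ofNat]

theorem APat_rot_iterate_self {k : ℕ} [NeZero k] (l : Fin k) : (finRotate k)^[k] l = l := by
  obtain ⟨n, rfl⟩ := Nat.exists_eq_succ_of_ne_zero (NeZero.ne k)
  rw [APat_rot_iterate]
  simp

theorem APat_rot_iterate_zero {k : ℕ} [NeZero k] (l : Fin k) : (finRotate k)^[l] 0 = l := by
  obtain ⟨n, rfl⟩ := Nat.exists_eq_succ_of_ne_zero (NeZero.ne k)
  rw [APat_rot_iterate]
  simp

theorem APat_even {k : ℕ} (a : Fin k → ℤ) : Even (∑ l, a l * (∑ l, a l - a l)) := by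
  have : ∑ l, a l * (∑ l, a l - a l) =
      (∑ l, a l) * (∑ l, a l - 1) - ∑ l, a l * (a l - 1) := by
    simp only [mul_sub, Finset.sum_sub_distrib, ← Finset.sum_mul, mul_one]
    ring
  rw [this]
  exact (Int.even_mul_pred_self _).sub (Finset.even_sum _ fun l _ => Int.even_mul_pred_self _)

namespace MC

variable {B : Type} [CommRing B] {μ : LF B} {k : ℕ} [NeZero k] {ζ : B}
  {M : Type} [AddCommGroup M] [Module B M]

theorem matApp_cyc (E : MC B) (x : (Fin k → E.ι) → M) (t : Fin k → E.ι) :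
    matApp (E.cyc k) M x t =
      sg (E.deg (t 0) * (∑ l, E.deg (t l) - E.deg (t 0))) • x (t ∘ finRotate k) := by
  change ∑ t' : Fin k → E.ι, (if t' = t ∘ finRotate k then
    ((sg (E.deg (t 0) * (∑ l, E.deg (t l) - E.deg (t 0))) : ℤ) : B) else 0) • x t' = _
  rw [Finset.sum_eq_single (t ∘ finRotate k), if_pos rfl, Int.cast_smul_eq_zsmul]
  · intro t' _ h
    rw [if_neg h, zero_smul]
  · intro h
    exact absurd (Finset.mem_univ _) h

/-- the tensor power, on concrete types -/
def APat_C (E : MC B) (k : ℕ) (M : Type) [AddCommGroup M] [Module B M] :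
    DG B ((Fin k → E.ι) → M) := (E.tp k).ap M

/-- the cyclic permutation, on concrete types -/
def APat_s (E : MC B) (k : ℕ) [NeZero k] (M : Type) [AddCommGroup M] [Module B M] :
    ((Fin k → E.ι) → M) →ₗ[B] ((Fin k → E.ι) → M) := matApp (E.cyc k) M

omit [NeZero k] in
theorem APat_D' (E : MC B) (x : (Fin k → E.ι) → M) :
    (APat_C E k M).D x = matApp (tpd E k) M x := ap_D (E.tp k) x

omit [NeZero k] in
theorem APat_D (E : MC B) (x : (Fin k → E.ι) → M) (t : Fin k → E.ι) :
    (APat_C E k M).D x t = ∑ l : Fin k, ∑ j : E.ι,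
      sg (∑ l' ∈ Finset.univ.filter (· < l), E.deg (t l')) • E.d (t l) j •
        x (Function.update t l j) := by
  rw [APat_D', matApp_tpd]

omit [NeZero k] in
theorem APat_π (E : MC B) (n : ℤ) (x : (Fin k → E.ι) → M) (t : Fin k → E.ι) :
    (APat_C E k M).π n x t = if ∑ l, E.deg (t l) = n then x t else 0 :=
  ap_π (E.tp k) n x t

theorem APat_s_apply (E : MC B) (x : (Fin k → E.ι) → M) (t : Fin k → E.ι) :
    APat_s E k M x t =
      sg (E.deg (t 0) * (∑ l, E.deg (t l) - E.deg (t 0))) • x (t ∘ finRotate k) :=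
  matApp_cyc E x t

theorem APat_cyc_comm (E : MC B) (x : (Fin k → E.ι) → M) :
    APat_s E k M (matApp (tpd E k) M x) = matApp (tpd E k) M (APat_s E k M x) := by
  obtain ⟨n, rfl⟩ := Nat.exists_eq_succ_of_ne_zero (NeZero.ne k)
  funext t
  rw [APat_s_apply, matApp_tpd, matApp_tpd, ← Equiv.sum_comp (finRotate (n + 1))
    (fun l => ∑ j : E.ι, sg (∑ l' ∈ Finset.univ.filter (· < l), E.deg (t l')) • E.d (t l) j •
      APat_s E (n + 1) M x (Function.update t l j)), Finset.smul_sum]
  refine Finset.sum_congr rfl fun m _ => ?_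
  rw [Finset.smul_sum]
  refine Finset.sum_congr rfl fun j _ => ?_
  rw [APat_s_apply, Function.update_comp_equiv, Equiv.symm_apply_apply]
  by_cases h0 : E.d (t (finRotate (n + 1) m)) j = 0
  · simp only [Function.comp_apply, h0, zero_smul, smul_zero]
  · have := APat_sign E.deg t m j (E.hdeg _ _ h0)
    simp only [Function.comp_apply]
    rw [smul_smul, this, smul_comm (E.d _ _), smul_smul]

theorem isHom_cyc (E : MC B) (k : ℕ) [NeZero k] : IsHom (E.tp k) (E.tp k) (E.cyc k) := by
  refine ⟨fun t t' h => ?_, APat_matApp_ext fun x => ?_⟩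
  · have : t' = t ∘ finRotate k := by
      by_contra h'
      exact h (if_neg h')
    rw [this]
    exact (Equiv.sum_comp (finRotate k) fun l => E.deg (t l)).symm
  · rw [matApp_mul, matApp_mul]
    exact APat_cyc_comm E x

theorem APat_cyc_pow (E : MC B) (j : ℕ) (x : (Fin k → E.ι) → M) (t : Fin k → E.ι) :
    ((APat_s E k M : Module.End B ((Fin k → E.ι) → M)) ^ j) x t =
      sg (∑ i ∈ Finset.range j, E.deg (t ((finRotate k)^[i] 0)) *
        (∑ l, E.deg (t l) - E.deg (t ((finRotate k)^[i] 0)))) • x (t ∘ (finRotate k)^[j]) := by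
  induction j generalizing x with
  | zero => simp [sg]
  | succ j ih =>
    rw [pow_succ, Module.End.mul_apply, ih, APat_s_apply, smul_smul, ← HApp_sg_add,
      Finset.sum_range_succ]
    have h1 : ∑ l, E.deg ((t ∘ (finRotate k)^[j]) l) = ∑ l, E.deg (t l) := by
      rw [← Equiv.Perm.coe_pow]
      exact Equiv.sum_comp (finRotate k ^ j) fun l => E.deg (t l)
    rw [h1]
    rfl

theorem APat_cyc_pow_self (E : MC B) (x : (Fin k → E.ι) → M) :
    ((APat_s E k M : Module.End B ((Fin k → E.ι) → M)) ^ k) x = x := by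
  funext t
  rw [APat_cyc_pow, Finset.sum_range]
  simp only [APat_rot_iterate_zero]
  have h1 : t ∘ (finRotate k)^[k] = t := funext fun l => by
    rw [Function.comp_apply, APat_rot_iterate_self]
  rw [h1, APat_sg_eq (b := 0) (by rw [sub_zero]; exact APat_even fun l => E.deg (t l))]
  simp [sg]

theorem cyc_pow (E : MC B) (k : ℕ) [NeZero k] : E.cyc k ^ k = 1 := by
  refine APat_matApp_ext fun x => ?_
  rw [APat_matApp_pow, APat_matApp_one]
  exact APat_cyc_pow_self E x

theorem eqv_cyc (E : MC B) (k : ℕ) [NeZero k] (M : Type) [AddCommGroup M] [Module B M] :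
    Eqv ((E.tp k).ap M) k (matApp (E.cyc k) M) :=
  ⟨(isHom_cyc E k).isMap _, APat_cyc_pow_self E⟩

theorem Null.tp {E : MC B} {a : B} (h : E.Null a) (k : ℕ) [NeZero k] : (E.tp k).Null a := by
  obtain ⟨h, hdeg, hh⟩ := h
  suffices (APat_C E k B).NullH a from null_iff.2 this
  let H : ((Fin k → E.ι) → B) →ₗ[B] ((Fin k → E.ι) → B) :=
    { toFun := fun x t => ∑ j, h (t 0) j • x (Function.update t 0 j)
      map_add' := fun x y => by
        funext t
        simp [Finset.sum_add_distrib, mul_add]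
      map_smul' := fun c x => by
        funext t
        simp only [Pi.smul_apply, RingHom.id_apply, Finset.smul_sum]
        exact Finset.sum_congr rfl fun j _ => smul_comm _ _ _ }
  have hH : ∀ x t, H x t = ∑ j, h (t 0) j • x (Function.update t 0 j) := fun _ _ => rfl
  refine ⟨H, fun n x => ?_, fun x => ?_⟩
  · funext t
    rw [hH, APat_π, hH]
    split_ifs with ht
    · refine Finset.sum_congr rfl fun j _ => ?_
      by_cases h0 : h (t 0) j = 0
      · rw [h0, zero_smul, zero_smul]
      · rw [APat_π, if_pos]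
        rw [APat_sum_update _ _ _ _ _ (Finset.mem_univ _), ht, hdeg _ _ h0]
        ring
    · refine Finset.sum_eq_zero fun j _ => ?_
      by_cases h0 : h (t 0) j = 0
      · rw [h0, zero_smul]
      · rw [APat_π, if_neg, smul_zero]
        rw [APat_sum_update _ _ _ _ _ (Finset.mem_univ _), hdeg _ _ h0]
        intro h1
        exact ht (by linarith)
  · funext t
    rw [Pi.add_apply, hH, APat_D]
    simp only [hH, APat_D, Finset.smul_sum]
    rw [Finset.sum_comm (s := Finset.univ) (t := (Finset.univ : Finset (Fin k))),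
      ← Finset.sum_add_distrib, Finset.sum_eq_single 0]
    · have h2 : Finset.univ.filter (· < (0 : Fin k)) = ∅ := by simp
      simp only [h2, Finset.sum_empty, Function.update_self, Function.update_idem, sg,
        Int.negOnePow_zero, Units.val_one, one_smul, smul_smul]
      rw [Finset.sum_comm, Finset.sum_comm (f := fun j j' => (h (t 0) j * E.d j j') •
        x (Function.update t 0 j')), ← Finset.sum_add_distrib]
      simp only [← Finset.sum_smul, ← add_smul]
      have h3 : ∀ j, ∑ i, E.d (t 0) i * h i j + ∑ i, h (t 0) i * E.d i j =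
          if t 0 = j then a else 0 := fun j => by
        have := congrFun (congrFun hh (t 0)) j
        simpa [Matrix.mul_apply, Matrix.diagonal_apply] using this
      simp only [h3, ite_smul, zero_smul, Finset.sum_ite_eq, Finset.mem_univ, if_true,
        Function.update_eq_self]
      rfl
    · intro l _ hl
      rw [Finset.sum_comm, ← Finset.sum_add_distrib]
      refine Finset.sum_eq_zero fun j' _ => ?_
      rw [← Finset.sum_add_distrib]
      refine Finset.sum_eq_zero fun j _ => ?_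
      rw [Function.update_of_ne hl.symm, Function.update_of_ne hl, Function.update_comm hl]
      by_cases h0 : h (t 0) j' = 0
      · simp only [h0, zero_smul, smul_zero, add_zero]
      · have h4 : (0 : Fin k) ∈ Finset.univ.filter (· < l) :=
          Finset.mem_filter.2 ⟨Finset.mem_univ _, Fin.pos_iff_ne_zero.2 hl⟩
        rw [APat_sum_update _ _ _ _ _ h4, hdeg _ _ h0]
        have h5 : ∀ S : ℤ, sg (S + (E.deg j' - (E.deg j' + 1))) = -sg S := fun S => by
          rw [← HApp_sg_succ]
          exact APat_sg_eq ⟨-1, by ring⟩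
        rw [h5]
        simp only [smul_eq_mul, zsmul_eq_mul]
        push_cast
        ring
    · intro h
      exact absurd (Finset.mem_univ _) h

theorem Supp.tp {E : MC B} {J : Ideal B} (h : E.Supp J) (k : ℕ) [NeZero k] :
    (E.tp k).Supp J := fun a ha => (h a ha).imp fun _ hc => hc.tp k

theorem tp_map {B' : Type} [CommRing B'] (E : MC B) (φ : B →+* B') (k : ℕ) :
    (E.map φ).tp k = (E.tp k).map φ := by
  unfold MC.tp MC.map
  congr 1
  ext t t'
  simp only [tpd, Matrix.map_apply, map_sum, apply_ite φ, map_zsmul, map_zero]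

theorem APat_mat (E : MC B) (k : ℕ) [NeZero k] (M : Type) [AddCommGroup M] [Module B M] :
    APat_Mat (APat_C E k M) (APat_s E k M) (tpd E k) (fun t => ∑ l, E.deg (t l))
      (fun t => sg (E.deg (t 0) * (∑ l, E.deg (t l) - E.deg (t 0))))
      (fun t => t ∘ finRotate k) :=
  ⟨APat_D' E, APat_π E, APat_s_apply E⟩

theorem APat_eqv (E : MC B) (k : ℕ) [NeZero k] (M : Type) [AddCommGroup M] [Module B M] :
    Eqv (APat_C E k M) k (APat_s E k M) := eqv_cyc E k M

omit [NeZero k] in
theorem APat_bdd (E : MC B) (k : ℕ) (M : Type) [AddCommGroup M] [Module B M] :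
    (APat_C E k M).Bdd := ap_bdd (E.tp k) M

theorem APat_stab_pi (E : MC B) (𝒢 : (Fin k → E.ι) → Submodule B M)
    (hd : ∀ t l j, ∀ x ∈ 𝒢 (Function.update t l j), E.d (t l) j • x ∈ 𝒢 t)
    (hc : ∀ t, 𝒢 (t ∘ finRotate k) ≤ 𝒢 t) :
    Stab (APat_C E k M) (APat_s E k M) (Submodule.pi Set.univ 𝒢) := by
  refine ⟨⟨fun x hx t _ => ?_, fun n x hx t _ => ?_⟩, fun x hx t _ => ?_⟩
  · change (APat_C E k M).D x t ∈ 𝒢 t
    rw [APat_D]
    exact sum_mem fun l _ => sum_mem fun j _ => zsmul_mem (hd t l j _ (hx _ trivial)) _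
  · change (APat_C E k M).π n x t ∈ 𝒢 t
    rw [APat_π]
    split_ifs
    · exact hx t trivial
    · exact zero_mem _
  · change APat_s E k M x t ∈ 𝒢 t
    rw [APat_s_apply]
    exact zsmul_mem (hc t (hx _ trivial)) _

theorem stabL_cst (E : MC B) (P : Submodule B M) : E.StabL k M (cst _ P) :=
  APat_stab_pi E (fun _ => P) (fun _ _ _ _ hx => P.smul_mem _ hx) fun _ => le_rfl

/-- coordinatewise lattices -/
theorem stabL_pi (E : MC B) (𝒢 : (Fin k → E.ι) → Submodule B M)
    (hd : ∀ t l j, ∀ x ∈ 𝒢 (Function.update t l j), E.d (t l) j • x ∈ 𝒢 t)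
    (hc : ∀ t, 𝒢 (t ∘ finRotate k) ≤ 𝒢 t) : E.StabL k M (Submodule.pi Set.univ 𝒢) :=
  APat_stab_pi E 𝒢 hd hc

theorem gr_eq_self (E : MC B) (pat : E.ι → ℕ) (h : ∀ i j, E.d i j ≠ 0 → pat i ≤ pat j)
    (h' : ∀ i j, E.d i j ≠ 0 → pat i = pat j) : E.gr pat h = E := by
  have : grd E pat = E.d := by
    ext i j
    unfold grd
    split_ifs with h1
    · rfl
    · by_contra h0
      exact h1 (h' i j (Ne.symm h0))
  unfold gr
  cases E
  congr 1

/-- `𝒢` is the associated graded of the lattice `L` for the weight `∑ pat (t l)` -/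
structure IsGr {ι : Type} (pat : ι → ℕ) (L : Submodule B ((Fin k → ι) → M))
    (𝒢 : (Fin k → ι) → Submodule B M) : Prop where
  up : ∀ x ∈ L, ∀ t, (∀ t', ∑ l, pat (t l) < ∑ l, pat (t' l) → x t' = 0) → x t ∈ 𝒢 t
  gen : ∀ t, ∀ y ∈ 𝒢 t, ∃ x ∈ L, x t = y ∧
    ∀ t', t' ≠ t → ∑ l, pat (t l) ≤ ∑ l, pat (t' l) → x t' = 0

omit [NeZero k] in
theorem IsGr.APat_gr {ι : Type} {pat : ι → ℕ} {L : Submodule B ((Fin k → ι) → M)}
    {𝒢 : (Fin k → ι) → Submodule B M} (h : IsGr pat L 𝒢) :
    APat_Gr (fun t => ∑ l, pat (t l)) L 𝒢 := ⟨h.up, h.gen⟩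

theorem isGr_pi {ι : Type} [DecidableEq ι] (pat : ι → ℕ) (𝒢 : (Fin k → ι) → Submodule B M) :
    IsGr pat (Submodule.pi Set.univ 𝒢) 𝒢 :=
  have h := APat_gr_pi (fun t : Fin k → ι => ∑ l, pat (t l)) 𝒢
  ⟨h.up, h.gen⟩

omit [NeZero k] in
theorem APat_tpd_ne (E : MC B) {t t' : Fin k → E.ι} (h : tpd E k t t' ≠ 0) :
    ∃ l, (∀ l', l' ≠ l → t l' = t' l') ∧ E.d (t l) (t' l) ≠ 0 := by
  obtain ⟨l, -, hl⟩ := Finset.exists_ne_zero_of_sum_ne_zero h
  by_cases h1 : ∀ l', l' ≠ l → t l' = t' l'
  · rw [if_pos h1] at hl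
    exact ⟨l, h1, fun h0 => hl (by rw [h0, smul_zero])⟩
  · exact absurd (if_neg h1) hl

omit [NeZero k] in
theorem APat_sum_eq_iff {ι : Type} (pat : ι → ℕ) {t t' : Fin k → ι} {l : Fin k}
    (h : ∀ l', l' ≠ l → t l' = t' l') :
    ∑ l', pat (t l') + pat (t' l) = ∑ l', pat (t' l') + pat (t l) := by
  rw [← Finset.add_sum_erase _ (fun l' => pat (t l')) (Finset.mem_univ l),
    ← Finset.add_sum_erase _ (fun l' => pat (t' l')) (Finset.mem_univ l)]
  have : ∑ x ∈ Finset.univ.erase l, pat (t x) = ∑ x ∈ Finset.univ.erase l, pat (t' x) :=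
    Finset.sum_congr rfl fun x hx => by rw [h x (Finset.ne_of_mem_erase hx)]
  rw [this]
  ring

omit [NeZero k] in
theorem APat_tpd_le (E : MC B) {pat : E.ι → ℕ} (h : ∀ i j, E.d i j ≠ 0 → pat i ≤ pat j)
    (t t' : Fin k → E.ι) (h0 : tpd E k t t' ≠ 0) : ∑ l, pat (t l) ≤ ∑ l, pat (t' l) := by
  obtain ⟨l, h1, h2⟩ := APat_tpd_ne E h0
  have := APat_sum_eq_iff pat h1
  have := h _ _ h2
  omega

omit [NeZero k] in
theorem APat_tpd_gr (E : MC B) {pat : E.ι → ℕ} (h : ∀ i j, E.d i j ≠ 0 → pat i ≤ pat j)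
    (t t' : Fin k → E.ι) :
    tpd (E.gr pat h) k t t' =
      if ∑ l, pat (t l) = ∑ l, pat (t' l) then tpd E k t t' else 0 := by
  change ∑ l : Fin k, (if ∀ l', l' ≠ l → t l' = t' l' then
    sg (∑ l' ∈ Finset.univ.filter (· < l), E.deg (t l')) •
      (if pat (t l) = pat (t' l) then E.d (t l) (t' l) else 0) else 0) = _
  split_ifs with h1
  · refine Finset.sum_congr rfl fun l _ => ?_
    split_ifs with h2 h3
    · rfl
    · have := APat_sum_eq_iff pat h2
      omega
    · rfl
  · refine Finset.sum_eq_zero fun l _ => ?_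
    split_ifs with h2 h3
    · have := APat_sum_eq_iff pat h2
      omega
    · exact smul_zero _
    · rfl

/-- the graded tensor power, on concrete types -/
def APat_Cg (E : MC B) {pat : E.ι → ℕ} (h : ∀ i j, E.d i j ≠ 0 → pat i ≤ pat j) (k : ℕ)
    (M : Type) [AddCommGroup M] [Module B M] : DG B ((Fin k → E.ι) → M) :=
  APat_C (E.gr pat h) k M

theorem APat_matg (E : MC B) {pat : E.ι → ℕ} (h : ∀ i j, E.d i j ≠ 0 → pat i ≤ pat j) (k : ℕ)
    [NeZero k] (M : Type) [AddCommGroup M] [Module B M] :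
    APat_Mat (APat_Cg E h k M) (APat_s E k M)
      (fun t t' => if ∑ l, pat (t l) = ∑ l, pat (t' l) then tpd E k t t' else 0)
      (fun t => ∑ l, E.deg (t l))
      (fun t => sg (E.deg (t 0) * (∑ l, E.deg (t l) - E.deg (t 0))))
      (fun t => t ∘ finRotate k) := by
  refine ⟨fun x => ?_, APat_π (E.gr pat h), APat_s_apply E⟩
  have h1 : tpd (E.gr pat h) k = fun t t' : Fin k → E.ι =>
      if ∑ l, pat (t l) = ∑ l, pat (t' l) then tpd E k t t' else 0 :=
    funext fun t => funext fun t' => APat_tpd_gr E h t t'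
  rw [← h1]
  exact APat_D' (E.gr pat h) x

theorem APat_cmp (E : MC B) {pat : E.ι → ℕ} (h : ∀ i j, E.d i j ≠ 0 → pat i ≤ pat j) :
    APat_Cmp (APat_C E k M) (APat_Cg E h k M) (APat_s E k M) (APat_s E k M)
      fun t => ∑ l, pat (t l) :=
  APat_Mat.cmp (APat_mat E k M) (APat_matg E h k M)
    (fun t => Equiv.sum_comp (finRotate k) fun l => pat (t l)) (APat_tpd_le E h)
    fun _ _ => rfl

theorem IsGr.stabL {E : MC B} {pat : E.ι → ℕ} (h : ∀ i j, E.d i j ≠ 0 → pat i ≤ pat j)
    {L : Submodule B ((Fin k → E.ι) → M)} {𝒢 : (Fin k → E.ι) → Submodule B M}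
    (sL : E.StabL k M L) (hL : IsGr pat L 𝒢) :
    (E.gr pat h).StabL k M (Submodule.pi Set.univ 𝒢) :=
  (APat_cmp E h).stab_pi sL hL.APat_gr

theorem APat_psi_gr (hζ : RootU k ζ) (E : MC B) (pat : E.ι → ℕ)
    (h : ∀ i j, E.d i j ≠ 0 → pat i ≤ pat j) {L L' : Submodule B ((Fin k → E.ι) → M)}
    {𝒢 𝒢' : (Fin k → E.ι) → Submodule B M} (sL : Stab (APat_C E k M) (APat_s E k M) L)
    (sL' : Stab (APat_C E k M) (APat_s E k M) L')
    (hLL : L' ≤ L) (hL : IsGr pat L 𝒢) (hL' : IsGr pat L' 𝒢')
    (hf : (APat_Cg E h k M).FinH μ (Submodule.pi Set.univ 𝒢) (Submodule.pi Set.univ 𝒢')) :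
    (APat_C E k M).FinH μ L L' ∧ psi (APat_C E k M) μ k ζ (APat_s E k M) L L' =
      psi (APat_Cg E h k M) μ k ζ (APat_s E k M) (Submodule.pi Set.univ 𝒢)
        (Submodule.pi Set.univ 𝒢') := by
  let w : (Fin k → E.ι) → ℕ := fun t => ∑ l, pat (t l)
  obtain ⟨N, hN⟩ := APat_exists_bound w
  have hm := APat_matg E h k M
  have hd : ∀ t t' : Fin k → E.ι,
      (if ∑ l, pat (t l) = ∑ l, pat (t' l) then tpd E k t t' else 0) ≠ 0 → w t = w t' :=
    fun t t' h0 => by
      by_contra h1
      exact h0 (if_neg h1)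
  have hρ : ∀ t, w (t ∘ finRotate k) = w t := fun t =>
    Equiv.sum_comp (finRotate k) fun l => pat (t l)
  have hσ : Eqv (APat_Cg E h k M) k (APat_s E k M) := APat_eqv (E.gr pat h) k M
  have hb : (APat_Cg E h k M).Bdd := APat_bdd (E.gr pat h) k M
  have hc : APat_Cmp (APat_C E k M) (APat_Cg E h k M) (APat_s E k M) (APat_s E k M) w :=
    APat_cmp E h
  have gL : APat_Gr w L 𝒢 := hL.APat_gr
  have gL' : APat_Gr w L' 𝒢' := hL'.APat_gr
  clear_value w
  have h0 := hm.finH_W (w := w) hd hf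
  have h1 := hc.filt' (μ := μ) (APat_bdd E k M) hζ (APat_eqv E k M) hσ sL sL' hLL gL gL' h0 hN
  have h2 := hm.split (μ := μ) (w := w) hρ hd hb hζ hσ (hc.stab_pi sL gL) (hc.stab_pi sL' gL')
    (gL.le gL' hLL) hf hN
  exact ⟨h1.1, h1.2.trans h2.symm⟩

/-- first pattern lemma: passage to the associated graded -/
theorem psiL_gr (hζ : RootU k ζ) (E : MC B) (pat : E.ι → ℕ)
    (h : ∀ i j, E.d i j ≠ 0 → pat i ≤ pat j) {L L' : Submodule B ((Fin k → E.ι) → M)}
    {𝒢 𝒢' : (Fin k → E.ι) → Submodule B M} (sL : E.StabL k M L) (sL' : E.StabL k M L')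
    (hLL : L' ≤ L) (hL : IsGr pat L 𝒢) (hL' : IsGr pat L' 𝒢')
    (hf : (E.gr pat h).FinL μ k M (Submodule.pi Set.univ 𝒢) (Submodule.pi Set.univ 𝒢')) :
    E.FinL μ k M L L' ∧ E.psiL μ k ζ M L L' =
      (E.gr pat h).psiL μ k ζ M (Submodule.pi Set.univ 𝒢) (Submodule.pi Set.univ 𝒢') :=
  APat_psi_gr hζ E pat h sL sL' hLL hL hL' hf

theorem APat_const_of_fixed {p : Fin k → ℕ} (h : p ∘ finRotate k = p) (l : Fin k) :
    p l = p 0 := by
  have : ∀ j : ℕ, p ((finRotate k)^[j] 0) = p 0 := fun j => by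
    induction j with
    | zero => rfl
    | succ j ih =>
      rw [Function.iterate_succ_apply', ← ih]
      exact congrFun h _
  rw [← this l, APat_rot_iterate_zero]

/-- the class of a pattern -/
noncomputable def APat_cl (k : ℕ) [NeZero k] (p : Fin k → ℕ) : ℕ :=
  if ∀ l, p l = p 0 then 2 * p 0 else
    2 * Function.minimalPeriod (fun q : Fin k → ℕ => q ∘ finRotate k) p + 1

theorem APat_rot_per (p : Fin k → ℕ) : (fun q : Fin k → ℕ => q ∘ finRotate k)^[k] p = p := by
  have : ∀ (j : ℕ) (p : Fin k → ℕ),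
      (fun q : Fin k → ℕ => q ∘ finRotate k)^[j] p = p ∘ (finRotate k)^[j] := fun j => by
    induction j with
    | zero => intro p; rfl
    | succ j ih =>
      intro p
      rw [Function.iterate_succ_apply, ih, Function.iterate_succ']
      rfl
  rw [this]
  funext l
  rw [Function.comp_apply, APat_rot_iterate_self]

theorem APat_cl_rot (p : Fin k → ℕ) : APat_cl k (p ∘ finRotate k) = APat_cl k p := by
  unfold APat_cl
  by_cases h : ∀ l, p l = p 0
  · have h' : ∀ l, (p ∘ finRotate k) l = (p ∘ finRotate k) 0 := fun l => (h _).trans (h _).symm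
    rw [if_pos h, if_pos h', Function.comp_apply, h]
  · rw [if_neg h, if_neg]
    · have := Function.minimalPeriod_apply (f := fun q : Fin k → ℕ => q ∘ finRotate k) (x := p)
        (Function.mk_mem_periodicPts (Nat.pos_of_ne_zero (NeZero.ne k)) (APat_rot_per p))
      rw [← this]
    · intro h'
      refine h fun l => ?_
      have h1 := h' ((finRotate k).symm l)
      have h2 := h' ((finRotate k).symm 0)
      simp only [Function.comp_apply, Equiv.apply_symm_apply] at h1 h2
      rw [h1, h2]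

theorem APat_cl_even (p : Fin k → ℕ) (c : ℕ) : APat_cl k p = 2 * c ↔ ∀ l, p l = c := by
  unfold APat_cl
  split_ifs with h
  · exact ⟨fun h1 l => by rw [h l]; omega, fun h1 => by rw [h1 0]⟩
  · exact ⟨fun h1 => by omega, fun h1 => absurd (fun l => by rw [h1 l, h1 0]) h⟩

theorem APat_cl_odd (p : Fin k → ℕ) (r : ℕ) (h : APat_cl k p = 2 * r + 1) :
    Function.minimalPeriod (fun q : Fin k → ℕ => q ∘ finRotate k) p = r ∧ r ∣ k ∧ 1 < r := by
  unfold APat_cl at h
  split_ifs at h with h1
  · omega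
  have h2 : Function.minimalPeriod (fun q : Fin k → ℕ => q ∘ finRotate k) p = r := by omega
  have h3 : r ∣ k := h2 ▸ Function.IsPeriodicPt.minimalPeriod_dvd (APat_rot_per p)
  refine ⟨h2, h3, ?_⟩
  have h4 : r ≠ 0 := fun h0 => NeZero.ne k (by rw [h0] at h3; exact zero_dvd_iff.1 h3)
  have h5 : r ≠ 1 := fun h0 => h1 (APat_const_of_fixed
    (Function.minimalPeriod_eq_one_iff_isFixedPt.1 (h2.trans h0)))
  omega

/-- second pattern lemma: only the constant patterns contribute -/
theorem psiL_const (hζ : RootU k ζ) (E : MC B) (pat : E.ι → ℕ)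
    (h : ∀ i j, E.d i j ≠ 0 → pat i = pat j) {𝒢 𝒢' : (Fin k → E.ι) → Submodule B M}
    (sG : E.StabL k M (Submodule.pi Set.univ 𝒢)) (sG' : E.StabL k M (Submodule.pi Set.univ 𝒢'))
    (hG : ∀ t, 𝒢' t ≤ 𝒢 t)
    (hf : E.FinL μ k M (Submodule.pi Set.univ 𝒢) (Submodule.pi Set.univ 𝒢'))
    (s : Finset ℕ) (hs : ∀ i, pat i ∈ s) :
    E.psiL μ k ζ M (Submodule.pi Set.univ 𝒢) (Submodule.pi Set.univ 𝒢') =
      ∑ c ∈ s, E.psiL μ k ζ M
        (Submodule.pi Set.univ fun t => if ∀ l, pat (t l) = c then 𝒢 t else ⊥)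
        (Submodule.pi Set.univ fun t => if ∀ l, pat (t l) = c then 𝒢' t else ⊥) := by
  have hk : 0 < k := Nat.pos_of_ne_zero (NeZero.ne k)
  let w : (Fin k → E.ι) → ℕ := fun t => APat_cl k (pat ∘ t)
  obtain ⟨N₀, hN₀⟩ := APat_exists_bound w
  let N := N₀ + 2 * s.sup id + 1
  have hN : ∀ t, w t < N := fun t => by
    have := hN₀ t
    omega
  have hm := APat_mat E k M
  have hp : ∀ t t' : Fin k → E.ι, tpd E k t t' ≠ 0 → pat ∘ t = pat ∘ t' := fun t t' h0 => by
    obtain ⟨l, h1, h2⟩ := APat_tpd_ne E h0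
    funext l'
    by_cases hl : l' = l
    · rw [hl]
      exact h _ _ h2
    · rw [Function.comp_apply, h1 l' hl]
      rfl
  have hρ : ∀ t, w (t ∘ finRotate k) = w t := fun t => APat_cl_rot (pat ∘ t)
  have hd : ∀ t t', tpd E k t t' ≠ 0 → w t = w t' := fun t t' h0 =>
    congrArg (APat_cl k) (hp t t' h0)
  have hσ := APat_eqv E k M
  have h2 := hm.split (μ := μ) (w := w) hρ hd (APat_bdd _ k M) hζ hσ sG sG' hG hf hN
  refine h2.trans ?_
  have hc := hm.cmp_self (w := w) hρ hd
  rw [← Finset.sum_subset (s₁ := s.image (2 * ·)), Finset.sum_image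
    (fun a _ b _ hab => by simpa using hab)]
  · refine Finset.sum_congr rfl fun c _ => ?_
    have : ∀ 𝒢 : (Fin k → E.ι) → Submodule B M, APat_W w (2 * c) 𝒢 =
        Submodule.pi Set.univ fun t => if ∀ l, pat (t l) = c then 𝒢 t else ⊥ := fun 𝒢 => by
      unfold APat_W
      congr 1
      funext t
      exact if_congr (APat_cl_even (pat ∘ t) c) rfl rfl
    rw [this, this]
    rfl
  · intro D hD
    obtain ⟨c, hc, rfl⟩ := Finset.mem_image.1 hD
    have : c ≤ s.sup id := Finset.le_sup (f := id) hc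
    exact Finset.mem_range.2 (by omega)
  · intro D _ hD
    by_cases hex : ∃ t, w t = D
    · obtain ⟨t₀, ht₀⟩ := hex
      obtain ⟨r, hr | hr⟩ := Nat.even_or_odd' D
      · refine absurd (Finset.mem_image.2 ⟨r, ?_, hr.symm⟩) hD
        rw [← (APat_cl_even (pat ∘ t₀) r).1 (ht₀.trans hr) 0]
        exact hs _
      · obtain ⟨-, ⟨m, hm'⟩, hr1⟩ := APat_cl_odd (pat ∘ t₀) r (ht₀.trans hr)
        obtain ⟨j, hj⟩ := APat_idx (fun q : Fin k → ℕ => q ∘ finRotate k) hk APat_rot_per
        have hm0 : 0 < m := Nat.pos_of_ne_zero fun h0 => by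
          rw [h0] at hm'
          omega
        refine hm.twist hζ hσ (hc.stab_W sG (APat_gr_pi w 𝒢) D) (hc.stab_W sG' (APat_gr_pi w 𝒢') D)
          (fun t => ?_) (fun t => m * j (pat ∘ t)) (fun t t' h0 => by rw [hp t t' h0]) hm0
          (by nlinarith) fun t => ?_
        · split_ifs
          · exact hG t
          · exact le_rfl
        · by_cases ht : w (t ∘ finRotate k) = D
          · right
            have h3 := (APat_cl_odd (pat ∘ t) r ((hρ t).symm.trans (ht.trans hr))).1
            have h4 := hj (pat ∘ t)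
            rw [h3] at h4
            have h5 := h4.mul_left' m
            rw [mul_comm m r, ← hm'] at h5
            rw [← pow_add, pow_eq_pow_mod _ hζ.pow, pow_eq_pow_mod (m + _) hζ.pow]
            congr 1
            rw [add_comm, ← Nat.mul_succ]
            exact h5
          · left
            exact if_neg ht
    · have : ∀ 𝒢 : (Fin k → E.ι) → Submodule B M, APat_W w D 𝒢 = ⊥ := fun 𝒢 =>
        eq_bot_iff.2 fun x hx => funext fun t => (APat_mem_W.1 hx t).2 fun ht => hex ⟨t, ht⟩
      rw [this, this]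
      exact psi_self _

/-- a direct summand spanned by basis vectors -/
theorem psiL_sub (hζ : RootU k ζ) {E₀ E : MC B} (u : E₀.ι → E.ι) (hu : Function.Injective u)
    (hdeg : ∀ i, E.deg (u i) = E₀.deg i) (hd : ∀ i j, E.d (u i) (u j) = E₀.d i j)
    (hd' : ∀ i j, E.d i (u j) ≠ 0 → i ∈ Set.range u) (p : E.ι → Prop) [DecidablePred p]
    (hp : ∀ i, p i ↔ i ∈ Set.range u) {P P' : Submodule B M} (hP : P' ≤ P) :
    E.psiL μ k ζ M (Submodule.pi Set.univ fun t => if ∀ l, p (t l) then P else ⊥)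
      (Submodule.pi Set.univ fun t => if ∀ l, p (t l) then P' else ⊥) =
      E₀.psiL μ k ζ M (cst _ P) (cst _ P') := by
  have hst : ∀ Q : Submodule B M, Stab (APat_C E k M) (APat_s E k M)
      (Submodule.pi Set.univ fun t => if ∀ l, p (t l) then Q else ⊥) := fun Q => by
    refine APat_stab_pi E _ (fun t l j x hx => ?_) fun t => ?_
    · by_cases h1 : ∀ l', p (Function.update t l j l')
      · rw [if_pos h1] at hx
        by_cases h0 : E.d (t l) j = 0
        · rw [h0, zero_smul]
          exact zero_mem _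
        · have h2 : ∀ l', p (t l') := fun l' => by
            by_cases hl : l' = l
            · have h3 := h1 l
              rw [Function.update_self] at h3
              obtain ⟨j₀, rfl⟩ := (hp j).1 h3
              rw [hl]
              exact (hp _).2 (hd' _ _ h0)
            · have h3 := h1 l'
              rwa [Function.update_of_ne hl] at h3
          rw [if_pos h2]
          exact Q.smul_mem _ hx
      · rw [if_neg h1] at hx
        rw [(Submodule.mem_bot B).1 hx, smul_zero]
        exact zero_mem _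
    · by_cases h1 : ∀ l, p ((t ∘ finRotate k) l)
      · have h2 : ∀ l, p (t l) := fun l => by
          have := h1 ((finRotate k).symm l)
          rwa [Function.comp_apply, Equiv.apply_symm_apply] at this
        rw [if_pos h1, if_pos h2]
      · rw [if_neg h1]
        exact bot_le
  have hmem : ∀ (Q : Submodule B M) (x : (Fin k → E.ι) → M),
      x ∈ (Submodule.pi Set.univ fun t : Fin k → E.ι => if ∀ l, p (t l) then Q else ⊥) ↔
        (∀ t₀ : Fin k → E₀.ι, x (u ∘ t₀) ∈ Q) ∧ ∀ t, (¬ ∀ l, p (t l)) → x t = 0 := by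
    intro Q x
    constructor
    · intro hx
      refine ⟨fun t₀ => ?_, fun t ht => ?_⟩
      · have h1 : x (u ∘ t₀) ∈ (if ∀ l, p ((u ∘ t₀) l) then Q else ⊥) := hx _ trivial
        have h2 : ∀ l, p ((u ∘ t₀) l) := fun l => (hp _).2 ⟨_, rfl⟩
        rwa [if_pos h2] at h1
      · have h1 : x t ∈ (if ∀ l, p (t l) then Q else ⊥) := hx _ trivial
        rwa [if_neg ht] at h1
    · rintro ⟨h1, h2⟩ t -
      change x t ∈ (if ∀ l, p (t l) then Q else ⊥)
      split_ifs with ht
      · choose t₀ ht₀ using fun l => (hp _).1 (ht l)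
        have : t = u ∘ t₀ := funext fun l => (ht₀ l).symm
        rw [this]
        exact h1 t₀
      · exact h2 t ht
  let f : ((Fin k → E.ι) → M) →ₗ[B] ((Fin k → E₀.ι) → M) :=
    LinearMap.funLeft B M fun t₀ => u ∘ t₀
  have hf : ∀ x t₀, f x t₀ = x (u ∘ t₀) := fun _ _ => rfl
  have hinj : Function.Injective fun t₀ : Fin k → E₀.ι => u ∘ t₀ := hu.comp_left
  have s₀ : ∀ Q : Submodule B M, Stab (APat_C E₀ k M) (APat_s E₀ k M) (cst _ Q) :=
    fun Q => stabL_cst E₀ Q
  refine psi_transport (μ := μ) hζ (APat_eqv E k M) (APat_eqv E₀ k M) f (hst P) (hst P')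
    (s₀ P) (s₀ P') (fun x hx => ?_) (Submodule.pi_mono fun _ _ => hP) ?_ ?_ (fun x hx => ?_)
    (fun n x hx => ?_) fun x hx => ?_
  · rw [hmem] at hx ⊢
    exact ⟨fun t₀ => hP (hx.1 t₀), hx.2⟩
  · refine le_antisymm (sup_le ?_ (Submodule.pi_mono fun _ _ => hP)) (le_sup_of_le_left ?_)
    · rintro _ ⟨x, hx, rfl⟩ t₀ -
      exact ((hmem P x).1 hx).1 t₀
    · intro y hy
      refine ⟨Function.extend (fun t₀ : Fin k → E₀.ι => u ∘ t₀) y 0,
        (hmem P _).2 ⟨fun t₀ => ?_, fun t ht => ?_⟩, funext fun t₀ => ?_⟩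
      · rw [hinj.extend_apply]
        exact hy t₀ trivial
      · rw [Function.extend_apply']
        · rfl
        · rintro ⟨t₀, rfl⟩
          exact ht fun l => (hp _).2 ⟨_, rfl⟩
      · rw [hf, hinj.extend_apply]
  · ext x
    rw [Submodule.mem_inf, hmem, hmem]
    exact ⟨fun h => ⟨fun t₀ => h.2 t₀ trivial, h.1.2⟩,
      fun h => ⟨⟨fun t₀ => hP (h.1 t₀), h.2⟩, fun t₀ _ => h.1 t₀⟩⟩
  · have : f ((APat_C E k M).D x) = (APat_C E₀ k M).D (f x) := by
      funext t₀
      rw [hf, APat_D, APat_D]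
      refine Finset.sum_congr rfl fun l _ => ?_
      refine (Fintype.sum_of_injective u hu _ _ (fun j hj => ?_) fun j => ?_).symm
      · rw [((hmem P x).1 hx).2 _ fun h1 => hj ((hp j).1 ?_), smul_zero, smul_zero]
        have := h1 l
        rwa [Function.update_self] at this
      · rw [hf, Function.comp_update]
        simp only [Function.comp_apply, hdeg, hd]
    rw [this, sub_self]
    exact zero_mem _
  · have : f ((APat_C E k M).π n x) = (APat_C E₀ k M).π n (f x) := by
      funext t₀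
      rw [hf, APat_π, APat_π, hf]
      simp only [Function.comp_apply, hdeg]
    rw [this, sub_self]
    exact zero_mem _
  · have : f (APat_s E k M x) = APat_s E₀ k M (f x) := by
      funext t₀
      rw [hf, APat_s_apply, APat_s_apply, hf]
      simp only [Function.comp_apply, hdeg]
      rfl
    rw [this, sub_self]
    exact zero_mem _

/-- the rank one case -/
theorem psiL_single (hζ : RootU k ζ) (hk : Odd k) (E : MC B) (hE : E.d = 0) (i : E.ι)
    (𝒢 𝒢' : (Fin k → E.ι) → Submodule B M) (hG : 𝒢' (fun _ => i) ≤ 𝒢 (fun _ => i))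
    (h : ∀ t, t ≠ (fun _ => i) → 𝒢 t = ⊥) (h' : ∀ t, t ≠ (fun _ => i) → 𝒢' t = ⊥) :
    E.psiL μ k ζ M (Submodule.pi Set.univ 𝒢) (Submodule.pi Set.univ 𝒢') =
      ((sg (E.deg i) * (μ.sz (𝒢 fun _ => i) (𝒢' fun _ => i)).toReal : ℝ) : ℂ) := by
  have hrot : ∀ t : Fin k → E.ι, t ≠ (fun _ => i) → t ∘ finRotate k ≠ fun _ => i := by
    intro t ht h1
    refine ht (funext fun l => ?_)
    have := congrFun h1 ((finRotate k).symm l)
    rwa [Function.comp_apply, Equiv.apply_symm_apply] at this
  have hst : ∀ 𝒢 : (Fin k → E.ι) → Submodule B M, (∀ t, t ≠ (fun _ => i) → 𝒢 t = ⊥) →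
      Stab (APat_C E k M) (APat_s E k M) (Submodule.pi Set.univ 𝒢) := fun 𝒢 h => by
    refine APat_stab_pi E _ (fun t l j x hx => ?_) fun t => ?_
    · rw [hE, Matrix.zero_apply, zero_smul]
      exact zero_mem _
    · by_cases ht : t = fun _ => i
      · rw [ht]
        exact le_rfl
      · rw [h _ (hrot t ht)]
        exact bot_le
  have hz : ∀ x ∈ Submodule.pi Set.univ 𝒢, ∀ t, t ≠ (fun _ => i) → x t = 0 := fun x hx t ht => by
    have h1 : x t ∈ 𝒢 t := hx t trivial
    rwa [h t ht] at h1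
  have hA : Submodule.pi Set.univ 𝒢' ≤ Submodule.pi Set.univ 𝒢 :=
    Submodule.pi_mono fun t _ => by
      by_cases ht : t = fun _ => i
      · rw [ht]
        exact hG
      · rw [h' t ht]
        exact bot_le
  obtain ⟨m, hm⟩ := hk
  have h1 := psi_of_trivial (μ := μ) hζ (Nat.pos_of_ne_zero (NeZero.ne k)) (APat_eqv E k M)
    (hst 𝒢 h) (hst 𝒢' h') hA fun x hx => by
      have : APat_s E k M x = x := by
        funext t
        rw [APat_s_apply]
        by_cases ht : t = fun _ => i
        · subst ht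
          rw [APat_sg_eq (b := 0)]
          · simp only [sg, Int.negOnePow_zero, Units.val_one, one_smul]
            rfl
          · simp only [Finset.sum_const, Finset.card_univ, Fintype.card_fin, nsmul_eq_mul]
            refine ⟨m * E.deg i * E.deg i, ?_⟩
            rw [hm]
            push_cast
            ring
        · rw [hz x hx t ht, hz x hx _ (hrot t ht), smul_zero]
      rw [this, sub_self]
      exact zero_mem _
  refine h1.trans ?_
  have h2 : ∀ n, (APat_C E k M).h μ n (Submodule.pi Set.univ 𝒢) (Submodule.pi Set.univ 𝒢') =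
      (single B M).h μ (n + -(k * E.deg i)) (𝒢 fun _ => i) (𝒢' fun _ => i) := fun n => by
    have hs : ∀ Q : Submodule B M, (single B M).Sub Q := fun Q => by
      refine ⟨fun x _ => zero_mem _, fun n x hx => ?_⟩
      change (if n = 0 then LinearMap.id else 0 : M →ₗ[B] M) x ∈ Q
      split_ifs
      · exact hx
      · exact zero_mem _
    refine ((APat_C E k M).h_transport μ (single B M) (LinearMap.proj fun _ => i) (hst 𝒢 h).sub
      (hst 𝒢' h').sub (hs _) (hs _) hA hG ?_ ?_ (fun x hx => ?_) _ (fun n x hx => ?_) n).1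
    · refine le_antisymm (sup_le ?_ hG) (le_sup_of_le_left fun y hy => ?_)
      · rintro _ ⟨x, hx, rfl⟩
        exact hx _ trivial
      · refine ⟨Pi.single (fun _ => i) y, fun t _ => ?_, Pi.single_eq_same _ _⟩
        by_cases ht : t = fun _ => i
        · subst ht
          rw [Pi.single_eq_same]
          exact hy
        · rw [Pi.single_eq_of_ne ht]
          exact zero_mem _
    · refine le_antisymm (fun x hx t _ => ?_) (le_inf hA fun x hx => hx _ trivial)
      by_cases ht : t = fun _ => i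
      · subst ht
        exact hx.2
      · rw [hz x hx.1 t ht]
        exact zero_mem _
    · change (APat_C E k M).D x (fun _ => i) - 0 ∈ _
      rw [APat_D]
      simp only [hE, Matrix.zero_apply, zero_smul, smul_zero, Finset.sum_const_zero, sub_zero]
      exact zero_mem _
    · change (APat_C E k M).π n x (fun _ => i) -
        (if n + -(k * E.deg i) = 0 then LinearMap.id else 0 : M →ₗ[B] M) (x fun _ => i) ∈ _
      rw [APat_π]
      simp only [Finset.sum_const, Finset.card_univ, Fintype.card_fin, nsmul_eq_mul]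
      by_cases hn : k * E.deg i = n
      · rw [if_pos hn, if_pos (by omega), LinearMap.id_apply, sub_self]
        exact zero_mem _
      · rw [if_neg hn, if_neg (by omega), LinearMap.zero_apply, sub_self]
        exact zero_mem _
  rw [ech_eq_single (k * E.deg i) fun n hn => by rw [h2, single_h, if_neg (by omega)], h2,
    single_h, if_pos (by omega), APat_sg_eq (b := E.deg i)]
  refine ⟨m * E.deg i, ?_⟩
  rw [hm]
  push_cast
  ring

theorem APat_h_one (E : MC B) (P P' : Submodule B M) (n : ℤ) :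
    (APat_C E 1 M).h μ n (cst _ P) (cst _ P') = (E.ap M).h μ n (cst _ P) (cst _ P') := by
  let e : ((Fin 1 → E.ι) → M) ≃ₗ[B] (E.ι → M) :=
    LinearEquiv.funCongrLeft B M (Equiv.funUnique (Fin 1) E.ι).symm
  have he : ∀ x i, e x i = x fun _ => i := fun x i => congrArg x (funext fun _ => by simp)
  have hc : ∀ Q : Submodule B M, (cst E.ι Q).comap e.toLinearMap = cst (Fin 1 → E.ι) Q := by
    intro Q
    ext x
    constructor
    · intro hx t _
      have h1 : e x (t 0) ∈ Q := hx (t 0) trivial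
      have h2 : t = fun _ => t 0 := funext fun l => congrArg t (Subsingleton.elim _ _)
      rw [he, ← h2] at h1
      exact h1
    · intro hx i _
      change e x i ∈ Q
      rw [he]
      exact hx _ trivial
  rw [← hc, ← hc]
  refine APat_h_equiv e ⟨fun x => ?_, fun n x => ?_⟩ _ _ μ n
  · funext i
    change e ((APat_C E 1 M).D x) i = (E.ap M).D (e x) i
    rw [he, APat_D, ap_D, matApp_apply, Fin.sum_univ_one]
    refine Finset.sum_congr rfl fun j _ => ?_
    have h2 : Finset.univ.filter (· < (0 : Fin 1)) = ∅ := by simp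
    have h3 : Function.update (fun _ : Fin 1 => i) 0 j = fun _ => j :=
      funext fun l => by rw [Subsingleton.elim l 0, Function.update_self]
    rw [h2, Finset.sum_empty, h3, he]
    simp [sg]
  · funext i
    change e ((APat_C E 1 M).π n x) i = (E.ap M).π n (e x) i
    rw [he, APat_π, ap_π, he, Fin.sum_univ_one]

theorem psiL_one (E : MC B) (P P' : Submodule B M) :
    E.psiL μ 1 1 M (cst _ P) (cst _ P') = (E.ap M).ech μ (cst _ P) (cst _ P') := by
  have h1 : eig (APat_s E 1 M) ((1 : B) ^ 0) = ⊤ := by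
    refine eq_top_iff.2 fun x _ => mem_eig.2 ?_
    funext t
    rw [APat_s_apply, finRotate_one]
    simp [sg]
  change psi (APat_C E 1 M) μ 1 1 (APat_s E 1 M) (cst _ P) (cst _ P') = _
  unfold psi
  rw [Finset.sum_range_one, h1, inf_top_eq, inf_top_eq, ech_congr (APat_h_one E P P')]
  simp

theorem finL_one (E : MC B) (P P' : Submodule B M) :
    E.FinL μ 1 M (cst _ P) (cst _ P') ↔ (E.ap M).FinH μ (cst _ P) (cst _ P') :=
  forall_congr' fun n => by
    rw [← APat_h_one E P P' n]
    rfl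

end MC

end Crest.Agent.R188
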