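import Crest.Agent.R188.HBasic

/-!
# Cones, short exact sequences, null-homotopic elements
-/

set_option autoImplicit false
set_option linter.unusedVariables false

open scoped ENNReal NNReal TensorProduct

namespace Crest.Agent.R183

namespace DG

variable {B : Type} [CommRing B] {X : Type} [AddCommGroup X] [Module B X]
  {X' : Type} [AddCommGroup X'] [Module B X'] {X'' : Type} [AddCommGroup X''] [Module B X'']
  {C : DG B X} {C' : DG B X'} {C'' : DG B X''} {μ : LF B}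

/-- the shifted complex -/
def HCone_sh (C : DG B X) : DG B X where
  D := -C.D
  π k := C.π (k - 1)
  DD x := by simp [C.DD]
  πD k x := by simp [C.πD]
  ππ k x := C.ππ _ x
  ππ' k j h x := C.ππ' _ _ (by omega) x

theorem HCone_sh_h (C : DG B X) (μ : LF B) (k : ℤ) (A A' : Submodule B X) :
    C.HCone_sh.h μ k A A' = C.h μ (k - 1) A A' := by
  unfold h
  congr 1
  · ext x
    simp only [mem_Z]
    exact and_congr_right fun _ => neg_mem_iff (x := C.D x)
  · unfold Bd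
    congr 1
    exact Submodule.map_neg A C.D

/-- a homogeneous boundary is the boundary of a homogeneous element -/
theorem HCone_hom (C : DG B X) {j k : ℤ} (hjk : j + 1 = k) {x y : X} (hx : C.π j x = x)
    (h : x = C.D y) : ∃ w, C.π k w = w ∧ x = C.D w :=
  ⟨C.π k y, C.ππ k y, by rw [← hx, h, C.πD, hjk]⟩

theorem HCone_Dπ (C : DG B X) (k : ℤ) {x : X} (h : C.D x = 0) : C.D (C.π k x) = 0 := by
  rw [← sub_add_cancel k 1, ← C.πD, h, map_zero]

theorem QI.HCone_surj {f : X →ₗ[B] X'} (hf : QI C C' f) {j k : ℤ} (hjk : j + 1 = k) {y : X'}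
    (hy : C'.π j y = y) (hD : C'.D y = 0) :
    ∃ x z, C.π j x = x ∧ C.D x = 0 ∧ C'.π k z = z ∧ y = f x + C'.D z := by
  obtain ⟨x, z, h1, h2, h3⟩ := hf.surj j y hy hD
  refine ⟨x, C'.π k z, h1, h2, C'.ππ k z, ?_⟩
  rw [← hy, h3, map_add, ← hf.π, h1, C'.πD, hjk]

theorem QI.HCone_inj {f : X →ₗ[B] X'} (hf : QI C C' f) {j k : ℤ} (hjk : j + 1 = k) {x : X}
    (hx : C.π j x = x) (hD : C.D x = 0) {z : X'} (hz : f x = C'.D z) :
    ∃ w, C.π k w = w ∧ x = C.D w := by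
  obtain ⟨w, hw⟩ := hf.inj j x hx hD z hz
  exact C.HCone_hom hjk hx hw

section ses

variable {f : X →ₗ[B] X'} {g : X' →ₗ[B] X''} (hf : IsMap C C' f) (hg : IsMap C' C'' g)
  (hi : Function.Injective f) (hs : Function.Surjective g) (he : Function.Exact f g)

include hf hg hi hs he

omit hg hs he in
theorem HCone_h_sub (μ : LF B) (k : ℤ) : C'.h μ k (LinearMap.range f) ⊥ = C.H μ k := by
  have := hf.h_map hi C.sub_top C.sub_bot bot_le μ k
  rwa [Submodule.map_top, Submodule.map_bot] at this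

omit hf hi in
theorem HCone_h_quot (μ : LF B) (k : ℤ) : C'.h μ k ⊤ (LinearMap.range f) = C''.H μ k := by
  have := hg.h_comap hs C''.sub_top C''.sub_bot bot_le μ k
  rwa [Submodule.comap_top, Submodule.comap_bot, LinearMap.exact_iff.1 he] at this

omit hg hi hs he in
theorem HCone_sub_range : C'.Sub (LinearMap.range f) := by
  have := hf.sub_map C.sub_top
  rwa [Submodule.map_top] at this

theorem ses_mid_le (μ : LF B) (k : ℤ) : C'.H μ k ≤ C.H μ k + C''.H μ k := by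
  rw [← HCone_h_sub hf hi, ← HCone_h_quot hg hs he]
  exact C'.h_le_add μ C'.sub_top (HCone_sub_range hf) C'.sub_bot le_top bot_le k

theorem ses_sub_le (μ : LF B) (k : ℤ) : C.H μ k ≤ C''.H μ (k + 1) + C'.H μ k := by
  rw [← HCone_h_sub hf hi, ← HCone_h_quot hg hs he]
  exact h_sub_le C'.sub_top (HCone_sub_range hf) C'.sub_bot le_top bot_le k

theorem ses_quot_le (μ : LF B) (k : ℤ) : C''.H μ k ≤ C'.H μ k + C.H μ (k - 1) := by
  rw [← HCone_h_sub hf hi, ← HCone_h_quot hg hs he]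
  exact h_quot_le C'.sub_top (HCone_sub_range hf) C'.sub_bot le_top bot_le k

theorem ech_ses (hC' : C'.Bdd) (f₁ : C.FinH μ ⊤ ⊥) (f₃ : C''.FinH μ ⊤ ⊥) :
    C'.ech μ ⊤ ⊥ = C.ech μ ⊤ ⊥ + C''.ech μ ⊤ ⊥ := by
  rw [ech_add hC' C'.sub_top (HCone_sub_range hf) C'.sub_bot le_top bot_le
    (fun k => (HCone_h_quot hg hs he μ k).symm ▸ f₃ k) (fun k => (HCone_h_sub hf hi μ k).symm ▸ f₁ k),
    ech_congr (HCone_h_sub hf hi μ), ech_congr (HCone_h_quot hg hs he μ)]

end ses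

section cone

variable {f : X →ₗ[B] X'} (hf : IsMap C C' f)

theorem cone_D (x : X' × X) : (cone hf).D x = (C'.D x.1 + f x.2, -C.D x.2) := rfl

theorem cone_π (k : ℤ) (x : X' × X) : (cone hf).π k x = (C'.π k x.1, C.π (k - 1) x.2) := rfl

theorem cone_bdd (hC : C.Bdd) (hC' : C'.Bdd) : (cone hf).Bdd := by
  obtain ⟨L, hL⟩ := hC
  obtain ⟨L', hL'⟩ := hC'
  refine ⟨L + L' + 1, fun k hk x => ?_⟩
  push_cast at hk
  rw [cone_π, hL (k - 1) (by rw [lt_abs] at hk ⊢; omega), hL' k (by rw [lt_abs] at hk ⊢; omega)]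
  rfl

theorem HCone_inl : IsMap C' (cone hf) (LinearMap.inl B X' X) :=
  ⟨fun x => by simp [cone_D], fun k x => by simp [cone_π]⟩

theorem HCone_snd : IsMap (cone hf) C.HCone_sh (LinearMap.snd B X' X) :=
  ⟨fun _ => rfl, fun _ _ => rfl⟩

theorem cone_acyc_iff : (cone hf).Acyc ↔ QI C C' f := by
  refine ⟨fun h => ⟨hf, fun k y hy hD => ?_, fun k x hx hD z hz => ?_⟩, fun h k p _ hp hD => ?_⟩
  · obtain ⟨⟨z, x⟩, -, e⟩ := h k (y, 0) trivial (by simp [cone_π, hy]) (by simp [cone_D, hD])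
    simp only [cone_D, Prod.mk.injEq, neg_eq_zero] at e
    refine ⟨C.π k x, C'.π (k + 1) z, C.ππ k x, C.HCone_Dπ k e.2, ?_⟩
    rw [← hy, ← e.1, map_add, hf.π, C'.πD, add_comm]
  · obtain ⟨w, hw, e⟩ := C'.HCone_hom rfl (by rw [← hf.π, hx]) hz
    obtain ⟨⟨u, v⟩, -, e'⟩ := h (k + 1) (-w, x) trivial (by simp [cone_π, hw, hx])
      (by simp [cone_D, hD, e])
    simp only [cone_D, Prod.mk.injEq] at e'
    exact ⟨-v, by rw [map_neg, e'.2]⟩
  · obtain ⟨y, x⟩ := p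
    simp only [cone_π, Prod.mk.injEq] at hp
    simp only [cone_D, Prod.mk_eq_zero, neg_eq_zero] at hD
    obtain ⟨w, hw, e⟩ := h.HCone_inj (sub_add_cancel k 1) hp.2 hD.2 (z := -y)
      (by rw [map_neg, eq_neg_iff_add_eq_zero, add_comm, hD.1])
    obtain ⟨x', z, -, h2, h3⟩ := h.surj k (y + f w) (by rw [map_add, hp.1, ← hf.π, hw])
      (by rw [map_add, ← hf.D, ← e, hD.1])
    refine ⟨(z, x' - w), trivial, ?_⟩
    simp only [cone_D, map_sub, h2, ← e, zero_sub, neg_neg, Prod.mk.injEq, and_true]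
    linear_combination (norm := module) -h3

theorem cone_H_le (μ : LF B) (k : ℤ) : (cone hf).H μ k ≤ C'.H μ k + C.H μ (k - 1) := by
  have := ses_mid_le (HCone_inl hf) (HCone_snd hf) LinearMap.inl_injective LinearMap.snd_surjective
    .inl_snd μ k
  rwa [H, H, H, HCone_sh_h] at this

theorem H_tgt_le_cone (μ : LF B) (k : ℤ) : C'.H μ k ≤ C.H μ k + (cone hf).H μ k := by
  have := ses_sub_le (HCone_inl hf) (HCone_snd hf) LinearMap.inl_injective LinearMap.snd_surjective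
    .inl_snd μ k
  rwa [H, H, H, HCone_sh_h, add_sub_cancel_right] at this

theorem H_src_le_cone (μ : LF B) (k : ℤ) : C.H μ k ≤ (cone hf).H μ (k + 1) + C'.H μ k := by
  have := ses_quot_le (HCone_inl hf) (HCone_snd hf) LinearMap.inl_injective LinearMap.snd_surjective
    .inl_snd μ (k + 1)
  rwa [H, H, H, HCone_sh_h, add_sub_cancel_right] at this

theorem ech_cone (hC : C.Bdd) (hC' : C'.Bdd) (f₁ : C.FinH μ ⊤ ⊥) (f₂ : C'.FinH μ ⊤ ⊥) :
    (cone hf).ech μ ⊤ ⊥ = C'.ech μ ⊤ ⊥ - C.ech μ ⊤ ⊥ := by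
  rw [ech_ses (HCone_inl hf) (HCone_snd hf) LinearMap.inl_injective LinearMap.snd_surjective
    .inl_snd (cone_bdd hf hC hC') f₂ (fun k => (C.HCone_sh_h μ k ⊤ ⊥).symm ▸ f₁ _),
    ech_shift (C := C.HCone_sh) (-1) fun k => C.HCone_sh_h μ k ⊤ ⊥]
  simp [sub_eq_add_neg]

/-- an injective chain map has the cokernel as cone -/
theorem cone_qi_of_exact {g : X' →ₗ[B] X''} (hg : IsMap C' C'' g) (hi : Function.Injective f)
    (hs : Function.Surjective g) (he : Function.Exact f g) :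
    QI (cone hf) C'' (g ∘ₗ LinearMap.fst B X' X) := by
  refine QI.of_surjective ⟨fun x => ?_, fun k x => hg.π k x.1⟩ (hs.comp Prod.fst_surjective) ?_
  · simp [cone_D, hg.D, he.apply_apply_eq_zero]
  · rintro k ⟨y, x⟩ hy - hD
    obtain ⟨u, rfl⟩ := (he y).1 hy
    simp only [cone_D, Prod.mk_eq_zero, ← hf.D, ← map_add] at hD
    have e := (map_eq_zero_iff f hi).1 hD.1
    refine ⟨(0, u), by simp, ?_⟩
    simp [cone_D, neg_eq_of_add_eq_zero_right e]

/-- functoriality of the cone for a commutative square of quasi-isomorphisms -/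
theorem cone_qi {Y Y' : Type} [AddCommGroup Y] [Module B Y] [AddCommGroup Y'] [Module B Y']
    {E : DG B Y} {E' : DG B Y'} {g : Y →ₗ[B] Y'} (hg : IsMap E E' g) {u : X →ₗ[B] Y}
    {u' : X' →ₗ[B] Y'} (hu : QI C E u) (hu' : QI C' E' u') (hc : ∀ x, u' (f x) = g (u x)) :
    QI (cone hf) (cone hg) (LinearMap.prodMap u' u) := by
  refine ⟨⟨fun x => ?_, fun k x => ?_⟩, fun k p hp hD => ?_, fun k p hp hD q hq => ?_⟩
  · simp [cone_D, hu.D, hu'.D, hc]
  · simp [cone_π, hu.π, hu'.π]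
  · obtain ⟨y', y⟩ := p
    simp only [cone_π, Prod.mk.injEq] at hp
    simp only [cone_D, Prod.mk_eq_zero, neg_eq_zero] at hD
    obtain ⟨x, z, h1, h2, h3, h4⟩ := hu.HCone_surj (sub_add_cancel k 1) hp.2 hD.2
    have e : E'.D y' + E'.D (g z) + u' (f x) = 0 := by
      rw [← hD.1, h4, map_add, hc, hg.D]
      abel
    obtain ⟨w, h5, h6⟩ := hu'.HCone_inj (sub_add_cancel k 1) (x := f x) (by rw [← hf.π, h1])
      (by rw [← hf.D, h2, map_zero]) (z := -(y' + g z))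
      (by rw [map_neg, map_add, eq_neg_iff_add_eq_zero, add_comm, e])
    obtain ⟨x', z', h7, h8, h9⟩ := hu'.surj k (y' + g z + u' w)
      (by rw [map_add, map_add, hp.1, ← hg.π, h3, ← hu'.π, h5])
      (by rw [map_add, map_add, ← hu'.D, ← h6, e])
    refine ⟨(x' - w, x), (z', -z), by simp [cone_π, h1, h5, h7], by simp [cone_D, h2, h8, h6], ?_⟩
    simp only [cone_D, LinearMap.prodMap_apply, map_sub, map_neg, neg_neg, Prod.mk_add_mk,
      Prod.mk.injEq]
    exact ⟨by linear_combination (norm := module) h9, h4⟩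
  · obtain ⟨⟨z', z⟩, hz, hq⟩ := (cone hg).HCone_hom (j := k) rfl (x := LinearMap.prodMap u' u p)
      (by rw [← hp]; simp [cone_π, hu.π, hu'.π, E.ππ, E'.ππ]) hq
    obtain ⟨x', x⟩ := p
    simp only [cone_π, Prod.mk.injEq, add_sub_cancel_right] at hp hz
    simp only [cone_D, Prod.mk_eq_zero, neg_eq_zero] at hD
    simp only [cone_D, LinearMap.prodMap_apply, Prod.mk.injEq] at hq
    obtain ⟨w, h1, h2⟩ := hu.HCone_inj (sub_add_cancel k 1) hp.2 hD.2 (z := -z)
      (by rw [map_neg, hq.2])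
    obtain ⟨x₁, z₁, h3, h4, h5⟩ := hu.surj k (z + u w) (by rw [map_add, hz.2, ← hu.π, h1])
      (by rw [map_add, ← hu.D, ← h2, hq.2, add_neg_cancel])
    obtain ⟨w', h6⟩ := hu'.inj k (x' + f w - f x₁)
      (by rw [map_sub, map_add, hp.1, ← hf.π, ← hf.π, h1, h3])
      (by rw [map_sub, map_add, ← hf.D, ← hf.D, ← h2, hD.1, h4, map_zero, sub_zero]) (z' + g z₁) (by
        rw [map_sub, map_add, hq.1, hc, hc, map_add, ← hg.D, add_assoc, ← map_add, h5, map_add]
        abel)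
    refine ⟨(w', x₁ - w), ?_⟩
    simp only [cone_D, map_sub, h4, ← h2, zero_sub, neg_neg, Prod.mk.injEq, and_true]
    linear_combination (norm := module) h6

theorem NullH.cone {a : B} (h : C.NullH a) (h' : C'.NullH a) : (cone hf).NullH (a ^ 2) := by
  obtain ⟨h, h1, h2⟩ := h
  obtain ⟨h', h1', h2'⟩ := h'
  refine ⟨LinearMap.prod (a • h' ∘ₗ LinearMap.fst B X' X +
    (h' ∘ₗ f ∘ₗ h - f ∘ₗ h ∘ₗ h) ∘ₗ LinearMap.snd B X' X) (-(a • h ∘ₗ LinearMap.snd B X' X)),
    fun k x => ?_, fun x => ?_⟩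
  · ext <;> simp [cone_π, h1, h1', hf.π]
  · have e := fun y => eq_sub_of_add_eq (h2 y)
    have e' := fun y => eq_sub_of_add_eq (h2' y)
    ext
    · simp [cone_D, e, e', ← hf.D]
      module
    · simp [cone_D, e]
      module

end cone

theorem nullH_zero (C : DG B X) : C.NullH 0 :=
  ⟨0, fun k x => by simp, fun x => by simp⟩

theorem NullH.add {a b : B} (ha : C.NullH a) (hb : C.NullH b) : C.NullH (a + b) := by
  obtain ⟨h, h1, h2⟩ := ha
  obtain ⟨h', h1', h2'⟩ := hb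
  refine ⟨h + h', fun k x => by simp [h1, h1'], fun x => ?_⟩
  rw [add_smul, ← h2, ← h2', LinearMap.add_apply, LinearMap.add_apply, map_add]
  abel

theorem NullH.mul {a : B} (ha : C.NullH a) (c : B) : C.NullH (c * a) := by
  obtain ⟨h, h1, h2⟩ := ha
  refine ⟨c • h, fun k x => by simp [h1], fun x => ?_⟩
  rw [mul_smul, ← h2, LinearMap.smul_apply, LinearMap.smul_apply, map_smul, smul_add]

/-- the null-homotopic elements form an ideal -/
def nullI (C : DG B X) : Ideal B where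
  carrier := {a | C.NullH a}
  zero_mem' := C.nullH_zero
  add_mem' := NullH.add
  smul_mem' c _ h := h.mul c

theorem mem_nullI {a : B} : a ∈ C.nullI ↔ C.NullH a := Iff.rfl

theorem NullH.smul_mem {a : B} (ha : C.NullH a) {k : ℤ} {x : X} (hx : C.π k x = x)
    (hD : C.D x = 0) : ∃ y, C.π (k + 1) y = y ∧ C.D y = a • x := by
  obtain ⟨h, h1, h2⟩ := ha
  exact ⟨h x, by rw [← h1, hx], by rw [← h2, hD, map_zero, add_zero]⟩

theorem NullH.acyc (h : C.NullH 1) : C.Acyc := fun k x _ hx hD => by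
  obtain ⟨y, -, hy⟩ := h.smul_mem hx hD
  exact ⟨y, trivial, by rw [hy, one_smul]⟩

theorem NullH.H_eq_zero {a : B} (ha : C.NullH a) (hμ : μ.Null a) (k : ℤ) : C.H μ k = 0 :=
  μ.sz_eq_zero_of_smul hμ fun x hx => by
    obtain ⟨y, -, hy⟩ := ha.smul_mem (C.mem_Z.1 hx).1.2 (C.mem_Z.1 hx).2
    exact hy ▸ C.D_mem_Bd ⊥ trivial

theorem nullH_coneS_self (C : DG B X) (a : B) : (C.coneS a).NullH a :=
  ⟨LinearMap.inr B X X ∘ₗ LinearMap.fst B X X, fun k x => by simp [cone_π],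
    fun x => by ext <;> simp [cone_D]⟩

theorem NullH.coneS {b : B} (h : C.NullH b) (a : B) : (C.coneS a).NullH b := by
  obtain ⟨h, h1, h2⟩ := h
  refine ⟨LinearMap.prodMap h (-h), fun k x => by simp [cone_π, h1], fun x => ?_⟩
  have e := fun y => eq_sub_of_add_eq (h2 y)
  ext
  · simp [cone_D, e]
    abel
  · simp [cone_D, e]

theorem NullH.H_coneS {a : B} (h : C.NullH a) (μ : LF B) (k : ℤ) :
    (C.coneS a).H μ k = C.H μ k + C.H μ (k - 1) := by
  obtain ⟨h, h1, h2⟩ := h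
  have e := fun y => eq_sub_of_add_eq (h2 y)
  have hm : IsMap (C.coneS a) (C.prod C.HCone_sh)
      (LinearMap.prod (LinearMap.fst B X X + h ∘ₗ LinearMap.snd B X X) (LinearMap.snd B X X)) :=
    ⟨fun x => by ext <;> simp [cone_D, prod, HCone_sh, e, add_assoc, sub_eq_add_neg],
      fun k x => by ext <;> simp [cone_π, prod, HCone_sh, h1]⟩
  rw [(QI.of_bijective hm ⟨fun x y hxy => ?_, fun y => ⟨(y.1 - h y.2, y.2), by simp⟩⟩).H_eq, H,
    ← Submodule.prod_top, ← Submodule.prod_bot, h_prod, HCone_sh_h]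
  have e1 : x.1 + h x.2 = y.1 + h y.2 := congrArg Prod.fst hxy
  have e2 : x.2 = y.2 := (Prod.ext_iff.1 hxy).2
  exact Prod.ext (by rw [e2] at e1; exact add_right_cancel e1) e2

theorem coneS_qi {f : X →ₗ[B] X'} (hf : QI C C' f) (a : B) :
    QI (C.coneS a) (C'.coneS a) (LinearMap.prodMap f f) :=
  cone_qi _ _ hf hf fun x => by simp

theorem Iso.coneS (h : C.Iso C') (a : B) : (C.coneS a).Iso (C'.coneS a) := by
  obtain ⟨e, he⟩ := h
  exact ⟨e.prodCongr e, (coneS_qi (QI.of_bijective he e.bijective) a).toIsMap⟩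

/-- the chain map `coneS a → coneS (a * b)` -/
theorem HCone_oct_map (C : DG B X) (a b : B) : IsMap (C.coneS a) (C.coneS (a * b))
    (LinearMap.prodMap (LinearMap.lsmul B X b) LinearMap.id) :=
  ⟨fun x => by simp [cone_D, smul_smul, mul_comm], fun k x => by simp [cone_π]⟩

/-- the octahedron -/
theorem HCone_oct (C : DG B X) (a b : B) : ∃ v, QI (cone (C.HCone_oct_map a b)) (C.coneS b) v := by
  refine ⟨LinearMap.prod (LinearMap.fst B X X ∘ₗ LinearMap.fst B _ _)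
    (a • LinearMap.snd B X X ∘ₗ LinearMap.fst B _ _ + LinearMap.fst B X X ∘ₗ LinearMap.snd B _ _),
    QI.of_surjective ⟨fun x => ?_, fun k x => ?_⟩ (fun y => ⟨((y.1, 0), (y.2, 0)), by simp⟩) ?_⟩
  · ext
    · simp [cone_D]
      module
    · simp [cone_D]
      module
  · ext <;> simp [cone_π]
  · rintro k ⟨⟨y', y⟩, ⟨x', x⟩⟩ hy - hD
    simp [LinearMap.mem_ker] at hy
    simp [cone_D] at hD
    refine ⟨((0, 0), (0, y)), by simp [LinearMap.mem_ker], ?_⟩
    simp [cone_D, hy.1, neg_eq_of_add_eq_zero_right hy.2, neg_add_eq_zero.1 hD.1.2]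

theorem H_coneS_mul_le (C : DG B X) (a b : B) (μ : LF B) (k : ℤ) :
    (C.coneS (a * b)).H μ k ≤ (C.coneS a).H μ k + (C.coneS b).H μ k := by
  obtain ⟨v, hv⟩ := C.HCone_oct a b
  rw [← hv.H_eq]
  exact H_tgt_le_cone _ μ k

theorem ech_coneS_mul (hC : C.Bdd) (a b : B) (fa : (C.coneS a).FinH μ ⊤ ⊥)
    (fb : (C.coneS b).FinH μ ⊤ ⊥) :
    (C.coneS (a * b)).ech μ ⊤ ⊥ = (C.coneS a).ech μ ⊤ ⊥ + (C.coneS b).ech μ ⊤ ⊥ := by
  obtain ⟨v, hv⟩ := C.HCone_oct a b
  rw [← hv.ech_eq, ech_cone _ (cone_bdd _ hC hC) (cone_bdd _ hC hC) fa fun k =>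
    ne_top_of_le_ne_top (ENNReal.add_ne_top.2 ⟨fa k, fb k⟩) (C.H_coneS_mul_le a b μ k)]
  ring

theorem H_coneS_pow_le (C : DG B X) (a : B) (e : ℕ) (μ : LF B) (k : ℤ) :
    (C.coneS (a ^ e)).H μ k ≤ e * (C.coneS a).H μ k := by
  induction e with
  | zero => rw [pow_zero]; exact ((C.nullH_coneS_self 1).acyc.h_eq_zero μ k).le.trans zero_le
  | succ e ih =>
    rw [pow_succ, Nat.cast_succ, add_mul, one_mul]
    exact (C.H_coneS_mul_le _ _ μ k).trans (add_le_add ih le_rfl)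

theorem ech_coneS_pow (hC : C.Bdd) (a : B) (e : ℕ) (fa : (C.coneS a).FinH μ ⊤ ⊥) :
    (C.coneS (a ^ e)).ech μ ⊤ ⊥ = e * (C.coneS a).ech μ ⊤ ⊥ := by
  induction e with
  | zero =>
    rw [pow_zero, ech_eq_zero ((C.nullH_coneS_self 1).acyc.h_eq_zero μ), Nat.cast_zero, zero_mul]
  | succ e ih =>
    rw [pow_succ, ech_coneS_mul hC _ _ (fun k => ne_top_of_le_ne_top
      (ENNReal.mul_ne_top (ENNReal.natCast_ne_top e) (fa k)) (C.H_coneS_pow_le a e μ k)) fa, ih,
      Nat.cast_succ, add_mul, one_mul]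

/-- the cone of a regular element on a module -/
theorem coneS_single_qi (M : Type) [AddCommGroup M] [Module B M] {a : B}
    (ha : IsSMulRegular M a) :
    QI ((single B M).coneS a) (single B (QuotSMulTop a M))
      ((Submodule.mkQ _) ∘ₗ LinearMap.fst B M M) := by
  refine cone_qi_of_exact _ (single_isMap _) ha (Submodule.mkQ_surjective _) fun y => ?_
  rw [Submodule.mkQ_apply, Submodule.Quotient.mk_eq_zero, Submodule.mem_smul_pointwise_iff_exists]
  simp

/-- finiteness of homology killed by an ideal -/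
theorem finH_of_nullH [IsNoetherianRing B] [Module.Finite B X] (J : Ideal B)
    (hJ : ∀ a ∈ J, ∃ c : ℕ, C.NullH (a ^ c)) (hμ : ∀ c : ℕ, μ.val (B ⧸ J ^ c) ≠ ⊤) :
    C.FinH μ ⊤ ⊥ := by
  obtain ⟨c, hc⟩ := Ideal.exists_pow_le_of_le_radical_of_fg (I := J) (J := C.nullI) hJ
    (IsNoetherian.noetherian J)
  intro k
  obtain ⟨n, v, hv⟩ := Module.Finite.exists_fin (R := B) (M := (C.Z k ⊤ ⊥).map (C.Bd ⊤ ⊥).mkQ)
  refine ne_top_of_le_ne_top (ENNReal.mul_ne_top (ENNReal.natCast_ne_top n) (hμ c))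
    (μ.val_le_of_span (J ^ c) v hv ?_)
  rintro a ha ⟨_, x, hx, rfl⟩
  apply Subtype.ext
  change a • (C.Bd ⊤ ⊥).mkQ x = 0
  obtain ⟨y, -, hy⟩ := NullH.smul_mem (hc ha) (C.mem_Z.1 hx).1.2 (C.mem_Z.1 hx).2
  rw [← map_smul, Submodule.mkQ_apply, Submodule.Quotient.mk_eq_zero, ← hy]
  exact C.D_mem_Bd ⊥ trivial

end DG

end Crest.Agent.R183
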