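import Crest.Agent.R188.ADefs
import Crest.Agent.R188.HCone

/-!
# The equivariant Euler characteristic `psi`
-/

set_option autoImplicit false
set_option linter.unusedVariables false

open scoped ENNReal NNReal TensorProduct

namespace Crest.Agent.R188

open Crest.Agent.R183 Crest.Agent.R183.DG

variable {B : Type} [CommRing B] {X : Type} [AddCommGroup X] [Module B X]
  {X' : Type} [AddCommGroup X'] [Module B X'] {C : DG B X} {C' : DG B X'} {μ : LF B}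
  {k : ℕ} {ζ : B} {σ : X →ₗ[B] X} {σ' : X' →ₗ[B] X'}

theorem RootU.map {B' : Type} [CommRing B'] (h : RootU k ζ) (φ : B →+* B') : RootU k (φ ζ) := by
  refine ⟨by rw [← map_pow, h.pow, map_one], by simpa using h.unit.map φ, fun i h0 hi => ?_⟩
  simpa using (h.sub i h0 hi).map φ

theorem rootU_one : RootU 1 (1 : B) :=
  ⟨by simp, by simp, fun i h0 hi => by omega⟩

theorem RootU.pos [Nontrivial B] (h : RootU k ζ) : 0 < k := by
  refine Nat.pos_of_ne_zero fun h0 => ?_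
  have := h.unit
  rw [h0] at this
  simp at this

theorem APsi_geom (h : RootU k ζ) {r : ℕ} (hr : r % k ≠ 0) (hk : 0 < k) :
    ∑ j ∈ Finset.range k, (ζ ^ r) ^ j = 0 := by
  have e : ζ ^ r = ζ ^ (r % k) := by
    conv_lhs => rw [← Nat.div_add_mod r k, pow_add, pow_mul, h.pow, one_pow, one_mul]
  refine (h.sub (r % k) (Nat.pos_of_ne_zero hr) (Nat.mod_lt _ hk)).mul_right_eq_zero.1 ?_
  rw [← e, mul_geom_sum, ← pow_mul, mul_comm, pow_mul, h.pow, one_pow, sub_self]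

theorem APsi_shift {M : Type*} [AddCommGroup M] (F : ℕ → M) (k : ℕ) (h : ∀ i, F (i + k) = F i)
    (r : ℕ) : ∑ i ∈ Finset.range k, F (i + r) = ∑ i ∈ Finset.range k, F i := by
  induction r with
  | zero => rfl
  | succ r ih =>
    have h1 := Finset.sum_range_succ (fun i => F (i + r)) k
    rw [Finset.sum_range_succ', zero_add, add_comm k r, h, add_left_inj] at h1
    rw [← ih, ← h1]
    exact Finset.sum_congr rfl fun i _ => by rw [add_right_comm, add_assoc]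

theorem APsi_pow_eig {c : B} {x : X} (hx : x ∈ eig σ c) (j : ℕ) : (σ ^ j) x = c ^ j • x := by
  induction j with
  | zero => simp
  | succ j ih => rw [pow_succ', Module.End.mul_apply, ih, map_smul, mem_eig.1 hx, smul_smul, pow_succ]

/-- the eigenprojections are polynomials in `σ` -/
theorem RootU.exists_proj (h : RootU k ζ) (hk : 0 < k) : ∃ c : ℕ → ℕ → B,
    ∀ (X : Type) [AddCommGroup X] [Module B X] (σ : X →ₗ[B] X), (∀ x, (σ ^ k) x = x) →
      (∀ i, i < k → ∀ x, ∑ j ∈ Finset.range k, c i j • (σ ^ j) x ∈ eig σ (ζ ^ i)) ∧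
      (∀ i, i < k → ∀ x ∈ eig σ (ζ ^ i), ∑ j ∈ Finset.range k, c i j • (σ ^ j) x = x) ∧
      (∀ i, i < k → ∀ i', i' < k → i ≠ i' → ∀ x ∈ eig σ (ζ ^ i'),
        ∑ j ∈ Finset.range k, c i j • (σ ^ j) x = 0) ∧
      ∀ x, ∑ i ∈ Finset.range k, ∑ j ∈ Finset.range k, c i j • (σ ^ j) x = x := by
  obtain ⟨u, hu⟩ := h.unit.exists_left_inv
  refine ⟨fun i j => u * (ζ ^ (k - i)) ^ j, fun X _ _ σ hσ => ⟨fun i hi x => ?_,
    fun i hi x hx => ?_, fun i hi i' hi' hne x hx => ?_, fun x => ?_⟩⟩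
  · have e : ζ ^ i * ζ ^ (k - i) = 1 := by rw [← pow_add, Nat.add_sub_cancel' hi.le, h.pow]
    have e2 : (ζ ^ (k - i)) ^ k = 1 := by rw [← pow_mul, mul_comm, pow_mul, h.pow, one_pow]
    rw [mem_eig, ← APsi_shift (fun j => (u * (ζ ^ (k - i)) ^ j) • (σ ^ j) x) k (fun j => by
      rw [pow_add, e2, mul_one, pow_add, Module.End.mul_apply, hσ]) 1 |> congrArg (ζ ^ i • ·),
      map_sum, Finset.smul_sum]
    refine Finset.sum_congr rfl fun j _ => ?_
    rw [map_smul, smul_smul, pow_succ' σ, Module.End.mul_apply]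
    congr 1
    linear_combination (-(u * (ζ ^ (k - i)) ^ j)) * e
  · have e : ζ ^ (k - i) * ζ ^ i = 1 := by rw [← pow_add, Nat.sub_add_cancel hi.le, h.pow]
    simp only [APsi_pow_eig hx, smul_smul, mul_assoc, ← mul_pow, e, one_pow, mul_one,
      ← Finset.sum_smul, Finset.sum_const, Finset.card_range, nsmul_eq_mul]
    rw [mul_comm, hu, one_smul]
  · have hr : (k - i + i') % k ≠ 0 := by
      rcases lt_or_gt_of_ne hne with hl | hl
      · rw [show k - i + i' = (i' - i) + k by omega, Nat.add_mod_right, Nat.mod_eq_of_lt (by omega)]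
        omega
      · rw [Nat.mod_eq_of_lt (by omega)]
        omega
    simp only [APsi_pow_eig hx, smul_smul, mul_assoc, ← mul_pow, ← pow_add, ← Finset.sum_smul,
      ← Finset.mul_sum, APsi_geom h hr hk, mul_zero, zero_smul]
  · rw [Finset.sum_comm, Finset.sum_eq_single 0 (fun j hj hj0 => ?_) (by simp [hk.ne'])]
    · simp only [pow_zero, mul_one, ← Finset.sum_smul, Finset.sum_const, Finset.card_range,
        nsmul_eq_mul]
      rw [mul_comm, hu]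
      simp
    · have hj' := Finset.mem_range.1 hj
      have e : ∑ i ∈ Finset.range k, (ζ ^ (k - i)) ^ j =
          ζ ^ j * ∑ i ∈ Finset.range k, (ζ ^ j) ^ i := by
        rw [← Finset.sum_range_reflect (fun i => (ζ ^ j) ^ i), Finset.mul_sum]
        refine Finset.sum_congr rfl fun i hi => ?_
        have := Finset.mem_range.1 hi
        rw [← pow_succ', ← pow_mul, ← pow_mul, mul_comm j, show k - 1 - i + 1 = k - i by omega]
      rw [← Finset.sum_smul, ← Finset.mul_sum, e,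
        APsi_geom h (by rwa [Nat.mod_eq_of_lt hj']) hk, mul_zero, mul_zero, zero_smul]

/-- polynomials in `σ` -/
def APsi_e (c : ℕ → B) (k : ℕ) (σ : X →ₗ[B] X) : X →ₗ[B] X :=
  ∑ j ∈ Finset.range k, c j • σ ^ j

theorem APsi_e_apply (c : ℕ → B) (k : ℕ) (σ : X →ₗ[B] X) (x : X) :
    APsi_e c k σ x = ∑ j ∈ Finset.range k, c j • (σ ^ j) x := by
  simp [APsi_e, LinearMap.sum_apply]

theorem APsi_pow_mem {A : Submodule B X} (hA : ∀ x ∈ A, σ x ∈ A) (j : ℕ) {x : X} (hx : x ∈ A) :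
    (σ ^ j) x ∈ A := by
  induction j with
  | zero => simpa using hx
  | succ j ih => rw [pow_succ', Module.End.mul_apply]; exact hA _ ih

theorem APsi_e_mem {A : Submodule B X} (hA : ∀ x ∈ A, σ x ∈ A) (c : ℕ → B) {x : X} (hx : x ∈ A) :
    APsi_e c k σ x ∈ A := by
  rw [APsi_e_apply]
  exact sum_mem fun j _ => A.smul_mem _ (APsi_pow_mem hA j hx)

theorem APsi_e_comm {A : Submodule B X} {E' : Submodule B X'} (hA : ∀ x ∈ A, σ x ∈ A)
    (hE : ∀ x ∈ E', σ' x ∈ E') {f : X →ₗ[B] X'} (hs : ∀ x ∈ A, f (σ x) - σ' (f x) ∈ E')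
    (c : ℕ → B) {x : X} (hx : x ∈ A) : f (APsi_e c k σ x) - APsi_e c k σ' (f x) ∈ E' := by
  rw [APsi_e_apply, APsi_e_apply, map_sum, ← Finset.sum_sub_distrib]
  refine sum_mem fun j hj => ?_
  rw [map_smul, ← smul_sub]
  refine E'.smul_mem _ ?_
  clear hj
  induction j with
  | zero => simp
  | succ j ih =>
    rw [pow_succ', pow_succ', Module.End.mul_apply, Module.End.mul_apply,
      ← sub_add_sub_cancel _ (σ' (f ((σ ^ j) x))), ← map_sub σ']
    exact add_mem (hs _ (APsi_pow_mem hA j hx)) (hE _ ih)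

theorem APsi_e_comm' {f : X →ₗ[B] X} (hs : ∀ x, σ (f x) = f (σ x)) (c : ℕ → B) (x : X) :
    APsi_e c k σ (f x) = f (APsi_e c k σ x) := by
  have := APsi_e_comm (k := k) (σ := σ) (σ' := σ) (A := ⊤) (E' := ⊥) (f := f) (fun _ _ => trivial)
    (fun x hx => by rw [(Submodule.mem_bot B).1 hx, map_zero]; exact zero_mem _)
    (fun x _ => by rw [hs, sub_self]; exact zero_mem _) c (x := x) trivial
  exact (sub_eq_zero.1 ((Submodule.mem_bot B).1 this)).symm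

theorem APsi_proj (h : RootU k ζ) (hk : 0 < k) : ∃ c : ℕ → ℕ → B,
    ∀ (X : Type) [AddCommGroup X] [Module B X] (σ : X →ₗ[B] X), (∀ x, (σ ^ k) x = x) →
      (∀ i, i < k → ∀ x, APsi_e (c i) k σ x ∈ eig σ (ζ ^ i)) ∧
      (∀ i, i < k → ∀ x ∈ eig σ (ζ ^ i), APsi_e (c i) k σ x = x) ∧
      (∀ i, i < k → ∀ i', i' < k → i ≠ i' → ∀ x ∈ eig σ (ζ ^ i'), APsi_e (c i) k σ x = 0) ∧
      ∀ x, ∑ i ∈ Finset.range k, APsi_e (c i) k σ x = x := by
  simpa only [APsi_e_apply] using h.exists_proj hk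

theorem Stab.top (hσ : IsMap C C σ) : Stab C σ ⊤ :=
  ⟨sub_top C, fun _ _ => trivial⟩

theorem Stab.bot (hσ : IsMap C C σ) : Stab C σ ⊥ :=
  ⟨sub_bot C, fun x hx => by rw [(Submodule.mem_bot B).1 hx, map_zero]; exact zero_mem _⟩

theorem Stab.inf {A A' : Submodule B X} (h : Stab C σ A) (h' : Stab C σ A') :
    Stab C σ (A ⊓ A') :=
  ⟨h.sub.inf h'.sub, fun x hx => ⟨h.mem x hx.1, h'.mem x hx.2⟩⟩

theorem Stab.sup {A A' : Submodule B X} (h : Stab C σ A) (h' : Stab C σ A') :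
    Stab C σ (A ⊔ A') := by
  refine ⟨h.sub.sup h'.sub, fun x hx => ?_⟩
  obtain ⟨a, ha, b, hb, rfl⟩ := Submodule.mem_sup.1 hx
  rw [map_add]
  exact Submodule.add_mem_sup (h.mem a ha) (h'.mem b hb)

theorem sub_eig (hσ : IsMap C C σ) (c : B) : C.Sub (eig σ c) :=
  ⟨fun x hx => mem_eig.2 (by rw [hσ.D, mem_eig.1 hx, map_smul]),
    fun n x hx => mem_eig.2 (by rw [hσ.π, mem_eig.1 hx, map_smul])⟩

theorem h_eq_sum_eig (hζ : RootU k ζ) (hk : 0 < k) (hσ : Eqv C k σ) {A A' : Submodule B X}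
    (sA : Stab C σ A) (sA' : Stab C σ A') (hA : A' ≤ A) (μ : LF B) (n : ℤ) :
    C.h μ n A A' = ∑ i ∈ Finset.range k, C.h μ n (A ⊓ eig σ (ζ ^ i)) (A' ⊓ eig σ (ζ ^ i)) := by
  obtain ⟨c, hc⟩ := APsi_proj hζ hk
  obtain ⟨p1, p2, p3, p4⟩ := hc X σ hσ.pow
  have eD : ∀ i x, APsi_e (c i) k σ (C.D x) = C.D (APsi_e (c i) k σ x) :=
    fun i => APsi_e_comm' hσ.isMap.D _
  have eπ : ∀ i x, APsi_e (c i) k σ (C.π n x) = C.π n (APsi_e (c i) k σ x) :=
    fun i => APsi_e_comm' (hσ.isMap.π n) _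
  set Φ : X →ₗ[B] (Fin k → X) := LinearMap.pi fun i => APsi_e (c i) k σ with hΦ
  have h1 : (C.Z n A A').map Φ = Submodule.pi Set.univ fun i : Fin k =>
      C.Z n (A ⊓ eig σ (ζ ^ (i : ℕ))) (A' ⊓ eig σ (ζ ^ (i : ℕ))) := by
    refine le_antisymm ?_ fun y hy => ?_
    · rintro _ ⟨x, hx, rfl⟩ i -
      obtain ⟨⟨x1, x2⟩, x3⟩ := C.mem_Z.1 hx
      refine C.mem_Z.2 ⟨⟨⟨APsi_e_mem sA.mem _ x1, p1 i i.2 x⟩, ?_⟩, ?_⟩
      · change C.π n (APsi_e (c i) k σ x) = APsi_e (c i) k σ x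
        rw [← eπ, x2]
      · change C.D (APsi_e (c i) k σ x) ∈ _
        rw [← eD]
        exact ⟨APsi_e_mem sA'.mem _ x3, p1 i i.2 _⟩
    · refine ⟨∑ i, y i, sum_mem fun i _ => C.Z_mono n inf_le_left inf_le_left (hy i trivial),
        funext fun i => ?_⟩
      change APsi_e (c i) k σ (∑ i, y i) = y i
      rw [map_sum, Finset.sum_eq_single i (fun j _ hj => p3 i i.2 j j.2
        (fun e => hj (Fin.ext e.symm)) _ (hy j trivial).1.1.2) (by simp)]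
      exact p2 i i.2 _ (hy i trivial).1.1.2
  have h2 : C.Bd A A' = (Submodule.pi Set.univ fun i : Fin k =>
      C.Bd (A ⊓ eig σ (ζ ^ (i : ℕ))) (A' ⊓ eig σ (ζ ^ (i : ℕ)))).comap Φ := by
    refine le_antisymm (fun x hx i _ => ?_) fun x hx => ?_
    · obtain ⟨a, ha, b, hb, rfl⟩ := C.mem_Bd.1 hx
      refine C.mem_Bd.2 ⟨_, ⟨APsi_e_mem sA.mem (c i) ha, p1 i i.2 a⟩, _,
        ⟨APsi_e_mem sA'.mem (c i) hb, p1 i i.2 b⟩, ?_⟩
      change _ = APsi_e (c i) k σ (C.D a + b)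
      rw [map_add, eD]
    · rw [← p4 x, Finset.sum_range]
      exact sum_mem fun i _ => C.Bd_mono inf_le_left inf_le_left (hx i trivial)
  rw [Finset.sum_range, DG.h, h2, ← μ.sz_map_eq, h1, μ.sz_pi]
  rfl

theorem finH_eig (hζ : RootU k ζ) (hσ : Eqv C k σ) {A A' : Submodule B X}
    (sA : Stab C σ A) (sA' : Stab C σ A') (hA : A' ≤ A) (h : C.FinH μ A A') {i : ℕ} (hi : i < k) :
    C.FinH μ (A ⊓ eig σ (ζ ^ i)) (A' ⊓ eig σ (ζ ^ i)) := by
  intro n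
  have h1 := h n
  rw [h_eq_sum_eig hζ (by omega) hσ sA sA' hA] at h1
  exact ENNReal.sum_ne_top.1 h1 i (Finset.mem_range.2 hi)

theorem psi_add (hC : C.Bdd) (hζ : RootU k ζ) (hσ : Eqv C k σ) {A₁ A₂ A₃ : Submodule B X}
    (s₁ : Stab C σ A₁) (s₂ : Stab C σ A₂) (s₃ : Stab C σ A₃) (h₁₂ : A₂ ≤ A₁) (h₂₃ : A₃ ≤ A₂)
    (f₁₂ : C.FinH μ A₁ A₂) (f₂₃ : C.FinH μ A₂ A₃) :
    psi C μ k ζ σ A₁ A₃ = psi C μ k ζ σ A₂ A₃ + psi C μ k ζ σ A₁ A₂ := by
  unfold psi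
  rw [← Finset.sum_add_distrib]
  refine Finset.sum_congr rfl fun i hi => ?_
  have hi' := Finset.mem_range.1 hi
  have e := sub_eig hσ.isMap (ζ ^ i)
  rw [ech_add hC (s₁.sub.inf e) (s₂.sub.inf e) (s₃.sub.inf e) (inf_le_inf_right _ h₁₂)
    (inf_le_inf_right _ h₂₃) (finH_eig hζ hσ s₁ s₂ h₁₂ f₁₂ hi') (finH_eig hζ hσ s₂ s₃ h₂₃ f₂₃ hi')]
  push_cast
  ring

theorem psi_eq_zero_of_h (hζ : RootU k ζ) (hσ : Eqv C k σ) {A A' : Submodule B X}
    (sA : Stab C σ A) (sA' : Stab C σ A') (hA : A' ≤ A) (h : ∀ n, C.h μ n A A' = 0) :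
    psi C μ k ζ σ A A' = 0 := by
  refine Finset.sum_eq_zero fun i hi => ?_
  rw [ech_eq_zero fun n => ?_]
  · simp
  · have h1 := h n
    rw [h_eq_sum_eig hζ (by have := Finset.mem_range.1 hi; omega) hσ sA sA' hA] at h1
    exact Finset.sum_eq_zero_iff.1 h1 i hi

theorem psi_self (A : Submodule B X) : psi C μ k ζ σ A A = 0 := by
  refine Finset.sum_eq_zero fun i hi => ?_
  rw [ech_eq_zero fun n => C.h_self μ n _]
  simp

theorem psi_transport (hζ : RootU k ζ) (hσ : Eqv C k σ) (hσ' : Eqv C' k σ') (f : X →ₗ[B] X')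
    {A A' : Submodule B X} {E E' : Submodule B X'} (sA : Stab C σ A) (sA' : Stab C σ A')
    (sE : Stab C' σ' E) (sE' : Stab C' σ' E') (hA : A' ≤ A) (hE : E' ≤ E)
    (hmap : A.map f ⊔ E' = E) (hcomap : A ⊓ E'.comap f = A')
    (hD : ∀ x ∈ A, f (C.D x) - C'.D (f x) ∈ E')
    (hπ : ∀ n, ∀ x ∈ A, f (C.π n x) - C'.π n (f x) ∈ E')
    (hs : ∀ x ∈ A, f (σ x) - σ' (f x) ∈ E') :
    psi C μ k ζ σ A A' = psi C' μ k ζ σ' E E' := by
  refine Finset.sum_congr rfl fun i hi => ?_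
  have hi' := Finset.mem_range.1 hi
  obtain ⟨c, hc⟩ := APsi_proj hζ (by omega)
  obtain ⟨p1, p2, -, -⟩ := hc X σ hσ.pow
  obtain ⟨q1, q2, -, -⟩ := hc X' σ' hσ'.pow
  have e := sub_eig hσ.isMap (ζ ^ i)
  have e' := sub_eig hσ'.isMap (ζ ^ i)
  have hE' : ∀ y ∈ E', APsi_e (c i) k σ' y ∈ E' ⊓ eig σ' (ζ ^ i) := fun y hy =>
    ⟨APsi_e_mem sE'.mem _ hy, q1 i hi' y⟩
  have hcomm : ∀ x ∈ A, f (APsi_e (c i) k σ x) - APsi_e (c i) k σ' (f x) ∈ E' := fun x hx =>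
    APsi_e_comm sA.mem sE'.mem hs _ hx
  rw [ech_congr (E := C') (μ' := μ) (P := E ⊓ eig σ' (ζ ^ i)) (P' := E' ⊓ eig σ' (ζ ^ i)) fun n => ?_]
  have := (C.h_transport μ C' (APsi_e (c i) k σ' ∘ₗ f) (sA.sub.inf e) (sA'.sub.inf e)
    (sE.sub.inf e') (sE'.sub.inf e') (inf_le_inf_right _ hA) (inf_le_inf_right _ hE) ?_ ?_
    (fun x hx => ?_) 0 (fun m x hx => ?_) n).1
  · rwa [add_zero] at this
  · refine le_antisymm (sup_le ?_ (inf_le_inf_right _ hE)) fun y hy => ?_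
    · rintro _ ⟨x, hx, rfl⟩
      exact ⟨APsi_e_mem sE.mem _ (hmap.le (Submodule.mem_sup_left ⟨x, hx.1, rfl⟩)), q1 i hi' _⟩
    · obtain ⟨_, ⟨a, ha, rfl⟩, b, hb, rfl⟩ := Submodule.mem_sup.1 (hmap.ge hy.1)
      refine Submodule.mem_sup.2 ⟨_, ⟨APsi_e (c i) k σ a, ⟨APsi_e_mem sA.mem _ ha, p1 i hi' a⟩, rfl⟩,
        _, hE' _ (sub_mem hb (hcomm a ha)), ?_⟩
      rw [← q2 i hi' _ hy.2, LinearMap.comp_apply, map_sub, map_sub, q2 i hi' _ (q1 i hi' _), map_add]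
      abel
  · refine le_antisymm (fun x hx => ⟨hcomap.le ⟨hx.1.1, ?_⟩, hx.1.2⟩) fun x hx =>
      ⟨⟨hA hx.1, hx.2⟩, hE' _ (hcomap.ge hx.1).2⟩
    have h1 := add_mem (hcomm x hx.1.1) hx.2.1
    rw [p2 i hi' x hx.1.2, LinearMap.comp_apply, sub_add_cancel] at h1
    exact h1
  · rw [LinearMap.comp_apply, LinearMap.comp_apply, ← APsi_e_comm' hσ'.isMap.D, ← map_sub]
    exact hE' _ (hD x hx.1)
  · rw [add_zero, LinearMap.comp_apply, LinearMap.comp_apply, ← APsi_e_comm' (hσ'.isMap.π m),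
      ← map_sub]
    exact hE' _ (hπ m x hx.1)

/-- a twisting automorphism forces the trace to vanish -/
theorem psi_twist (hζ : RootU k ζ) (hσ : Eqv C k σ) {A A' : Submodule B X} (sA : Stab C σ A)
    (sA' : Stab C σ A') (hA : A' ≤ A) (τ : X ≃ₗ[B] X) (hτ : IsMap C C τ.toLinearMap)
    (hτA : ∀ x, x ∈ A ↔ τ x ∈ A) (hτA' : ∀ x, x ∈ A' ↔ τ x ∈ A') {r : ℕ} (hr : 0 < r)
    (hrk : r < k) (h : ∀ x ∈ A, σ (τ x) = ζ ^ r • τ (σ x)) : psi C μ k ζ σ A A' = 0 := by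
  have hu : IsUnit (ζ ^ r) := (IsUnit.of_pow_eq_one hζ.pow (by omega)).pow r
  have hmap : ∀ P : Submodule B X, P ≤ A → (∀ x, x ∈ P ↔ τ x ∈ P) → ∀ i,
      (P ⊓ eig σ (ζ ^ i)).map τ.toLinearMap = P ⊓ eig σ (ζ ^ (i + r)) := by
    intro P hP hτP i
    refine le_antisymm ?_ fun y hy => ?_
    · rintro _ ⟨x, hx, rfl⟩
      refine ⟨(hτP x).1 hx.1, mem_eig.2 ?_⟩
      rw [LinearEquiv.coe_coe, h x (hP hx.1), mem_eig.1 hx.2, map_smul, smul_smul, ← pow_add,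
        add_comm]
    · obtain ⟨x, rfl⟩ := τ.surjective y
      have hx := (hτP x).2 hy.1
      refine ⟨x, ⟨hx, mem_eig.2 (τ.injective (hu.smul_left_cancel.1 ?_))⟩, rfl⟩
      rw [← h x (hP hx), mem_eig.1 hy.2, map_smul, smul_smul, ← pow_add, add_comm]
  set e : ℕ → ℝ := fun i => C.ech μ (A ⊓ eig σ (ζ ^ i)) (A' ⊓ eig σ (ζ ^ i)) with he
  have e1 : ∀ i, e (i + r) = e i := fun i => by
    have s := sub_eig hσ.isMap (ζ ^ i)
    simp only [he]
    rw [← hmap A le_rfl hτA, ← hmap A' hA hτA']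
    exact ech_congr fun n => hτ.h_map τ.injective (sA.sub.inf s) (sA'.sub.inf s)
      (inf_le_inf_right _ hA) μ n
  have e2 : ∀ i, e (i + k) = e i := fun i => by simp only [he, pow_add, hζ.pow, mul_one]
  have hw := Complex.isPrimitiveRoot_exp k (by omega)
  set w := Complex.exp (2 * Real.pi * Complex.I / k) with hwdef
  have h1 : psi C μ k ζ σ A A' = ∑ i ∈ Finset.range k, w ^ i * e i :=
    Finset.sum_congr rfl fun i _ => by
      rw [hwdef, ← Complex.exp_nat_mul]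
      congr 2
      ring
  have h2 := APsi_shift (fun i => w ^ i * e i) k
    (fun i => by rw [pow_add, hw.pow_eq_one, mul_one, e2]) r
  simp only [e1, pow_add, mul_right_comm _ (w ^ r), ← Finset.sum_mul] at h2
  rw [h1]
  by_contra hne
  exact hw.pow_ne_one_of_pos_of_lt hr.ne' hrk (mul_left_cancel₀ hne (h2.trans (mul_one _).symm))

theorem psi_of_trivial (hζ : RootU k ζ) (hk : 0 < k) (hσ : Eqv C k σ) {A A' : Submodule B X}
    (sA : Stab C σ A) (sA' : Stab C σ A') (hA : A' ≤ A) (h : ∀ x ∈ A, σ x - x ∈ A') :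
    psi C μ k ζ σ A A' = C.ech μ A A' := by
  have h0 : ∀ i ∈ Finset.range k, i ≠ 0 → ∀ n,
      C.h μ n (A ⊓ eig σ (ζ ^ i)) (A' ⊓ eig σ (ζ ^ i)) = 0 := by
    intro i hi hi0 n
    refine μ.sz_eq_zero_of_le fun x hx => C.le_Bd _ _ ⟨?_, hx.1.1.2⟩
    have h1 := h x hx.1.1.1
    rw [mem_eig.1 hx.1.1.2, ← one_smul B x, smul_smul, mul_one, ← sub_smul] at h1
    exact (A'.smul_mem_iff_of_isUnit
      (hζ.sub i (Nat.pos_of_ne_zero hi0) (Finset.mem_range.1 hi))).1 h1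
  unfold psi
  rw [Finset.sum_eq_single 0 (fun i hi hi0 => by rw [ech_eq_zero (h0 i hi hi0)]; simp)
    (by simp [hk.ne'])]
  rw [ech_congr (E := C) (μ' := μ) (P := A) (P' := A') fun n => ?_]
  · simp
  · rw [h_eq_sum_eig hζ hk hσ sA sA' hA,
      Finset.sum_eq_single 0 (fun i hi hi0 => h0 i hi hi0 n) (by simp [hk.ne'])]

theorem psi_res {S : Type} [CommRing S] [Algebra S B] [Module S X] [IsScalarTower S B X]
    (C : DG B X) (μ : LF S) (k : ℕ) (ζ : S) (σ : X →ₗ[B] X) (A A' : Submodule B X) :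
    psi C (μ.comap (algebraMap S B)) k (algebraMap S B ζ) σ A A' =
      psi (C.res S) μ k ζ (σ.restrictScalars S) (A.restrictScalars S) (A'.restrictScalars S) := by
  refine Finset.sum_congr rfl fun i _ => ?_
  have e : ∀ P : Submodule B X, (P ⊓ eig σ (algebraMap S B ζ ^ i)).restrictScalars S =
      P.restrictScalars S ⊓ eig (σ.restrictScalars S) (ζ ^ i) := fun P => by
    ext x
    simp only [Submodule.restrictScalars_mem, Submodule.mem_inf, mem_eig, ← map_pow,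
      algebraMap_smul, LinearMap.coe_restrictScalars]
  rw [← e, ← e, ech_congr fun n => res_h S C μ n _ _]

end Crest.Agent.R188
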