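import Crest.Agent.R188.HDefs

/-!
# The differential of a tensor power; the associated graded differential
-/

set_option autoImplicit false
set_option linter.unusedVariables false

namespace Crest.Agent.R188

open Crest.Agent.R183

variable {B : Type} [CommRing B]

/-- the differential of the `k`-th tensor power -/
def tpd (E : MC B) (k : ℕ) : Matrix (Fin k → E.ι) (Fin k → E.ι) B := fun t t' =>
  ∑ l : Fin k, if ∀ l', l' ≠ l → t l' = t' l' then
    sg (∑ l' ∈ Finset.univ.filter (· < l), E.deg (t l')) • E.d (t l) (t' l) else 0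

theorem tpd_deg (E : MC B) (k : ℕ) (t t' : Fin k → E.ι) (h : tpd E k t t' ≠ 0) :
    ∑ l, E.deg (t' l) = ∑ l, E.deg (t l) + 1 := by
  obtain ⟨l, -, hl⟩ := Finset.exists_ne_zero_of_sum_ne_zero h
  split_ifs at hl with hc
  · have hd : E.d (t l) (t' l) ≠ 0 := fun h0 => hl (by rw [h0, smul_zero])
    rw [← Finset.add_sum_erase _ _ (Finset.mem_univ l),
      ← Finset.add_sum_erase _ (fun l => E.deg (t l)) (Finset.mem_univ l), E.hdeg _ _ hd,
      Finset.sum_congr rfl fun l' hl' => congrArg E.deg (hc l' (Finset.ne_of_mem_erase hl')).symm]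
    ring
  · exact absurd rfl hl

/-- the action of `tpd` on tuples -/
theorem matApp_tpd (E : MC B) (k : ℕ) {M : Type} [AddCommGroup M] [Module B M]
    (x : (Fin k → E.ι) → M) (t : Fin k → E.ι) :
    matApp (tpd E k) M x t = ∑ l : Fin k, ∑ j : E.ι,
      sg (∑ l' ∈ Finset.univ.filter (· < l), E.deg (t l')) • E.d (t l) j •
        x (Function.update t l j) := by
  rw [matApp_apply]
  simp only [tpd, Finset.sum_smul]
  rw [Finset.sum_comm]
  refine Finset.sum_congr rfl fun l _ => Eq.symm ?_
  refine Finset.sum_of_injOn (fun j => Function.update t l j)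
    (Function.update_injective t l).injOn (fun _ _ => Finset.mem_univ _) (fun t' _ ht' => ?_)
    fun j _ => ?_
  · rw [if_neg, zero_smul]
    intro hc
    refine ht' ⟨t' l, Finset.mem_coe.2 (Finset.mem_univ _), funext fun l' => ?_⟩
    by_cases h : l' = l
    · subst h; simp
    · simp [h, hc l' h]
  · rw [if_pos fun l' h => by simp [h], Function.update_self, smul_assoc]

theorem ATp_sum_ge (E : MC B) {k : ℕ} (t : Fin k → E.ι) {l l' : Fin k} (h : l' ≤ l) (j : E.ι) :
    ∑ m ∈ Finset.univ.filter (· < l'), E.deg (Function.update t l j m) =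
      ∑ m ∈ Finset.univ.filter (· < l'), E.deg (t m) :=
  Finset.sum_congr rfl fun m hm => by
    rw [Function.update_of_ne ((Finset.mem_filter.1 hm).2.trans_le h).ne]

theorem ATp_sum_lt (E : MC B) {k : ℕ} (t : Fin k → E.ι) {l l' : Fin k} (h : l < l') {j : E.ι}
    (hj : E.d (t l) j ≠ 0) :
    ∑ m ∈ Finset.univ.filter (· < l'), E.deg (Function.update t l j m) =
      ∑ m ∈ Finset.univ.filter (· < l'), E.deg (t m) + 1 := by
  have hl : l ∈ Finset.univ.filter (· < l') := Finset.mem_filter.2 ⟨Finset.mem_univ _, h⟩
  rw [← Finset.add_sum_erase _ _ hl, ← Finset.add_sum_erase _ (fun m => E.deg (t m)) hl,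
    Function.update_self, E.hdeg _ _ hj, Finset.sum_congr rfl fun m hm => by
      rw [Function.update_of_ne (Finset.ne_of_mem_erase hm)]]
  ring

theorem tpd_mul_tpd (E : MC B) (k : ℕ) : tpd E k * tpd E k = 0 := by
  suffices h : ∀ (x : (Fin k → E.ι) → B) (t : Fin k → E.ι),
      matApp (tpd E k * tpd E k) B x t = 0 by
    ext t t'
    have := h (Pi.single t' 1) t
    rw [matApp_apply, Finset.sum_eq_single t' (fun b _ hb => by simp [hb]) (by simp)] at this
    simpa using this
  intro x t
  set F : Fin k × Fin k → B := fun p => ∑ j, ∑ j',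
    sg (∑ m ∈ Finset.univ.filter (· < p.1), E.deg (t m)) • E.d (t p.1) j •
      sg (∑ m ∈ Finset.univ.filter (· < p.2), E.deg (Function.update t p.1 j m)) •
        E.d (Function.update t p.1 j p.2) j' •
          x (Function.update (Function.update t p.1 j) p.2 j') with hF
  have h0 : matApp (tpd E k * tpd E k) B x t = ∑ p, F p := by
    rw [matApp_mul, matApp_tpd, Fintype.sum_prod_type]
    refine Finset.sum_congr rfl fun l _ => ?_
    simp only [matApp_tpd, Finset.smul_sum, hF]
    exact Finset.sum_comm
  have h1 : ∀ l, F (l, l) = 0 := fun l => by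
    simp only [hF, ATp_sum_ge E t le_rfl, Function.update_self, Function.update_idem]
    rw [Finset.sum_comm]
    refine Finset.sum_eq_zero fun j' _ => ?_
    have := congrFun (congrFun E.dd (t l)) j'
    rw [Matrix.mul_apply, Matrix.zero_apply] at this
    simp only [smul_comm (E.d (t l) _) (sg _), ← Finset.smul_sum, smul_smul (E.d (t l) _),
      ← Finset.sum_smul, this, zero_smul, smul_zero]
  have h2 : ∀ l l', l < l' → F (l, l') + F (l', l) = 0 := fun l l' h => by
    simp only [hF, ATp_sum_ge E t h.le, Function.update_of_ne h.ne, Function.update_of_ne h.ne']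
    rw [Finset.sum_comm (f := fun j' j => _ • E.d (t l') j' • _), ← Finset.sum_add_distrib]
    refine Finset.sum_eq_zero fun j _ => ?_
    rw [← Finset.sum_add_distrib]
    refine Finset.sum_eq_zero fun j' _ => ?_
    by_cases hj : E.d (t l) j = 0
    · simp [hj]
    · rw [ATp_sum_lt E t h hj, Function.update_comm h.ne, sg, sg, sg, Int.negOnePow_succ]
      simp only [Units.val_neg, zsmul_eq_mul, smul_eq_mul, Int.cast_neg]
      ring
  rw [h0]
  refine Finset.sum_involution (fun p _ => p.swap) (fun p _ => ?_) (fun p _ hp e => hp ?_)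
    (fun _ _ => Finset.mem_univ _) fun _ _ => rfl
  · obtain ⟨l, l'⟩ := p
    rcases lt_trichotomy l l' with h | rfl | h
    · exact h2 l l' h
    · simp [h1]
    · rw [add_comm]; exact h2 l' l h
  · obtain ⟨l, l'⟩ := p
    obtain rfl : l' = l := congrArg Prod.fst e
    exact h1 _

/-- the part of the differential which preserves `pat` -/
def grd (E : MC B) (pat : E.ι → ℕ) : Matrix E.ι E.ι B := fun i j =>
  if pat i = pat j then E.d i j else 0

theorem grd_mul_grd (E : MC B) (pat : E.ι → ℕ) (h : ∀ i j, E.d i j ≠ 0 → pat i ≤ pat j) :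
    grd E pat * grd E pat = 0 := by
  ext i j
  rw [Matrix.mul_apply, Matrix.zero_apply]
  by_cases hij : pat i = pat j
  · have := congrFun (congrFun E.dd i) j
    rw [Matrix.mul_apply, Matrix.zero_apply] at this
    refine Eq.trans (Finset.sum_congr rfl fun l _ => ?_) this
    by_cases h1 : E.d i l = 0
    · simp [grd, h1]
    by_cases h2 : E.d l j = 0
    · simp [grd, h2]
    have := h i l h1
    have := h l j h2
    simp only [grd]
    rw [if_pos (by omega), if_pos (by omega)]
  · refine Finset.sum_eq_zero fun l _ => ?_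
    simp only [grd]
    split_ifs with h1 h2
    · exact absurd (h1.trans h2) hij
    all_goals simp

end Crest.Agent.R188
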