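import Crest.Agent.R188.GJ

/-!
# Growth of lengths of powers of ideals
-/

set_option autoImplicit false
set_option linter.unusedVariables false
set_option linter.unusedSectionVars false

open scoped ENNReal NNReal TensorProduct

namespace Crest.Agent.R188

open Crest.Agent.R183 IsLocalRing

theorem GGrow_span_smul {B M : Type} [CommRing B] [AddCommGroup M] [Module B M] (g : B)
    (A : Submodule B M) : Ideal.span {g} • A = A.map (LinearMap.lsmul B M g) := by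
  rw [Submodule.ideal_span_singleton_smul]
  rfl

/-- kernel and cokernel of the multiplication by `g` on a subquotient of finite size -/
theorem GGrow_ker_eq_coker {B M : Type} [CommRing B] [AddCommGroup M] [Module B M] (μ : LF B)
    {P A' : Submodule B M} (hf : μ.sz P A' ≠ ⊤) (g : B) :
    μ.sz (P ⊓ A'.comap (LinearMap.lsmul B M g)) A' =
      μ.sz P (P.map (LinearMap.lsmul B M g) ⊔ A') := by
  have h1 : A' ≤ A'.comap (LinearMap.lsmul B M g) := fun x hx => A'.smul_mem g hx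
  have h2 : P.map (LinearMap.lsmul B M g) ≤ P := by
    rintro _ ⟨x, hx, rfl⟩
    exact P.smul_mem g hx
  have h3 := μ.sz_tower_right P h1
  have h4 := μ.sz_tower_left h2 A'
  rw [← μ.sz_map_eq] at h3
  have h5 : μ.sz (P.map (LinearMap.lsmul B M g)) A' ≠ ⊤ :=
    ne_top_of_le_ne_top hf (μ.sz_mono h2 le_rfl)
  rw [h3] at h4
  exact (ENNReal.add_right_inj h5).mp h4

/-- a subquotient killed by `g` of a module of finite size is bounded by the cokernel of `g` -/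
theorem sz_le_of_smul_mem {B M : Type} [CommRing B] [AddCommGroup M] [Module B M] (μ : LF B)
    {A A' P P' : Submodule B M} (hf : μ.sz A A' ≠ ⊤) (hP : P ≤ A) (hP' : A' ≤ P') (g : B)
    (hg : ∀ x ∈ P, g • x ∈ P') : μ.sz P P' ≤ μ.sz A (A' ⊔ Ideal.span {g} • A) := by
  have hfP : μ.sz P A' ≠ ⊤ := ne_top_of_le_ne_top hf (μ.sz_mono hP le_rfl)
  rw [GGrow_span_smul, sup_comm, ← GGrow_ker_eq_coker μ hf g]
  calc μ.sz P P' ≤ μ.sz P (P.map (LinearMap.lsmul B M g) ⊔ A') := by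
        refine μ.sz_mono le_rfl (sup_le ?_ hP')
        rintro _ ⟨x, hx, rfl⟩
        exact hg x hx
    _ = μ.sz (P ⊓ A'.comap (LinearMap.lsmul B M g)) A' := (GGrow_ker_eq_coker μ hfP g).symm
    _ ≤ _ := μ.sz_mono (inf_le_inf_right _ hP) le_rfl

theorem GGrow_exists_socle {S : Type} [CommRing S] (𝔪 : Ideal S) {𝔞 𝔞' : Ideal S}
    (h : ∃ c : ℕ, 𝔪 ^ c * 𝔞 ≤ 𝔞') (hn : ¬ 𝔞 ≤ 𝔞') :
    ∃ z ∈ 𝔞, z ∉ 𝔞' ∧ ∀ m ∈ 𝔪, m * z ∈ 𝔞' := by
  obtain ⟨c, hc⟩ := h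
  induction c with
  | zero =>
    rw [pow_zero, one_mul] at hc
    exact absurd hc hn
  | succ k ih =>
    by_cases h1 : 𝔪 ^ k * 𝔞 ≤ 𝔞'
    · exact ih h1
    obtain ⟨z, hz, hz'⟩ := SetLike.not_le_iff_exists.mp h1
    refine ⟨z, Ideal.mul_le_right hz, hz', fun m hm => hc ?_⟩
    rw [pow_succ', mul_assoc]
    exact Ideal.mul_mem_mul hm hz

theorem GGrow_one_le_sz {S : Type} [CommRing S] {𝔞 𝔞' : Ideal S} {z : S} (hz : z ∈ 𝔞)
    (hz' : z ∉ 𝔞') : 1 ≤ (LF.length S).sz 𝔞 𝔞' := by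
  have : Nontrivial (Submodule.map 𝔞'.mkQ 𝔞) := by
    refine ⟨⟨⟨𝔞'.mkQ z, z, hz, rfl⟩, 0, fun h => hz' ?_⟩⟩
    have := congrArg Subtype.val h
    exact (Submodule.Quotient.mk_eq_zero 𝔞').mp this
  have h1 : 0 < Module.length S (Submodule.map 𝔞'.mkQ 𝔞) := Module.length_pos
  have h2 : (1 : ℕ∞) ≤ Module.length S (Submodule.map 𝔞'.mkQ 𝔞) := Order.one_le_iff_pos.mpr h1
  have h3 := ENat.toENNReal_le.mpr h2
  rw [ENat.toENNReal_one] at h3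
  exact h3

/-- the counting lemma -/
theorem sz_smul_le {S B M : Type} [CommRing S] [IsNoetherianRing S] [IsLocalRing S] [CommRing B]
    [AddCommGroup M] [Module B M] (ψ : S →+* B) (μ : LF B) (𝔞 𝔞' : Ideal S)
    (h : ∃ c : ℕ, maximalIdeal S ^ c * 𝔞 ≤ 𝔞') (Γ : Submodule B M) :
    μ.sz (𝔞.map ψ • Γ) (𝔞'.map ψ • Γ) ≤
      (LF.length S).sz 𝔞 𝔞' * μ.sz Γ ((maximalIdeal S).map ψ • Γ) := by
  induction 𝔞' using WellFoundedGT.induction with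
  | ind 𝔞' ih =>
  by_cases hn : 𝔞 ≤ 𝔞'
  · rw [μ.sz_eq_zero_of_le (Submodule.smul_mono_left (Ideal.map_mono hn))]
    exact zero_le
  obtain ⟨z, hz, hz', hm⟩ := GGrow_exists_socle (maximalIdeal S) h hn
  have hlt : 𝔞' < Ideal.span {z} ⊔ 𝔞' := by
    refine lt_of_le_of_ne le_sup_right fun he => hz' ?_
    rw [he]
    exact Submodule.mem_sup_left (Ideal.mem_span_singleton_self z)
  obtain ⟨c, hc⟩ := h
  have h1 := ih _ hlt ⟨c, hc.trans le_sup_right⟩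
  have h2 : μ.sz ((Ideal.span {z} ⊔ 𝔞').map ψ • Γ) (𝔞'.map ψ • Γ) ≤
      μ.sz Γ ((maximalIdeal S).map ψ • Γ) := by
    rw [Ideal.map_sup, Submodule.sup_smul, μ.sz_sup_left, Ideal.map_span, Set.image_singleton,
      GGrow_span_smul, μ.sz_map_eq]
    refine μ.sz_mono le_rfl ?_
    rw [← Submodule.map_le_iff_le_comap, ← GGrow_span_smul, ← Submodule.mul_smul,
      ← Set.image_singleton, ← Ideal.map_span, ← Ideal.map_mul]
    refine Submodule.smul_mono_left (Ideal.map_mono ?_)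
    rw [Ideal.span_singleton_mul_le_iff]
    intro m hm'
    rw [mul_comm]
    exact hm m hm'
  have h3 : (LF.length S).sz 𝔞 (Ideal.span {z} ⊔ 𝔞') + 1 ≤ (LF.length S).sz 𝔞 𝔞' := by
    rw [(LF.length S).sz_tower_right 𝔞 hlt.le]
    gcongr
    exact GGrow_one_le_sz
      ⟨hz, Submodule.mem_sup_left (Ideal.mem_span_singleton_self z)⟩ hz'
  calc μ.sz (𝔞.map ψ • Γ) (𝔞'.map ψ • Γ)
      ≤ μ.sz (𝔞.map ψ • Γ) ((Ideal.span {z} ⊔ 𝔞').map ψ • Γ) +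
          μ.sz ((Ideal.span {z} ⊔ 𝔞').map ψ • Γ) (𝔞'.map ψ • Γ) := μ.sz_triangle _ _ _
    _ ≤ (LF.length S).sz 𝔞 (Ideal.span {z} ⊔ 𝔞') * μ.sz Γ ((maximalIdeal S).map ψ • Γ) +
          μ.sz Γ ((maximalIdeal S).map ψ • Γ) := add_le_add h1 h2
    _ = ((LF.length S).sz 𝔞 (Ideal.span {z} ⊔ 𝔞') + 1) *
          μ.sz Γ ((maximalIdeal S).map ψ • Γ) := by rw [add_mul, one_mul]
    _ ≤ _ := by gcongr

variable {Y : Type} [CommRing Y] [IsNoetherianRing Y] [IsLocalRing Y]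

theorem length_sz_ne_top {𝔞 𝔞' : Ideal Y} (h : ∃ c : ℕ, maximalIdeal Y ^ c * 𝔞 ≤ 𝔞') :
    (LF.length Y).sz 𝔞 𝔞' ≠ ⊤ := by
  obtain ⟨c, hc⟩ := h
  have h1 : Module.length Y (Submodule.map 𝔞'.mkQ 𝔞) ≠ ⊤ := by
    refine length_ne_top_of_pow (maximalIdeal Y) (IsNoetherian.noetherian _) _ ⟨c, ?_⟩
    rintro a ha ⟨_, x, hx, rfl⟩
    apply Subtype.ext
    change a • 𝔞'.mkQ x = 0
    rw [← map_smul, Submodule.mkQ_apply, Submodule.Quotient.mk_eq_zero]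
    exact hc (Ideal.mul_mem_mul ha hx)
  change ((Module.length Y (Submodule.map 𝔞'.mkQ 𝔞) : ℕ∞) : ℝ≥0∞) ≠ ⊤
  exact ENat.toENNReal_ne_top.mpr h1

theorem length_sz_mul_le (𝔞 𝔞' 𝔡 : Ideal Y) {n : ℕ} (v : Fin n → Y) (hv : sp v = 𝔡) :
    (LF.length Y).sz (𝔞 * 𝔡) (𝔞' * 𝔡) ≤ n * (LF.length Y).sz 𝔞 𝔞' := by
  classical
  let f : (Fin n → Y) →ₗ[Y] Y := Fintype.linearCombination Y v
  have h1 : 𝔞 * 𝔡 ≤ (Submodule.pi Set.univ fun _ : Fin n => 𝔞).map f := by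
    rw [← hv, Ideal.mul_le]
    intro a ha s hs
    obtain ⟨x, rfl⟩ := (Submodule.mem_span_range_iff_exists_fun Y).mp hs
    refine ⟨fun i => a * x i, fun i _ => Ideal.mul_mem_right _ _ ha, ?_⟩
    simp only [f, Fintype.linearCombination_apply, smul_eq_mul, Finset.mul_sum, mul_assoc]
  have h2 : (Submodule.pi Set.univ fun _ : Fin n => 𝔞').map f ≤ 𝔞' * 𝔡 := by
    rintro _ ⟨x, hx, rfl⟩
    simp only [f, Fintype.linearCombination_apply, smul_eq_mul]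
    refine Submodule.sum_mem _ fun i _ => Ideal.mul_mem_mul (hx i (Set.mem_univ i)) ?_
    rw [← hv]
    exact Ideal.subset_span ⟨i, rfl⟩
  refine ((LF.length Y).sz_mono h1 h2).trans (((LF.length Y).sz_map_le f _ _).trans ?_)
  rw [(LF.length Y).sz_pi]
  simp

section rees

open MvPolynomial

attribute [local instance] MvPolynomial.gradedAlgebra

/-- The map from the polynomial ring onto the Rees algebra. -/
noncomputable abbrev GGrow_φ {Y σ : Type} [CommRing Y] (c : σ → Y) :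
    MvPolynomial σ Y →ₐ[Y] Polynomial Y :=
  aeval (R := Y) fun i => (Polynomial.C (c i) * Polynomial.X : Polynomial Y)

theorem GGrow_φ_monomial {Y σ : Type} [CommRing Y] (c : σ → Y) (d : σ →₀ ℕ) (a : Y) :
    GGrow_φ c (monomial d a) = Polynomial.C (aeval c (monomial d a)) * Polynomial.X ^ d.degree := by
  rw [aeval_monomial, aeval_monomial, map_mul, mul_assoc, Finsupp.degree_apply]
  congr 1
  rw [Finsupp.prod, Finsupp.prod, map_prod, ← Finset.prod_pow_eq_pow_sum, ← Finset.prod_mul_distrib]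
  refine Finset.prod_congr rfl fun i _ => ?_
  rw [mul_pow, map_pow]

theorem GGrow_coeff_φ {Y σ : Type} [CommRing Y] (c : σ → Y) (q : ℕ) (p : MvPolynomial σ Y) :
    (GGrow_φ c p).coeff q = aeval c (homogeneousComponent q p) := by
  induction p using MvPolynomial.induction_on' with
  | monomial d a =>
    rw [GGrow_φ_monomial, Polynomial.coeff_C_mul_X_pow,
      homogeneousComponent_of_mem (isHomogeneous_monomial a rfl)]
    split_ifs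
    · rfl
    · rw [map_zero]
  | add p p' hp hp' => rw [map_add, Polynomial.coeff_add, hp, hp', map_add, map_add]

theorem GGrow_ker_homog {Y σ : Type} [CommRing Y] (c : σ → Y) :
    (RingHom.ker (GGrow_φ c)).IsHomogeneous (homogeneousSubmodule σ Y) := by
  intro q p hp
  have h0 : (DirectSum.decompose (homogeneousSubmodule σ Y) p q : MvPolynomial σ Y) =
      homogeneousComponent q p := decomposition.decompose'_apply p q
  rw [h0, RingHom.mem_ker]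
  rw [RingHom.mem_ker] at hp
  ext j
  rw [GGrow_coeff_φ, homogeneousComponent_of_mem (homogeneousComponent_mem q p),
    Polynomial.coeff_zero]
  split_ifs
  · rw [← GGrow_coeff_φ, hp, Polynomial.coeff_zero]
  · rw [map_zero]

theorem GGrow_coeff_mem {Y σ : Type} [CommRing Y] (c : σ → Y) (q : ℕ) (p : MvPolynomial σ Y) :
    (GGrow_φ c p).coeff q ∈ sp c ^ q := by
  rw [GGrow_coeff_φ, Ideal.span_pow_eq_map_homogeneousSubmodule]
  exact ⟨_, homogeneousComponent_mem q p, rfl⟩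

/-- comparison of the graded pieces of `P / J` with the powers of the ideal -/
theorem GGrow_sz_le {Y σ : Type} [CommRing Y] (μ : LF Y) (c : σ → Y) (𝔤 𝔫 : Ideal Y) (q : ℕ) :
    μ.sz (sp c ^ q) ((𝔤 ⊔ 𝔫) * sp c ^ q) ≤ μ.sz (homogeneousSubmodule σ Y q)
      ((RingHom.ker (GGrow_φ c) ⊔ 𝔤.map (C : Y →+* MvPolynomial σ Y)).restrictScalars Y ⊔
        𝔫 • homogeneousSubmodule σ Y q) := by
  let f : MvPolynomial σ Y →ₗ[Y] Y := Polynomial.lcoeff Y q ∘ₗ (GGrow_φ c).toLinearMap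
  have hf : ∀ p, f p = (GGrow_φ c p).coeff q := fun p => rfl
  have h1 : sp c ^ q ≤ (homogeneousSubmodule σ Y q).map f := by
    rw [Ideal.span_pow_eq_map_homogeneousSubmodule]
    rintro _ ⟨p, hp, rfl⟩
    refine ⟨p, hp, ?_⟩
    rw [hf, GGrow_coeff_φ, homogeneousComponent_of_mem hp, if_pos rfl]
    rfl
  refine (μ.sz_mono h1 le_rfl).trans ?_
  rw [μ.sz_map_eq]
  refine μ.sz_mono le_rfl (sup_le ?_ ?_)
  · intro p hp
    rw [Submodule.restrictScalars_mem] at hp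
    obtain ⟨p₁, h₁, p₂, h₂, rfl⟩ := Submodule.mem_sup.mp hp
    rw [Submodule.mem_comap, map_add, hf p₁, RingHom.mem_ker.mp h₁, Polynomial.coeff_zero,
      zero_add]
    have h3 : p₂ ∈ (𝔤 • ⊤ : Submodule Y (MvPolynomial σ Y)) := by
      rw [Ideal.smul_top_eq_map, Submodule.restrictScalars_mem]
      exact h₂
    refine Submodule.smul_induction_on (p := fun x => f x ∈ (𝔤 ⊔ 𝔫) * sp c ^ q) h3 ?_ ?_
    · intro r hr x _
      rw [map_smul, smul_eq_mul]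
      exact Ideal.mul_mem_mul (Submodule.mem_sup_left hr) (GGrow_coeff_mem c q x)
    · intro x y hx hy
      rw [map_add]
      exact add_mem hx hy
  · refine Submodule.smul_le.mpr fun r hr x _ => ?_
    rw [Submodule.mem_comap, map_smul, smul_eq_mul]
    exact Ideal.mul_mem_mul (Submodule.mem_sup_right hr) (GGrow_coeff_mem c q x)

theorem GGrow_homog {Y σ : Type} [CommRing Y] (c : σ → Y) (𝔤 : Ideal Y) :
    (RingHom.ker (GGrow_φ c) ⊔ 𝔤.map (C : Y →+* MvPolynomial σ Y)).IsHomogeneous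
      (homogeneousSubmodule σ Y) := by
  refine (GGrow_ker_homog c).sup (Ideal.homogeneous_span _ _ ?_)
  rintro _ ⟨a, -, rfl⟩
  exact ⟨0, isHomogeneous_C σ a⟩

/-- the common core of `growth_pow` and `growth_pow_quot` -/
theorem GGrow_core (δ : ℕ) {n : ℕ} (c : Fin n → Y) (𝔤 : Ideal Y)
    (h₁ : ringKrullDim (Y ⧸ 𝔤) ≤ δ)
    (h₂ : ringKrullDim (MvPolynomial (Fin n) Y ⧸
      (RingHom.ker (GGrow_φ c) ⊔ 𝔤.map (C : Y →+* MvPolynomial (Fin n) Y))) ≤ (δ + 1 : ℕ)) :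
    ∃ C : ℕ, ∀ q N : ℕ, (LF.length Y).sz (sp c ^ q) ((𝔤 ⊔ maximalIdeal Y ^ N) * sp c ^ q) ≤
      (C * (q + N + 1) ^ δ : ℕ) := by
  obtain ⟨C₀, q₀, hC₀⟩ := graded_growth _ (GGrow_homog c 𝔤) (δ + 1) h₂
  have hsmall : ∀ q : ℕ, ∃ C : ℕ, ∀ N : ℕ,
      (LF.length Y).sz (sp c ^ q) ((𝔤 ⊔ maximalIdeal Y ^ N) * sp c ^ q) ≤
        (C * (N + 1) ^ δ : ℕ) := by
    intro q
    obtain ⟨C, hC⟩ := growth_le Y 𝔤 δ h₁ (sp c ^ q : Ideal Y)
    refine ⟨C, fun N => ?_⟩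
    rw [LF.sz_eq_quot]
    refine le_trans ((LF.length Y).quot_anti (A := (𝔤 ⊔ maximalIdeal Y ^ N) • ⊤) ?_) ?_
    · refine Submodule.smul_le.mpr fun r hr x _ => ?_
      exact Ideal.mul_mem_mul hr x.2
    · rw [LF.length_val]
      have := ENat.toENNReal_le.mpr (hC N)
      rwa [ENat.toENNReal_coe] at this
  choose Cs hCs using hsmall
  refine ⟨C₀ + ∑ q ∈ Finset.range q₀, Cs q, fun q N => ?_⟩
  by_cases hq : q₀ ≤ q
  · have h3 := hC₀ q N hq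
    have h4 : (LF.length Y).sz (sp c ^ q) ((𝔤 ⊔ maximalIdeal Y ^ N) * sp c ^ q) *
        ((q + N + 1 : ℕ) : ℝ≥0∞) ≤ ((C₀ * (q + N + 1) ^ δ : ℕ) : ℝ≥0∞) * (q + N + 1 : ℕ) := by
      refine le_trans (mul_le_mul_left (GGrow_sz_le _ c 𝔤 _ q) _) (h3.trans (le_of_eq ?_))
      rw [← Nat.cast_mul, pow_succ, mul_assoc]
    have h5 := (ENNReal.mul_le_mul_iff_left (by simp) (ENNReal.natCast_ne_top _)).mp h4
    refine h5.trans ?_
    exact Nat.cast_le.mpr (Nat.mul_le_mul_right _ (Nat.le_add_right _ _))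
  · refine (hCs q N).trans (Nat.cast_le.mpr (Nat.mul_le_mul ?_ ?_))
    · exact le_add_left (Finset.single_le_sum (f := Cs) (fun _ _ => Nat.zero_le _)
        (Finset.mem_range.mpr (by omega)))
    · exact Nat.pow_le_pow_left (by omega) δ

end rees

theorem GGrow_exists_gen (𝔠 : Ideal Y) : ∃ (n : ℕ) (c : Fin n → Y), sp c = 𝔠 :=
  Submodule.fg_iff_exists_fin_generating_family.mp (IsNoetherian.noetherian 𝔠)

theorem growth_pow [IsDomain Y] (δ : ℕ) (hd : ringKrullDim Y ≤ δ) (𝔠 : Ideal Y) :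
    ∃ C : ℕ, ∀ q N : ℕ, (LF.length Y).sz (𝔠 ^ q) (maximalIdeal Y ^ N * 𝔠 ^ q) ≤
      (C * (q + N + 1) ^ δ : ℕ) := by
  obtain ⟨n, c, rfl⟩ := GGrow_exists_gen 𝔠
  have h₂ : ringKrullDim (MvPolynomial (Fin n) Y ⧸ (RingHom.ker (GGrow_φ c) ⊔
      (⊥ : Ideal Y).map (MvPolynomial.C : Y →+* MvPolynomial (Fin n) Y))) ≤ (δ + 1 : ℕ) := by
    rw [Ideal.map_bot, sup_bot_eq]
    exact dim_rees_le c δ hd
  obtain ⟨C, hC⟩ := GGrow_core δ c ⊥ ((ringKrullDim_quotient_le ⊥).trans hd) h₂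
  refine ⟨C, fun q N => ?_⟩
  have := hC q N
  rwa [bot_sup_eq] at this

theorem growth_pow_quot [IsDomain Y] (δ : ℕ) (hd : ringKrullDim Y ≤ (δ + 1 : ℕ)) (𝔠 : Ideal Y)
    {g : Y} (hg : g ≠ 0) :
    ∃ C : ℕ, ∀ q N : ℕ, (LF.length Y).sz (𝔠 ^ q)
      ((Ideal.span {g} ⊔ maximalIdeal Y ^ N) * 𝔠 ^ q) ≤ (C * (q + N + 1) ^ δ : ℕ) := by
  obtain ⟨n, c, rfl⟩ := GGrow_exists_gen 𝔠
  refine GGrow_core δ c _ (ringKrullDim_quot_le Y δ hd _ (by simpa using hg)) ?_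
  have hprime : (RingHom.ker (GGrow_φ c)).IsPrime := RingHom.ker_isPrime _
  rw [← ringKrullDim_eq_of_ringEquiv (DoubleQuot.quotQuotEquivQuotSup _ _)]
  refine ringKrullDim_quot_le _ (δ + 1) (dim_rees_le c (δ + 1) hd) _ fun h0 => hg ?_
  have h1 : Ideal.Quotient.mk (RingHom.ker (GGrow_φ c)) (MvPolynomial.C g) ∈
      ((Ideal.span {g}).map (MvPolynomial.C : Y →+* MvPolynomial (Fin n) Y)).map
        (Ideal.Quotient.mk (RingHom.ker (GGrow_φ c))) :=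
    Ideal.mem_map_of_mem _ (Ideal.mem_map_of_mem _ (Ideal.mem_span_singleton_self g))
  rw [h0, Ideal.mem_bot, Ideal.Quotient.eq_zero_iff_mem, RingHom.mem_ker, MvPolynomial.aeval_C,
    Polynomial.algebraMap_eq, Polynomial.C_eq_zero] at h1
  exact h1

theorem GGrow_arith (C N q δ : ℕ) : C * (q + N * q + 1) ^ δ ≤ C * (N + 1) ^ δ * (q + 1) ^ δ := by
  rw [mul_assoc, ← mul_pow]
  exact Nat.mul_le_mul_left _ (Nat.pow_le_pow_left (by nlinarith [Nat.zero_le N]) δ)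

omit [IsNoetherianRing Y] in
theorem GGrow_pow_le {𝔟 𝔟' : Ideal Y} {N : ℕ} (h : maximalIdeal Y ^ N * 𝔟 ≤ 𝔟') (q : ℕ) :
    maximalIdeal Y ^ (N * q) * 𝔟 ^ q ≤ 𝔟' ^ q := by
  rw [pow_mul, ← mul_pow]
  exact Ideal.pow_right_mono h q

theorem growth_pair [IsDomain Y] (δ : ℕ) (hd : ringKrullDim Y ≤ δ) {𝔟 𝔟' : Ideal Y} {N : ℕ}
    (h : maximalIdeal Y ^ N * 𝔟 ≤ 𝔟') :
    ∃ C : ℕ, ∀ q : ℕ, (LF.length Y).sz (𝔟 ^ q) (𝔟' ^ q) ≤ (C * (q + 1) ^ δ : ℕ) := by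
  obtain ⟨C, hC⟩ := growth_pow δ hd 𝔟
  refine ⟨C * (N + 1) ^ δ, fun q => ?_⟩
  exact ((LF.length Y).sz_mono le_rfl (GGrow_pow_le h q)).trans
    ((hC q (N * q)).trans (Nat.cast_le.mpr (GGrow_arith C N q δ)))

theorem growth_pair_quot [IsDomain Y] (δ : ℕ) (hd : ringKrullDim Y ≤ (δ + 1 : ℕ)) {𝔟 𝔟' : Ideal Y}
    {N : ℕ} (h : maximalIdeal Y ^ N * 𝔟 ≤ 𝔟') {g : Y} (hg : g ≠ 0) :
    ∃ C : ℕ, ∀ q : ℕ, (LF.length Y).sz (𝔟 ^ q) (𝔟' ^ q ⊔ Ideal.span {g} * 𝔟 ^ q) ≤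
      (C * (q + 1) ^ δ : ℕ) := by
  obtain ⟨C, hC⟩ := growth_pow_quot δ hd 𝔟 hg
  refine ⟨C * (N + 1) ^ δ, fun q => ?_⟩
  refine ((LF.length Y).sz_mono le_rfl ?_).trans
    ((hC q (N * q)).trans (Nat.cast_le.mpr (GGrow_arith C N q δ)))
  rw [Ideal.sup_mul]
  exact sup_le le_sup_right (le_sup_of_le_left (GGrow_pow_le h q))

theorem growth_step [IsDomain Y] (δ : ℕ) (hd : ringKrullDim Y ≤ (δ + 1 : ℕ)) {𝔟 𝔟' : Ideal Y}
    (hle : 𝔟' ≤ 𝔟) (h0 : 𝔟' ≠ ⊥) {N : ℕ} (h : maximalIdeal Y ^ N * 𝔟 ≤ 𝔟') :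
    ∃ C : ℝ, ∀ q : ℕ, |((LF.length Y).sz (𝔟 ^ (q + 1)) (𝔟' ^ (q + 1))).toReal -
      ((LF.length Y).sz (𝔟 ^ q) (𝔟' ^ q)).toReal| ≤ C * (q + 1) ^ δ := by
  obtain ⟨g, hg, hg0⟩ := Submodule.exists_mem_ne_zero_of_ne_bot h0
  obtain ⟨C, hC⟩ := growth_pair_quot δ hd h hg0
  refine ⟨C * 2 ^ δ, fun q => ?_⟩
  have hfin : ∀ k : ℕ, (LF.length Y).sz (𝔟 ^ k) (𝔟' ^ k) ≠ ⊤ := fun k =>
    length_sz_ne_top ⟨N * k, GGrow_pow_le h k⟩
  have e1 : (𝔟' ^ q : Ideal Y) ≤ Submodule.comap (LinearMap.lsmul Y Y g) (𝔟' ^ (q + 1)) := by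
    intro x hx
    change g * x ∈ 𝔟' ^ (q + 1)
    rw [pow_succ']
    exact Ideal.mul_mem_mul hg hx
  have e2 : Submodule.map (LinearMap.lsmul Y Y g) (𝔟 ^ q) ≤ 𝔟 ^ (q + 1) := by
    rintro _ ⟨x, hx, rfl⟩
    change g * x ∈ 𝔟 ^ (q + 1)
    rw [pow_succ']
    exact Ideal.mul_mem_mul (hle hg) hx
  have h1 := (LF.length Y).sz_tower_right (𝔟 ^ q) e1
  have h2 := (LF.length Y).sz_tower_left e2 (𝔟' ^ (q + 1))
  rw [← (LF.length Y).sz_map_eq] at h1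
  obtain ⟨I, hI⟩ : ∃ I, I = (LF.length Y).sz
    (Submodule.map (LinearMap.lsmul Y Y g) (𝔟 ^ q)) (𝔟' ^ (q + 1)) := ⟨_, rfl⟩
  obtain ⟨K, hK⟩ : ∃ K, K = (LF.length Y).sz
    (𝔟 ^ q ⊓ Submodule.comap (LinearMap.lsmul Y Y g) (𝔟' ^ (q + 1))) (𝔟' ^ q) := ⟨_, rfl⟩
  obtain ⟨L, hL⟩ : ∃ L, L = (LF.length Y).sz (𝔟 ^ (q + 1))
    (Submodule.map (LinearMap.lsmul Y Y g) (𝔟 ^ q) ⊔ 𝔟' ^ (q + 1)) := ⟨_, rfl⟩
  have hKle : K ≤ (C * (q + 1) ^ δ : ℕ) := by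
    rw [hK]
    refine le_trans (sz_le_of_smul_mem (LF.length Y) (hfin q) inf_le_left le_rfl g ?_) (hC q)
    intro x hx
    exact Ideal.pow_le_pow_right (Nat.le_succ q) hx.2
  have hLle : L ≤ (C * (q + 1 + 1) ^ δ : ℕ) := by
    rw [hL]
    refine le_trans ((LF.length Y).sz_mono le_rfl ?_) (hC (q + 1))
    refine sup_le le_sup_right (le_sup_of_le_left ?_)
    rw [← GGrow_span_smul, smul_eq_mul]
    exact Ideal.mul_mono_right (Ideal.pow_le_pow_right (Nat.le_succ q))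
  rw [← hI, ← hK] at h1
  rw [← hI, ← hL] at h2
  have hIf : I ≠ ⊤ := ne_top_of_le_ne_top (hfin q) (h1 ▸ le_self_add)
  have hKf : K ≠ ⊤ := ne_top_of_le_ne_top (ENNReal.natCast_ne_top _) hKle
  have hLf : L ≠ ⊤ := ne_top_of_le_ne_top (ENNReal.natCast_ne_top _) hLle
  rw [h1, h2, ENNReal.toReal_add hIf hKf, ENNReal.toReal_add hIf hLf]
  have hK' := ENNReal.toReal_mono (ENNReal.natCast_ne_top _) hKle
  have hL' := ENNReal.toReal_mono (ENNReal.natCast_ne_top _) hLle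
  rw [ENNReal.toReal_natCast] at hK' hL'
  push_cast at hK' hL'
  have hq : (0 : ℝ) ≤ q := Nat.cast_nonneg q
  have hC0 : (0 : ℝ) ≤ C := Nat.cast_nonneg C
  have a1 : ((q : ℝ) + 1 + 1) ^ δ ≤ 2 ^ δ * (q + 1) ^ δ := by
    rw [← mul_pow]
    exact pow_le_pow_left₀ (by positivity) (by linarith) δ
  have a2 : ((q : ℝ) + 1) ^ δ ≤ ((q : ℝ) + 1 + 1) ^ δ :=
    pow_le_pow_left₀ (by positivity) (by linarith) δ
  have a3 := mul_le_mul_of_nonneg_left a1 hC0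
  have a4 := mul_le_mul_of_nonneg_left a2 hC0
  have k0 : 0 ≤ K.toReal := ENNReal.toReal_nonneg
  have l0 : 0 ≤ L.toReal := ENNReal.toReal_nonneg
  rw [abs_le, mul_assoc]
  constructor <;> linarith

end Crest.Agent.R188
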