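import Crest.Agent.R188.PDefs
import Crest.Agent.R183.Family
import Crest.Agent.R183.FolnerAux2

/-!
# Auxiliary results for `PProd`
-/

set_option autoImplicit false

open scoped ENNReal NNReal TensorProduct Topology

namespace Crest.Agent.R188

open Crest.Agent.R183 Filter

section transport

variable {B B' : Type} [CommRing B] [CommRing B']

theorem PProd_val (μ : LF B) (f : B →+* B') {M M' : Type} [AddCommGroup M]
    [Module B M] [AddCommGroup M'] [Module B' M'] (e : M ≃+ M')
    (he : ∀ (b : B) (x : M), e (b • x) = f b • e x) : μ.val M = (μ.comap f).val M' := by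
  let _ := Module.compHom M' f
  exact μ.congr (M := M) (N := M') { e with map_smul' := he }

theorem PProd_sz (μ : LF B) (f : B →+* B') {M M' : Type} [AddCommGroup M]
    [Module B M] [AddCommGroup M'] [Module B' M'] (φ : M →ₛₗ[f] M') (P' Q' : Submodule B' M')
    (h : Function.Surjective φ) :
    μ.sz (P'.comap φ) (Q'.comap φ) = (μ.comap f).sz P' Q' := by
  rw [μ.sz_eq_quot, (μ.comap f).sz_eq_quot]
  let ψ : P'.comap φ →ₛₗ[f] P' := φ.restrict fun _ hx => hx
  let χ := Submodule.mapQ ((Q'.comap φ).comap (P'.comap φ).subtype) (Q'.comap P'.subtype) ψ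
    fun _ hx => hx
  refine PProd_val μ f (AddEquiv.ofBijective χ.toAddMonoidHom ⟨?_, ?_⟩) χ.map_smulₛₗ
  · rw [injective_iff_map_eq_zero]
    intro x hx
    obtain ⟨x, rfl⟩ := Submodule.Quotient.mk_surjective _ x
    exact (Submodule.Quotient.mk_eq_zero _).2
      ((Submodule.Quotient.mk_eq_zero (Q'.comap P'.subtype) (x := ψ x)).1 hx)
  · intro y
    obtain ⟨⟨y, hy⟩, rfl⟩ := Submodule.Quotient.mk_surjective _ y
    obtain ⟨x, rfl⟩ := h y
    exact ⟨Submodule.Quotient.mk ⟨x, hy⟩, rfl⟩

end transport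

section rch

open FolnerAux

variable {B Ω : Type} [CommRing B] [CommRing Ω] [Algebra B Ω] {μ : LF Ω}

theorem PProd_rch_null {η : B} (hη : μ.Null (algebraMap B Ω η)) {M : Type} [AddCommGroup M]
    [Module B M] {a : ℝ≥0∞} (h : Rch B μ M a) (hM : ∀ x : M, η • x = 0) : a = 0 := by
  induction h with
  | zero M => rfl
  | base M => exact hη M fun x => by rw [algebraMap_smul]; exact hM x
  | congr e _ ih => exact ih fun x => e.injective (by rw [map_smul, hM, map_zero])
  | ext Q _ _ ih1 ih2 =>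
    rw [ih1 fun x => Subtype.ext (hM x.1), ih2 fun x => ?_, add_zero]
    obtain ⟨x, rfl⟩ := Q.mkQ_surjective x
    rw [← map_smul, hM, map_zero]

theorem PProd_rch_inv {G : B →+* B} {g : Ω →+* Ω}
    (hG : ∀ b, algebraMap B Ω (G b) = g (algebraMap B Ω b)) (hg : Inv μ g) {N : Type}
    [AddCommGroup N] [Module B N] {a : ℝ≥0∞} (h : Rch B μ N a) (M : Type) [AddCommGroup M]
    [Module B M] (e : M →ₛₗ[G] N) (he : Function.Bijective e) : Rch B μ M a := by
  induction h generalizing M with
  | zero N => exact .zero _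
  | base N =>
    rename_i i1 i2 i3 i4 i5 i6
    rw [← hg N]
    have h1 : ∀ (b : B) (x : N), G b • x = g (algebraMap B Ω b) • x := fun b x => by
      rw [← hG, algebraMap_smul]
    have he' := e.map_smulₛₗ
    let e' : M ≃+ N := AddEquiv.ofBijective e.toAddMonoidHom he
    let jΩ : Module Ω N := Module.compHom N g
    let jB : Module B N := Module.compHom N G
    have jT : @IsScalarTower B Ω N _ jΩ.toSMul jB.toSMul :=
      @IsScalarTower.of_algebraMap_smul B Ω N _ _ _ jΩ.toMulAction jB.toSMul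
        fun b x => (h1 b x).symm
    let e'' : M ≃ₗ[B] N := { e' with map_smul' := he' }
    exact Rch.congr e''.symm (@Rch.base B Ω _ _ _ μ N _ jB jΩ jT)
  | congr e' _ ih =>
    exact ih M (e'.symm.toLinearMap.comp e) (e'.symm.bijective.comp he)
  | ext Q _ _ ih1 ih2 =>
    refine .ext (Q.comap e) (ih1 _ (e.restrict fun _ hx => hx) ⟨?_, ?_⟩)
      (ih2 _ (Submodule.mapQ _ Q e le_rfl) ⟨?_, ?_⟩)
    · exact fun x y hxy => Subtype.ext (he.1 (congrArg Subtype.val hxy))
    · rintro ⟨y, hy⟩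
      obtain ⟨x, rfl⟩ := he.2 y
      exact ⟨⟨x, hy⟩, rfl⟩
    · rw [injective_iff_map_eq_zero]
      intro x hx
      obtain ⟨x, rfl⟩ := Submodule.Quotient.mk_surjective _ x
      exact (Submodule.Quotient.mk_eq_zero _).2 ((Submodule.Quotient.mk_eq_zero Q (x := e x)).1 hx)
    · intro y
      obtain ⟨y, rfl⟩ := Submodule.Quotient.mk_surjective _ y
      obtain ⟨x, rfl⟩ := he.2 y
      exact ⟨Submodule.Quotient.mk x, rfl⟩

theorem PProd_extend (hφ : Function.Surjective (algebraMap B Ω)) (μ : LF Ω) :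
    ∃ μ' : LF B, (∀ (M : Type) [AddCommGroup M] [Module B M] [Module Ω M] [IsScalarTower B Ω M],
      μ'.val M = μ.val M) ∧ (∀ η : B, μ.Null (algebraMap B Ω η) → μ'.Null η) ∧
      ∀ (G G' : B →+* B) (g g' : Ω →+* Ω), (∀ b, G (G' b) = b) →
        (∀ b, algebraMap B Ω (G b) = g (algebraMap B Ω b)) →
        (∀ b, algebraMap B Ω (G' b) = g' (algebraMap B Ω b)) → Inv μ g → Inv μ g' → Inv μ' G := by
  refine ⟨⟨fun M _ _ => ⨆ a : {a // Rch B μ M a}, a.1, ?_, ?_, ?_⟩, ?_, ?_, ?_⟩
  · intro M N _ _ _ _ e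
    exact le_antisymm
      (iSup_le fun a => le_iSup (fun a : {a // Rch B μ N a} => a.1) ⟨a.1, .congr e a.2⟩)
      (iSup_le fun a => le_iSup (fun a : {a // Rch B μ M a} => a.1) ⟨a.1, .congr e.symm a.2⟩)
  · intro M _ _ P
    refine le_antisymm (iSup_le fun a => ?_) ?_
    · obtain ⟨a', a'', h1, h2, h3⟩ := a.2.split hφ P
      exact h3.trans (add_le_add (le_iSup (fun a : {a // Rch B μ P a} => a.1) ⟨a', h1⟩)
        (le_iSup (fun a : {a // Rch B μ (M ⧸ P) a} => a.1) ⟨a'', h2⟩))
    · have : Nonempty {a // Rch B μ P a} := ⟨⟨0, .zero _⟩⟩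
      have : Nonempty {a // Rch B μ (M ⧸ P) a} := ⟨⟨0, .zero _⟩⟩
      exact ENNReal.iSup_add_iSup_le fun a b =>
        le_iSup (fun a : {a // Rch B μ M a} => a.1) ⟨_, .ext P a.2 b.2⟩
  · intro M _ _ _
    refine le_antisymm (iSup_le fun a => ?_) zero_le
    exact (a.2.le hφ PUnit (LinearEquiv.ofSubsingleton M PUnit)).trans (μ.zero _).le
  · intro M _ _ _ _
    exact le_antisymm (iSup_le fun a => a.2.le hφ M (LinearEquiv.refl B M))
      (le_iSup (fun a : {a // Rch B μ M a} => a.1) ⟨_, .base M⟩)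
  · intro η hη M _ _ hM
    exact le_antisymm (iSup_le fun a => (PProd_rch_null hη a.2 hM).le) zero_le
  · intro G G' g g' hGG hG hG' hg hg' M _ iM
    let jM : Module B M := Module.compHom M G
    refine le_antisymm (iSup_le fun a => ?_) (iSup_le fun a => ?_)
    · refine le_iSup (fun a : {a // @Rch B Ω _ _ _ μ M _ iM a} => a.1) ⟨a.1, ?_⟩
      exact @PProd_rch_inv B Ω _ _ _ μ G' g' hG' hg' M _ jM _ a.2 M _ iM
        (@LinearMap.mk B B _ _ G' M M _ _ iM jM (AddHom.id M) fun b x => by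
          change _ = @HSMul.hSMul B M M (@instHSMul B M iM.toSMul) (G (G' b)) x
          rw [hGG]; rfl) Function.bijective_id
    · refine le_iSup (fun a : {a // @Rch B Ω _ _ _ μ M _ jM a} => a.1) ⟨a.1, ?_⟩
      exact @PProd_rch_inv B Ω _ _ _ μ G g hG hg M _ iM _ a.2 M _ jM
        (@LinearMap.mk B B _ _ G M M _ _ jM iM (AddHom.id M) fun _ _ => rfl) Function.bijective_id

end rch

section pi

variable (O : ℕ → Type) [∀ b, CommRing (O b)] (b : ℕ)

/-- the `b`-th component of a module over the product -/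
def PProdE (M : Type) [AddCommGroup M] [Module (∀ b, O b) M] : Type :=
  LinearMap.eqLocus (LinearMap.lsmul (∀ b, O b) M (Pi.single b 1)) LinearMap.id

namespace PProdE

variable (M : Type) [AddCommGroup M] [Module (∀ b, O b) M]

instance : AddCommGroup (PProdE O b M) :=
  inferInstanceAs (AddCommGroup
    (LinearMap.eqLocus (LinearMap.lsmul (∀ b, O b) M (Pi.single b 1)) LinearMap.id))

theorem single_mul (r s : O b) :
    (Pi.single b (r * s) : ∀ b, O b) = Pi.single b r * Pi.single b s := Pi.single_mul b r s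

theorem mem (r : O b) (x : M) : (Pi.single b r : ∀ b, O b) • x ∈
    LinearMap.eqLocus (LinearMap.lsmul (∀ b, O b) M (Pi.single b 1)) LinearMap.id := by
  change (Pi.single b 1 : ∀ b, O b) • (Pi.single b r : ∀ b, O b) • x = Pi.single b r • x
  rw [smul_smul, ← single_mul, one_mul]

instance : Module (O b) (PProdE O b M) where
  smul r x := ⟨(Pi.single b r : ∀ b, O b) • x.1, mem O b M r _⟩
  one_smul x := Subtype.ext x.2
  mul_smul r s x := Subtype.ext (by
    change (Pi.single b (r * s) : ∀ b, O b) • x.1 =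
      (Pi.single b r : ∀ b, O b) • (Pi.single b s : ∀ b, O b) • x.1
    rw [single_mul, mul_smul])
  smul_zero r := Subtype.ext (smul_zero (Pi.single b r : ∀ b, O b))
  smul_add r x y := Subtype.ext (smul_add (Pi.single b r : ∀ b, O b) x.1 y.1)
  add_smul r s x := Subtype.ext (by
    change (Pi.single b (r + s) : ∀ b, O b) • x.1 =
      (Pi.single b r : ∀ b, O b) • x.1 + (Pi.single b s : ∀ b, O b) • x.1
    rw [Pi.single_add, add_smul])
  zero_smul x := Subtype.ext (by
    change (Pi.single b 0 : ∀ b, O b) • x.1 = 0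
    rw [Pi.single_zero, zero_smul])

variable {M} {N P : Type} [AddCommGroup N] [Module (∀ b, O b) N] [AddCommGroup P]
  [Module (∀ b, O b) P]

theorem prop (x : PProdE O b M) : (Pi.single b 1 : ∀ b, O b) • x.1 = x.1 := x.2

/-- functoriality -/
def map (f : M →ₗ[∀ b, O b] N) : PProdE O b M →ₗ[O b] PProdE O b N where
  toFun x := ⟨f x.1, by
    change (Pi.single b 1 : ∀ b, O b) • f x.1 = f x.1
    rw [← map_smul, prop]⟩
  map_add' x y := Subtype.ext (f.map_add x.1 y.1)
  map_smul' r x := Subtype.ext (f.map_smul _ x.1)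

theorem map_inj {f : M →ₗ[∀ b, O b] N} (h : Function.Injective f) :
    Function.Injective (map O b f) := fun _ _ hxy => Subtype.ext (h (congrArg Subtype.val hxy))

theorem map_surj {f : M →ₗ[∀ b, O b] N} (h : Function.Surjective f) :
    Function.Surjective (map O b f) := fun y => by
  obtain ⟨x, hx⟩ := h y.1
  refine ⟨⟨_, mem O b M 1 x⟩, Subtype.ext ?_⟩
  change f ((Pi.single b 1 : ∀ b, O b) • x) = y.1
  rw [map_smul, hx, prop]

theorem map_exact {f : M →ₗ[∀ b, O b] N} {g : N →ₗ[∀ b, O b] P} (h : Function.Exact f g) :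
    Function.Exact (map O b f) (map O b g) := fun y => by
  constructor
  · intro hy
    obtain ⟨x, hx⟩ := (h y.1).1 (congrArg Subtype.val hy)
    refine ⟨⟨_, mem O b M 1 x⟩, Subtype.ext ?_⟩
    change f ((Pi.single b 1 : ∀ b, O b) • x) = y.1
    rw [map_smul, hx, prop]
  · rintro ⟨x, rfl⟩
    exact Subtype.ext (h.apply_apply_eq_zero x.1)

end PProdE

theorem PProd_comp (μ : LF (O b)) : ∃ P : LF (∀ b, O b),
    (∀ η : ∀ b, O b, η b = 1 → P.Null η) ∧
    (∀ (g : ∀ b, O b →+* O b) (G : (∀ b, O b) →+* ∀ b, O b) (c : ℝ≥0∞),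
      (∀ x b, G x b = g b (x b)) →
      (∀ (M : Type) [AddCommGroup M] [Module (O b) M], μ.val M = c * (μ.comap (g b)).val M) →
      ∀ (M : Type) [AddCommGroup M] [Module (∀ b, O b) M], P.val M = c * (P.comap G).val M) ∧
    ∀ J : Ideal (∀ b, O b), P.val ((∀ b, O b) ⧸ J) = μ.val (O b ⧸ J.map (Pi.evalRingHom O b)) := by
  refine ⟨⟨fun M _ _ => μ.val (PProdE O b M), fun e => le_antisymm
    (μ.le_of_injective _ (PProdE.map_inj O b (f := e.toLinearMap) e.injective))
    (μ.le_of_surjective _ (PProdE.map_surj O b (f := e.toLinearMap) e.surjective)),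
    fun Q => μ.val_eq_add_of_exact _ _ (PProdE.map_inj O b Q.subtype_injective)
      (PProdE.map_surj O b Q.mkQ_surjective) (PProdE.map_exact O b (LinearMap.exact_subtype_mkQ Q)),
    fun M _ _ _ => ?_⟩, fun η hη M _ _ hM => ?_, fun g G c hG h M _ iM => ?_, fun J => ?_⟩
  · have : Subsingleton (PProdE O b M) := ⟨fun x y => Subtype.ext (Subsingleton.elim _ _)⟩
    exact μ.zero _
  · have h1 : ∀ x : PProdE O b M, x.1 = 0 := fun x => by
      have h2 : (Pi.single b 1 : ∀ b, O b) = Pi.single b 1 * η := by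
        rw [← Pi.single_mul_left, hη, one_mul]
      have h3 : ∀ y : M, (Pi.single b 1 : ∀ b, O b) • y = 0 := fun y => by
        rw [h2, mul_smul, hM, smul_zero]
      exact (PProdE.prop O b x).symm.trans (h3 _)
    have : Subsingleton (PProdE O b M) := ⟨fun x y => Subtype.ext ((h1 x).trans (h1 y).symm)⟩
    exact μ.zero _
  · have hs : ∀ r : O b, G (Pi.single b r) = Pi.single b (g b r) := fun r => by
      funext j
      rw [hG]
      by_cases hj : j = b
      · subst hj; simp
      · simp [Pi.single_eq_of_ne hj]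
    have hs1 : G (Pi.single b 1) = Pi.single b 1 := by rw [hs, map_one]
    let jM : Module (∀ b, O b) M := Module.compHom M G
    change μ.val (@PProdE O _ b M _ iM) = c * μ.val (@PProdE O _ b M _ jM)
    rw [h]
    congr 1
    refine (@PProd_val _ _ _ _ μ (g b) (@PProdE O _ b M _ jM) (@PProdE O _ b M _ iM) _ _ _ _
      { toFun := fun x => ⟨x.1, ?_⟩
        invFun := fun x => ⟨x.1, ?_⟩
        left_inv := fun _ => rfl
        right_inv := fun _ => rfl
        map_add' := fun _ _ => rfl } fun r x => Subtype.ext ?_).symm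
    · have h2 : @HSMul.hSMul _ M M (@instHSMul _ M iM.toSMul) (G (Pi.single b 1)) x.1 = x.1 := x.2
      rw [hs1] at h2
      exact h2
    · change @HSMul.hSMul _ M M (@instHSMul _ M iM.toSMul) (G (Pi.single b 1)) x.1 = x.1
      rw [hs1]
      exact x.2
    · change @HSMul.hSMul _ M M (@instHSMul _ M iM.toSMul) (G (Pi.single b r)) x.1 =
        @HSMul.hSMul _ M M (@instHSMul _ M iM.toSMul) (Pi.single b (g b r)) x.1
      rw [hs]
  · let ψ : O b →ₗ[O b] PProdE O b ((∀ b, O b) ⧸ J) := LinearMap.toSpanSingleton (O b) _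
      ⟨_, PProdE.mem O b _ 1 (Ideal.Quotient.mk J 1)⟩
    have hψ : ∀ r, (ψ r).1 = Ideal.Quotient.mk J (Pi.single b r) := fun r => by
      change (Pi.single b r : ∀ b, O b) • (Pi.single b 1 : ∀ b, O b) • Ideal.Quotient.mk J 1 = _
      rw [smul_smul, ← PProdE.single_mul, mul_one, ← Ideal.Quotient.mk_eq_mk,
        ← Submodule.Quotient.mk_smul, smul_eq_mul, mul_one, Ideal.Quotient.mk_eq_mk]
    have hsurj : Function.Surjective ψ := fun y => by
      obtain ⟨a, ha⟩ := Ideal.Quotient.mk_surjective y.1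
      refine ⟨a b, Subtype.ext ?_⟩
      rw [hψ, ← PProdE.prop O b y, ← ha, ← Ideal.Quotient.mk_eq_mk, ← Ideal.Quotient.mk_eq_mk,
        ← Submodule.Quotient.mk_smul, smul_eq_mul, ← Pi.single_mul_left, one_mul]
    have hker : LinearMap.ker ψ = J.map (Pi.evalRingHom O b) := by
      ext r
      have h1 : ψ r = 0 ↔ Ideal.Quotient.mk J (Pi.single b r) = 0 := by
        rw [← hψ]; exact Subtype.ext_iff
      rw [LinearMap.mem_ker, h1, Ideal.Quotient.eq_zero_iff_mem,
        Ideal.mem_map_iff_of_surjective _ (Function.surjective_eval _)]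
      constructor
      · exact fun h => ⟨_, h, by simp⟩
      · rintro ⟨a, ha, rfl⟩
        have := J.mul_mem_left (Pi.single b 1) ha
        rwa [← Pi.single_mul_left, one_mul] at this
    change μ.val (PProdE O b _) = _
    rw [← μ.congr (ψ.quotKerEquivOfSurjective hsurj)]
    exact μ.congr (Submodule.quotEquivOfEq _ _ hker)

end pi

theorem PProd_ulim : ∃ l : (ℕ → ℝ≥0∞) → ℝ≥0∞,
    (∀ f c, (∀ᶠ n in atTop, f n = c) → l f = c) ∧
    (∀ f g, l (fun n => f n + g n) = l f + l g) ∧
    ∀ c f, c ≠ ⊤ → l (fun n => c * f n) = c * l f := by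
  have h : ∀ f : ℕ → ℝ≥0∞, Tendsto f (hyperfilter ℕ) (𝓝 ((hyperfilter ℕ).map f).lim) :=
    fun f => ((hyperfilter ℕ).map f).le_nhds_lim
  refine ⟨fun f => ((hyperfilter ℕ).map f).lim, fun f c hfc => ?_, fun f g => ?_, fun c f hc => ?_⟩
  · exact tendsto_nhds_unique (h f) (tendsto_const_nhds.congr'
      ((hfc.filter_mono Nat.hyperfilter_le_atTop).mono fun _ hn => hn.symm))
  · exact tendsto_nhds_unique (h _) ((h f).add (h g))
  · exact tendsto_nhds_unique (h _) (ENNReal.Tendsto.const_mul (h f) (Or.inr hc))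

end Crest.Agent.R188
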