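import Crest.Agent.R188.PDefs
import Crest.Agent.R183.Family
import Crest.Agent.R183.FolnerAux2
import Crest.Agent.R188.PProdAux

/-!
# Length functions: transport, ultraproducts, extension to Witt vectors, killing almost zero
modules
-/

set_option autoImplicit false
set_option linter.unusedVariables false

open scoped ENNReal NNReal TensorProduct

namespace Crest.Agent.R188

open Crest.Agent.R183 WittVector

section transport

variable {B B' B'' : Type} [CommRing B] [CommRing B'] [CommRing B'']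

theorem comap_comap_val (μ : LF B) (f : B →+* B') (g : B' →+* B'') (M : Type) [AddCommGroup M]
    [Module B'' M] : ((μ.comap f).comap g).val M = (μ.comap (g.comp f)).val M := by
  rfl

/-- sizes of ideals along a surjective ring homomorphism -/
theorem sz_comap_of_surjective (μ : LF B) (f : B →+* B') (hf : Function.Surjective f)
    (P Q : Ideal B') : μ.sz (P.comap f) (Q.comap f) = (μ.comap f).sz P Q := by
  exact PProd_sz μ f f.toSemilinearMap P Q hf

theorem sz_map_of_surjective (μ : LF B) (f : B →+* B') (hf : Function.Surjective f)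
    (P Q : Ideal B) : (μ.comap f).sz (P.map f) (Q.map f) =
      μ.sz (P ⊔ RingHom.ker f) (Q ⊔ RingHom.ker f) := by
  rw [← sz_comap_of_surjective μ f hf, Ideal.comap_map_of_surjective f hf,
    Ideal.comap_map_of_surjective f hf]
  rfl

theorem Inv.sz_map {μ : LF B} {g : B ≃+* B} (h : Inv μ g.toRingHom) (P Q : Ideal B) :
    μ.sz (P.map g) (Q.map g) = μ.sz P Q := by
  have h1 := sz_map_of_surjective μ g.toRingHom g.surjective P Q
  rw [(RingHom.injective_iff_ker_eq_bot g.toRingHom).1 g.injective, sup_bot_eq, sup_bot_eq] at h1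
  rw [← h1]
  exact (h _).symm

/-- semilinear equivalences preserve an invariant length function -/
theorem Inv.val_eq {μ : LF B} {g : B →+* B} (h : Inv μ g) {M M' : Type} [AddCommGroup M]
    [Module B M] [AddCommGroup M'] [Module B M'] (e : M ≃+ M')
    (he : ∀ (b : B) (x : M), e (b • x) = g b • e x) : μ.val M = μ.val M' := by
  rw [PProd_val μ g e he, h]

theorem Scal.sz_map {p a : ℕ} [Fact p.Prime] {O : Type} [CommRing O] [CharP O p] [PerfectRing O p]
    {μ : LF O} (h : Scal p a μ) (e : ℕ) (P Q : Ideal O) :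
    μ.sz (P.map (iterateFrobenius O p e)) (Q.map (iterateFrobenius O p e)) =
      ((p : ℝ≥0∞) ^ e) ^ a * μ.sz P Q := by
  have h1 : ∀ (e : ℕ) (M : Type) [AddCommGroup M] [Module O M],
      μ.val M = ((p : ℝ≥0∞) ^ e) ^ a * (μ.comap (iterateFrobenius O p e)).val M := by
    intro e
    induction e with
    | zero =>
      intro M _ _
      rw [iterateFrobenius_zero, pow_zero, one_pow, one_mul, μ.comap_val _ M fun _ _ => rfl]
    | succ e ih =>
      intro M _ _
      rw [ih M, iterateFrobenius_add, iterateFrobenius_one, ← comap_comap_val, pow_succ, mul_pow,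
        mul_assoc]
      congr 1
      exact @h M _ (Module.compHom M (iterateFrobenius O p e))
  have h2 := sz_map_of_surjective μ (iterateFrobenius O p e)
    (bijective_iterateFrobenius O p e).2 P Q
  rw [(RingHom.injective_iff_ker_eq_bot _).1 (bijective_iterateFrobenius O p e).1, sup_bot_eq,
    sup_bot_eq] at h2
  rw [← h2]
  exact h1 e _

/-- changing ideals by an ideal which is killed by a null element -/
theorem sz_sup_of_null (μ : LF B) {η : B} (hη : μ.Null η) (P Q J : Ideal B)
    (h : ∀ x ∈ J, η * x ∈ Q) : μ.sz (P ⊔ J) (Q ⊔ J) = μ.sz P Q := by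
  have h1 : μ.sz (P ⊓ (Q ⊔ J)) Q = 0 := μ.sz_eq_zero_of_smul hη fun x hx => by
    obtain ⟨y, hy, z, hz, rfl⟩ := Submodule.mem_sup.1 hx.2
    rw [smul_add]
    exact Q.add_mem (Q.smul_mem _ hy) (h z hz)
  rw [μ.sz_tower_right P (le_sup_left : Q ≤ Q ⊔ J), h1, add_zero, ← μ.sz_sup_left (P ⊔ J),
    ← μ.sz_sup_left P, sup_assoc, sup_eq_right.2 (le_sup_right : J ≤ Q ⊔ J)]

end transport

theorem exists_lf_pi (O : ℕ → Type) [∀ b, CommRing (O b)] (μ : ∀ b, LF (O b)) :
    ∃ μ' : LF (∀ b, O b), (∀ b₀ : ℕ, μ'.Null fun b => if b < b₀ then 0 else 1) ∧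
      (∀ (g : ∀ b, O b →+* O b) (G : (∀ b, O b) →+* ∀ b, O b) (c : ℝ≥0∞),
        (∀ x b, G x b = g b (x b)) →
        (∀ b (M : Type) [AddCommGroup M] [Module (O b) M],
          (μ b).val M = c * ((μ b).comap (g b)).val M) → c ≠ ⊤ →
        ∀ (M : Type) [AddCommGroup M] [Module (∀ b, O b) M],
          μ'.val M = c * (μ'.comap G).val M) ∧
      ∀ (J : Ideal (∀ b, O b)) (c : ℝ≥0∞),
        (∀ b, (μ b).val (O b ⧸ J.map (Pi.evalRingHom O b)) = c) → μ'.val ((∀ b, O b) ⧸ J) = c := by
  choose P h1 h2 h3 using fun b => PProd_comp O b (μ b)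
  obtain ⟨l, lc, la, lm⟩ := PProd_ulim
  refine ⟨⟨fun M _ _ => l fun b => (P b).val M, fun e => ?_, fun Q => ?_, fun M _ _ _ => ?_⟩,
    fun b₀ M _ _ hM => lc _ _ ?_, fun g G c hG h hc M _ _ => ?_, fun J c h => lc _ _ ?_⟩
  · simp only [fun b => (P b).congr e]
  · simp only [← la, fun b => (P b).add Q]
  · exact lc _ _ (.of_forall fun b => (P b).zero M)
  · filter_upwards [Filter.eventually_ge_atTop b₀] with b hb
    exact h1 b _ (if_neg (not_lt.2 hb)) M hM
  · change l (fun b => (P b).val M) = c * l fun b => ((P b).comap G).val M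
    rw [← lm c _ hc]
    exact congrArg l (funext fun b => h2 b g G c hG (h b) M)
  · exact .of_forall fun b => (h3 b J).trans (h b)

theorem exists_lf_witt {p : ℕ} [Fact p.Prime] {O : Type} [CommRing O] [CharP O p]
    [PerfectRing O p] (μ : LF O) : ∃ μ' : LF (WittVector p O),
      (∀ (M : Type) [AddCommGroup M] [Module O M], (μ'.comap constantCoeff).val M = μ.val M) ∧
      (∀ η : O, μ.Null η → μ'.Null (teichmuller p η)) ∧
      ∀ g : O ≃+* O, Inv μ g.toRingHom → Inv μ' (WittVector.map g.toRingHom) := by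
  let _ : Algebra (WittVector p O) O := (constantCoeff : WittVector p O →+* O).toAlgebra
  obtain ⟨μ', h1, h2, h3⟩ := PProd_extend (B := WittVector p O) (constantCoeff_surjective p) μ
  refine ⟨μ', fun M _ _ => ?_, fun η hη => h2 _ ?_, fun g hg => h3 _ (WittVector.map g.symm.toRingHom)
    g.toRingHom g.symm.toRingHom (fun b => ?_) (fun b => rfl) (fun b => rfl) hg fun M _ _ => ?_⟩
  · let _ : Module (WittVector p O) M := Module.compHom M (constantCoeff : WittVector p O →+* O)
    have : IsScalarTower (WittVector p O) O M := IsScalarTower.of_algebraMap_smul fun _ _ => rfl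
    exact h1 M
  · exact hη
  · ext n
    simp [WittVector.map_coeff]
  · rename_i iM
    refine (@Inv.val_eq O _ μ _ hg M M _ iM _ (Module.compHom M g.symm.toRingHom)
      (AddEquiv.refl M) fun b x => ?_).symm
    change _ = @HSMul.hSMul O M M (@instHSMul O M iM.toSMul) (g.symm (g b)) x
    rw [g.symm_apply_apply]
    rfl

theorem exists_lf_kill {B : Type} [CommRing B] (μ : LF B) (η : ℕ → B)
    (h : ∀ k, η (k + 1) ^ 2 ∣ η k) : ∃ ν : LF B, ∀ (M : Type) [AddCommGroup M] [Module B M],
      ν.val M = ⨆ k, μ.val (LinearMap.range (LinearMap.lsmul B M (η k))) := by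
  have hd : ∀ k, η (k + 1) ∣ η k := fun k => (dvd_pow_self _ two_ne_zero).trans (h k)
  let v : ℕ → ∀ (M : Type) [AddCommGroup M] [Module B M], ℝ≥0∞ := fun k M _ _ =>
    μ.val (LinearMap.range (LinearMap.lsmul B M (η k)))
  have vm : ∀ (M : Type) [AddCommGroup M] [Module B M], Monotone fun k => v k M :=
    fun M _ _ => monotone_nat_of_le_succ fun k => μ.val_range_lsmul_le_of_dvd (hd k)
  have vs : ∀ (M N : Type) [AddCommGroup M] [Module B M] [AddCommGroup N] [Module B N]
      (e : M ≃ₗ[B] N), ⨆ k, v k N ≤ ⨆ k, v k M := fun M N _ _ _ _ e =>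
    iSup_mono fun k => μ.val_range_lsmul_le_of_surjective _ e.toLinearMap e.surjective
  refine ⟨⟨fun M _ _ => ⨆ k, v k M, fun e => le_antisymm (vs _ _ e.symm) (vs _ _ e),
    fun {M} _ _ Q => ?_, fun M _ _ _ => ?_⟩, fun M _ _ => rfl⟩
  · rw [ENNReal.iSup_add_iSup_of_monotone (vm Q) (vm (M ⧸ Q))]
    refine le_antisymm (iSup_le fun k => le_iSup_of_le (k + 1) ?_)
      (iSup_mono fun k => μ.add_le_val_range_lsmul _ Q)
    exact le_trans (μ.val_range_lsmul_le_of_dvd (by rw [← sq]; exact h k))
      (μ.val_range_lsmul_mul_le _ _ Q)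
  · exact le_antisymm (iSup_le fun k => (μ.zero _).le) zero_le

end Crest.Agent.R188
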