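import Crest.Agent.R188.PRPAux

/-!
# Real powers
-/

set_option autoImplicit false
set_option linter.unusedVariables false
set_option linter.unusedSectionVars false

open scoped ENNReal NNReal TensorProduct

namespace Crest.Agent.R188

open Crest.Agent.R183 Filter

variable {p : ℕ} [Fact p.Prime] {τ κ : Type} [Fintype τ] [DecidableEq τ] [Fintype κ] {a : ℕ}

theorem exists_perf_equiv {C : Type} [CommRing C] [CharP C p] (e : C ≃+* C) :
    ∃ e' : PerfectClosure C p ≃+* PerfectClosure C p,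
      ∀ x, e' (PerfectClosure.of C p x) = PerfectClosure.of C p (e x) := by
  have key : ∀ (f : C →+* C) (x : C),
      PerfectClosure.lift C p (PerfectClosure C p) ((PerfectClosure.of C p).comp f)
        (PerfectClosure.of C p x) = PerfectClosure.of C p (f x) := fun f x => rfl
  have ext : ∀ f g : PerfectClosure C p →+* PerfectClosure C p,
      (∀ x, f (PerfectClosure.of C p x) = g (PerfectClosure.of C p x)) → f = g := by
    intro f g h
    apply (PerfectClosure.lift C p (PerfectClosure C p)).symm.injective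
    exact RingHom.ext h
  refine ⟨RingEquiv.ofRingHom
    (PerfectClosure.lift C p (PerfectClosure C p) ((PerfectClosure.of C p).comp e.toRingHom))
    (PerfectClosure.lift C p (PerfectClosure C p) ((PerfectClosure.of C p).comp e.symm.toRingHom))
    (ext _ _ fun x => ?_) (ext _ _ fun x => ?_), fun x => key e.toRingHom x⟩
  · rw [RingHom.comp_apply, key, key]
    simp
  · rw [RingHom.comp_apply, key, key]
    simp

theorem perf_reg {C : Type} [CommRing C] [CharP C p] {ϖ : C} (h : IsSMulRegular C ϖ) :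
    IsSMulRegular (PerfectClosure C p) (PerfectClosure.of C p ϖ) := by
  have hp : ∀ e, p ^ e ≠ 0 := fun e => pow_ne_zero _ (Fact.out : p.Prime).ne_zero
  refine IsSMulRegular.of_right_eq_zero_of_smul fun x hx => ?_
  obtain ⟨e, c, hc⟩ := PRP_exists_pow x
  have h1 : PerfectClosure.of C p (ϖ ^ p ^ e * c) = PerfectClosure.of C p 0 := by
    rw [map_mul, map_pow, ← hc, ← mul_pow, ← smul_eq_mul, hx, zero_pow (hp e), map_zero]
  obtain ⟨d, hd⟩ := (PRP_of_eq h1).exists
  rw [zero_pow (hp d), mul_pow, ← pow_mul, ← smul_eq_mul] at hd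
  have h2 : c ^ p ^ d = 0 := (h.pow _).right_eq_zero_of_smul hd
  refine PRP_pow_inj (p := p) (e + d) ?_
  rw [pow_add, pow_mul, hc, ← map_pow, h2, map_zero, zero_pow (mul_ne_zero (hp e) (hp d))]

theorem perf_jac {C : Type} [CommRing C] [CharP C p] [IsLocalRing C] {ϖ : C}
    (h : ϖ ∈ IsLocalRing.maximalIdeal C) (z : PerfectClosure C p) :
    IsUnit (1 + PerfectClosure.of C p ϖ * z) := by
  have hp : ∀ e, p ^ e ≠ 0 := fun e => pow_ne_zero _ (Fact.out : p.Prime).ne_zero
  obtain ⟨e, c, hc⟩ := PRP_exists_pow z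
  rw [← isUnit_pow_iff (hp e), add_pow_char_pow, one_pow, mul_pow, hc, ← map_pow, ← map_mul,
    ← map_one (PerfectClosure.of C p), ← map_add]
  refine IsUnit.map _ ?_
  have h1 : ϖ ^ p ^ e * c ∈ IsLocalRing.maximalIdeal C :=
    Ideal.mul_mem_right _ _ (Ideal.pow_mem_of_mem _ h _ (Nat.pos_of_ne_zero (hp e)))
  have h2 := IsLocalRing.isUnit_one_sub_self_of_mem_nonunits _
    ((IsLocalRing.mem_maximalIdeal _).1 (neg_mem h1))
  rwa [sub_neg_eq_add] at h2

/-- almost acyclicity of the Koszul complex passes to the perfect closure -/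
theorem perf_ak {C : Type} [CommRing C] [CharP C p] (s : Fin a → C) (c : C)
    (h : ∀ (e : ℕ) (n : ℤ), 0 < n → ∀ x, (K (fun i => s i ^ p ^ e) (DG.single C C)).π n x = x →
      (K (fun i => s i ^ p ^ e) (DG.single C C)).D x = 0 →
      ∃ y, (K (fun i => s i ^ p ^ e) (DG.single C C)).D y = c • x)
    (e : ℕ) (n : ℤ) (hn : 0 < n) (x : KI a → PerfectClosure C p)
    (hx : (K (fun i => PerfectClosure.of C p (s i)) (DG.single _ (PerfectClosure C p))).π n x = x)
    (hD : (K (fun i => PerfectClosure.of C p (s i)) (DG.single _ (PerfectClosure C p))).D x = 0) :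
    ∃ y, (K (fun i => PerfectClosure.of C p (s i)) (DG.single _ (PerfectClosure C p))).D y =
      rt p e (PerfectClosure.of C p c) • x := by
  have hp : ∀ e, p ^ e ≠ 0 := fun e => pow_ne_zero _ (Fact.out : p.Prime).ne_zero
  rw [PRP_π] at hx
  rw [PRP_D] at hD
  have h1 := PRP_desc s n x hx hD (fun _ _ => ⊤) (fun _ => PRP_cmp_top)
    (fun i => by rw [PRP_lim_top]; trivial)
  obtain ⟨e', ⟨y, -, hxy, hyk, hyD⟩, he⟩ := (h1.and (eventually_ge_atTop e)).exists
  obtain ⟨d, rfl⟩ := exists_add_of_le he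
  obtain ⟨u, hu⟩ : ∃ u : KI a → C, (kmat a fun i => s i ^ p ^ (e + d)).mulVec u = c • y := by
    obtain ⟨u, hu⟩ := h (e + d) n hn y ((PRP_π _ _ _).2 hyk) (by rw [PRP_D]; exact hyD)
    rw [PRP_D] at hu
    exact ⟨u, hu⟩
  have h2 : (kmat a fun j => PerfectClosure.of C p (s j)).mulVec
      (fun j => rt p (e + d) (PerfectClosure.of C p (u j))) =
      rt p (e + d) (PerfectClosure.of C p c) • x := by
    funext i
    refine PRP_pow_inj (p := p) (e + d) ?_
    rw [PRP_asc, hu, Pi.smul_apply, Pi.smul_apply, smul_eq_mul, smul_eq_mul, mul_pow, PRP_rt_pow,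
      hxy, map_mul]
  have h3 : rt p e (PerfectClosure.of C p c) =
      rt p (e + d) (PerfectClosure.of C p c) ^ (p ^ d - 1) *
        rt p (e + d) (PerfectClosure.of C p c) := by
    rw [← pow_succ, Nat.sub_add_cancel (Nat.pos_of_ne_zero (hp d))]
    refine PRP_pow_inj (p := p) e ?_
    rw [PRP_rt_pow, ← pow_mul, ← pow_add, add_comm d e, PRP_rt_pow]
  refine ⟨rt p (e + d) (PerfectClosure.of C p c) ^ (p ^ d - 1) •
    fun j : KI a => rt p (e + d) (PerfectClosure.of C p (u j)), (PRP_D _ _).trans ?_⟩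
  rw [Matrix.mulVec_smul, h2, h3, mul_smul]

theorem exists_pf {C : Type} [CommRing C] [IsNoetherianRing C] [CharP C p] (g : τ → κ → C)
    (s : Fin a → C) (ha : 0 < a) {ϖ : C} (hϖ : IsSMulRegular C ϖ)
    (h : ∀ t, ∃ c : ℕ, ϖ ^ c ∈ sp (g t)) :
    ∃ Γ, PF p (fun t j => PerfectClosure.of C p (g t j)) (fun i => PerfectClosure.of C p (s i))
      (PerfectClosure.of C p ϖ) Γ := by
  have hp : ∀ e, p ^ e ≠ 0 := fun e => pow_ne_zero _ (Fact.out : p.Prime).ne_zero
  have hpp : Tendsto (fun e => p ^ e) atTop atTop :=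
    tendsto_pow_atTop_atTop_of_one_lt (Fact.out : p.Prime).one_lt
  obtain ⟨C0, hF⟩ := fam_Iw (fun t => sp (g t)) hϖ h
  obtain ⟨r, hr⟩ := strand_acyc (fun t => sp (g t)) s ha
  let A : (τ → ℕ) → ℕ → ℕ → Ideal C := fun w ρ e =>
    Iw (fun t => sp (g t)) (p ^ e • w) * sp s ^ (p ^ e * ρ)
  have hA : ∀ w ρ, PRP_Cmp p (A w ρ) := by
    intro w ρ e y hy
    have h1 : A w ρ (e + 1) = A w ρ e ^ p := by
      simp only [A]
      rw [mul_pow, ← Iw_smul, ← pow_mul, smul_smul, pow_succ, mul_comm p, mul_right_comm]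
    rw [h1]
    exact Ideal.pow_mem_pow hy p
  -- a sum of `q`-th powers times elements of `A`
  have root_sum : ∀ {ι : Type} [Fintype ι] (u : ι → C) (w : τ → ℕ) (ρ e : ℕ) (y : C)
      (x : PerfectClosure C p), y ∈ sp (fun j => u j ^ p ^ e) * A w ρ e →
      x ^ p ^ e = PerfectClosure.of C p y →
      x ∈ sp (fun j => PerfectClosure.of C p (u j)) * PRP_lim p (A w ρ) := by
    intro ι _ u w ρ e y x hy hxy
    obtain ⟨z, hz, rfl⟩ := PRP_mem_sp_mul.1 hy
    refine PRP_mem_sp_mul.2 ⟨fun j => rt p e (PerfectClosure.of C p (z j)),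
      fun j => (hA w ρ).rt_mem (hz j), PRP_pow_inj (p := p) e ?_⟩
    rw [hxy, sum_pow_char_pow, map_sum]
    refine Finset.sum_congr rfl fun j _ => ?_
    rw [mul_pow, PRP_rt_pow, map_mul, map_pow]
  -- pigeonhole for the multi-index
  have pig : ∀ (W : τ → ℕ) (t : τ) (q : ℕ), 0 < q → Fintype.card κ * q ≤ W t →
      Iw (fun t => sp (g t)) (W + q • Pi.single t 1) ≤
        sp (fun j => g t j ^ q) * Iw (fun t => sp (g t)) W := by
    intro W t q hq hW
    obtain ⟨W', rfl⟩ : ∃ W' : τ → ℕ, W = W' + (Fintype.card κ * q) • Pi.single t 1 := by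
      have : (Fintype.card κ * q) • (Pi.single t 1 : τ → ℕ) ≤ W := by
        intro j
        by_cases hj : j = t
        · subst hj
          simpa using hW
        · simp [hj]
      obtain ⟨W', hW'⟩ := exists_add_of_le this
      exact ⟨W', by rw [hW', add_comm]⟩
    rw [add_assoc, ← add_smul, Iw_add, Iw_add, Iw_smul, Iw_smul, Iw_single, mul_left_comm]
    exact Ideal.mul_mono_right (PRP_pigeon (g t) hq le_rfl)
  refine ⟨fun w ρ => PRP_lim p (A w ρ), ?_, ?_, ?_, ?_, ?_, ?_, ?_, ?_, ?_, ?_⟩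
  · have : A 0 0 = fun _ => ⊤ := by
      funext e
      simp [A, Iw_zero]
    rw [this, PRP_lim_top]
  · intro w w' ρ ρ' hw hρ x hx
    rw [PRP_mem_lim] at hx ⊢
    filter_upwards [hx] with e ⟨y, hy, hxy⟩
    exact ⟨y, Ideal.mul_mono (Iw_anti _ (smul_le_smul_of_nonneg_left hw (Nat.zero_le _)))
      (Ideal.pow_le_pow_right (Nat.mul_le_mul_left _ hρ)) hy, hxy⟩
  · intro w w' ρ ρ'
    refine Ideal.mul_le.2 fun x hx x' hx' => ?_
    rw [PRP_mem_lim] at hx hx' ⊢
    filter_upwards [hx, hx'] with e ⟨y, hy, hxy⟩ ⟨y', hy', hxy'⟩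
    refine ⟨y * y', ?_, by rw [mul_pow, hxy, hxy', map_mul]⟩
    have : A (w + w') (ρ + ρ') e = A w ρ e * A w' ρ' e := by
      simp only [A]
      rw [smul_add, Iw_add, mul_add, pow_add, mul_mul_mul_comm]
    rw [this]
    exact Ideal.mul_mem_mul hy hy'
  · intro t j
    refine (hA _ _).mem_lim (e := 0) (y := g t j) ?_ (by simp)
    simp only [A, pow_zero, one_smul, Iw_single, mul_zero, mul_one]
    exact Ideal.subset_span ⟨j, rfl⟩
  · intro i
    refine (hA _ _).mem_lim (e := 0) (y := s i) ?_ (by simp)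
    simp only [A, pow_zero, one_smul, Iw_zero, mul_one, pow_one, Ideal.top_mul]
    exact Ideal.subset_span ⟨i, rfl⟩
  · intro w ρ x hx
    obtain ⟨e, y, hy, hxy⟩ := (PRP_mem_lim.1 hx).exists
    refine (hA _ _).mem_lim (e := e + 1) (y := y) ?_ (by rw [← hxy, ← pow_mul, ← pow_succ'])
    simp only [A] at hy ⊢
    rwa [smul_smul, ← mul_assoc, ← pow_succ] at hy
  · intro w ρ t ht x hx
    obtain ⟨e, y, hy, hxy⟩ := (PRP_mem_lim.1 hx).exists
    refine root_sum (g t) w ρ e y x ?_ hxy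
    simp only [A] at hy ⊢
    rw [smul_add] at hy
    rw [← mul_assoc]
    refine Ideal.mul_mono_left (pig _ t _ (Nat.pos_of_ne_zero (hp e)) ?_) hy
    rw [Pi.smul_apply, smul_eq_mul, mul_comm]
    exact Nat.mul_le_mul_left _ ht
  · intro w ρ hρ x hx
    obtain ⟨e, y, hy, hxy⟩ := (PRP_mem_lim.1 hx).exists
    refine root_sum s w ρ e y x ?_ hxy
    simp only [A] at hy ⊢
    rw [mul_add, mul_one] at hy
    rw [mul_left_comm]
    refine Ideal.mul_mono_right (PRP_pigeon s (Nat.pos_of_ne_zero (hp e)) ?_) hy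
    rw [Fintype.card_fin, mul_comm]
    exact Nat.mul_le_mul_left _ hρ
  · intro w t c x ht hx
    choose z hz hxz using fun j => Ideal.mem_span_singleton_mul.1 (hx j)
    have hxt : x ∈ PRP_lim p (fun _ => (⊤ : Ideal C)) := by rw [PRP_lim_top]; trivial
    obtain ⟨e, ⟨x0, -, hx0⟩, he⟩ := ((PRP_mem_lim.1 hxt).and
      (eventually_all.2 fun j => PRP_mem_lim.1 (hz j))).exists
    choose y hy hzy using he
    have h1 : ∀ j, PerfectClosure.of C p (x0 * g t j ^ p ^ e) =
        PerfectClosure.of C p ((ϖ ^ c) ^ p ^ e * y j) := by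
      intro j
      rw [map_mul, map_mul, map_pow, map_pow, map_pow, ← hx0, ← hzy, ← mul_pow, ← mul_pow, hxz]
    obtain ⟨d, hd, hdC⟩ := ((eventually_all.2 fun j => PRP_of_eq (h1 j)).and
      (hpp.eventually_ge_atTop C0)).exists
    have hq : 0 < p ^ (e + d) := Nat.pos_of_ne_zero (hp _)
    have h2 : x0 ^ p ^ d ∈ Ideal.span {ϖ ^ (c * p ^ (e + d))} *
        Iw (fun t => sp (g t)) (p ^ (e + d) • w) := by
      refine PRP_col_iter hF t _ _ ?_ (Fintype.card κ * p ^ (e + d) + p ^ (e + d)) _ fun b hb => ?_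
      · rw [Pi.smul_apply, smul_eq_mul, pow_add]
        calc C0 ≤ p ^ d := hdC
          _ ≤ p ^ e * p ^ d := Nat.le_mul_of_pos_left _ (Nat.pos_of_ne_zero (hp _))
          _ ≤ p ^ e * p ^ d * w t := Nat.le_mul_of_pos_right _ ht
      · obtain ⟨v, hv, rfl⟩ := PRP_mem_sp_mul.1 (PRP_pigeon (g t) hq le_rfl hb)
        rw [Finset.mul_sum]
        refine Ideal.sum_mem _ fun j _ => ?_
        have h3 := hd j
        rw [mul_pow, mul_pow, ← pow_mul, ← pow_mul, ← pow_mul, ← pow_add] at h3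
        rw [← mul_assoc, h3, mul_assoc]
        refine Ideal.mul_mem_mul (Ideal.mem_span_singleton_self _) ?_
        have h4 := (hA _ _).pow (hy j) d
        simp only [A, mul_zero, pow_zero, mul_one] at h4
        rw [add_smul, add_comm (_ • _) (p ^ (e + d) • _), ← add_assoc, ← smul_add, Iw_add]
        refine Ideal.mul_mem_mul h4 ?_
        rw [Iw_smul, Iw_single]
        exact hv j
    obtain ⟨Z, hZ, hZx⟩ := Ideal.mem_span_singleton_mul.1 h2
    refine Ideal.mem_span_singleton_mul.2 ⟨rt p (e + d) (PerfectClosure.of C p Z),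
      (hA w 0).rt_mem (by simpa only [A, mul_zero, pow_zero, mul_one] using hZ),
      PRP_pow_inj (p := p) (e + d) ?_⟩
    rw [mul_pow, PRP_rt_pow, ← pow_mul, ← map_pow, ← map_mul, hZx, pow_add, pow_mul, hx0, map_pow]
  · intro κ' w hκ
    rw [PRP_acyc]
    intro k x hx hxk hD
    simp only [← map_pow] at hD
    have h1 := PRP_desc (fun i => s i ^ κ') k x hxk hD
      (fun i => A w (κ' * (a + 1 - (KI.deg a i).toNat))) (fun i => hA _ _) hx
    obtain ⟨e, ⟨y, hy, hxy, hyk, hyD⟩, he⟩ := (h1.and (hpp.eventually_ge_atTop r)).exists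
    simp only [← pow_mul] at hyD
    obtain ⟨u, hu, huD⟩ := (PRP_acyc _ _ _).1 (hr (κ' * p ^ e) (p ^ e • w)
      (he.trans (Nat.le_mul_of_pos_left _ hκ))) k y
      (fun i => by
        have := hy i
        simp only [A] at this
        rwa [← mul_assoc, mul_comm (p ^ e) κ'] at this) hyk hyD
    refine ⟨fun j => rt p e (PerfectClosure.of C p (u j)), fun i => (hA _ _).rt_mem ?_, ?_⟩
    · have := hu i
      simp only [A]
      rwa [← mul_assoc, mul_comm (p ^ e) κ']
    · funext i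
      refine PRP_pow_inj (p := p) e ?_
      simp only [← map_pow]
      rw [PRP_asc]
      simp only [← pow_mul]
      rw [huD, hxy]

theorem PF.pi {ι : Type} {O : ι → Type} [∀ b, CommRing (O b)] {g : τ → κ → ∀ b, O b}
    {s : Fin a → ∀ b, O b} {ϖ : ∀ b, O b} {Γ : ∀ b, (τ → ℕ) → ℕ → Ideal (O b)}
    (h : ∀ b, PF p (fun t j => g t j b) (fun i => s i b) (ϖ b) (Γ b)) :
    PF p g s ϖ fun w ρ => ⨅ b, (Γ b w ρ).comap (Pi.evalRingHom O b) := by
  have mem : ∀ w ρ (x : ∀ b, O b),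
      x ∈ (⨅ b, (Γ b w ρ).comap (Pi.evalRingHom O b)) ↔ ∀ b, x b ∈ Γ b w ρ := by
    intro w ρ x
    simp [Ideal.mem_comap]
  have glue : ∀ {σ : Type} [Fintype σ] (u : σ → ∀ b, O b) w ρ (x : ∀ b, O b),
      (∀ b, x b ∈ sp (fun j => u j b) * Γ b w ρ) →
      x ∈ sp u * ⨅ b, (Γ b w ρ).comap (Pi.evalRingHom O b) := by
    intro σ _ u w ρ x hx
    choose z hz hxz using fun b => PRP_mem_sp_mul.1 (hx b)
    refine PRP_mem_sp_mul.2 ⟨fun j b => z b j, fun j => (mem _ _ _).2 fun b => hz b j, ?_⟩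
    funext b
    rw [hxz, Finset.sum_apply]
    rfl
  refine ⟨?_, ?_, ?_, ?_, ?_, ?_, ?_, ?_, ?_, ?_⟩
  · rw [eq_top_iff]
    intro x _
    exact (mem _ _ _).2 fun b => by rw [(h b).top]; trivial
  · intro w w' ρ ρ' hw hρ x hx
    exact (mem _ _ _).2 fun b => (h b).anti _ _ _ _ hw hρ ((mem _ _ _).1 hx b)
  · intro w w' ρ ρ'
    refine Ideal.mul_le.2 fun x hx x' hx' => (mem _ _ _).2 fun b => ?_
    exact (h b).mul _ _ _ _ (Ideal.mul_mem_mul ((mem _ _ _).1 hx b) ((mem _ _ _).1 hx' b))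
  · intro t j
    exact (mem _ _ _).2 fun b => (h b).gmem t j
  · intro i
    exact (mem _ _ _).2 fun b => (h b).smem i
  · intro w ρ x hx
    exact (mem _ _ _).2 fun b => (h b).root _ _ _ ((mem _ _ _).1 hx b)
  · intro w ρ t ht x hx
    exact glue (g t) w ρ x fun b => (h b).gen w ρ t ht ((mem _ _ _).1 hx b)
  · intro w ρ hρ x hx
    exact glue s w ρ x fun b => (h b).gens w ρ hρ ((mem _ _ _).1 hx b)
  · intro w t c x ht hx
    have h1 : ∀ b, x b ∈ Ideal.span {ϖ b ^ c} * Γ b w 0 := by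
      intro b
      refine (h b).col w t c (x b) ht fun j => ?_
      obtain ⟨z, hz, hxz⟩ := Ideal.mem_span_singleton_mul.1 (hx j)
      exact Ideal.mem_span_singleton_mul.2 ⟨z b, (mem _ _ _).1 hz b, congrFun hxz b⟩
    choose z hz hxz using fun b => Ideal.mem_span_singleton_mul.1 (h1 b)
    exact Ideal.mem_span_singleton_mul.2 ⟨z, (mem _ _ _).2 hz, funext hxz⟩
  · intro κ' w hκ
    rw [PRP_acyc]
    intro k x hx hxk hD
    have h1 : ∀ b, ∃ y : KI a → O b, (∀ i, y i ∈ Γ b w (κ' * (a + 1 - (KI.deg a i).toNat))) ∧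
        (kmat a fun i => s i b ^ κ').mulVec y = fun i => x i b := by
      intro b
      refine (PRP_acyc _ _ _).1 ((h b).kv κ' w hκ) k (fun i => x i b)
        (fun i => (mem _ _ _).1 (hx i) b) (fun i hi => by rw [hxk i hi]; rfl) ?_
      funext i
      have h2 := PRP_map_D (Pi.evalRingHom O b) (fun i => s i ^ κ') x i
      rw [hD] at h2
      exact h2.symm
    choose y hy hyD using h1
    refine ⟨fun i b => y b i, fun i => (mem _ _ _).2 fun b => hy b i, ?_⟩
    funext i b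
    exact (PRP_map_D (Pi.evalRingHom O b) (fun i => s i ^ κ') (fun i b => y b i) i).trans
      (congrFun (hyD b) i)

variable {O : Type} [CommRing O] [CharP O p] [PerfectRing O p] {g : τ → κ → O} {s : Fin a → O}
  {ϖ : O} {Γ : (τ → ℕ) → ℕ → Ideal O}

omit [Fact p.Prime] [CharP O p] [PerfectRing O p] in
theorem PF.PRP_pow_le (h : PF p g s ϖ Γ) (n : ℕ) (w : τ → ℕ) (ρ : ℕ) :
    Γ w ρ ^ n ≤ Γ (n • w) (n * ρ) := by
  induction n with
  | zero => rw [zero_smul, zero_mul, h.top]; exact le_top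
  | succ n ih =>
    rw [pow_succ, succ_nsmul, Nat.succ_mul]
    exact (Ideal.mul_mono_left ih).trans (h.mul _ _ _ _)

theorem PF.mem_iff (h : PF p g s ϖ Γ) (e : ℕ) (w : τ → ℕ) (ρ : ℕ) (x : O) :
    x ^ p ^ e ∈ Γ (p ^ e • w) (p ^ e * ρ) ↔ x ∈ Γ w ρ := by
  constructor
  · induction e with
    | zero => simp
    | succ e ih =>
      intro hx
      refine ih (h.root _ _ _ ?_)
      rwa [← pow_mul, ← pow_succ, smul_smul, ← mul_assoc, ← pow_succ']
  · intro hx
    exact h.PRP_pow_le _ _ _ (Ideal.pow_mem_pow hx _)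

theorem PF.cvx (h : PF p g s ϖ Γ) (w : τ → ℕ) (ρ : ℕ) : Cvx p (Γ w ρ) := by
  intro n z hz
  exact (h.mem_iff n w ρ z).1 (h.PRP_pow_le _ _ _ hz)

theorem PF.map_frob (h : PF p g s ϖ Γ) (e : ℕ) (w : τ → ℕ) (ρ : ℕ) :
    (Γ w ρ).map (iterateFrobenius O p e) = Γ (p ^ e • w) (p ^ e * ρ) := by
  refine le_antisymm (Ideal.map_le_iff_le_comap.2 fun x hx => (h.mem_iff e w ρ x).2 hx) ?_
  intro y hy
  rw [← PRP_rt_pow (p := p) e y] at hy ⊢
  exact Ideal.mem_map_of_mem (iterateFrobenius O p e) ((h.mem_iff e w ρ _).1 hy)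

theorem PF.Iw_mul_le (h : PF p g s ϖ Γ) (w w' : τ → ℕ) (ρ ρ' : ℕ) :
    Iw (fun t => sp (g t)) w * sp s ^ ρ * Γ w' ρ' ≤ Γ (w + w') (ρ + ρ') := by
  have h1 : ∀ (n : ℕ) (w : τ → ℕ), ∑ t, w t = n → Iw (fun t => sp (g t)) w ≤ Γ w 0 := by
    intro n
    induction n with
    | zero =>
      intro w hw
      obtain rfl : w = 0 := by
        funext t
        exact (Finset.sum_eq_zero_iff.1 hw) t (Finset.mem_univ t)
      rw [h.top]
      exact le_top
    | succ n ih =>
      intro w hw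
      obtain ⟨t, -, ht⟩ := Finset.exists_ne_zero_of_sum_ne_zero (s := Finset.univ) (f := w)
        (by omega)
      obtain ⟨w0, rfl⟩ := GMar_pred (Nat.pos_of_ne_zero ht)
      rw [Iw_add, Iw_single]
      refine le_trans (Ideal.mul_mono (ih w0 ?_) (Ideal.span_le.2 ?_)) (h.mul _ _ 0 0)
      · simpa [Finset.sum_add_distrib] using hw
      · rintro _ ⟨j, rfl⟩
        exact h.gmem t j
  have h2 : sp s ≤ Γ 0 1 := by
    refine Ideal.span_le.2 ?_
    rintro _ ⟨i, rfl⟩
    exact h.smem i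
  have h3 : sp s ^ ρ ≤ Γ 0 ρ := by
    have := (Ideal.pow_right_mono h2 ρ).trans (h.PRP_pow_le ρ 0 1)
    rwa [smul_zero, mul_one] at this
  have h4 := (Ideal.mul_mono (h1 _ w rfl) h3).trans (h.mul w 0 0 ρ)
  rw [add_zero, zero_add] at h4
  exact (Ideal.mul_mono_left h4).trans (h.mul _ _ _ _)

theorem PF.le_Iw_mul (h : PF p g s ϖ Γ) (w w' : τ → ℕ) (hw : ∀ t, Fintype.card κ ≤ w' t) (ρ : ℕ) :
    Γ (w + w') ρ ≤ Iw (fun t => sp (g t)) w * Γ w' ρ := by
  have h1 : ∀ (n : ℕ) (w : τ → ℕ), ∑ t, w t = n →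
      Γ (w + w') ρ ≤ Iw (fun t => sp (g t)) w * Γ w' ρ := by
    intro n
    induction n with
    | zero =>
      intro w hw
      obtain rfl : w = 0 := by
        funext t
        exact (Finset.sum_eq_zero_iff.1 hw) t (Finset.mem_univ t)
      rw [Iw_zero, zero_add, Ideal.top_mul]
    | succ n ih =>
      intro w hw0
      obtain ⟨t, -, ht⟩ := Finset.exists_ne_zero_of_sum_ne_zero (s := Finset.univ) (f := w)
        (by omega)
      obtain ⟨w0, rfl⟩ := GMar_pred (Nat.pos_of_ne_zero ht)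
      rw [add_right_comm, Iw_add, Iw_single, mul_comm (Iw _ w0), mul_assoc]
      refine (h.gen _ ρ t ((hw t).trans (Nat.le_add_left _ _))).trans
        (Ideal.mul_mono_right (ih w0 ?_))
      simpa [Finset.sum_add_distrib] using hw0
  exact h1 _ w rfl

theorem PF.le_pow_mul (h : PF p g s ϖ Γ) (w : τ → ℕ) (ρ : ℕ) :
    Γ w (ρ + a) ≤ sp s ^ ρ * Γ w a := by
  induction ρ with
  | zero => rw [zero_add, pow_zero, one_mul]
  | succ ρ ih =>
    rw [add_right_comm, pow_succ', mul_assoc]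
    exact (h.gens w _ (Nat.le_add_left _ _)).trans (Ideal.mul_mono_right ih)

end Crest.Agent.R188
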