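import Crest.Agent.R188.PTilt
import Crest.Agent.R188.PRP
import Crest.Agent.R188.PProd
import Crest.Agent.R188.GGrow

/-!
# Auxiliary lemmas for `BBar`
-/

set_option autoImplicit false
set_option linter.unusedVariables false

open scoped ENNReal NNReal TensorProduct Pointwise

namespace Crest.Agent.R188

open Crest.Agent.R183 DG WittVector

section general

variable {B B' : Type} [CommRing B] [CommRing B']

theorem BBar_sz_sup_le {M : Type} [AddCommGroup M] [Module B M] (μ : LF B)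
    (P Q J : Submodule B M) : μ.sz (P ⊔ J) (Q ⊔ J) ≤ μ.sz P Q := by
  refine (μ.sz_sup_le P J _).trans ?_
  rw [μ.sz_eq_zero_of_le (le_sup_right : J ≤ Q ⊔ J), add_zero]
  exact μ.sz_mono le_rfl le_sup_left

theorem BBar_sz_map_le (μ : LF B) (f : B →+* B') (hf : Function.Surjective f) (P Q : Ideal B) :
    (μ.comap f).sz (P.map f) (Q.map f) ≤ μ.sz P Q := by
  rw [sz_map_of_surjective μ f hf]
  exact BBar_sz_sup_le μ _ _ _

theorem BBar_fg_mul (μ : LF B) {P Q : Ideal B} (h : μ.sz P Q ≠ ⊤) {𝔡 : Ideal B} (h𝔡 : 𝔡.FG) :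
    μ.sz (𝔡 * P) (𝔡 * Q) ≠ ⊤ := by
  refine Submodule.fg_induction (motive := fun (𝔡 : Ideal B) _ => μ.sz (𝔡 * P) (𝔡 * Q) ≠ ⊤)
    ?_ ?_ 𝔡 h𝔡
  · intro x
    have h1 := μ.sz_map_le (LinearMap.lsmul B B x) P Q
    rw [← GGrow_span_smul, ← GGrow_span_smul] at h1
    exact ne_top_of_le_ne_top h h1
  · intro 𝔡 𝔡' _ _ h1 h2
    rw [Ideal.sup_mul]
    refine ne_top_of_le_ne_top (ENNReal.add_ne_top.2 ⟨h1, h2⟩) ((μ.sz_sup_le _ _ _).trans ?_)
    exact add_le_add (μ.sz_mono le_rfl (Ideal.mul_mono_left le_sup_left))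
      (μ.sz_mono le_rfl (Ideal.mul_mono_left le_sup_right))

theorem BBar_pow_mul (μ : LF B) {P 𝔡 : Ideal B} (h : μ.sz P (𝔡 * P) ≠ ⊤) (h𝔡 : 𝔡.FG) (N : ℕ) :
    μ.sz P (𝔡 ^ N * P) ≠ ⊤ := by
  induction N with
  | zero =>
    rw [pow_zero, one_mul, μ.sz_eq_zero_of_le le_rfl]
    exact ENNReal.zero_ne_top
  | succ N ih =>
    have h1 := BBar_fg_mul μ ih h𝔡
    rw [← mul_assoc, ← pow_succ'] at h1
    exact ne_top_of_le_ne_top (ENNReal.add_ne_top.2 ⟨h, h1⟩) (μ.sz_triangle _ _ _)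

theorem BBar_sp_fg {ι : Type} [Finite ι] (u : ι → B) : (sp u).FG :=
  Submodule.fg_span (Set.finite_range u)

theorem BBar_sp_map {ι : Type} (u : ι → B) (f : B →+* B') :
    (sp u).map f = sp fun i => f (u i) := by
  rw [Ideal.map_span, ← Set.range_comp]
  rfl

theorem BBar_tight (μ : LF B) (t : ℕ → B)
    (h : ∀ (M : Type) [AddCommGroup M] [Module B M] (c : ℝ≥0∞),
      (∀ e, μ.val (LinearMap.range (LinearMap.lsmul B M (t e))) ≤ c) → μ.val M ≤ c)
    (P Q : Ideal B) (c : ℝ≥0∞) (hc : ∀ e, μ.sz (Ideal.span {t e} * P) Q ≤ c) : μ.sz P Q ≤ c := by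
  refine h _ c fun e => ?_
  rw [μ.LFrange_lsmul_sub]
  refine le_trans (μ.val_mono ?_) (hc e)
  rintro _ ⟨_, ⟨x, hx, rfl⟩, rfl⟩
  exact ⟨t e * x, Ideal.mul_mem_mul (Ideal.subset_span rfl) hx, rfl⟩

theorem BBar_val_pow (μ : LF B) {n : ℕ} (y : Fin n → B) (κ : Fin n → ℕ)
    (h0 : (K y (single B B)).H μ 0 ≠ ⊤) (h : ∀ k, 0 < k → (K y (single B B)).H μ k = 0) :
    μ.val (B ⧸ sp fun i => y i ^ κ i) = (∏ i, κ i : ℕ) * (K y (single B B)).H μ 0 := by
  have h1 : ∀ k, k ≠ 0 → (K y (single B B)).H μ k = 0 := fun k hk => by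
    rcases lt_or_gt_of_ne hk with hk | hk
    · exact K_single_H_eq_zero y B μ (Or.inl hk)
    · exact h k hk
  have h2 : (K y (single B B)).FinH μ ⊤ ⊥ := fun k => by
    by_cases hk : k = 0
    · rw [hk]
      exact h0
    · rw [show (K y (single B B)).h μ k ⊤ ⊥ = 0 from h1 k hk]
      exact ENNReal.zero_ne_top
  have h3 := K_ech_pow y κ (single_bdd (B := B) (M := B)) h2
  have h4 : ∀ k, k ≠ 0 → (K (fun i => y i ^ κ i) (single B B)).h μ k ⊤ ⊥ = 0 := fun k hk => by
    have := K_H_pow_le y κ (single B B) μ k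
    rw [h1 k hk, mul_zero] at this
    exact le_antisymm this zero_le
  rw [ech_eq_single 0 h4, ech_eq_single 0 h1] at h3
  have h5 := K_H_pow_le y κ (single B B) μ 0
  have h6 : ((∏ i, κ i : ℕ) : ℝ≥0∞) * (K y (single B B)).H μ 0 ≠ ⊤ :=
    ENNReal.mul_ne_top (ENNReal.natCast_ne_top _) h0
  have h7 : (K (fun i => y i ^ κ i) (single B B)).H μ 0 =
      (∏ i, κ i : ℕ) * (K y (single B B)).H μ 0 := by
    rw [← ENNReal.toReal_eq_toReal_iff' (ne_top_of_le_ne_top h6 h5) h6, ENNReal.toReal_mul,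
      ENNReal.toReal_natCast]
    simpa [sg] using h3
  rw [← h7, K_H_zero_single, ← μ.sz_top, ← μ.sz_top, smul_eq_mul, Ideal.mul_top]

end general

variable {p : ℕ} [Fact p.Prime] {O : Type} [CommRing O] [CharP O p] [PerfectRing O p]

omit [CharP O p] [PerfectRing O p] in
theorem BBar_cc_teich (x : O) : constantCoeff (teichmuller p x) = x := by
  rw [constantCoeff_apply, teichmuller_coeff_zero]

omit [CharP O p] [PerfectRing O p] in
theorem BBar_cc_surj : Function.Surjective (constantCoeff : WittVector p O →+* O) :=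
  fun x => ⟨_, BBar_cc_teich x⟩

theorem BBar_sp_le_WI {ι : Type} (u : ι → O) :
    (sp fun i => teichmuller p (u i)) ≤ WI p (sp u) := by
  refine Ideal.span_le.2 ?_
  rintro _ ⟨i, rfl⟩
  exact teich_mem_WI (Ideal.subset_span ⟨i, rfl⟩)

theorem BBar_WI_pow (𝔞 : Ideal O) (n : ℕ) : WI p 𝔞 ^ n ≤ WI p (𝔞 ^ n) := by
  induction n with
  | zero => rw [pow_zero, pow_zero, Ideal.one_eq_top, Ideal.one_eq_top, WI_top]
  | succ n ih =>
    rw [pow_succ, pow_succ]
    exact (Ideal.mul_mono_left ih).trans (WI_mul_le _ _)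

theorem BBar_WI_prod {τ : Type} (s : Finset τ) (𝔞 : τ → Ideal O) :
    ∏ t ∈ s, WI p (𝔞 t) ≤ WI p (∏ t ∈ s, 𝔞 t) := by
  classical
  induction s using Finset.induction_on with
  | empty => rw [Finset.prod_empty, Finset.prod_empty, Ideal.one_eq_top, Ideal.one_eq_top, WI_top]
  | insert t s ht ih =>
    rw [Finset.prod_insert ht, Finset.prod_insert ht]
    exact (Ideal.mul_mono_right ih).trans (WI_mul_le _ _)

theorem BBar_sz_WI {𝔞 : Ideal O} (h : Cvx p 𝔞) {ι : Type} (s : ι → O) (ν : LF (WittVector p O)) :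
    ν.sz (WI p 𝔞) ((Ideal.span {(p : WittVector p O)} ⊔ sp fun i => teichmuller p (s i)) *
      WI p 𝔞) ≤ (ν.comap constantCoeff).sz 𝔞 (sp s * 𝔞) := by
  have h1 := sz_map_of_surjective ν constantCoeff BBar_cc_surj (WI p 𝔞)
    ((sp fun i => teichmuller p (s i)) * WI p 𝔞)
  refine le_trans ?_ (h1.ge.trans ((ν.comap constantCoeff).sz_mono ?_ ?_))
  · refine le_trans (DG_le_right ν ?_) (ν.sz_mono le_sup_left le_rfl)
    rintro x ⟨hx, hx'⟩
    obtain ⟨y, hy, z, hz, rfl⟩ := Submodule.mem_sup.1 hx'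
    have hz' : z ∈ WI p 𝔞 := by
      have := (WI p 𝔞).sub_mem hx (Ideal.mul_le_right hy)
      rwa [add_sub_cancel_left] at this
    obtain ⟨z', hz'', e⟩ := h.exists_decomp hz'
    rw [RingHom.mem_ker.1 hz, teichmuller_zero, zero_add] at e
    refine Submodule.add_mem _ (Ideal.mul_mono_left le_sup_right hy) ?_
    rw [e]
    exact Ideal.mul_mem_mul (Ideal.mem_sup_left (Ideal.subset_span rfl)) hz''
  · exact Ideal.map_le_iff_le_comap.2 fun x hx => cc_mem_of_mem_WI hx
  · rw [Ideal.map_mul, BBar_sp_map]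
    simp only [BBar_cc_teich]
    refine Ideal.mul_mono_right fun x hx => ?_
    rw [← BBar_cc_teich (p := p) x]
    exact Ideal.mem_map_of_mem _ (teich_mem_WI hx)

theorem BBar_K_H {n : ℕ} (s : Fin (n + 1) → O) {ξ : WittVector p O} (h : Dist ξ (s 0))
    (hs : IsSMulRegular O (s 0)) (ν : LF (WittVector p O)) (k : ℤ) :
    (K (Fin.cons ξ fun i => teichmuller p (s i) : Fin (n + 2) → WittVector p O)
      (single _ (WittVector p O))).H ν k =
      (K s (single O O)).H (ν.comap constantCoeff) k := by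
  obtain ⟨u, hu⟩ := h.exists_unit hs
  set t : Fin (n + 1) → WittVector p O := fun i => teichmuller p (s i) with ht
  have i1 := K_succ_iso (Fin.cons ξ t : Fin (n + 2) → WittVector p O) (single _ (WittVector p O))
  rw [Fin.tail_cons, Fin.cons_zero] at i1
  have i2 : ((K t (single _ (WittVector p O))).coneS ξ).Iso
      ((K t (single _ (WittVector p O))).coneS (u * p)) := by
    refine coneS_iso_of_nullH (K_nullH t _ (Ideal.mem_sup_left ?_))
    exact Ideal.span_mono (Set.singleton_subset_iff.2 (Set.mem_range_self (f := t) 0)) hu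
  have i3 := coneS_unit_iso (K t (single _ (WittVector p O))) (p : WittVector p O) u
  have i4 := MC.app_coneS_iso (kos t) (p : WittVector p O) (single _ (WittVector p O))
  rw [(((i1.trans i2).trans i3).trans i4.symm).H_eq, K_coneS_single_H t _ reg_p]
  let _ : Algebra (WittVector p O) O := constantCoeff.toAlgebra
  have hk : LinearMap.ker (Algebra.linearMap (WittVector p O) O) =
      (p : WittVector p O) • (⊤ : Submodule (WittVector p O) (WittVector p O)) := by
    ext x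
    constructor
    · intro hx
      obtain ⟨y, rfl⟩ := PTilt_cc_zero (p := p) (x := x) hx
      exact Submodule.smul_mem_pointwise_smul y _ ⊤ trivial
    · intro hx
      obtain ⟨y, -, rfl⟩ := (Submodule.mem_smul_pointwise_iff_exists _ _ _).1 hx
      change constantCoeff ((p : WittVector p O) * y) = 0
      rw [map_mul, map_natCast, CharP.cast_eq_zero, zero_mul]
  have e : QuotSMulTop (p : WittVector p O) (WittVector p O) ≃ₗ[WittVector p O] O :=
    (Submodule.quotEquivOfEq _ _ hk.symm).trans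
      ((Algebra.linearMap (WittVector p O) O).quotKerEquivOfSurjective BBar_cc_surj)
  rw [(MC.ap_iso (kos t) e).H_eq, ← MC.map_ap_H (B := O) (kos t) ν k, kos_map]
  have e2 : (fun i => algebraMap (WittVector p O) O (t i)) = s :=
    funext fun i => BBar_cc_teich (s i)
  rw [e2]
  rfl

variable {τ κ : Type} [Fintype τ] [DecidableEq τ] [Fintype κ] {a : ℕ} {g : τ → κ → O}
  {s : Fin a → O} {ϖ : O} {Γ : (τ → ℕ) → ℕ → Ideal O}

theorem PF.BBar_le_WI (h : PF p g s ϖ Γ) (w : τ → ℕ) (ρ : ℕ) :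
    Iw (fun t => sp fun j => teichmuller p (g t j)) w * (sp fun i => teichmuller p (s i)) ^ ρ ≤
      WI p (Γ w ρ) := by
  have h1 := h.Iw_mul_le w 0 ρ 0
  rw [h.top, Ideal.mul_top, add_zero, add_zero] at h1
  refine le_trans (Ideal.mul_mono ?_ ?_) ((WI_mul_le _ _).trans (WI_mono h1))
  · refine le_trans ?_ (BBar_WI_prod _ _)
    exact Finset.prod_le_prod' fun t _ =>
      (Ideal.pow_right_mono (BBar_sp_le_WI _) _).trans (BBar_WI_pow _ _)
  · exact (Ideal.pow_right_mono (BBar_sp_le_WI _) _).trans (BBar_WI_pow _ _)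

theorem PF.BBar_WI_le (h : PF p g s ϖ Γ) (w w' : τ → ℕ) (hw : ∀ t, Fintype.card κ ≤ w' t) :
    WI p (Γ (w + w') 0) ≤ Iw (fun t => sp fun j => teichmuller p (g t j)) w := by
  have h1 : ∀ (n : ℕ) (w : τ → ℕ), ∑ t, w t = n →
      WI p (Γ (w + w') 0) ≤ Iw (fun t => sp fun j => teichmuller p (g t j)) w := by
    intro n
    induction n with
    | zero =>
      intro w hw
      obtain rfl : w = 0 := by
        funext t
        exact (Finset.sum_eq_zero_iff.1 hw) t (Finset.mem_univ t)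
      rw [Iw_zero]
      exact le_top
    | succ n ih =>
      intro w hw0
      obtain ⟨t, -, ht⟩ := Finset.exists_ne_zero_of_sum_ne_zero (s := Finset.univ) (f := w)
        (by omega)
      obtain ⟨w0, rfl⟩ := GMar_pred (Nat.pos_of_ne_zero ht)
      rw [add_right_comm, Iw_add, Iw_single, mul_comm (Iw _ w0)]
      refine (WI_le_sp_mul (g t) (h.cvx (w0 + w') 0) (h.cvx _ 0) ?_
        (h.gen _ 0 t ((hw t).trans (Nat.le_add_left _ _)))).trans (Ideal.mul_mono_right (ih w0 ?_))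
      · rw [add_comm _ (Pi.single t 1)]
        refine le_trans (Ideal.mul_mono_left (Ideal.span_le.2 ?_)) (h.mul _ _ 0 0)
        rintro _ ⟨j, rfl⟩
        exact h.gmem t j
      · simpa [Finset.sum_add_distrib] using hw0
  exact h1 _ w rfl

end Crest.Agent.R188
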