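import Crest.Agent.R188.BFam
import Crest.Agent.R188.BBarAux

/-!
# Finiteness of `Γ / s Γ`; the Euler characteristic on the untilt
-/

set_option autoImplicit false
set_option linter.unusedVariables false

open scoped ENNReal NNReal TensorProduct

namespace Crest.Agent.R188

open Crest.Agent.R183 IsLocalRing WittVector

variable {p : ℕ} [Fact p.Prime] {k : Type} [Field k] [CharP k p] [PerfectRing k p]

theorem Base.BBar_X_mem (X : Base p k) (i : Fin (X.a₀ + 1)) :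
    algebraMap X.Λ X.S (MvPowerSeries.X i) ∈ maximalIdeal X.S := by
  have h1 : ((maximalIdeal X.S).comap (algebraMap X.Λ X.S)).IsMaximal :=
    Ideal.isMaximal_comap_of_isIntegral_of_isMaximal _
  rw [← Ideal.mem_comap, eq_maximalIdeal h1, mem_maximalIdeal, mem_nonunits_iff]
  intro h
  have h2 := h.map (MvPowerSeries.constantCoeff (σ := Fin (X.a₀ + 1)) (R := WittVector p k))
  rw [MvPowerSeries.constantCoeff_X] at h2
  exact not_isUnit_zero h2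

namespace Cov

variable {X : Base p k} (Y : Cov X)

theorem val_quot_pow (N : ℕ) : Y.ν.val (Y.A ⧸ (Ideal.span {Y.θ X.ξ} ⊔
    sp fun i => teichmuller p (Y.s i) ^ N)) =
      (N : ℝ≥0∞) ^ (X.a₀ + 1) * Y.νO.val (Y.O ⧸ sp Y.s) := by
  have h1 := BBar_K_H Y.s Y.dist Y.reg Y.ν
  have h2 : (K Y.s (DG.single Y.O Y.O)).H Y.νO 0 = Y.νO.val (Y.O ⧸ sp Y.s) := by
    rw [K_H_zero_single, ← LF.sz_top, ← LF.sz_top, smul_eq_mul, Ideal.mul_top]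
  have h3 := BBar_val_pow Y.ν (Fin.cons (Y.θ X.ξ) fun i => teichmuller p (Y.s i) :
    Fin (X.a₀ + 2) → Y.A) (Fin.cons 1 fun _ => N) (by rw [h1, h2]; exact Y.r_ne_top)
    (fun n hn => by rw [h1]; exact Y.ak n hn)
  rw [h1, h2, ← LF.sz_top, HKos_sp_succ, Fin.prod_univ_succ] at h3
  rw [← LF.sz_top]
  unfold Fin.tail at h3
  simpa using h3

/-- the residue size on `W / 𝔍` is finite -/
theorem BBar_res : (Y.ν.comap (Ideal.Quotient.mk Y.𝔍)).sz ⊤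
    ((maximalIdeal X.S).map Y.ψ • (⊤ : Ideal (Y.A ⧸ Y.𝔍))) ≠ ⊤ := by
  have h1 := Y.val_quot_pow 1
  rw [← LF.sz_top] at h1
  have h2 := BBar_sz_map_le Y.ν (Ideal.Quotient.mk Y.𝔍) Ideal.Quotient.mk_surjective ⊤
    (Ideal.span {Y.θ X.ξ} ⊔ sp fun i => teichmuller p (Y.s i) ^ 1)
  rw [h1, Nat.cast_one, one_pow, one_mul, Ideal.map_top] at h2
  refine ne_top_of_le_ne_top Y.r_ne_top (le_trans (LF.sz_mono _ le_rfl ?_) h2)
  rw [smul_eq_mul, Ideal.mul_top, Ideal.map_le_iff_le_comap]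
  refine sup_le ?_ (Ideal.span_le.2 ?_)
  · rw [Ideal.span_singleton_le_iff_mem, Ideal.mem_comap,
      Ideal.Quotient.eq_zero_iff_mem.2 Y.ξ_mem]
    exact Ideal.zero_mem _
  · rintro _ ⟨i, rfl⟩
    have h3 := Ideal.mem_map_of_mem Y.ψ (X.BBar_X_mem i)
    rw [Y.hψ₀, Y.hθ₀] at h3
    simpa using h3

theorem BBar_Iw (w : Fin (2 * X.m + 1) → ℕ) :
    (Iw (fun t => sp fun j : Option X.J => teichmuller p (j.elim (Y.s 0 ^ X.K₀) (Y.β t))) w).map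
      (Ideal.Quotient.mk Y.𝔍) = (Iw X.IS w).map Y.ψ := by
  rw [Iw_map, Iw_map]
  congr 1
  funext t
  rw [Y.IS_map, BBar_sp_map]

/-- the key estimate -/
theorem BBar_est (w : Fin (2 * X.m + 1) → ℕ) (ρ : ℕ) : ∃ c : ℝ≥0∞, c ≠ ⊤ ∧ ∀ (q : ℕ) (x : Y.O),
    x ∈ Y.Γ (fun _ => X.nG) 0 → (∃ N : ℕ, x ∣ Y.s 0 ^ N) →
    Y.νO.sz (Ideal.span {x} * Y.Γ (q • w) 0) (Y.Γ (q • w) (q * ρ)) ≤
      c * ((q + 1 : ℕ) : ℝ≥0∞) ^ (X.a₀ + 1) := by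
  obtain ⟨e₀, he₀⟩ := X.hmΛ
  obtain ⟨C, hC⟩ := growth_pow (X.a₀ + 1) X.dim_S (Iw X.IS w)
  refine ⟨(C * (e₀ * ρ + 1) ^ (X.a₀ + 1) : ℕ) * _,
    ENNReal.mul_ne_top (ENNReal.natCast_ne_top _) Y.BBar_res, fun q x hx ⟨N, hN⟩ => ?_⟩
  obtain ⟨N₁, hN₁⟩ := Y.pow_mem_Γ (q • w) 0
  obtain ⟨N₂, hN₂⟩ := Y.pow_mem_Γ (q • w) (q * ρ)
  have h1 := Y.dist.sz_eq Y.reg ((Y.pf.cvx (q • w) 0).span_mul x) (Y.pf.cvx (q • w) (q * ρ))
    ⟨N + N₁, by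
      rw [pow_add]
      exact Ideal.mul_mem_mul (Ideal.mem_span_singleton.2 hN) hN₁⟩ ⟨N₂, hN₂⟩ Y.ν
  have h2 := Y.sz_bar (P := WI p (Ideal.span {x} * Y.Γ (q • w) 0) ⊔ Ideal.span {Y.θ X.ξ})
    (Q := WI p (Y.Γ (q • w) (q * ρ)) ⊔ Ideal.span {Y.θ X.ξ}) (N := N₂)
    (Ideal.mem_sup_right (Ideal.subset_span rfl))
    (Ideal.mem_sup_left (by rw [← map_pow]; exact teich_mem_WI hN₂))
  have h3 := sz_smul_le Y.ψ (Y.ν.comap (Ideal.Quotient.mk Y.𝔍)) (Iw X.IS w ^ q)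
    (maximalIdeal X.S ^ (e₀ * ρ * q) * Iw X.IS w ^ q) ⟨_, le_rfl⟩ (⊤ : Ideal (Y.A ⧸ Y.𝔍))
  have h4 : ((C * (q + e₀ * ρ * q + 1) ^ (X.a₀ + 1) : ℕ) : ℝ≥0∞) ≤
      (C * (e₀ * ρ + 1) ^ (X.a₀ + 1) : ℕ) * ((q + 1 : ℕ) : ℝ≥0∞) ^ (X.a₀ + 1) := by
    exact_mod_cast GGrow_arith C (e₀ * ρ) q (X.a₀ + 1)
  rw [← h1, ← h2, mul_right_comm]
  refine le_trans (LF.sz_mono _ ?_ ?_) (h3.trans (mul_le_mul_left ((hC q _).trans h4) _))
  · rw [smul_eq_mul, Ideal.mul_top, ← Iw_smul, ← Y.BBar_Iw, Ideal.map_sup]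
    refine sup_le (Ideal.map_mono ?_) ?_
    · refine le_trans (WI_mono ?_) (Y.pf.BBar_WI_le (q • w) (fun _ => X.nG) fun _ => le_rfl)
      rw [add_comm (q • w)]
      exact (Ideal.mul_mono_left ((Ideal.span_singleton_le_iff_mem _).2 hx)).trans
        (Y.pf.mul _ _ 0 0)
    · rw [Ideal.map_le_iff_le_comap, Ideal.span_singleton_le_iff_mem, Ideal.mem_comap,
        Ideal.Quotient.eq_zero_iff_mem.2 Y.ξ_mem]
      exact Ideal.zero_mem _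
  · refine le_trans ?_ (Ideal.map_mono ((Y.pf.BBar_le_WI (q • w) (q * ρ)).trans le_sup_left))
    rw [smul_eq_mul, Ideal.mul_top, ← Iw_smul, Ideal.map_mul, Ideal.map_mul, Y.BBar_Iw, mul_comm]
    refine Ideal.mul_mono_right ?_
    rw [mul_assoc, pow_mul, mul_comm ρ, Ideal.map_pow, Ideal.map_pow _ _ (q * ρ)]
    refine Ideal.pow_right_mono ((Ideal.map_mono he₀).trans (le_of_eq ?_)) _
    rw [BBar_sp_map, BBar_sp_map]
    congr 1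
    funext i
    rw [Y.hψ₀, Y.hθ₀]

theorem mbar (w : Fin (2 * X.m + 1) → ℕ) : Y.νO.sz (Y.Γ w 0) (sp Y.s * Y.Γ w 0) ≠ ⊤ := by
  obtain ⟨c, hc, h⟩ := Y.BBar_est w (X.a₀ + 1 + 1)
  obtain ⟨j, hj⟩ := Y.pow_mem_Γ (fun _ => X.nG) 0
  have hp : 1 < p := (Fact.out : p.Prime).one_lt
  have h1 : Y.Γ w (X.a₀ + 1 + 1) ≤ sp Y.s * Y.Γ w 0 := (Y.pf.gens w _ le_rfl).trans
    (Ideal.mul_mono_right (Y.pf.anti _ _ _ _ le_rfl (Nat.zero_le _)))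
  refine ne_top_of_le_ne_top (b := c * 2 ^ (X.a₀ + 1))
    (ENNReal.mul_ne_top hc (ENNReal.pow_ne_top ENNReal.ofNat_ne_top))
    (le_trans (LF.sz_mono _ le_rfl h1) ?_)
  refine BBar_tight Y.νO (fun e => rt p e (Y.s 0)) Y.tight _ _ _ fun e => ?_
  have h2 := Y.scal.sz_map (e + j) (Ideal.span {rt p e (Y.s 0)} * Y.Γ w 0) (Y.Γ w (X.a₀ + 1 + 1))
  have h3 : iterateFrobenius Y.O p (e + j) (rt p e (Y.s 0)) = Y.s 0 ^ p ^ j := by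
    rw [iterateFrobenius_def, pow_add, pow_mul, PRP_rt_pow]
  rw [Ideal.map_mul, Y.pf.map_frob, Y.pf.map_frob, Ideal.map_span, Set.image_singleton, h3,
    mul_zero] at h2
  have h4 := h (p ^ (e + j)) (Y.s 0 ^ p ^ j) (by
    obtain ⟨d, hd⟩ := Nat.exists_eq_add_of_le (Nat.lt_pow_self hp (n := j)).le
    rw [hd, pow_add]
    exact Ideal.mul_mem_right _ _ hj) ⟨_, dvd_rfl⟩
  have h5 : ((p ^ (e + j) + 1 : ℕ) : ℝ≥0∞) ≤ (p : ℝ≥0∞) ^ (e + j) * 2 := by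
    have : p ^ (e + j) + 1 ≤ p ^ (e + j) * 2 := by
      have := Nat.one_le_pow (e + j) p (by omega)
      omega
    exact_mod_cast this
  have h6 : ((p : ℝ≥0∞) ^ (e + j)) ^ (X.a₀ + 1) ≠ 0 := by
    have : (p : ℝ≥0∞) ≠ 0 := by exact_mod_cast (by omega : p ≠ 0)
    exact pow_ne_zero _ (pow_ne_zero _ this)
  have h7 : ((p : ℝ≥0∞) ^ (e + j)) ^ (X.a₀ + 1) ≠ ⊤ :=
    ENNReal.pow_ne_top (ENNReal.pow_ne_top (ENNReal.natCast_ne_top _))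
  rw [h2] at h4
  refine (ENNReal.mul_le_mul_iff_right h6 h7).1 (h4.trans ?_)
  rw [mul_left_comm, ← mul_pow]
  exact mul_le_mul_right (pow_le_pow_left' h5 _) _

theorem mbar_W (w : Fin (2 * X.m + 1) → ℕ) : Y.ν.sz (WI p (Y.Γ w 0))
    ((Ideal.span {(p : Y.A)} ⊔ sp fun i => teichmuller p (Y.s i)) * WI p (Y.Γ w 0)) ≠ ⊤ := by
  exact ne_top_of_le_ne_top (Y.mbar w) (BBar_sz_WI (Y.pf.cvx w 0) Y.s Y.ν)

theorem mbar_B (w : Fin (2 * X.m + 1) → ℕ) (N : ℕ) : Y.νB.sz (Y.ΓB w)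
    (sp (fun i => Ideal.Quotient.mk (Ideal.span {Y.θ X.ξ}) (teichmuller p (Y.s i))) ^ N *
      Y.ΓB w) ≠ ⊤ := by
  refine BBar_pow_mul _ (ne_top_of_le_ne_top (Y.mbar_W w) ?_) (BBar_sp_fg _) N
  refine le_trans (LF.sz_mono _ le_rfl ?_) (BBar_sz_map_le Y.ν (Ideal.Quotient.mk _)
    Ideal.Quotient.mk_surjective _ _)
  rw [Ideal.map_mul]
  refine Ideal.mul_mono_left ?_
  rw [Ideal.map_sup, BBar_sp_map]
  refine sup_le ?_ le_rfl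
  have h1 : Ideal.span {(p : Y.A)} ≤ Ideal.span {Y.θ X.ξ} ⊔ Ideal.span {teichmuller p (Y.s 0)} :=
    le_sup_left.trans Y.dist.sup_eq.ge
  refine (Ideal.map_mono h1).trans ?_
  rw [Ideal.map_sup, Ideal.map_quotient_self, bot_sup_eq, Ideal.map_span, Set.image_singleton,
    Ideal.span_singleton_le_iff_mem]
  exact Ideal.subset_span ⟨0, rfl⟩

theorem chi_ΓB {C : ℕ} (hC : X.nG ≤ C) :
    (X.E.map Y.φ).chi Y.νB (Y.ΓB ((fun _ => C) + 1)) = ∑ j ∈ Finset.range X.m, sg (X.δ j) *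
      (Y.νO.sz (Y.Γ (uvec (2 * X.m) C (2 * j)) 0)
        (Y.Γ (uvec (2 * X.m) C (2 * j + 1)) 0)).toReal := by
  obtain ⟨U'', hU⟩ := Y.exists_spl
  obtain ⟨e, -, he⟩ := Y.max_pow_le_Q
  obtain ⟨N, hN⟩ : ∃ N : ℕ, sp (fun i => Ideal.Quotient.mk (Ideal.span {Y.θ X.ξ})
      (teichmuller p (Y.s i))) ^ N ≤ X.Q.map Y.φ := by
    refine Ideal.exists_pow_le_of_le_radical_of_fg (Ideal.span_le.2 ?_) (BBar_sp_fg _)
    rintro _ ⟨i, rfl⟩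
    refine ⟨e, ?_⟩
    have h1 : (X.Q.comap X.π).map Y.θ ≤ (X.Q.map Y.φ).comap (Ideal.Quotient.mk _) := by
      refine Ideal.map_le_iff_le_comap.2 fun t ht => ?_
      rw [Ideal.mem_comap, Ideal.mem_comap, ← Y.φ_π]
      exact Ideal.mem_map_of_mem _ ht
    have h2 := h1 (he i)
    rwa [Ideal.mem_comap, map_pow] at h2
  rw [flag_chi hU (Y.fam hC) (v := fun _ => C) (fun _ => le_rfl) Y.νB fun j hj w hw => ?_]
  · refine Finset.sum_congr rfl fun j _ => ?_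
    rw [Y.sz_ΓB]
    rfl
  · have h1 := (flag_pow_le hU X.hδ (Y.fam hC) (VSS_null_map Y.φ X.hE) hj hw 1).1
    rw [pow_one, one_smul, one_smul] at h1
    exact ne_top_of_le_ne_top (Y.mbar_B _ N)
      (LF.sz_mono _ le_rfl ((Ideal.mul_mono_left hN).trans h1))

end Cov

end Crest.Agent.R188
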