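import Crest.Agent.R188.PW

/-!
# Tilting of lengths and colon properties along a distinguished element
-/

set_option autoImplicit false
set_option linter.unusedVariables false
set_option linter.unusedSectionVars false

open scoped ENNReal NNReal TensorProduct

namespace Crest.Agent.R188

open Crest.Agent.R183 WittVector

section abstract

variable {R M : Type} [CommRing R] [AddCommGroup M] [Module R M]

theorem PTilt_pow {P Q : Submodule R M} {π : R} (hπ : ∀ x ∈ P, π • x ∈ Q → x ∈ Q) (N : ℕ) :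
    ∀ x ∈ P, π ^ N • x ∈ Q → x ∈ Q := by
  induction N with
  | zero => intro x _ hx; rwa [pow_zero, one_smul] at hx
  | succ N ih =>
    intro x hx h
    rw [pow_succ', mul_smul] at h
    exact ih x hx (hπ _ (P.smul_mem _ hx) h)

theorem PTilt_sat {P Q : Submodule R M} {π τ : R} {N : ℕ} (hπ : ∀ x ∈ P, π • x ∈ Q → x ∈ Q)
    (hτ : ∀ x ∈ P, τ ^ N • x ∈ Q) {x : M} (hx : x ∈ P) (h : (π - τ) • x ∈ Q) : x ∈ Q := by
  obtain ⟨c, hc⟩ := sub_dvd_pow_sub_pow π τ N
  refine PTilt_pow hπ N x hx ?_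
  have e : π ^ N • x = c • (π - τ) • x + τ ^ N • x := by
    rw [smul_smul, mul_comm, ← hc, ← add_smul, sub_add_cancel]
  rw [e]
  exact Q.add_mem (Q.smul_mem _ h) (hτ x hx)

theorem PTilt_tower (ν : LF R) {P P' Q : Submodule R M} {a : R} (hQ : Q ≤ P') (hP : P' ≤ P)
    (ha : ∀ x ∈ P, a • x ∈ P' → x ∈ P') :
    ν.sz P (P.map (LinearMap.lsmul R M a) ⊔ Q) =
      ν.sz P' (P'.map (LinearMap.lsmul R M a) ⊔ Q) +
        ν.sz P (P.map (LinearMap.lsmul R M a) ⊔ P') := by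
  rw [ν.sz_tower_left hP, sup_left_comm, sup_eq_left.2 hQ]
  congr 1
  refine ν.LFsz_congr (le_antisymm ?_ (inf_le_inf_left _ (sup_le_sup_right
    (Submodule.map_mono hP) _)))
  rintro x ⟨hx, hx'⟩
  obtain ⟨_, ⟨y, hy, rfl⟩, q, hq, rfl⟩ := Submodule.mem_sup.1 hx'
  refine ⟨hx, Submodule.add_mem_sup ⟨y, ha y hy ?_, rfl⟩ hq⟩
  have := P'.sub_mem hx (hQ hq)
  rwa [add_sub_cancel_right] at this

theorem PTilt_A (ν : LF R) {Q : Submodule R M} {π τ : R} (N : ℕ) : ∀ P : Submodule R M, Q ≤ P →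
    (∀ x ∈ P, π • x ∈ Q → x ∈ Q) → (∀ x ∈ P, τ ^ N • x ∈ Q) →
    ν.sz P (P.map (LinearMap.lsmul R M (π - τ)) ⊔ Q) =
      ν.sz P (P.map (LinearMap.lsmul R M π) ⊔ Q) := by
  induction N with
  | zero =>
    intro P _ _ hτ
    have h : P ≤ Q := fun x hx => by simpa using hτ x hx
    rw [ν.sz_eq_zero_of_le (h.trans le_sup_right), ν.sz_eq_zero_of_le (h.trans le_sup_right)]
  | succ N ih =>
    intro P hQ hπ hτ
    let P' : Submodule R M := P ⊓ Q.comap (LinearMap.lsmul R M (τ ^ N))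
    have hP' : ∀ x, x ∈ P' ↔ x ∈ P ∧ τ ^ N • x ∈ Q := fun _ => Iff.rfl
    have h1 : Q ≤ P' := fun x hx => (hP' x).2 ⟨hQ hx, Q.smul_mem _ hx⟩
    have h2 : P' ≤ P := inf_le_left
    have h3 : ∀ x ∈ P, π • x ∈ P' → x ∈ P' := fun x hx h => (hP' x).2 ⟨hx, hπ _ (P.smul_mem _ hx) (by
      rw [smul_comm]
      exact ((hP' _).1 h).2)⟩
    have h4 : ∀ x ∈ P, τ • x ∈ P' := fun x hx => (hP' _).2 ⟨P.smul_mem _ hx, by
      rw [smul_smul, ← pow_succ]
      exact hτ x hx⟩
    have h5 : ∀ x ∈ P, (π - τ) • x ∈ P' → x ∈ P' := fun x hx h => h3 x hx (by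
      have := P'.add_mem h (h4 x hx)
      rwa [← add_smul, sub_add_cancel] at this)
    rw [PTilt_tower ν h1 h2 h3, PTilt_tower ν h1 h2 h5,
      ih P' h1 (fun x hx => hπ x (h2 hx)) fun x hx => ((hP' x).1 hx).2]
    congr 2
    refine le_antisymm (sup_le ?_ le_sup_right) (sup_le ?_ le_sup_right)
    · rintro _ ⟨x, hx, rfl⟩
      rw [LinearMap.lsmul_apply, sub_smul]
      exact Submodule.sub_mem _ (Submodule.mem_sup_left ⟨x, hx, rfl⟩)
        (Submodule.mem_sup_right (h4 x hx))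
    · rintro _ ⟨x, hx, rfl⟩
      rw [LinearMap.lsmul_apply, ← sub_add_cancel π τ, add_smul]
      exact Submodule.add_mem_sup ⟨x, hx, by rw [sub_add_cancel]; rfl⟩ (h4 x hx)

end abstract

variable {p : ℕ} [Fact p.Prime] {O : Type} [CommRing O] [CharP O p] [PerfectRing O p]
  {𝔞 𝔞' 𝔟 : Ideal O} {ξ : WittVector p O} {ϖ : O}

theorem PTilt_cc_zero {x : WittVector p O} (h : constantCoeff x = 0) :
    ∃ y : WittVector p O, x = p * y := by
  obtain ⟨y, hy⟩ := PM_dvd (x := x) (y := 0) (by rw [h, map_zero])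
  exact ⟨y, by rw [← hy, sub_zero]⟩

theorem PTilt_dvd {t : O} (ht : t = ϖ ∨ t = 0) : teichmuller p ϖ ∣ teichmuller p t := by
  rcases ht with rfl | rfl
  · exact dvd_rfl
  · rw [teichmuller_zero]
    exact dvd_zero _

theorem PTilt_cancel (hϖ : IsSMulRegular O ϖ) {x y : WittVector p O}
    (h : teichmuller p ϖ * x = p * y) : ∃ z : WittVector p O, x = p * z := by
  have h1 := congrArg constantCoeff h
  rw [map_mul, map_mul, PM_cc_teich, PM_cc_p, zero_mul] at h1
  exact PTilt_cc_zero (hϖ (show ϖ • constantCoeff x = ϖ • (0 : O) by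
    rw [smul_eq_mul, h1, smul_zero]))

theorem PTilt_p_cancel {x y : WittVector p O} (h : p * x = p * y) : x = y := reg_p h

theorem PTilt_reg (hϖ : IsSMulRegular O ϖ) (u : (WittVector p O)ˣ) {t : O} (ht : t = ϖ ∨ t = 0)
    {x : WittVector p O} (hx : ((p : WittVector p O) * u - teichmuller p t) * x = 0) : x = 0 := by
  rcases ht with rfl | rfl
  · have key : ∀ (n : ℕ) (x : WittVector p O),
        ((p : WittVector p O) * u - teichmuller p t) * x = 0 →
        x ∈ Ideal.span {(p : WittVector p O) ^ n} := by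
      intro n
      induction n with
      | zero => intro x _; rw [pow_zero, Ideal.span_singleton_one]; trivial
      | succ n ih =>
        intro x hx
        obtain ⟨z, rfl⟩ := PTilt_cancel hϖ (x := x) (y := u * x) (by linear_combination -hx)
        have h1 := ih z (PTilt_p_cancel (by linear_combination hx))
        rw [Ideal.mem_span_singleton] at h1 ⊢
        rw [pow_succ']
        exact mul_dvd_mul_left _ h1
    ext n
    rw [zero_coeff]
    exact (mem_span_p_pow_iff_le_coeff_eq_zero x (n + 1)).1 (key _ x hx) n (Nat.lt_succ_self n)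
  · rw [teichmuller_zero, sub_zero, mul_assoc] at hx
    have h1 : (u : WittVector p O) * x = 0 := PTilt_p_cancel (by rw [hx, mul_zero])
    exact (Units.mul_right_eq_zero u).1 h1

theorem Dist.PTilt_eq (h : Dist ξ ϖ) (hϖ : IsSMulRegular O ϖ) :
    ∃ (v u : (WittVector p O)ˣ) (t : O), (t = ϖ ∨ t = 0) ∧
      ξ = v * ((p : WittVector p O) * u - teichmuller p t) := by
  obtain ⟨u, t, ht, e⟩ := h
  obtain ⟨a, ha⟩ := Ideal.mem_span_singleton'.1 (e.le (Ideal.mem_span_singleton_self ξ))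
  obtain ⟨b, hb⟩ := Ideal.mem_span_singleton'.1 (e.ge (Ideal.mem_span_singleton_self _))
  have h1 : a * b - 1 = 0 := PTilt_reg hϖ u ht (by linear_combination b * ha + hb)
  exact ⟨Units.mkOfMulEqOne a b (sub_eq_zero.1 h1), u, t, ht, ha.symm⟩

theorem Dist.reg (h : Dist ξ ϖ) (hϖ : IsSMulRegular O ϖ) : IsSMulRegular (WittVector p O) ξ := by
  obtain ⟨v, u, t, ht, rfl⟩ := h.PTilt_eq hϖ
  intro x y hxy
  have h1 : (v : WittVector p O) * (((p : WittVector p O) * u - teichmuller p t) * (x - y)) = 0 := by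
    simp only [smul_eq_mul] at hxy
    linear_combination hxy
  exact sub_eq_zero.1 (PTilt_reg hϖ u ht ((Units.mul_right_eq_zero v).1 h1))

theorem Dist.teich_reg (h : Dist ξ ϖ) (hϖ : IsSMulRegular O ϖ) {x : WittVector p O}
    (hx : teichmuller p ϖ * x ∈ Ideal.span {ξ}) : x ∈ Ideal.span {ξ} := by
  obtain ⟨u, t, ht, e⟩ := h
  rw [e] at hx ⊢
  obtain ⟨y, hy⟩ := Ideal.mem_span_singleton'.1 hx
  have hu : (u⁻¹ : (WittVector p O)ˣ) * (u : WittVector p O) = 1 := u.inv_mul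
  rcases ht with rfl | rfl
  · obtain ⟨z, hz⟩ := PTilt_cancel hϖ (x := x + y) (y := u * y) (by linear_combination -hy)
    have h1 : teichmuller p t * z = u * y :=
      PTilt_p_cancel (by linear_combination -hy - teichmuller p t * hz)
    refine Ideal.mem_span_singleton'.2 ⟨(u⁻¹ : (WittVector p O)ˣ) * z, ?_⟩
    linear_combination -hz - (u⁻¹ : (WittVector p O)ˣ) * h1 + (p * z - y) * hu
  · rw [teichmuller_zero, sub_zero] at hy ⊢
    obtain ⟨z, hz⟩ := PTilt_cancel hϖ (x := x) (y := u * y) (by linear_combination -hy)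
    refine Ideal.mem_span_singleton'.2 ⟨(u⁻¹ : (WittVector p O)ˣ) * z, ?_⟩
    linear_combination -hz + (p * z) * hu

theorem Dist.p_pow_mem (h : Dist ξ ϖ) (N : ℕ) :
    (p : WittVector p O) ^ N ∈ Ideal.span {ξ} ⊔ Ideal.span {teichmuller p ϖ ^ N} := by
  obtain ⟨u, t, ht, e⟩ := h
  rw [e]
  have h1 : ((p : WittVector p O) * u) ^ N ∈
      Ideal.span {(p : WittVector p O) * u - teichmuller p t} ⊔
        Ideal.span {teichmuller p ϖ ^ N} := by
    rw [← sub_add_cancel (((p : WittVector p O) * u) ^ N) (teichmuller p t ^ N)]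
    exact Submodule.add_mem_sup (Ideal.mem_span_singleton.2 (sub_dvd_pow_sub_pow _ _ N))
      (Ideal.mem_span_singleton.2 (pow_dvd_pow_of_dvd (PTilt_dvd ht) N))
  have h2 := Ideal.mul_mem_right (((u⁻¹ : (WittVector p O)ˣ) : WittVector p O) ^ N) _ h1
  rwa [← mul_pow, mul_assoc, u.mul_inv, mul_one] at h2

theorem Dist.sup_eq (h : Dist ξ ϖ) : Ideal.span {ξ} ⊔ Ideal.span {teichmuller p ϖ} =
    Ideal.span {(p : WittVector p O)} ⊔ Ideal.span {teichmuller p ϖ} := by
  refine le_antisymm (sup_le ?_ le_sup_right) (sup_le ?_ le_sup_right)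
  · obtain ⟨u, t, ht, e⟩ := h
    rw [e, Ideal.span_singleton_le_iff_mem]
    exact Ideal.sub_mem _ (Ideal.mem_sup_left (Ideal.mem_span_singleton.2 (dvd_mul_right _ _)))
      (Ideal.mem_sup_right (Ideal.mem_span_singleton.2 (PTilt_dvd ht)))
  · have := h.p_pow_mem 1
    rw [pow_one, pow_one] at this
    exact (Ideal.span_singleton_le_iff_mem _).2 this

theorem Dist.exists_unit (h : Dist ξ ϖ) (hϖ : IsSMulRegular O ϖ) :
    ∃ u : (WittVector p O)ˣ, ξ - u * p ∈ Ideal.span {teichmuller p ϖ} := by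
  obtain ⟨v, u, t, ht, rfl⟩ := h.PTilt_eq hϖ
  refine ⟨v * u, Ideal.mem_span_singleton.2 ?_⟩
  have e : (v : WittVector p O) * ((p : WittVector p O) * u - teichmuller p t) -
      ((v * u : (WittVector p O)ˣ) : WittVector p O) * p = teichmuller p t * -v := by
    rw [Units.val_mul]
    ring
  rw [e]
  exact (PTilt_dvd ht).mul_right _

theorem PTilt_teich_pow {t : O} (ht : t = ϖ ∨ t = 0) {N : ℕ} (hN : ϖ ^ N ∈ 𝔞) :
    teichmuller p t ^ N ∈ WI p 𝔞 := by
  obtain ⟨c, hc⟩ := pow_dvd_pow_of_dvd (PTilt_dvd (p := p) ht) N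
  rw [hc, ← map_pow]
  exact Ideal.mul_mem_right _ _ (teich_mem_WI hN)

theorem PTilt_unit {M : Type} [AddCommGroup M] [Module (WittVector p O) M]
    {Q : Submodule (WittVector p O) M} (u : (WittVector p O)ˣ)
    (hQ : ∀ x : M, (p : WittVector p O) • x ∈ Q → x ∈ Q) (x : M)
    (hx : ((p : WittVector p O) * u) • x ∈ Q) : x ∈ Q := by
  rw [mul_smul] at hx
  exact (Q.smul_mem_iff_of_isUnit u.isUnit).1 (hQ _ hx)

theorem Dist.sat (h : Dist ξ ϖ) (hϖ : IsSMulRegular O ϖ) (h𝔞 : Cvx p 𝔞) (hn : ∃ N : ℕ, ϖ ^ N ∈ 𝔞)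
    {x : WittVector p O} (hx : ξ * x ∈ WI p 𝔞) : x ∈ WI p 𝔞 := by
  obtain ⟨u, t, ht, e⟩ := h
  obtain ⟨N, hN⟩ := hn
  obtain ⟨b, hb⟩ := Ideal.mem_span_singleton'.1 (e.ge (Ideal.mem_span_singleton_self _))
  refine PTilt_sat (P := ⊤) (π := (p : WittVector p O) * u) (τ := teichmuller p t) (N := N)
    (fun x _ => PTilt_unit u (fun x => h𝔞.mem_WI_of_p_mul) x)
    (fun x _ => Ideal.mul_mem_right _ _ (PTilt_teich_pow ht hN)) trivial ?_
  rw [← hb, smul_eq_mul, mul_assoc]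
  exact Ideal.mul_mem_left _ _ hx

theorem PTilt_sup_tf (h𝔞 : Cvx p 𝔞) (h𝔞' : Cvx p 𝔞') (y : WittVector p O)
    (hy : p * y ∈ WI p 𝔞 ⊔ WI p 𝔞') : y ∈ WI p 𝔞 ⊔ WI p 𝔞' := by
  obtain ⟨x, hx, x', hx', e⟩ := Submodule.mem_sup.1 hy
  have h1 : constantCoeff x + constantCoeff x' = 0 := by
    rw [← map_add, e, map_mul, PM_cc_p, zero_mul]
  have h2 : constantCoeff x ∈ 𝔞' := by
    rw [eq_neg_of_add_eq_zero_left h1]
    exact neg_mem (cc_mem_of_mem_WI hx')
  obtain ⟨x₁, hx₁, e₁⟩ := h𝔞.exists_decomp hx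
  obtain ⟨x₂, hx₂, e₂⟩ := h𝔞'.exists_decomp (add_mem (teich_mem_WI (p := p) h2) hx')
  rw [map_add, PM_cc_teich, h1, teichmuller_zero, zero_add] at e₂
  have h3 : y = x₁ + x₂ := PTilt_p_cancel (by linear_combination -e + e₁ + e₂)
  rw [h3]
  exact Submodule.add_mem_sup hx₁ hx₂

/-- lengths tilt -/
theorem Dist.sz_eq (h : Dist ξ ϖ) (hϖ : IsSMulRegular O ϖ) (h𝔞 : Cvx p 𝔞) (h𝔞' : Cvx p 𝔞')
    (hn : ∃ N : ℕ, ϖ ^ N ∈ 𝔞) (hn' : ∃ N : ℕ, ϖ ^ N ∈ 𝔞') (ν : LF (WittVector p O)) :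
    ν.sz (WI p 𝔞 ⊔ Ideal.span {ξ}) (WI p 𝔞' ⊔ Ideal.span {ξ}) =
      (ν.comap constantCoeff).sz 𝔞 𝔞' := by
  obtain ⟨u, t, ht, e⟩ := h
  obtain ⟨N, hN⟩ := hn'
  have hτ : teichmuller p t ^ N ∈ WI p 𝔞' := PTilt_teich_pow ht hN
  rw [e]
  have e1 : ν.sz (WI p 𝔞 ⊔ Ideal.span {(p : WittVector p O) * u - teichmuller p t})
      (WI p 𝔞' ⊔ Ideal.span {(p : WittVector p O) * u - teichmuller p t}) = ν.sz (WI p 𝔞)
      (WI p 𝔞' ⊔ Ideal.span {(p : WittVector p O) * u - teichmuller p t}) := by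
    rw [← ν.sz_sup_left, ← ν.sz_sup_left (WI p 𝔞), sup_assoc, sup_left_comm (Ideal.span _),
      sup_idem]
  have e2 : ν.sz (WI p 𝔞) (WI p 𝔞' ⊔ Ideal.span {(p : WittVector p O) * u - teichmuller p t}) =
      ν.sz (WI p 𝔞) (Submodule.map (LinearMap.lsmul (WittVector p O) (WittVector p O)
        ((p : WittVector p O) * u - teichmuller p t)) (WI p 𝔞) ⊔ WI p 𝔞 ⊓ WI p 𝔞') := by
    refine ν.LFsz_congr (le_antisymm ?_ (inf_le_inf_left _ (sup_le ?_ ?_)))
    · rintro x ⟨hx, hx0⟩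
      obtain ⟨x', hx', z, hz, rfl⟩ := Submodule.mem_sup.1 hx0
      obtain ⟨y, rfl⟩ := Ideal.mem_span_singleton.1 hz
      have hy : y ∈ WI p 𝔞 ⊔ WI p 𝔞' := by
        refine PTilt_sat (P := ⊤) (π := (p : WittVector p O) * u) (τ := teichmuller p t) (N := N)
          (fun x _ => PTilt_unit u (PTilt_sup_tf h𝔞 h𝔞') x)
          (fun x _ => Ideal.mem_sup_right (Ideal.mul_mem_right _ _ hτ)) trivial ?_
        have := Ideal.sub_mem _ (Ideal.mem_sup_left hx : _ ∈ WI p 𝔞 ⊔ WI p 𝔞')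
          (Ideal.mem_sup_right hx')
        rwa [add_sub_cancel_left] at this
      obtain ⟨y₁, hy₁, y₂, hy₂, rfl⟩ := Submodule.mem_sup.1 hy
      refine ⟨hx, Submodule.mem_sup.2 ⟨_, ⟨y₁, hy₁, rfl⟩,
        x' + ((p : WittVector p O) * u - teichmuller p t) * y₂, ⟨?_, ?_⟩, ?_⟩⟩
      · have := Ideal.sub_mem _ hx
          (Ideal.mul_mem_left _ ((p : WittVector p O) * u - teichmuller p t) hy₁)
        rwa [mul_add, add_comm (_ * y₁), ← add_assoc, add_sub_cancel_right] at this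
      · exact add_mem hx' (Ideal.mul_mem_left _ _ hy₂)
      · rw [LinearMap.lsmul_apply, smul_eq_mul]
        ring
    · rintro _ ⟨y, _, rfl⟩
      exact Ideal.mem_sup_right (Ideal.mem_span_singleton.2 (dvd_mul_right _ _))
    · exact inf_le_right.trans le_sup_left
  rw [e1, e2, PTilt_A ν N (WI p 𝔞) inf_le_left
    (fun x hx hx' => ⟨hx, PTilt_unit u (fun x => h𝔞'.mem_WI_of_p_mul) x hx'.2⟩)
    fun x hx => ⟨Ideal.mul_mem_left _ _ hx, Ideal.mul_mem_right _ _ hτ⟩]
  let _ : Algebra (WittVector p O) O := (constantCoeff : WittVector p O →+* O).toAlgebra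
  have hf : ∀ x, Algebra.linearMap (WittVector p O) O x = constantCoeff x := fun _ => rfl
  have e3 : 𝔞.restrictScalars (WittVector p O) =
      Submodule.map (Algebra.linearMap (WittVector p O) O) (WI p 𝔞) := by
    refine le_antisymm (fun x hx => ⟨teichmuller p x, teich_mem_WI hx, PM_cc_teich x⟩) ?_
    rintro _ ⟨x, hx, rfl⟩
    exact cc_mem_of_mem_WI hx
  change _ = (ν.comap (algebraMap (WittVector p O) O)).sz 𝔞 𝔞'
  rw [DG.HBasic_sz_res, e3, ν.sz_map_eq]
  refine ν.LFsz_congr (le_antisymm (inf_le_inf_left _ (sup_le ?_ ?_)) ?_)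
  · rintro _ ⟨y, _, rfl⟩
    change constantCoeff ((p : WittVector p O) * (u : WittVector p O) * y) ∈ 𝔞'
    rw [map_mul, map_mul, PM_cc_p, zero_mul, zero_mul]
    exact zero_mem _
  · exact fun x hx => cc_mem_of_mem_WI hx.2
  · rintro x ⟨hx, hx'⟩
    obtain ⟨x₁, hx₁, e₁⟩ := h𝔞.exists_decomp hx
    refine ⟨hx, Submodule.mem_sup.2 ⟨_, ⟨(u⁻¹ : (WittVector p O)ˣ) * x₁,
      Ideal.mul_mem_left _ _ hx₁, rfl⟩, teichmuller p (constantCoeff x),
      ⟨teich_mem_WI (cc_mem_of_mem_WI hx), teich_mem_WI hx'⟩, ?_⟩⟩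
    rw [LinearMap.lsmul_apply, smul_eq_mul, mul_assoc, u.mul_inv_cancel_left, add_comm, ← e₁]

theorem PTilt_col_step {κ : Type} (β : κ → O) (h𝔟 : Cvx p 𝔟) {x x' : WittVector p O}
    {y : κ → WittVector p O} (e : x = teichmuller p (constantCoeff x) + p * x')
    (h : ∀ j, p * y j - x * teichmuller p (β j) ∈ WI p 𝔟) :
    (∀ j, constantCoeff x * β j ∈ 𝔟) ∧ ∀ j, y j - x' * teichmuller p (β j) ∈ WI p 𝔟 := by
  have h1 : ∀ j, constantCoeff x * β j ∈ 𝔟 := fun j => by
    have := cc_mem_of_mem_WI (h j)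
    rw [map_sub, map_mul, map_mul, PM_cc_p, PM_cc_teich, zero_mul, zero_sub] at this
    exact neg_mem_iff.1 this
  refine ⟨h1, fun j => h𝔟.mem_WI_of_p_mul ?_⟩
  have h2 := add_mem (h j) (teich_mem_WI (p := p) (h1 j))
  rw [map_mul] at h2
  convert h2 using 1
  linear_combination teichmuller p (β j) * e

/-- colon properties tilt -/
theorem Dist.col (h : Dist ξ ϖ) (hϖ : IsSMulRegular O ϖ) {κ : Type} [Fintype κ] (β : κ → O)
    (h𝔞 : Cvx p 𝔞) (h𝔟 : Cvx p 𝔟) (hn : ∃ N : ℕ, ϖ ^ N ∈ 𝔞) (hn' : ∃ N : ℕ, ϖ ^ N ∈ 𝔟)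
    (h₁ : sp β * 𝔞 ≤ 𝔟) (h₂ : ∀ x : O, (∀ j, x * β j ∈ 𝔟) → x ∈ 𝔞) {x : WittVector p O}
    (hx : ∀ j, x * teichmuller p (β j) ∈ WI p 𝔟 ⊔ Ideal.span {ξ}) :
    x ∈ WI p 𝔞 ⊔ Ideal.span {ξ} := by
  obtain ⟨u, t, ht, e⟩ := h
  obtain ⟨N, hN⟩ := hn'
  have hτ : teichmuller p t ^ N ∈ WI p 𝔟 := PTilt_teich_pow ht hN
  rw [e] at hx ⊢
  have hker : ∀ z : WittVector p O, (∀ j, z * teichmuller p (β j) ∈ WI p 𝔟) → z ∈ WI p 𝔞 := by
    have key : ∀ (n : ℕ) (z : WittVector p O), (∀ j, z * teichmuller p (β j) ∈ WI p 𝔟) →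
        z ∈ WI p 𝔞 ⊔ Ideal.span {(p : WittVector p O) ^ n} := by
      intro n
      induction n with
      | zero =>
        intro z _
        rw [pow_zero, Ideal.span_singleton_one]
        exact Ideal.mem_sup_right trivial
      | succ n ih =>
        intro z hz
        obtain ⟨z', ez⟩ := exists_teich_add z
        obtain ⟨h3, h4⟩ := PTilt_col_step β h𝔟 (y := fun _ => 0) ez fun j => by
          rw [mul_zero, zero_sub]
          exact neg_mem (hz j)
        obtain ⟨a, ha, b, hb, eb⟩ := Submodule.mem_sup.1 (ih z' fun j => by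
          have := h4 j
          rw [zero_sub] at this
          exact neg_mem_iff.1 this)
        refine Submodule.mem_sup.2 ⟨teichmuller p (constantCoeff z) + p * a,
          add_mem (teich_mem_WI (h₂ _ h3)) (Ideal.mul_mem_left _ _ ha), p * b, ?_, ?_⟩
        · rw [Ideal.mem_span_singleton] at hb ⊢
          rw [pow_succ']
          exact mul_dvd_mul_left _ hb
        · rw [add_assoc, ← mul_add, eb]
          exact ez.symm
    exact fun z hz => mem_WI_of_forall fun n => key n z hz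
  let S : Submodule (WittVector p O) (κ → WittVector p O) :=
    { carrier := {y | ∃ x : WittVector p O, ∀ j, y j - x * teichmuller p (β j) ∈ WI p 𝔟}
      add_mem' := by
        rintro y y' ⟨x, hx⟩ ⟨x', hx'⟩
        refine ⟨x + x', fun j => ?_⟩
        convert add_mem (hx j) (hx' j) using 1
        rw [Pi.add_apply]
        ring
      zero_mem' := ⟨0, fun j => by
        rw [Pi.zero_apply, zero_mul, sub_zero]
        exact zero_mem _⟩
      smul_mem' := by
        rintro c y ⟨x, hx⟩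
        refine ⟨c * x, fun j => ?_⟩
        convert Ideal.mul_mem_left _ c (hx j) using 1
        rw [Pi.smul_apply, smul_eq_mul]
        ring }
  have hS : ∀ y, y ∈ S ↔ ∃ x : WittVector p O, ∀ j, y j - x * teichmuller p (β j) ∈ WI p 𝔟 :=
    fun _ => Iff.rfl
  have hx' : ∀ j, ∃ y : WittVector p O,
      ((p : WittVector p O) * u - teichmuller p t) * y - x * teichmuller p (β j) ∈ WI p 𝔟 := by
    intro j
    obtain ⟨b, hb, z, hz, eb⟩ := Submodule.mem_sup.1 (hx j)
    obtain ⟨y, rfl⟩ := Ideal.mem_span_singleton.1 hz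
    refine ⟨y, ?_⟩
    rw [← eb, sub_add_cancel_right]
    exact neg_mem hb
  choose y hy using hx'
  have hyS : y ∈ S := by
    refine PTilt_sat (P := ⊤) (π := (p : WittVector p O) * u) (τ := teichmuller p t) (N := N)
      (fun y _ => PTilt_unit u (fun y hy => ?_) y) (fun y _ => (hS _).2 ⟨0, fun j => ?_⟩) trivial
      ((hS _).2 ⟨x, hy⟩)
    · obtain ⟨z, hz⟩ := (hS _).1 hy
      obtain ⟨z', ez⟩ := exists_teich_add z
      exact (hS _).2 ⟨z', (PTilt_col_step β h𝔟 ez hz).2⟩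
    · rw [zero_mul, sub_zero]
      exact Ideal.mul_mem_right _ _ hτ
  obtain ⟨x', hx'⟩ := (hS _).1 hyS
  have h5 := hker (x - ((p : WittVector p O) * u - teichmuller p t) * x') fun j => by
    convert Ideal.sub_mem _ (Ideal.mul_mem_left _ ((p : WittVector p O) * u - teichmuller p t)
      (hx' j)) (hy j) using 1
    ring
  rw [← sub_add_cancel x (((p : WittVector p O) * u - teichmuller p t) * x')]
  exact Submodule.add_mem_sup h5 (Ideal.mem_span_singleton.2 (dvd_mul_right _ _))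

theorem PTilt_up {x : O} {e n : ℕ} (h : ϖ ^ n ∣ x ^ p ^ e) (e' : ℕ) :
    ϖ ^ (n * p ^ e') ∣ x ^ p ^ (e + e') := by
  rw [pow_add, pow_mul, pow_mul]
  exact pow_dvd_pow_of_dvd h _

variable (p ϖ) in
/-- the real powers of `ϖ` -/
def PTilt_F (r : ℚ) : Ideal O where
  carrier := {x | ∃ e n : ℕ, r * p ^ e ≤ n ∧ ϖ ^ n ∣ x ^ p ^ e}
  add_mem' := by
    rintro x y ⟨e, n, h, hx⟩ ⟨e', n', h', hy⟩
    have hp : ∀ k : ℕ, (0 : ℚ) ≤ (p : ℚ) ^ k := fun k => pow_nonneg (Nat.cast_nonneg p) k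
    refine ⟨e + e', min (n * p ^ e') (n' * p ^ e), ?_, ?_⟩
    · rw [Nat.cast_min]
      push_cast
      refine le_min ?_ ?_
      · rw [pow_add, ← mul_assoc]
        exact mul_le_mul_of_nonneg_right h (hp _)
      · rw [add_comm, pow_add, ← mul_assoc]
        exact mul_le_mul_of_nonneg_right h' (hp _)
    · rw [add_pow_char_pow]
      refine dvd_add ((pow_dvd_pow _ (min_le_left _ _)).trans (PTilt_up hx e'))
        ((pow_dvd_pow _ (min_le_right _ _)).trans ?_)
      rw [add_comm]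
      exact PTilt_up hy e
  zero_mem' := ⟨0, ⌈r⌉₊, by
    rw [pow_zero, mul_one]
    exact Nat.le_ceil r, by
    rw [pow_zero, pow_one]
    exact dvd_zero _⟩
  smul_mem' := by
    rintro c x ⟨e, n, h, hx⟩
    refine ⟨e, n, h, ?_⟩
    rw [smul_eq_mul, mul_pow]
    exact hx.mul_left _

theorem PTilt_filt : PerfFilt p (PTilt_F p ϖ) := by
  have hp : ∀ k : ℕ, (0 : ℚ) ≤ (p : ℚ) ^ k := fun k => pow_nonneg (Nat.cast_nonneg p) k
  refine ⟨?_, fun r hr => ?_, fun r s => Ideal.mul_le.2 ?_, ?_⟩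
  · rintro r s hrs x ⟨e, n, h, hx⟩
    exact ⟨e, n, (mul_le_mul_of_nonneg_right hrs (hp _)).trans h, hx⟩
  · refine (Ideal.eq_top_iff_one _).2 ⟨0, 0, ?_, ?_⟩
    · rwa [pow_zero, mul_one, Nat.cast_zero]
    · rw [pow_zero]
      exact one_dvd _
  · rintro x ⟨e, n, h, hx⟩ y ⟨e', n', h', hy⟩
    refine ⟨e + e', n * p ^ e' + n' * p ^ e, ?_, ?_⟩
    · push_cast
      have h1 := mul_le_mul_of_nonneg_right h (hp e')
      have h2 := mul_le_mul_of_nonneg_right h' (hp e)
      rw [pow_add]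
      linarith
    · rw [mul_pow, pow_add ϖ]
      refine mul_dvd_mul (PTilt_up hx e') ?_
      rw [add_comm]
      exact PTilt_up hy e
  · rintro r x ⟨e, n, h, hx⟩
    refine ⟨e + 1, n, ?_, ?_⟩
    · rw [pow_succ]
      linarith
    · rwa [pow_succ', pow_mul]

theorem PTilt_mem_F {x : O} {n : ℕ} (h : ϖ ^ n ∣ x) {r : ℚ} (hr : r ≤ n) : x ∈ PTilt_F p ϖ r :=
  ⟨0, n, by rwa [pow_zero, mul_one], by rwa [pow_zero, pow_one]⟩

theorem PTilt_of_mem_F {x : O} {N : ℕ} (h : x ∈ PTilt_F p ϖ N) : ϖ ^ N ∣ x := by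
  obtain ⟨e, n, h, hx⟩ := h
  have h1 : N * p ^ e ≤ n := by exact_mod_cast h
  obtain ⟨c, hc⟩ := (pow_dvd_pow ϖ h1).trans hx
  obtain ⟨d, rfl⟩ := PM_exists_root (p := p) e c
  refine ⟨d, (iterateFrobeniusEquiv O p e).injective ?_⟩
  rw [iterateFrobeniusEquiv_def, iterateFrobeniusEquiv_def, hc, mul_pow, pow_mul]

/-- root closure of the `ϖ`-adic filtration -/
theorem mem_of_pow_mem {t : O} (ht : t = ϖ ∨ t = 0) (e N : ℕ) {z : WittVector p O}
    (hz : z ^ p ^ e ∈ Ideal.span {(p : WittVector p O) - teichmuller p t} ⊔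
      Ideal.span {teichmuller p ϖ ^ (N * p ^ e)}) :
    z ∈ Ideal.span {(p : WittVector p O) - teichmuller p t} ⊔ Ideal.span {teichmuller p ϖ ^ N} := by
  have ht' : t ∈ PTilt_F p ϖ 1 := by
    refine PTilt_mem_F (n := 1) ?_ (by norm_num)
    rw [pow_one]
    rcases ht with rfl | rfl
    · exact dvd_rfl
    · exact dvd_zero _
  have h1 := mem_WF_of_pow_mem (η := 1) PTilt_filt one_pos ht' e N z (by
    have h0 : Ideal.span {teichmuller p ϖ ^ (N * p ^ e)} ≤ WF p (PTilt_F p ϖ) 1 (p ^ e * N) := by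
      rw [Ideal.span_singleton_le_iff_mem, ← map_pow]
      exact teich_mem_WF (PTilt_mem_F dvd_rfl (by push_cast; rw [mul_comm]))
    exact (sup_le le_sup_right (h0.trans le_sup_left) : _ ≤ WF p (PTilt_F p ϖ) 1 (p ^ e * N) ⊔
      Ideal.span {(p : WittVector p O) - teichmuller p t}) hz)
  refine (sup_le (Ideal.span_le.2 ?_) le_sup_left :
    WF p (PTilt_F p ϖ) 1 N ⊔ Ideal.span {(p : WittVector p O) - teichmuller p t} ≤ _) h1
  rintro _ ⟨i, u, hu, rfl⟩
  have h2 : ϖ ^ (N - i) ∣ u := by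
    rcases le_total i N with h | h
    · rw [mul_one, ← Nat.cast_sub h] at hu
      exact PTilt_of_mem_F hu
    · rw [Nat.sub_eq_zero_of_le h, pow_zero]
      exact one_dvd _
  obtain ⟨d, rfl⟩ := h2
  rw [← sub_add_cancel ((p : WittVector p O) ^ i) (teichmuller p t ^ i), add_mul]
  refine Submodule.add_mem_sup
    (Ideal.mem_span_singleton.2 ((sub_dvd_pow_sub_pow _ _ i).mul_right _))
    (Ideal.mem_span_singleton.2 ?_)
  rw [map_mul, map_pow, ← mul_assoc]
  refine Dvd.dvd.mul_right ((pow_dvd_pow _ (show N ≤ i + (N - i) by omega)).trans ?_) _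
  rw [pow_add]
  exact mul_dvd_mul_right (pow_dvd_pow_of_dvd (PTilt_dvd ht) i) _

/-- an element congruent to `p` which is a multiple of `p - [t]` modulo `p ^ K` -/
theorem exists_unit_of_local (C : Type) [CommRing C] [IsLocalRing C] [CharP C p]
    {t : C} (ht : t ∈ IsLocalRing.maximalIdeal C) {K : ℕ} (hK : 2 ≤ K)
    {ξ : WittVector p (PerfectClosure C p)}
    (h₁ : ξ ∈ Ideal.span {(p : WittVector p (PerfectClosure C p)) -
      teichmuller p (PerfectClosure.of C p t)} ⊔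
      Ideal.span {(p : WittVector p (PerfectClosure C p)) ^ K})
    (h₂ : ξ - p ∈ Ideal.span ((fun x => teichmuller p (PerfectClosure.of C p x)) ''
      (IsLocalRing.maximalIdeal C : Set C))) :
    ∃ u v : (WittVector p (PerfectClosure C p))ˣ,
      ξ = u * ((p : WittVector p (PerfectClosure C p)) * v -
        teichmuller p (PerfectClosure.of C p t)) ∧
      (v : WittVector p (PerfectClosure C p)) - 1 ∈
        Ideal.span {(p : WittVector p (PerfectClosure C p)) ^ (K - 1)} := by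
  obtain ⟨K, rfl⟩ : ∃ K', K = K' + 1 + 1 := ⟨K - 2, by omega⟩
  obtain ⟨_, ha, _, hb, e⟩ := Submodule.mem_sup.1 h₁
  obtain ⟨a, rfl⟩ := Ideal.mem_span_singleton'.1 ha
  obtain ⟨z, rfl⟩ := Ideal.mem_span_singleton'.1 hb
  have hu : IsUnit a := by
    refine isUnit_of_cc (by_contra fun hne => ?_)
    obtain ⟨n, hn, han⟩ := Ideal.exists_le_maximal (Ideal.span {constantCoeff a})
      (Ideal.span_singleton_ne_top hne)
    have han' : constantCoeff a ∈ n := han (Ideal.mem_span_singleton_self _)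
    have hm : ∀ x ∈ IsLocalRing.maximalIdeal C, PerfectClosure.of C p x ∈ n := by
      intro x hx
      by_contra hxn
      obtain ⟨y, c, hc, ey⟩ := hn.exists_inv hxn
      obtain ⟨k, w, hw⟩ := IsPRadical.pow_mem (PerfectClosure.of C p) p y
      have hk : p ^ k ≠ 0 := pow_ne_zero _ (Fact.out : p.Prime).ne_zero
      have h3 : PerfectClosure.of C p (1 - w * x ^ p ^ k) ∈ n := by
        have h4 := congrArg (· ^ p ^ k) ey
        simp only [add_pow_char_pow, one_pow] at h4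
        rw [map_sub, map_one, map_mul, map_pow, hw, ← mul_pow, ← h4, add_sub_cancel_left]
        exact Ideal.pow_mem_of_mem _ hc _ (Nat.pos_of_ne_zero hk)
      have h5 : IsUnit (1 - w * x ^ p ^ k) :=
        IsLocalRing.isUnit_one_sub_self_of_mem_nonunits _ (Ideal.mul_mem_left
          (IsLocalRing.maximalIdeal C) _ (Ideal.pow_mem_of_mem _ hx _ (Nat.pos_of_ne_zero hk)))
      exact hn.ne_top (Ideal.eq_top_of_isUnit_mem _ h3 (h5.map _))
    have := hn.isPrime
    have : CharP (PerfectClosure C p ⧸ n) p :=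
      (CharP.charP_iff_prime_eq_zero (Fact.out : p.Prime)).2 (by
        rw [← map_natCast (Ideal.Quotient.mk n), CharP.cast_eq_zero, map_zero])
    have h6 : ∀ x ∈ IsLocalRing.maximalIdeal C, WittVector.map (Ideal.Quotient.mk n)
        (teichmuller p (PerfectClosure.of C p x)) = 0 := fun x hx => by
      rw [map_teichmuller, Ideal.Quotient.eq_zero_iff_mem.2 (hm x hx), teichmuller_zero]
    have h7 : WittVector.map (Ideal.Quotient.mk n)
        (ξ - (p : WittVector p (PerfectClosure C p))) = 0 := by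
      refine (Ideal.span_le.2 ?_ : _ ≤ RingHom.ker (WittVector.map (Ideal.Quotient.mk n))) h₂
      rintro _ ⟨x, hx, rfl⟩
      exact h6 x hx
    rw [← e] at h7
    simp only [map_sub, map_add, map_mul, map_pow, map_natCast, h6 t ht] at h7
    have h8 : WittVector.map (Ideal.Quotient.mk n) a +
        WittVector.map (Ideal.Quotient.mk n) z * p ^ (K + 1) - 1 = 0 :=
      mul_left_cancel₀ (p_nonzero p (PerfectClosure C p ⧸ n)) (by linear_combination h7)
    have h9 := congrArg constantCoeff h8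
    have h10 : constantCoeff (WittVector.map (Ideal.Quotient.mk n) a) = 0 :=
      Ideal.Quotient.eq_zero_iff_mem.2 han'
    rw [map_sub, map_add, map_mul, map_pow, map_natCast, map_one, map_zero, h10,
      CharP.cast_eq_zero, zero_pow (Nat.succ_ne_zero K), mul_zero, add_zero, zero_sub,
      neg_eq_zero] at h9
    exact one_ne_zero h9
  obtain ⟨u, rfl⟩ := hu
  have hv : IsUnit (1 + (p : WittVector p (PerfectClosure C p)) ^ (K + 1) *
      (z * (u⁻¹ : (WittVector p (PerfectClosure C p))ˣ))) := by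
    refine isUnit_of_cc ?_
    rw [map_add, map_one, map_mul, map_pow, PM_cc_p, zero_pow (Nat.succ_ne_zero K), zero_mul,
      add_zero]
    exact isUnit_one
  obtain ⟨v, hv⟩ := hv
  refine ⟨u, v, ?_, ?_⟩
  · have hu := u.mul_inv
    rw [hv]
    linear_combination -e - (p : WittVector p (PerfectClosure C p)) ^ (K + 1 + 1) * z * hu
  · rw [hv, add_sub_cancel_left]
    exact Ideal.mem_span_singleton.2 (dvd_mul_right _ _)

end Crest.Agent.R188
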