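import Crest.Agent.R188.BDefs
import Crest.Agent.R188.PTilt
import Crest.Agent.R188.PRP
import Crest.Agent.R188.PProd

/-!
# Auxiliary lemmas for the asymptotic cover
-/

set_option autoImplicit false
set_option linter.unusedVariables false
set_option linter.unusedSectionVars false

open scoped ENNReal NNReal TensorProduct

namespace Crest.Agent.R188

open Crest.Agent.R183 IsLocalRing WittVector

section lf

variable {B D : Type} [CommRing B] [CommRing D]

theorem BCov_ext {μ ν : LF B}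
    (h : ∀ (M : Type) [AddCommGroup M] [Module B M], μ.val M = ν.val M) : μ = ν := by
  obtain ⟨v, _, _, _⟩ := μ
  obtain ⟨v', _, _, _⟩ := ν
  have : v = v' := by
    funext M i j
    exact @h M i j
  subst this
  rfl

theorem BCov_range (μ : LF B) (f : B →+* D) (M : Type) [AddCommGroup M] [Module D M] [Module B M]
    (h : ∀ (s : B) (x : M), s • x = f s • x) (a : B) :
    μ.val (LinearMap.range (LinearMap.lsmul B M a)) =
      (μ.comap f).val (LinearMap.range (LinearMap.lsmul D M (f a))) := by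
  refine PProd_val μ f
    { toFun := fun x => ⟨x.1, by
        obtain ⟨y, hy⟩ := x.2
        exact ⟨y, by rw [← hy]; exact (h a y).symm⟩⟩
      invFun := fun x => ⟨x.1, by
        obtain ⟨y, hy⟩ := x.2
        exact ⟨y, by rw [← hy]; exact h a y⟩⟩
      left_inv := fun _ => rfl
      right_inv := fun _ => rfl
      map_add' := fun _ _ => rfl } fun b x => Subtype.ext (h b x.1)

/-- `ν` is obtained from `μ` by killing the almost zero modules -/
def BCov_Kill (μ ν : LF B) (η : ℕ → B) : Prop :=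
  ∀ (M : Type) [AddCommGroup M] [Module B M],
    ν.val M = ⨆ k, μ.val (LinearMap.range (LinearMap.lsmul B M (η k)))

namespace BCov_Kill

variable {μ ν : LF B} {η : ℕ → B}

theorem comap (h : BCov_Kill μ ν η) (f : B →+* D) :
    BCov_Kill (μ.comap f) (ν.comap f) fun k => f (η k) := by
  intro M _ _
  let _ : Module B M := Module.compHom M f
  rw [LF.comap_val ν f M (fun _ _ => rfl), h M]
  exact iSup_congr fun k => BCov_range μ f M (fun _ _ => rfl) (η k)

theorem le (h : BCov_Kill μ ν η) (M : Type) [AddCommGroup M] [Module B M] :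
    ν.val M ≤ μ.val M := by
  rw [h M]
  exact iSup_le fun k => μ.LFval_sub_le _

theorem ge (h : BCov_Kill μ ν η) (M : Type) [AddCommGroup M] [Module B M] (k : ℕ) :
    μ.val (LinearMap.range (LinearMap.lsmul B M (η k))) ≤ ν.val M := by
  rw [h M]
  exact le_iSup (fun k => μ.val (LinearMap.range (LinearMap.lsmul B M (η k)))) k

theorem null (h : BCov_Kill μ ν η) {γ : B} (hγ : ∀ k, ∃ ε, μ.Null ε ∧ γ ∣ ε * η k) :
    ν.Null γ := by
  intro M _ _ hM
  rw [h M]
  refine ENNReal.iSup_eq_zero.2 fun k => ?_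
  obtain ⟨ε, hε, z, hz⟩ := hγ k
  refine hε _ ?_
  rintro ⟨_, y, rfl⟩
  refine Subtype.ext ?_
  change ε • η k • y = 0
  rw [smul_smul, hz, mul_smul, hM]

theorem sz_zero (h : BCov_Kill μ ν η) {M : Type} [AddCommGroup M] [Module B M]
    {P Q : Submodule B M} (hP : ∀ k, ∀ x ∈ P, η k • x ∈ Q) : ν.sz P Q = 0 := by
  unfold LF.sz
  rw [h]
  refine ENNReal.iSup_eq_zero.2 fun k => μ.null_one _ ?_
  rintro ⟨_, ⟨_, y, hy, rfl⟩, rfl⟩
  refine Subtype.ext (Subtype.ext ?_)
  change (1 : B) • η k • Q.mkQ y = 0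
  rw [one_smul, ← map_smul, Submodule.mkQ_apply, Submodule.Quotient.mk_eq_zero]
  exact hP k y hy

theorem inv (h : BCov_Kill μ ν η) {g : B →+* B} (hg : Inv μ g) (hη : ∀ k, g (η k) = η k) :
    Inv ν g := by
  intro M _ _
  rw [h.comap g M, h M]
  refine iSup_congr fun k => (hg _).trans (le_antisymm ?_ ?_)
  · exact μ.val_range_lsmul_le_of_dvd (hη k).symm.dvd
  · exact μ.val_range_lsmul_le_of_dvd (hη k).dvd

end BCov_Kill

theorem BCov_inv_quot {ν : LF B} {g : B ≃+* B} (hg : Inv ν g.toRingHom) {J : Ideal B}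
    (g' : (B ⧸ J) →+* (B ⧸ J))
    (h : ∀ x, g' (Ideal.Quotient.mk J x) = Ideal.Quotient.mk J (g x)) :
    Inv (ν.comap (Ideal.Quotient.mk J)) g' := by
  intro M _ _
  have e : g'.comp (Ideal.Quotient.mk J) = (Ideal.Quotient.mk J).comp g.toRingHom :=
    RingHom.ext h
  rw [comap_comap_val, e, ← comap_comap_val]
  exact @hg M _ (Module.compHom M (Ideal.Quotient.mk J))

end lf

section perf

variable {p : ℕ} [Fact p.Prime] {O O' : Type} [CommRing O] [CharP O p] [PerfectRing O p]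
  [CommRing O'] [CharP O' p] [PerfectRing O' p]

theorem BCov_rt_add (i r : ℕ) (x : O) : rt p (i + r) x ^ p ^ r = rt p i x := by
  rw [rt, add_comm, iterateFrobeniusEquiv_symm_add_apply, ← iterateFrobeniusEquiv_def,
    RingEquiv.apply_symm_apply]

theorem BCov_rt_succ (i : ℕ) (x : O) : rt p (i + 1) x ^ p = rt p i x := by
  have := BCov_rt_add (p := p) i 1 x
  rwa [pow_one] at this

theorem BCov_rt_zero (x : O) : rt p 0 x = x := by
  have := PRP_rt_pow (p := p) 0 x
  rwa [pow_zero, pow_one] at this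

theorem BCov_map_rt (f : O →+* O') (e : ℕ) (x : O) : f (rt p e x) = rt p e (f x) := by
  refine PRP_pow_inj (p := p) e ?_
  rw [← map_pow, PRP_rt_pow, PRP_rt_pow]

theorem BCov_rt_dvd {i j : ℕ} (h : i ≤ j) (x : O) : rt p j x ∣ rt p i x := by
  obtain ⟨r, rfl⟩ := exists_add_of_le h
  rw [← BCov_rt_add (p := p) i r x]
  exact dvd_pow_self _ (pow_ne_zero _ (Fact.out : p.Prime).ne_zero)

theorem BCov_rt_sq (i : ℕ) (x : O) : rt p (i + 1) x ^ 2 ∣ rt p i x := by
  rw [← BCov_rt_succ (p := p) i x]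
  exact pow_dvd_pow _ (Fact.out : p.Prime).two_le

variable {μ ν : LF O} {c : O}

theorem BCov_Kill.scal (h : BCov_Kill μ ν fun k => rt p k c) {a : ℕ} (hs : Scal p a μ) :
    Scal p a ν := by
  intro M _ _
  rw [h.comap (frobenius O p) M, h M, ENNReal.mul_iSup]
  simp only [← hs _]
  refine le_antisymm (iSup_le fun k => le_iSup_of_le (k + 1) ?_)
    (iSup_le fun k => le_iSup_of_le k ?_)
  · exact μ.val_range_lsmul_le_of_dvd (BCov_rt_succ k c).dvd
  · exact μ.val_range_lsmul_le_of_dvd (dvd_pow_self _ (Fact.out : p.Prime).ne_zero)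

theorem BCov_Kill.tight (h : BCov_Kill μ ν fun k => rt p k c) {ϖ : O} (hc : ϖ ∣ c) (M : Type)
    [AddCommGroup M] [Module O M] (r : ℝ≥0∞)
    (hr : ∀ e, ν.val (LinearMap.range (LinearMap.lsmul O M (rt p e ϖ))) ≤ r) : ν.val M ≤ r := by
  rw [h M]
  refine iSup_le fun k => le_trans ?_ ((h.ge _ (k + 1)).trans (hr (k + 1)))
  have h1 : rt p (k + 1) c * rt p (k + 1) ϖ ∣ rt p k c := by
    refine dvd_trans ?_ (BCov_rt_sq k c)
    rw [pow_two]
    exact mul_dvd_mul_left _ (map_dvd (iterateFrobeniusEquiv O p (k + 1)).symm hc)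
  refine (μ.val_range_lsmul_le_of_dvd h1).trans ?_
  rw [LF.LFrange_lsmul_sub]
  refine μ.val_mono ?_
  rintro _ ⟨y, rfl⟩
  exact ⟨_, ⟨y, rfl⟩, (mul_smul _ _ _).symm⟩

theorem BCov_dist₁ {t ϖ : O} (ht : t = ϖ ∨ t = 0) :
    Dist ((p : WittVector p O) - teichmuller p t) ϖ :=
  ⟨1, t, ht, by simp⟩

/-- the automorphism of the Witt vectors -/
noncomputable def BCov_W (p : ℕ) [Fact p.Prime] {O : Type} [CommRing O] (g : O ≃+* O) :
    WittVector p O ≃+* WittVector p O :=
  RingEquiv.ofBijective (WittVector.map g.toRingHom) 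
    ⟨WittVector.map_injective _ g.injective, WittVector.map_surjective _ g.surjective⟩

theorem BCov_W_apply (g : O ≃+* O) (x : WittVector p O) :
    BCov_W p g x = WittVector.map g.toRingHom x := rfl

theorem BCov_W_hom (g : O ≃+* O) : (BCov_W p g).toRingHom = WittVector.map g.toRingHom := rfl

end perf

section pi

theorem BCov_mem₂ {A : Type} [CommRing A] {x u v : A} :
    x ∈ Ideal.span {u} ⊔ Ideal.span {v} ↔ ∃ c d, x = c * u + d * v := by
  rw [Submodule.mem_sup]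
  constructor
  · rintro ⟨y, hy, z, hz, rfl⟩
    obtain ⟨c, rfl⟩ := Ideal.mem_span_singleton'.1 hy
    obtain ⟨d, rfl⟩ := Ideal.mem_span_singleton'.1 hz
    exact ⟨c, d, rfl⟩
  · rintro ⟨c, d, rfl⟩
    exact ⟨_, Ideal.mem_span_singleton'.2 ⟨c, rfl⟩, _, Ideal.mem_span_singleton'.2 ⟨d, rfl⟩, rfl⟩

theorem BCov_mem₃ {A G : Type} [CommRing A] [Fintype G] {g : G → A} {x u v : A} :
    x ∈ sp g ⊔ Ideal.span {u} ⊔ Ideal.span {v} ↔
      ∃ (e : G → A) (c d : A), x = ∑ γ, e γ * g γ + (c * u + d * v) := by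
  rw [sup_assoc, Submodule.mem_sup]
  constructor
  · rintro ⟨y, hy, z, hz, rfl⟩
    obtain ⟨e, rfl⟩ := Ideal.mem_span_range_iff_exists_fun.1 hy
    obtain ⟨c, d, rfl⟩ := BCov_mem₂.1 hz
    exact ⟨e, c, d, rfl⟩
  · rintro ⟨e, c, d, rfl⟩
    exact ⟨_, Ideal.mem_span_range_iff_exists_fun.2 ⟨e, rfl⟩, _, BCov_mem₂.2 ⟨c, d, rfl⟩, rfl⟩

/-- `A` is the product of the rings `A' b` -/
structure BCov_Pi {A : Type} [CommRing A] {A' : ℕ → Type} [∀ b, CommRing (A' b)]
    (π : ∀ b, A →+* A' b) : Prop where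
  ext : ∀ x y, (∀ b, π b x = π b y) → x = y
  surj : ∀ y : ∀ b, A' b, ∃ x, ∀ b, π b x = y b

namespace BCov_Pi

variable {A : Type} [CommRing A] {A' : ℕ → Type} [∀ b, CommRing (A' b)] {π : ∀ b, A →+* A' b}

theorem mem₂ (h : BCov_Pi π) {x u v : A}
    (hx : ∀ b, π b x ∈ Ideal.span {π b u} ⊔ Ideal.span {π b v}) :
    x ∈ Ideal.span {u} ⊔ Ideal.span {v} := by
  choose c d hcd using fun b => BCov_mem₂.1 (hx b)
  obtain ⟨c', hc⟩ := h.surj c
  obtain ⟨d', hd⟩ := h.surj d
  refine BCov_mem₂.2 ⟨c', d', h.ext _ _ fun b => ?_⟩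
  rw [map_add, map_mul, map_mul, hc, hd, hcd]

theorem mem₃ (h : BCov_Pi π) {G : Type} [Fintype G] {g : G → A} {x u v : A}
    (hx : ∀ b, π b x ∈ sp (fun γ => π b (g γ)) ⊔ Ideal.span {π b u} ⊔ Ideal.span {π b v}) :
    x ∈ sp g ⊔ Ideal.span {u} ⊔ Ideal.span {v} := by
  choose e c d hcd using fun b => BCov_mem₃.1 (hx b)
  obtain ⟨c', hc⟩ := h.surj c
  obtain ⟨d', hd⟩ := h.surj d
  choose e' he using fun γ => h.surj fun b => e b γ
  refine BCov_mem₃.2 ⟨e', c', d', h.ext _ _ fun b => ?_⟩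
  simp only [map_add, map_mul, map_sum, hc, hd, he, hcd]

theorem unit (h : BCov_Pi π) (u : ∀ b, (A' b)ˣ) : ∃ U : Aˣ, ∀ b, π b U = u b := by
  obtain ⟨x, hx⟩ := h.surj fun b => u b
  obtain ⟨y, hy⟩ := h.surj fun b => ((u b)⁻¹ : (A' b)ˣ)
  have e : x * y = 1 := h.ext _ _ fun b => by rw [map_mul, hx, hy, map_one, Units.mul_inv]
  exact ⟨Units.mkOfMulEqOne x y e, hx⟩

theorem hom (h : BCov_Pi π) {T : Type} [CommRing T] (f : ∀ b, T →+* A' b) :
    ∃ F : T →+* A, ∀ b t, π b (F t) = f b t := by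
  choose F hF using fun t => h.surj fun b => f b t
  refine ⟨⟨⟨⟨F, h.ext _ _ fun b => ?_⟩, fun x y => h.ext _ _ fun b => ?_⟩,
    h.ext _ _ fun b => ?_, fun x y => h.ext _ _ fun b => ?_⟩, fun b t => hF t b⟩
  · simp only [hF, map_one]
  · simp only [hF, map_mul]
  · simp only [hF, map_zero]
  · simp only [hF, map_add]

theorem quot (h : BCov_Pi π) (J : ∀ b, Ideal (A' b)) :
    BCov_Pi fun b => Ideal.quotientMap (I := ⨅ b, (J b).comap (π b)) (J b) (π b) (iInf_le _ b) := by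
  refine ⟨fun x y hxy => ?_, fun y => ?_⟩
  · obtain ⟨x, rfl⟩ := Ideal.Quotient.mk_surjective x
    obtain ⟨y, rfl⟩ := Ideal.Quotient.mk_surjective y
    refine Ideal.Quotient.eq.2 (Ideal.mem_iInf.2 fun b => ?_)
    have := hxy b
    rw [Ideal.quotientMap_mk, Ideal.quotientMap_mk, Ideal.Quotient.eq, ← map_sub] at this
    exact this
  · choose z hz using fun b => Ideal.Quotient.mk_surjective (y b)
    obtain ⟨x, hx⟩ := h.surj z
    exact ⟨Ideal.Quotient.mk _ x, fun b => by rw [Ideal.quotientMap_mk, hx, hz]⟩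

theorem hom_quot (h : BCov_Pi π) (J : ∀ b, Ideal (A' b)) {S : Type} [CommRing S]
    (ψ : ∀ b, S →+* A' b ⧸ J b) : ∃ Ψ : S →+* A ⧸ ⨅ b, (J b).comap (π b), ∀ y x,
      Ψ y = Ideal.Quotient.mk _ x ↔ ∀ b, ψ b y = Ideal.Quotient.mk _ (π b x) := by
  obtain ⟨Ψ, hΨ⟩ := (h.quot J).hom ψ
  refine ⟨Ψ, fun y x => ⟨fun e b => ?_, fun e => (h.quot J).ext _ _ fun b => ?_⟩⟩
  · rw [← hΨ, e, Ideal.quotientMap_mk]
  · rw [hΨ, e, Ideal.quotientMap_mk]

end BCov_Pi

variable {p : ℕ} [Fact p.Prime] {D : ℕ → Type} [∀ b, CommRing (D b)] [∀ b, CharP (D b) p]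

theorem BCov_charP : CharP (∀ b, D b) p :=
  ⟨fun x => ⟨fun h => (CharP.cast_eq_zero_iff (D 0) p x).1 (congrFun h 0),
    fun h => funext fun b => (CharP.cast_eq_zero_iff (D b) p x).2 h⟩⟩

variable [∀ b, PerfectRing (D b) p]

theorem BCov_perfect : PerfectRing (∀ b, D b) p := by
  refine ⟨fun x y h => funext fun b => (PerfectRing.bijective_frobenius (R := D b) (p := p)).1
    (congrFun h b), fun y => ?_⟩
  choose x hx using fun b => (PerfectRing.bijective_frobenius (R := D b) (p := p)).2 (y b)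
  exact ⟨x, funext hx⟩

theorem BCov_piW [CharP (∀ b, D b) p] [PerfectRing (∀ b, D b) p] :
    BCov_Pi fun b => WittVector.map (p := p) (Pi.evalRingHom D b) := by
  obtain ⟨e, he⟩ := exists_wittPi (p := p) D
  refine ⟨fun x y h => e.injective (funext fun b => ?_), fun y => ⟨e.symm y, fun b => ?_⟩⟩
  · rw [he, he]
    exact h b
  · rw [← he, RingEquiv.apply_symm_apply]

end pi

section level

variable {p : ℕ} [Fact p.Prime] {k : Type} [Field k] [CharP k p] [PerfectRing k p]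

theorem BCov_xi0 {O : Type} [CommRing O] {a₀ : ℕ} (mix : Bool)
    (θ₀ : WS p k (a₀ + 1) →+* WittVector p O) {s : O}
    (h : θ₀ (MvPowerSeries.X 0) = teichmuller p s) :
    θ₀ (xi0 p k a₀ mix) = p - teichmuller p (if mix then s else 0) := by
  unfold xi0
  cases mix <;> simp [h]

theorem BCov_ite {O : Type} [CommRing O] (mix : Bool) (s : O) :
    (if mix then s else 0) = s ∨ (if mix then s else 0) = 0 := by
  cases mix <;> simp

variable {X : Base p k} {K : ℕ} (P : Pre X K)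

namespace Pre

/-- the tilt of `p` -/
noncomputable abbrev BCov_t : PerfectClosure P.C p :=
  if X.mix then PerfectClosure.of P.C p (P.s 0) else 0

theorem BCov_JK : P.JK = Ideal.span {(p : WittVector p (PerfectClosure P.C p)) -
    teichmuller p P.BCov_t} ⊔ Ideal.span {(p : WittVector p (PerfectClosure P.C p)) ^ K} := by
  rw [P.hJK, BCov_xi0 X.mix P.θ₀ (P.hθ₀ 0)]

theorem BCov_uv (hK : 2 ≤ K) : ∃ u v : (WittVector p (PerfectClosure P.C p))ˣ,
    P.θ X.ξ = u * ((p : WittVector p (PerfectClosure P.C p)) * v - teichmuller p P.BCov_t) ∧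
      (v : WittVector p (PerfectClosure P.C p)) - 1 ∈
        Ideal.span {(p : WittVector p (PerfectClosure P.C p)) ^ (K - 1)} := by
  have e : P.BCov_t = PerfectClosure.of P.C p (if X.mix then P.s 0 else 0) := by
    unfold BCov_t
    cases X.mix <;> simp
  rw [e]
  refine exists_unit_of_local P.C ?_ hK ?_ P.hξ
  · split_ifs
    · exact P.smem 0
    · exact zero_mem _
  · rw [← e, ← P.BCov_JK]
    refine P.hH _ ?_
    have : X.ξ ∈ RingHom.ker X.π := by
      rw [X.hξ]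
      exact Ideal.mem_span_singleton_self _
    rw [RingHom.mem_ker.1 this]
    exact zero_mem _

theorem BCov_dist (hK : 2 ≤ K) : Dist (P.θ X.ξ) (PerfectClosure.of P.C p (P.s 0)) := by
  obtain ⟨u, v, h, -⟩ := P.BCov_uv hK
  exact ⟨v, P.BCov_t, BCov_ite _ _, by
    rw [h, Ideal.span_singleton_mul_left_unit u.isUnit]⟩

theorem BCov_le₀ {N : ℕ} (hN : N ≤ K) : P.JK ≤
    Ideal.span {(p : WittVector p (PerfectClosure P.C p)) - teichmuller p P.BCov_t} ⊔
      Ideal.span {tw p (P.s 0) ^ N} := by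
  rw [P.BCov_JK]
  refine sup_le le_sup_left ((Ideal.span_singleton_le_iff_mem _).2 ?_)
  obtain ⟨d, rfl⟩ := exists_add_of_le hN
  rw [pow_add]
  exact Ideal.mul_mem_right _ _ ((BCov_dist₁ (BCov_ite _ _)).p_pow_mem N)

theorem BCov_le (hK : 2 ≤ K) {N : ℕ} (hN : N ≤ K) :
    P.JK ≤ Ideal.span {P.θ X.ξ} ⊔ Ideal.span {tw p (P.s 0) ^ N} := by
  have h1 : (p : WittVector p (PerfectClosure P.C p)) ^ K ∈
      Ideal.span {P.θ X.ξ} ⊔ Ideal.span {tw p (P.s 0) ^ N} := by
    obtain ⟨d, hd⟩ := exists_add_of_le hN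
    have h2 := (P.BCov_dist hK).p_pow_mem N
    have h3 : (p : WittVector p (PerfectClosure P.C p)) ^ K = p ^ N * p ^ d := by
      rw [← pow_add, ← hd]
    rw [h3]
    exact Ideal.mul_mem_right _ _ h2
  obtain ⟨u, v, h, hv⟩ := P.BCov_uv hK
  rw [P.BCov_JK]
  refine sup_le ((Ideal.span_singleton_le_iff_mem _).2 ?_)
    ((Ideal.span_singleton_le_iff_mem _).2 h1)
  obtain ⟨z, hz⟩ := Ideal.mem_span_singleton'.1 hv
  have h4 : (p : WittVector p (PerfectClosure P.C p)) ^ K = p * p ^ (K - 1) := by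
    rw [← pow_succ', Nat.sub_add_cancel (by omega)]
  have e : (p : WittVector p (PerfectClosure P.C p)) - teichmuller p P.BCov_t =
      (u⁻¹ : (WittVector p (PerfectClosure P.C p))ˣ) * P.θ X.ξ - z * p ^ K := by
    rw [h, Units.inv_mul_cancel_left, h4, mul_left_comm, hz]
    ring
  rw [e]
  exact sub_mem (Ideal.mul_mem_left _ _ (Ideal.mem_sup_left (Ideal.mem_span_singleton_self _)))
    (Ideal.mul_mem_left _ _ h1)

theorem BCov_root (hK : 2 ≤ K) {e N : ℕ} (h₁ : X.mP ≤ p ^ e) (h₂ : N * p ^ e ≤ K)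
    {x : WittVector p (PerfectClosure P.C p)} (hx : x ∈ P.𝔍) :
    teichmuller p (rt p e (PerfectClosure.of P.C p P.c)) * x ∈
      Ideal.span {P.θ X.ξ} ⊔ Ideal.span {tw p (P.s 0) ^ N} := by
  have hN : N ≤ K := (Nat.le_mul_of_pos_right N (pow_pos (Fact.out : p.Prime).pos e)).trans h₂
  have h3 : Ideal.span {(p : WittVector p (PerfectClosure P.C p)) - teichmuller p P.BCov_t} ⊔
      Ideal.span {tw p (P.s 0) ^ N} ≤ Ideal.span {P.θ X.ξ} ⊔ Ideal.span {tw p (P.s 0) ^ N} := by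
    refine sup_le (le_trans ?_ (P.BCov_le hK hN)) le_sup_right
    rw [P.BCov_JK]
    exact le_sup_left
  refine h3 ?_
  replace hx := P.h𝔍 hx
  induction hx using Submodule.span_induction with
  | mem y hy =>
    refine mem_of_pow_mem (BCov_ite _ _) e N (P.BCov_le₀ h₂ ?_)
    obtain ⟨d, hd⟩ := exists_add_of_le h₁
    rw [mul_pow, ← map_pow, PRP_rt_pow, hd, pow_add, ← mul_assoc]
    exact Ideal.mul_mem_right _ _ hy
  | zero => rw [mul_zero]; exact zero_mem _
  | add y z _ _ hy hz => rw [mul_add]; exact add_mem hy hz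
  | smul a y _ hy => rw [smul_eq_mul, mul_left_comm]; exact Ideal.mul_mem_left _ _ hy

end Pre

end level

end Crest.Agent.R188
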