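import Crest.Agent.R188.PLam
import Crest.Agent.R183.HSBasic
import Crest.Agent.R183.Complete

/-!
# The normalized length on the perfect closure of a finite algebra over a power series ring
-/

set_option autoImplicit false
set_option linter.unusedVariables false
set_option linter.unusedSectionVars false

open scoped ENNReal NNReal TensorProduct

namespace Crest.Agent.R188

open Crest.Agent.R183

/-- a functional not killing `1` -/
theorem PLam2_dual {A C : Type} [CommRing A] [IsDomain A] [CommRing C] [Algebra A C]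
    [Module.Finite A C] (hinj : Function.Injective (algebraMap A C)) :
    ∃ φ : C →ₗ[A] A, φ 1 ≠ 0 := by
  let K := FractionRing A
  have h1 : Function.Injective ((Algebra.linearMap A C).lTensor K) :=
    Module.Flat.lTensor_preserves_injective_linearMap _ hinj
  have h2 : ((1 : K) ⊗ₜ[A] (1 : C) : K ⊗[A] C) ≠ 0 := by
    intro h
    have h3 : ((1 : K) ⊗ₜ[A] (1 : A) : K ⊗[A] A) = 0 := h1 (by simpa using h)
    simpa using congrArg (TensorProduct.rid A K) h3
  obtain ⟨f, hf⟩ := Module.Projective.exists_dual_eq_one K h2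
  let g : C →ₗ[A] K := (f.restrictScalars A).comp (TensorProduct.mk A K C 1)
  have hg : g 1 = 1 := hf
  obtain ⟨n, v, hv⟩ := Module.Finite.exists_fin (R := A) (M := C)
  obtain ⟨b, hb⟩ := IsLocalization.exist_integer_multiples_of_finite (nonZeroDivisors A)
    (S := K) fun j => g (v j)
  have hr : ∀ x, ((b : A) • g) x ∈ LinearMap.range (Algebra.linearMap A K) := by
    intro x
    have hx : x ∈ Submodule.span A (Set.range v) := hv ▸ Submodule.mem_top
    have : Submodule.span A (Set.range v) ≤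
        (LinearMap.range (Algebra.linearMap A K)).comap ((b : A) • g) := by
      refine Submodule.span_le.2 ?_
      rintro _ ⟨j, rfl⟩
      exact hb j
    exact this hx
  have hK : Function.Injective (Algebra.linearMap A K) := IsFractionRing.injective A K
  refine ⟨(LinearEquiv.ofInjective _ hK).symm.toLinearMap.comp
    (((b : A) • g).codRestrict _ hr), fun h => ?_⟩
  have h4 : ((b : A) • g) 1 = 0 := by
    have := (LinearEquiv.ofInjective _ hK).symm.map_eq_zero_iff.1 h
    exact congrArg Subtype.val this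
  rw [LinearMap.smul_apply, hg, Algebra.smul_def, mul_one] at h4
  exact nonZeroDivisors.coe_ne_zero b (IsFractionRing.injective A K (h4.trans (map_zero _).symm))

section ps

variable {k : Type} [Field k] {a : ℕ}

/-- exponents in a box -/
noncomputable def PLam2_bx {q : ℕ} (α : Fin a → Fin q) : Fin a →₀ ℕ :=
  Finsupp.equivFunOnFinite.symm fun i => (α i : ℕ)

theorem PLam2_bx_apply {q : ℕ} (α : Fin a → Fin q) (i : Fin a) : PLam2_bx α i = α i := rfl

theorem PLam2_box (q : ℕ) (z : MvPowerSeries (Fin a) k) :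
    z - ∑ α : Fin a → Fin q,
      MvPowerSeries.monomial (PLam2_bx α) (MvPowerSeries.coeff (PLam2_bx α) z) ∈
      sp fun i => (MvPowerSeries.X i : MvPowerSeries (Fin a) k) ^ q := by
  classical
  refine Complete_ps_mem_X q fun m hm => ?_
  rw [map_sub, map_sum, Finset.sum_eq_single (fun i => ⟨m i, hm i⟩), sub_eq_zero]
  · have : PLam2_bx (fun i => (⟨m i, hm i⟩ : Fin q)) = m := by ext i; rfl
    rw [this, MvPowerSeries.coeff_monomial, if_pos rfl]
  · intro α _ hα
    rw [MvPowerSeries.coeff_monomial, if_neg]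
    rintro rfl
    exact hα (by ext i; rfl)
  · simp

theorem PLam2_coeff {b : ℕ} {z : MvPowerSeries (Fin a) k}
    (h : z ∈ sp fun i => (MvPowerSeries.X i : MvPowerSeries (Fin a) k) ^ b) (m : Fin a →₀ ℕ)
    (hm : ∀ i, m i < b) : MvPowerSeries.coeff m z = 0 :=
  (Complete_ps_mem (⊥ : Ideal k) b).1 (Ideal.mem_sup_right h) m hm

theorem PLam2_comb (p : ℕ) [Fact p.Prime] [CharP k p] {c : MvPowerSeries (Fin a) k} (hc : c ≠ 0)
    {q : ℕ} (μ : (Fin a → Fin q) → k) (n₀ : ℕ)
    (h : ∀ n ≥ n₀, c * (∑ α, MvPowerSeries.monomial (PLam2_bx α) (μ α)) ^ p ^ n ∈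
      sp fun i => (MvPowerSeries.X i : MvPowerSeries (Fin a) k) ^ (q * p ^ n)) : μ = 0 := by
  classical
  have : CharP (MvPowerSeries (Fin a) k) p :=
    charP_of_injective_algebraMap (algebraMap k _).injective p
  by_contra hμ
  obtain ⟨γ, hγ⟩ : ∃ γ, MvPowerSeries.coeff γ c ≠ 0 := by
    by_contra! h0
    exact hc (MvPowerSeries.ext h0)
  obtain ⟨α₁, hα₁⟩ := Function.ne_iff.1 hμ
  obtain ⟨α₀, -, hα₀⟩ := exists_minimal_le_of_wellFoundedLT (fun α => μ α ≠ 0) α₁ hα₁
  set n := n₀ + ∑ i, γ i with hn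
  have hQ : ∀ i, γ i < p ^ n := fun i =>
    lt_of_le_of_lt ((Finset.single_le_sum (f := fun i => γ i) (fun _ _ => Nat.zero_le _)
      (Finset.mem_univ i)).trans (Nat.le_add_left _ _))
      (Nat.lt_pow_self (Fact.out : p.Prime).one_lt)
  have h1 := PLam2_coeff (h n (Nat.le_add_right _ _)) (γ + p ^ n • PLam2_bx α₀) fun i => by
    have h2 := hQ i
    have h3 : (α₀ i : ℕ) + 1 ≤ q := (α₀ i).2
    have h4 := Nat.mul_le_mul_right (p ^ n) h3
    simp only [Finsupp.add_apply, Finsupp.smul_apply, PLam2_bx_apply, smul_eq_mul]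
    nlinarith
  rw [sum_pow_char_pow, Finset.mul_sum, map_sum, Finset.sum_eq_single α₀] at h1
  · rw [MvPowerSeries.monomial_pow, MvPowerSeries.coeff_mul_monomial, if_pos le_add_self,
      add_tsub_cancel_right] at h1
    exact mul_ne_zero hγ (pow_ne_zero _ hα₀.1) h1
  · intro α _ hα
    rw [MvPowerSeries.monomial_pow, MvPowerSeries.coeff_mul_monomial]
    split_ifs with hle
    · have hle' : α ≤ α₀ := fun i => by
        have h2 := hle i
        have h3 := hQ i
        simp only [Finsupp.add_apply, Finsupp.smul_apply, PLam2_bx_apply, smul_eq_mul] at h2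
        by_contra hlt
        have h4 : (α₀ i : ℕ) + 1 ≤ α i := not_le.1 hlt
        have h5 := Nat.mul_le_mul_left (p ^ n) h4
        nlinarith
      have : μ α = 0 := by
        by_contra h0
        exact hα (le_antisymm hle' (hα₀.2 h0 hle'))
      rw [this, zero_pow (pow_ne_zero _ (Fact.out : p.Prime).ne_zero), mul_zero]
    · rfl
  · simp

end ps

section main

variable (p : ℕ) [Fact p.Prime] {k : Type} [Field k] [CharP k p] [PerfectRing k p] {a : ℕ}
  {C : Type} [CommRing C] [CharP C p] [Algebra (MvPowerSeries (Fin a) k) C]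
  {O : Type} [CommRing O] [CharP O p] [PerfectRing O p] [Algebra k O] (ι : C →+* O)

/-- `c ↦ c ^ (1 / p ^ e)` -/
noncomputable def PLam2_psi (e : ℕ) : C →+* O :=
  (iterateFrobeniusEquiv O p e).symm.toRingHom.comp ι

theorem PLam2_psi_pow (e : ℕ) (c : C) : PLam2_psi p ι e c ^ p ^ e = ι c :=
  (iterateFrobeniusEquiv O p e).apply_symm_apply (ι c)

theorem PLam2_psi_pow' (e : ℕ) (c : C) : PLam2_psi p ι e (c ^ p ^ e) = ι c := by
  rw [map_pow, PLam2_psi_pow]

theorem PLam2_psi_eq {e : ℕ} {c : C} {o : O} (h : o ^ p ^ e = ι c) : PLam2_psi p ι e c = o :=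
  (iterateFrobeniusEquiv O p e).injective ((PLam2_psi_pow p ι e c).trans h.symm)

variable (hk : ∀ l : k, algebraMap k O l =
  ι (algebraMap (MvPowerSeries (Fin a) k) C (MvPowerSeries.C l)))

/-- the image of `ψ e` -/
noncomputable def PLam2_S (e : ℕ) : Subalgebra k O where
  toSubsemiring := (PLam2_psi p ι e).rangeS
  algebraMap_mem' l := ⟨_, by rw [hk, ← PLam2_psi_pow' p ι e]⟩

theorem PLam2_S_mono {e e' : ℕ} (h : e ≤ e') : PLam2_S p ι hk e ≤ PLam2_S p ι hk e' := by
  rintro _ ⟨c, rfl⟩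
  obtain ⟨d, rfl⟩ := Nat.exists_eq_add_of_le h
  refine ⟨c ^ p ^ d, PLam2_psi_eq p ι ?_⟩
  rw [pow_add, pow_mul, PLam2_psi_pow, map_pow]

theorem PLam2_len_le {M J : Type} [AddCommGroup M] [Module k M] [Fintype J] (v : J → M)
    {W : Submodule k M} (h : W ≤ Submodule.span k (Set.range v)) :
    (LF.length k).val W ≤ Fintype.card J := by
  refine ((LF.length k).val_mono h).trans ?_
  rw [← Fintype.range_linearCombination]
  refine ((LF.length k).LFval_range_le _).trans ?_
  rw [LF.val_pi, LF.length_val, Module.length_eq_one]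
  simp

theorem PLam2_le_len {M J : Type} [AddCommGroup M] [Module k M] [Fintype J] (v : J → M)
    (hv : LinearIndependent k v) {W : Submodule k M} (h : ∀ j, v j ∈ W) :
    (Fintype.card J : ℝ≥0∞) ≤ (LF.length k).val W := by
  have h1 : Submodule.span k (Set.range v) ≤ W := Submodule.span_le.2 (Set.range_subset_iff.2 h)
  refine le_trans ?_ ((LF.length k).val_mono h1)
  rw [← Fintype.range_linearCombination, ← (LF.length k).congr (LinearEquiv.ofInjective _
    (linearIndependent_iff_injective_fintypeLinearCombination.1 hv)), LF.val_pi, LF.length_val,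
    Module.length_eq_one]
  simp

include hk in
theorem PLam2_psi_mon (e : ℕ) (m : Fin a →₀ ℕ) (l : k) :
    PLam2_psi p ι e (algebraMap (MvPowerSeries (Fin a) k) C (MvPowerSeries.monomial m (l ^ p ^ e))) =
      l • PLam2_psi p ι e (algebraMap (MvPowerSeries (Fin a) k) C (MvPowerSeries.monomial m 1)) := by
  have : (MvPowerSeries.monomial m (l ^ p ^ e) : MvPowerSeries (Fin a) k) =
      MvPowerSeries.C l ^ p ^ e * MvPowerSeries.monomial m 1 := by
    rw [← map_pow, ← MvPowerSeries.monomial_zero_eq_C_apply, MvPowerSeries.monomial_mul_monomial,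
      zero_add, mul_one]
  rw [this, map_mul, map_mul, map_pow, PLam2_psi_pow', ← hk, Algebra.smul_def]

theorem PLam2_psi_sp (e : ℕ) {z : MvPowerSeries (Fin a) k}
    (hz : z ∈ sp fun i => (MvPowerSeries.X i : MvPowerSeries (Fin a) k) ^ p ^ e) :
    PLam2_psi p ι e (algebraMap (MvPowerSeries (Fin a) k) C z) ∈
      sp fun i => ι (algebraMap (MvPowerSeries (Fin a) k) C (MvPowerSeries.X i)) := by
  have := Ideal.mem_map_of_mem
    ((PLam2_psi p ι e).comp (algebraMap (MvPowerSeries (Fin a) k) C)) hz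
  rw [Ideal.map_span, ← Set.range_comp, RingHom.comp_apply] at this
  convert this using 3
  simp only [Function.comp_apply, RingHom.comp_apply]
  rw [map_pow, PLam2_psi_pow']

include hk in
theorem PLam2_upper [Module.Finite (MvPowerSeries (Fin a) k) C]
    (h1 : ∀ o : O, ∃ (n : ℕ) (c : C), o ^ p ^ n = ι c) :
    lamV p k (fun i => ι (algebraMap (MvPowerSeries (Fin a) k) C (MvPowerSeries.X i)))
      (O ⧸ sp fun i => ι (algebraMap (MvPowerSeries (Fin a) k) C (MvPowerSeries.X i))) ≠ ⊤ := by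
  set s : Fin a → O := fun i => ι (algebraMap (MvPowerSeries (Fin a) k) C (MvPowerSeries.X i))
    with hs
  obtain ⟨N, g, hg⟩ := Module.Finite.exists_fin (R := MvPowerSeries (Fin a) k) (M := C)
  let π : O →ₐ[k] O ⧸ sp s := Ideal.Quotient.mkₐ k (sp s)
  refine ne_top_of_le_ne_top (ENNReal.natCast_ne_top N) (iSup_le ?_)
  rintro ⟨X, hX⟩
  obtain ⟨e, he⟩ : ∃ e, X ≤ (PLam2_S p ι hk e).toSubmodule.map π.toLinearMap := by
    induction X, hX using Submodule.fg_induction with
    | singleton x =>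
      obtain ⟨o, rfl⟩ := Ideal.Quotient.mk_surjective x
      obtain ⟨n, c, hc⟩ := h1 o
      exact ⟨n, (Submodule.span_singleton_le_iff_mem _ _).2 ⟨o, ⟨c, PLam2_psi_eq p ι hc⟩, rfl⟩⟩
    | sup X₁ X₂ _ _ i₁ i₂ =>
      obtain ⟨e₁, i₁⟩ := i₁
      obtain ⟨e₂, i₂⟩ := i₂
      exact ⟨max e₁ e₂, sup_le
        (i₁.trans (Submodule.map_mono (PLam2_S_mono p ι hk (le_max_left _ _))))
        (i₂.trans (Submodule.map_mono (PLam2_S_mono p ι hk (le_max_right _ _))))⟩
  refine (iInf_le _ e).trans ?_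
  let v : (Fin a → Fin (p ^ e)) × Fin N → O ⧸ sp s := fun x =>
    π (PLam2_psi p ι e (algebraMap (MvPowerSeries (Fin a) k) C
      (MvPowerSeries.monomial (PLam2_bx x.1) 1) * g x.2))
  have h2 : ∀ c : C, π (PLam2_psi p ι e c) ∈ Submodule.span k (Set.range v) := by
    intro c
    have hc : c ∈ Submodule.span (MvPowerSeries (Fin a) k) (Set.range g) := hg ▸ Submodule.mem_top
    obtain ⟨z, rfl⟩ := (Submodule.mem_span_range_iff_exists_fun _).1 hc
    rw [map_sum, map_sum]
    refine Submodule.sum_mem _ fun j _ => ?_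
    have h3 := Ideal.Quotient.eq_zero_iff_mem.2 (PLam2_psi_sp p ι e (PLam2_box (p ^ e) (z j)))
    rw [map_sub, map_sub, map_sub, sub_eq_zero] at h3
    rw [Algebra.smul_def, map_mul, map_mul]
    erw [h3]
    rw [map_sum, map_sum, map_sum, Finset.sum_mul]
    refine Submodule.sum_mem _ fun α _ => ?_
    obtain ⟨l, hl⟩ := (iterateFrobeniusEquiv k p e).surjective
      (MvPowerSeries.coeff (PLam2_bx α) (z j))
    rw [← hl, iterateFrobeniusEquiv_def, PLam2_psi_mon p ι hk]
    change π _ * _ ∈ _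
    rw [map_smul, smul_mul_assoc, ← map_mul, ← map_mul]
    exact Submodule.smul_mem _ _ (Submodule.subset_span ⟨(α, j), rfl⟩)
  have h3 : rootAlg p k s e • X ≤ Submodule.span k (Set.range v) := by
    refine Submodule.smul_le.2 fun r hr x hx => ?_
    have h4 : Algebra.adjoin k (Set.range fun i => rt p e (s i)) ≤ PLam2_S p ι hk e :=
      Algebra.adjoin_le (by rintro _ ⟨i, rfl⟩; exact ⟨_, rfl⟩)
    obtain ⟨c, rfl⟩ := h4 hr
    obtain ⟨_, ⟨c', rfl⟩, rfl⟩ := he hx
    have := h2 (c * c')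
    rwa [map_mul, map_mul] at this
  refine ENNReal.div_le_of_le_mul ((PLam2_len_le v h3).trans (le_of_eq ?_))
  rw [pow_mul]
  simp [mul_comm]

theorem PLam2_desc (h1 : ∀ o : O, ∃ (n : ℕ) (c : C), o ^ p ^ n = ι c)
    (h2 : ∀ c : C, ι c = 0 → ∃ n : ℕ, c ^ p ^ n = 0) (t : Fin a → C) {z : C}
    (hz : ι z ∈ sp fun i => ι (t i)) :
    ∃ n₀, ∀ n ≥ n₀, z ^ p ^ n ∈ sp fun i => t i ^ p ^ n := by
  have step : ∀ n d, (z ^ p ^ n ∈ sp fun i => t i ^ p ^ n) →
      z ^ p ^ (n + d) ∈ sp fun i => t i ^ p ^ (n + d) := by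
    intro n d h
    have := Ideal.mem_map_of_mem (iterateFrobenius C p d) h
    rw [Ideal.map_span, ← Set.range_comp, iterateFrobenius_def, ← pow_mul, ← pow_add] at this
    convert this using 3
    simp only [Function.comp_apply, iterateFrobenius_def, ← pow_mul, ← pow_add]
  suffices ∃ n, z ^ p ^ n ∈ sp fun i => t i ^ p ^ n by
    obtain ⟨n, hn⟩ := this
    refine ⟨n, fun m hm => ?_⟩
    obtain ⟨d, rfl⟩ := Nat.exists_eq_add_of_le hm
    exact step n d hn
  obtain ⟨o, ho⟩ := Ideal.mem_span_range_iff_exists_fun.1 hz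
  choose n c hc using fun i => h1 (o i)
  have h3 : ∀ i, ∃ c' : C, o i ^ p ^ (∑ i, n i) = ι c' := fun i => by
    obtain ⟨d, hd⟩ := Nat.exists_eq_add_of_le
      (Finset.single_le_sum (f := n) (fun _ _ => Nat.zero_le _) (Finset.mem_univ i))
    exact ⟨c i ^ p ^ d, by rw [hd, pow_add, pow_mul, hc, map_pow]⟩
  choose c' hc' using h3
  set m := ∑ i, n i
  obtain ⟨d, hd⟩ := h2 (z ^ p ^ m - ∑ i, c' i * t i ^ p ^ m) (by
    rw [map_sub, map_pow, ← ho, sum_pow_char_pow, map_sum, sub_eq_zero]
    exact Finset.sum_congr rfl fun i _ => by rw [mul_pow, hc', map_mul, map_pow])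
  rw [sub_pow_char_pow, sub_eq_zero, ← pow_mul, ← pow_add] at hd
  refine ⟨m + d, ?_⟩
  rw [hd, sum_pow_char_pow]
  refine Ideal.sum_mem _ fun i _ => ?_
  rw [mul_pow, ← pow_mul, ← pow_add]
  exact Ideal.mul_mem_left _ _ (Ideal.subset_span ⟨i, rfl⟩)

include hk in
theorem PLam2_lower [Module.Finite (MvPowerSeries (Fin a) k) C]
    (hinj : Function.Injective (algebraMap (MvPowerSeries (Fin a) k) C))
    (h1 : ∀ o : O, ∃ (n : ℕ) (c : C), o ^ p ^ n = ι c)
    (h2 : ∀ c : C, ι c = 0 → ∃ n : ℕ, c ^ p ^ n = 0) :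
    1 ≤ lamV p k (fun i => ι (algebraMap (MvPowerSeries (Fin a) k) C (MvPowerSeries.X i)))
      (O ⧸ sp fun i => ι (algebraMap (MvPowerSeries (Fin a) k) C (MvPowerSeries.X i))) := by
  set s : Fin a → O := fun i => ι (algebraMap (MvPowerSeries (Fin a) k) C (MvPowerSeries.X i))
    with hs
  have : IsDomain (MvPowerSeries (Fin a) k) := NoZeroDivisors.to_isDomain _
  obtain ⟨φ, hφ⟩ := PLam2_dual hinj
  let π : O →ₐ[k] O ⧸ sp s := Ideal.Quotient.mkₐ k (sp s)
  refine le_iSup_of_le ⟨Submodule.span k {1}, Submodule.fg_span_singleton _⟩ (le_iInf fun e => ?_)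
  let v : (Fin a → Fin (p ^ e)) → O ⧸ sp s := fun x =>
    π (PLam2_psi p ι e (algebraMap (MvPowerSeries (Fin a) k) C
      (MvPowerSeries.monomial (PLam2_bx x) 1)))
  have hv : LinearIndependent k v := by
    refine Fintype.linearIndependent_iff.2 fun l hl => ?_
    set z : MvPowerSeries (Fin a) k :=
      ∑ α, MvPowerSeries.monomial (PLam2_bx α) (l α ^ p ^ e) with hz
    have h3 : PLam2_psi p ι e (algebraMap (MvPowerSeries (Fin a) k) C z) ∈ sp s := by
      refine Ideal.Quotient.eq_zero_iff_mem.1 ?_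
      change π _ = 0
      rw [← hl, hz, map_sum, map_sum, map_sum]
      exact Finset.sum_congr rfl fun α _ => by rw [PLam2_psi_mon p ι hk, map_smul]
    have h4 := Ideal.mem_map_of_mem (iterateFrobenius O p e) h3
    rw [Ideal.map_span, ← Set.range_comp, iterateFrobenius_def, PLam2_psi_pow] at h4
    obtain ⟨n₀, hn⟩ := PLam2_desc p ι h1 h2
      (fun i => algebraMap (MvPowerSeries (Fin a) k) C (MvPowerSeries.X i ^ p ^ e))
      (z := algebraMap (MvPowerSeries (Fin a) k) C z) (by
        convert h4 using 3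
        simp only [Function.comp_apply, iterateFrobenius_def, map_pow, hs])
    have h5 := PLam2_comb p hφ (fun α => l α ^ p ^ e) n₀ fun n hn' => by
      obtain ⟨c, hc⟩ := Ideal.mem_span_range_iff_exists_fun.1 (hn n hn')
      have h6 := congrArg φ hc
      rw [← map_pow, Algebra.algebraMap_eq_smul_one, map_smul, smul_eq_mul, map_sum] at h6
      rw [mul_comm (φ 1), ← hz, ← h6]
      refine Ideal.sum_mem _ fun i _ => ?_
      rw [← map_pow, mul_comm (c i), ← Algebra.smul_def, map_smul, smul_eq_mul, ← pow_mul]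
      exact Ideal.mul_mem_right _ _ (Ideal.subset_span ⟨i, rfl⟩)
    exact fun α => pow_eq_zero_iff (pow_ne_zero _ (Fact.out : p.Prime).ne_zero) |>.1
      (congrFun h5 α)
  have hm : ∀ α, v α ∈ rootAlg p k s e • (Submodule.span k {1} : Submodule k (O ⧸ sp s)) := by
    intro α
    have h3 : PLam2_psi p ι e (algebraMap (MvPowerSeries (Fin a) k) C
        (MvPowerSeries.monomial (PLam2_bx α) 1)) ∈ rootAlg p k s e := by
      rw [MvPowerSeries.monomial_one_eq, Finsupp.prod, map_prod, map_prod]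
      refine Subalgebra.prod_mem (Algebra.adjoin k _) fun i _ => ?_
      rw [map_pow, map_pow]
      exact Subalgebra.pow_mem _ (Algebra.subset_adjoin (Set.mem_range.2 ⟨i, rfl⟩)) _
    have := Submodule.smul_mem_smul h3 (Submodule.mem_span_singleton_self (R := k) (1 : O ⧸ sp s))
    rwa [Algebra.smul_def, mul_one] at this
  have hp : (p : ℝ≥0∞) ^ (e * a) ≠ 0 :=
    pow_ne_zero _ (Nat.cast_ne_zero.2 (Fact.out : p.Prime).ne_zero)
  rw [ENNReal.le_div_iff_mul_le (Or.inl hp) (Or.inl (ENNReal.pow_ne_top (ENNReal.natCast_ne_top p)))]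
  refine le_trans (le_of_eq ?_) (PLam2_le_len v hv hm)
  simp [pow_mul]

end main

theorem exists_lf_perf (p : ℕ) [Fact p.Prime] (k : Type) [Field k] [CharP k p] [PerfectRing k p]
    (a : ℕ) (C : Type) [CommRing C] [CharP C p] [Algebra (MvPowerSeries (Fin a) k) C]
    [Module.Finite (MvPowerSeries (Fin a) k) C]
    (hinj : Function.Injective (algebraMap (MvPowerSeries (Fin a) k) C)) :
    ∃ μ : LF (PerfectClosure C p), Scal p a μ ∧
      (∀ g : PerfectClosure C p ≃+* PerfectClosure C p,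
        (∀ x, g (PerfectClosure.of C p (algebraMap (MvPowerSeries (Fin a) k) C x)) =
          PerfectClosure.of C p (algebraMap (MvPowerSeries (Fin a) k) C x)) →
        Inv μ g.toRingHom) ∧
      μ.val (PerfectClosure C p ⧸ sp fun i =>
        PerfectClosure.of C p (algebraMap (MvPowerSeries (Fin a) k) C (MvPowerSeries.X i))) = 1 := by
  let _ : Algebra k (PerfectClosure C p) := (((PerfectClosure.of C p).comp
    (algebraMap (MvPowerSeries (Fin a) k) C)).comp MvPowerSeries.C).toAlgebra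
  have hk : ∀ l : k, algebraMap k (PerfectClosure C p) l = PerfectClosure.of C p
      (algebraMap (MvPowerSeries (Fin a) k) C (MvPowerSeries.C l)) := fun _ => rfl
  have h1 : ∀ o : PerfectClosure C p, ∃ (n : ℕ) (c : C), o ^ p ^ n = PerfectClosure.of C p c := by
    intro o
    obtain ⟨⟨n, c⟩, rfl⟩ := PerfectClosure.mk_surjective C p o
    exact ⟨n, c, by rw [← PerfectClosure.iterate_frobenius_mk C p n c, iterate_frobenius]⟩
  have h2 : ∀ c : C, PerfectClosure.of C p c = 0 → ∃ n : ℕ, c ^ p ^ n = 0 := by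
    intro c hc
    obtain ⟨n, hn⟩ := (PerfectClosure.mk_eq_iff C p (0, c) (0, 0)).1 hc
    refine ⟨n, ?_⟩
    rw [iterate_frobenius, iterate_frobenius, zero_add,
      zero_pow (pow_ne_zero _ (Fact.out : p.Prime).ne_zero)] at hn
    exact hn
  obtain ⟨μ, hμ, hS, hI⟩ := exists_lam p k (O := PerfectClosure C p) fun i : Fin a =>
    PerfectClosure.of C p (algebraMap (MvPowerSeries (Fin a) k) C (MvPowerSeries.X i))
  have hu := PLam2_upper p (PerfectClosure.of C p) hk h1
  have hl := PLam2_lower p (PerfectClosure.of C p) hk hinj h1 h2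
  rw [← hμ] at hu hl
  refine ⟨LF.smul (μ.val (PerfectClosure C p ⧸ sp fun i => PerfectClosure.of C p
    (algebraMap (MvPowerSeries (Fin a) k) C (MvPowerSeries.X i))))⁻¹ μ, fun M _ _ => ?_,
    fun g hg M _ _ => ?_, ENNReal.inv_mul_cancel (zero_lt_one.trans_le hl).ne' hu⟩
  · change _ * μ.val M = _ * (_ * (μ.comap (frobenius _ p)).val M)
    rw [hS M, mul_left_comm]
  · change _ * (μ.comap g.toRingHom).val M = _ * μ.val M
    rw [hI g (fun c => hg _) (fun i => hg _) M]

end Crest.Agent.R188
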