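import Crest.Agent.R188.HReg
import Crest.Agent.R183.Complete
import Crest.Agent.R183.Cohen

/-!
# Power series rings
-/

set_option autoImplicit false
set_option linter.unusedVariables false

open scoped ENNReal NNReal TensorProduct

namespace Crest.Agent.R188

open Crest.Agent.R183 IsLocalRing

/-- uniqueness of homomorphisms out of a power series ring -/
theorem mvPowerSeries_hom_ext {Λ B σ : Type} [CommRing Λ] [CommRing B] [Finite σ]
    (φ ψ : MvPowerSeries σ Λ →+* B) (hC : ∀ a, φ (MvPowerSeries.C a) = ψ (MvPowerSeries.C a))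
    (hX : ∀ i, φ (MvPowerSeries.X i) = ψ (MvPowerSeries.X i))
    (hs : ⨅ N : ℕ, sp (fun i => φ (MvPowerSeries.X i)) ^ N = ⊥) : φ = ψ := by
  have hp : ∀ p : MvPolynomial σ Λ, φ p = ψ p := by
    intro p
    have : φ.comp MvPolynomial.coeToMvPowerSeries.ringHom =
        ψ.comp MvPolynomial.coeToMvPowerSeries.ringHom :=
      MvPolynomial.ringHom_ext (fun a => by simpa using hC a) (fun i => by simpa using hX i)
    exact RingHom.congr_fun this p
  refine RingHom.ext fun f => ?_
  rw [← sub_eq_zero, ← Ideal.mem_bot, ← hs, Ideal.mem_iInf]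
  intro N
  obtain ⟨p, hp'⟩ := Complete_trunc N f
  have h1 : f - p ∈ sp fun i => (MvPowerSeries.X i : MvPowerSeries σ Λ) ^ N :=
    Complete_ps_mem_X N fun m hm => by rw [map_sub, MvPolynomial.coeff_coe, hp' m hm, sub_self]
  have h2 : ∀ χ : MvPowerSeries σ Λ →+* B,
      (∀ i, χ (MvPowerSeries.X i) = φ (MvPowerSeries.X i)) →
      χ (f - p) ∈ sp (fun i => φ (MvPowerSeries.X i)) ^ N := by
    intro χ hχ
    have h3 : (sp fun i => (MvPowerSeries.X i : MvPowerSeries σ Λ) ^ N) ≤
        (sp (fun i => φ (MvPowerSeries.X i)) ^ N).comap χ := by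
      refine Ideal.span_le.2 ?_
      rintro _ ⟨i, rfl⟩
      change χ (MvPowerSeries.X i ^ N) ∈ sp (fun i => φ (MvPowerSeries.X i)) ^ N
      rw [map_pow, hχ]
      exact Ideal.pow_mem_pow (Ideal.subset_span (Set.mem_range_self i)) N
    exact h3 h1
  have h4 : φ f - ψ f = φ (f - p) - ψ (f - p) := by
    rw [map_sub, map_sub, hp p]
    ring
  rw [h4]
  exact Ideal.sub_mem _ (h2 φ fun _ => rfl) (h2 ψ fun i => (hX i).symm)

open RingTheory.Sequence Pointwise in
theorem QPow_ps {A : Type} [CommRing A] {l : List A} (h : IsWeaklyRegular A l) :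
    IsWeaklyRegular (PowerSeries A) (PowerSeries.X :: l.map PowerSeries.C) := by
  rw [isWeaklyRegular_cons_iff]
  refine ⟨fun a b hab => PowerSeries.X_mul_cancel hab, ?_⟩
  have hk : ((PowerSeries.X : PowerSeries A) • (⊤ : Submodule (PowerSeries A) (PowerSeries A))) =
      RingHom.ker (PowerSeries.constantCoeff (R := A)) := by
    rw [← Submodule.ideal_span_singleton_smul, smul_eq_mul, Ideal.mul_top]
    ext f
    rw [Ideal.mem_span_singleton, RingHom.mem_ker, PowerSeries.X_dvd_iff]
  let e1 : QuotSMulTop (PowerSeries.X : PowerSeries A) (PowerSeries A) ≃ₗ[PowerSeries A]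
      PowerSeries A ⧸ RingHom.ker (PowerSeries.constantCoeff (R := A)) :=
    Submodule.quotEquivOfEq _ _ hk
  rw [e1.isWeaklyRegular_congr]
  have hs : Function.Surjective (PowerSeries.constantCoeff (R := A)) :=
    fun a => ⟨PowerSeries.C a, by simp⟩
  let e2 := (RingHom.quotientKerEquivOfSurjective hs).toAddEquiv
  refine (e2.isWeaklyRegular_congr (bs := l) ?_).2 h
  refine List.forall₂_map_left_iff.mpr <| List.forall₂_same.mpr fun r _ x => ?_
  obtain ⟨y, rfl⟩ := Ideal.Quotient.mk_surjective x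
  change PowerSeries.constantCoeff (PowerSeries.C r * y) = r * PowerSeries.constantCoeff y
  simp

open RingTheory.Sequence in
theorem QPow_congr {A A' : Type} [CommRing A] [CommRing A'] (e : A ≃+* A') (l : List A) :
    IsWeaklyRegular A l ↔ IsWeaklyRegular A' (l.map e) :=
  e.toAddEquiv.isWeaklyRegular_congr <| List.forall₂_map_right_iff.mpr <|
    List.forall₂_same.mpr fun r _ x => e.map_mul r x

open RingTheory.Sequence in
theorem QPow_mv {A : Type} [CommRing A] {l : List A} (h : IsWeaklyRegular A l) (n : ℕ) :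
    IsWeaklyRegular (MvPowerSeries (Fin n) A)
      (List.ofFn (MvPowerSeries.X : Fin n → MvPowerSeries (Fin n) A) ++
        l.map MvPowerSeries.C) := by
  induction n with
  | zero =>
    rw [QPow_congr (MvPowerSeries.isEmptyEquiv (Fin 0) A).toRingEquiv]
    convert h using 1
    rw [List.ofFn_zero, List.nil_append, List.map_map]
    conv_rhs => rw [← List.map_id l]
    refine List.map_congr_left fun a _ => ?_
    exact (MvPowerSeries.isEmptyEquiv (Fin 0) A).commutes a
  | succ n ih =>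
    rw [QPow_congr (MvPowerSeries.finSuccEquiv A n).toRingEquiv]
    refine (congrArg _ ?_).mpr (QPow_ps ih)
    rw [List.ofFn_succ, List.cons_append, List.map_cons, List.map_append, List.map_append,
      List.map_map, List.map_map, List.map_ofFn, List.map_ofFn]
    congr 1
    · simp
    · congr 1
      · congr 1
        funext j
        simp
      · refine List.map_congr_left fun a _ => ?_
        simp

theorem QPow_sp_append {B : Type} [CommRing B] {n m : ℕ} (y : Fin n → B) (z : Fin m → B) :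
    sp (Fin.append y z) = sp y ⊔ sp z := by
  rw [← HReg_ofList, List.ofFn_fin_append, Ideal.ofList_append, HReg_ofList, HReg_ofList]

theorem RegL.mvPowerSeries {A : Type} [CommRing A] [IsNoetherianRing A] [IsLocalRing A] {e : ℕ}
    {x : Fin e → A} (hx : RegL A x) (n : ℕ) :
    RegL (MvPowerSeries (Fin n) A)
      (Fin.append (fun i => MvPowerSeries.C (x i)) MvPowerSeries.X) := by
  have hm : sp (fun i => (MvPowerSeries.C (x i) : MvPowerSeries (Fin n) A)) ⊔ sp MvPowerSeries.X =
      maximalIdeal (MvPowerSeries (Fin n) A) := by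
    rw [maximalIdeal_mvPowerSeries, ← hx.max, sp_map]
  have hmax : sp (Fin.append (fun i => (MvPowerSeries.C (x i) : MvPowerSeries (Fin n) A))
      MvPowerSeries.X) = maximalIdeal (MvPowerSeries (Fin n) A) := by
    rw [QPow_sp_append, hm]
  refine ⟨?_, hmax⟩
  have h1 := QPow_mv hx.reg n
  rw [List.map_ofFn, ← List.ofFn_fin_append] at h1
  refine reg_of_rad (by omega) _ _ (fun i => hmax ▸ Ideal.subset_span ⟨i, rfl⟩) _ h1 fun i => ?_
  refine ⟨1, Ideal.mem_sup_left ?_⟩
  rw [pow_one, QPow_sp_append, sup_comm]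
  exact (QPow_sp_append _ _).le (Ideal.subset_span ⟨i, rfl⟩)

theorem regL_field (k : Type) [Field k] : RegL k (Fin.elim0 : Fin 0 → k) := by
  refine ⟨by simp, ?_⟩
  rw [maximalIdeal_eq_bot]
  simp [sp]

theorem regL_witt (p : ℕ) [Fact p.Prime] (k : Type) [Field k] [CharP k p] [PerfectRing k p] :
    RegL (WittVector p k) ![(p : WittVector p k)] := by
  refine ⟨?_, ?_⟩
  · rw [List.ofFn_succ, List.ofFn_zero, RingTheory.Sequence.isWeaklyRegular_singleton_iff]
    exact fun a b hab => mul_left_cancel₀ (WittVector.p_nonzero p k) hab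
  · rw [maximalIdeal_wittVector]
    simp [sp]

theorem regL_witt_series (p : ℕ) [Fact p.Prime] (k : Type) [Field k] [CharP k p] [PerfectRing k p]
    (n : ℕ) : RegL (MvPowerSeries (Fin n) (WittVector p k))
      (Fin.cons (p : MvPowerSeries (Fin n) (WittVector p k)) MvPowerSeries.X : Fin (n + 1) → _) := by
  have h := (regL_witt p k).mvPowerSeries n
  have e : List.ofFn (Fin.cons (p : MvPowerSeries (Fin n) (WittVector p k)) MvPowerSeries.X :
      Fin (n + 1) → _) = List.ofFn (Fin.append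
        (fun i => MvPowerSeries.C (![(p : WittVector p k)] i)) MvPowerSeries.X) := by
    rw [List.ofFn_fin_append, List.ofFn_succ, List.ofFn_succ, List.ofFn_zero]
    simp
  refine ⟨e ▸ h.reg, ?_⟩
  rw [← HReg_ofList, e, HReg_ofList, h.max]

theorem regL_field_series (k : Type) [Field k] (n : ℕ) :
    RegL (MvPowerSeries (Fin n) k) MvPowerSeries.X := by
  have h := (regL_field k).mvPowerSeries n
  have e : List.ofFn (MvPowerSeries.X : Fin n → MvPowerSeries (Fin n) k) = List.ofFn (Fin.append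
        (fun i => MvPowerSeries.C ((Fin.elim0 : Fin 0 → k) i)) MvPowerSeries.X) := by
    rw [List.ofFn_fin_append, List.ofFn_zero, List.nil_append]
  refine ⟨e ▸ h.reg, ?_⟩
  rw [← HReg_ofList, e, HReg_ofList, h.max]

theorem isAdicComplete_witt_series (p : ℕ) [Fact p.Prime] (k : Type) [Field k] [CharP k p]
    [PerfectRing k p] (n : ℕ) :
    IsAdicComplete (maximalIdeal (MvPowerSeries (Fin n) (WittVector p k)))
      (MvPowerSeries (Fin n) (WittVector p k)) := by
  have := isAdicComplete_wittVector p k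
  exact isAdicComplete_mvPowerSeries _ (Ideal.fg_of_isNoetherianRing _) _

/-- a quotient of a regular local ring by part of a regular system of parameters is a domain -/
theorem RegL.isPrime_left {B : Type} [CommRing B] [IsNoetherianRing B] [IsLocalRing B] {n m : ℕ}
    {y : Fin n → B} {z : Fin m → B} (h : RegL B (Fin.append y z)) : (sp y).IsPrime := by
  have hm := h.max
  rw [QPow_sp_append] at hm
  have hne : sp y ≠ ⊤ := fun e =>
    (maximalIdeal.isMaximal B).ne_top (top_le_iff.1 (e ▸ hm ▸ le_sup_left))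
  have := Ideal.Quotient.nontrivial_iff.2 hne
  have hl : IsLocalRing (B ⧸ sp y) :=
    IsLocalRing.of_surjective' (Ideal.Quotient.mk _) Ideal.Quotient.mk_surjective
  have h1 := reg_right_of_append y z B h.reg
  have e : (B ⧸ (sp y • ⊤ : Submodule B B)) ≃ₗ[B] B ⧸ sp y :=
    Submodule.quotEquivOfEq _ _ (by rw [smul_eq_mul, Ideal.mul_top])
  have h2 := (e.isWeaklyRegular_congr _).1 h1
  rw [← RingTheory.Sequence.isWeaklyRegular_map_algebraMap_iff (B ⧸ sp y), List.map_ofFn] at h2
  have h3 : RegL (B ⧸ sp y) fun i => Ideal.Quotient.mk (sp y) (z i) := by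
    refine ⟨h2, ?_⟩
    rw [← map_maximalIdeal_of_surjective (Ideal.Quotient.mk (sp y))
      Ideal.Quotient.mk_surjective, ← hm, Ideal.map_sup, Ideal.map_quotient_self, bot_sup_eq,
      sp_map]
  exact (Ideal.Quotient.isDomain_iff_prime _).1 h3.isDomain

theorem flat_mvPowerSeries (A : Type) [CommRing A] [IsNoetherianRing A] (n : ℕ) :
    (MvPolynomial.coeToMvPowerSeries.ringHom :
      MvPolynomial (Fin n) A →+* MvPowerSeries (Fin n) A).Flat := by
  have h : Module.Flat (MvPolynomial (Fin n) A) (MvPowerSeries (Fin n) A) :=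
    Module.Flat.of_linearEquiv (MvPowerSeries.toAdicCompletionAlgEquiv (Fin n) A).toLinearEquiv
  have e : (MvPolynomial.coeToMvPowerSeries.ringHom :
      MvPolynomial (Fin n) A →+* MvPowerSeries (Fin n) A) = algebraMap _ _ := by
    refine RingHom.ext fun p => ?_
    rw [MvPowerSeries.algebraMap_apply']
    simp
  rw [e]
  exact RingHom.flat_algebraMap_iff.2 h

theorem QPow_pow_mem {A : Type} [CommRing A] [IsLocalRing A] {n : ℕ}
    (𝔔 : Ideal (MvPowerSeries (Fin n) A)) [Module.Finite A (MvPowerSeries (Fin n) A ⧸ 𝔔)] :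
    ∃ e : ℕ, ∀ i, (MvPowerSeries.X i : MvPowerSeries (Fin n) A) ^ e ∈
      𝔔 ⊔ (maximalIdeal A).map MvPowerSeries.C := by
  set J : Ideal (MvPowerSeries (Fin n) A) := 𝔔 ⊔ (maximalIdeal A).map MvPowerSeries.C with hJ
  have hle : maximalIdeal A ≤ J.comap (algebraMap A (MvPowerSeries (Fin n) A)) :=
    Ideal.map_le_iff_le_comap.1 le_sup_right
  have h1 : Module.Finite A (MvPowerSeries (Fin n) A ⧸ J) :=
    Module.Finite.of_surjective (Ideal.Quotient.factorₐ A (le_sup_left : 𝔔 ≤ J)).toLinearMap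
      (Ideal.Quotient.factor_surjective le_sup_left)
  let _ : Algebra (A ⧸ maximalIdeal A) (MvPowerSeries (Fin n) A ⧸ J) :=
    Ideal.Quotient.algebraQuotientOfLEComap hle
  have : IsScalarTower A (A ⧸ maximalIdeal A) (MvPowerSeries (Fin n) A ⧸ J) :=
    IsScalarTower.of_algebraMap_eq fun _ => rfl
  have h2 : Module.Finite (A ⧸ maximalIdeal A) (MvPowerSeries (Fin n) A ⧸ J) :=
    Module.Finite.of_restrictScalars_finite A _ _
  let _ := Ideal.Quotient.field (maximalIdeal A)
  have h3 : IsArtinianRing (MvPowerSeries (Fin n) A ⧸ J) :=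
    IsArtinianRing.of_finite (A ⧸ maximalIdeal A) _
  obtain ⟨e, he⟩ := IsArtinianRing.isNilpotent_jacobson_bot (R := MvPowerSeries (Fin n) A ⧸ J)
  refine ⟨e, fun i => ?_⟩
  rw [← Ideal.Quotient.eq_zero_iff_mem, map_pow, ← Ideal.mem_bot, ← Ideal.zero_eq_bot, ← he]
  refine Ideal.pow_mem_pow (Ideal.mem_jacobson_bot.2 fun y => ?_) e
  obtain ⟨y, rfl⟩ := Ideal.Quotient.mk_surjective y
  have h4 : IsUnit (MvPowerSeries.X i * y + 1) := by
    rw [MvPowerSeries.isUnit_iff_constantCoeff]
    simp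
  simpa using h4.map (Ideal.Quotient.mk J)

theorem QPow_approx {P T : Type} [CommRing P] [CommRing T] (ι : P →+* T) (𝔔 : Ideal T)
    (hs : ∀ t : T, ∃ t₀ : P, t - ι t₀ ∈ 𝔔) (K : Ideal P) {u : T} (hu : u ∈ K.map ι) :
    ∃ u₀ ∈ K, u - ι u₀ ∈ K.map ι * 𝔔 := by
  have key : ∀ t : T, ∃ u₀ ∈ K, t * u - ι u₀ ∈ K.map ι * 𝔔 := by
    induction hu using Submodule.span_induction with
    | mem x hx =>
      obtain ⟨k, hk, rfl⟩ := hx
      intro t
      obtain ⟨t₀, ht⟩ := hs t
      refine ⟨t₀ * k, K.mul_mem_left _ hk, ?_⟩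
      have : t * ι k - ι (t₀ * k) = ι k * (t - ι t₀) := by
        rw [map_mul]
        ring
      rw [this]
      exact Ideal.mul_mem_mul (Ideal.mem_map_of_mem _ hk) ht
    | zero => exact fun t => ⟨0, K.zero_mem, by simp⟩
    | add x y _ _ hx hy =>
      intro t
      obtain ⟨a, ha, ha'⟩ := hx t
      obtain ⟨b, hb, hb'⟩ := hy t
      refine ⟨a + b, K.add_mem ha hb, ?_⟩
      have : t * (x + y) - ι (a + b) = (t * x - ι a) + (t * y - ι b) := by
        rw [map_add]
        ring
      rw [this]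
      exact Ideal.add_mem _ ha' hb'
    | smul c x _ hx =>
      intro t
      obtain ⟨a, ha, ha'⟩ := hx (t * c)
      exact ⟨a, ha, by rwa [smul_eq_mul, ← mul_assoc]⟩
  simpa using key 1

/-- an ideal with a finite quotient is generated by polynomials -/
theorem exists_poly_ideal {A : Type} [CommRing A] [IsNoetherianRing A] [IsLocalRing A]
    [IsAdicComplete (maximalIdeal A) A] {n : ℕ} (𝔔 : Ideal (MvPowerSeries (Fin n) A))
    [Module.Finite A (MvPowerSeries (Fin n) A ⧸ 𝔔)] :
    (𝔔.comap (MvPolynomial.coeToMvPowerSeries.ringHom :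
      MvPolynomial (Fin n) A →+* MvPowerSeries (Fin n) A)).map
        MvPolynomial.coeToMvPowerSeries.ringHom = 𝔔 ∧
    (∀ t : MvPowerSeries (Fin n) A, ∃ t₀ : MvPolynomial (Fin n) A, t - t₀ ∈ 𝔔) ∧
    ∃ e : ℕ, ∀ i, (MvPolynomial.X i : MvPolynomial (Fin n) A) ^ e ∈
      𝔔.comap (MvPolynomial.coeToMvPowerSeries.ringHom :
        MvPolynomial (Fin n) A →+* MvPowerSeries (Fin n) A) ⊔
      (maximalIdeal A).map MvPolynomial.C := by
  obtain ⟨e, he⟩ := QPow_pow_mem 𝔔
  set ι : MvPolynomial (Fin n) A →+* MvPowerSeries (Fin n) A :=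
    MvPolynomial.coeToMvPowerSeries.ringHom with hι
  have htr : ∀ (b : ℕ) (t : MvPowerSeries (Fin n) A), ∃ p : MvPolynomial (Fin n) A,
      t - ι p ∈ sp fun i => (MvPowerSeries.X i : MvPowerSeries (Fin n) A) ^ b := by
    intro b t
    obtain ⟨p, hp⟩ := Complete_trunc b t
    refine ⟨p, Complete_ps_mem_X b fun m hm => ?_⟩
    rw [map_sub, hι, MvPolynomial.coeToMvPowerSeries.ringHom_apply, MvPolynomial.coeff_coe,
      hp m hm, sub_self]
  have hs : ∀ t : MvPowerSeries (Fin n) A, ∃ t₀ : MvPolynomial (Fin n) A, t - ι t₀ ∈ 𝔔 := by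
    let f : MvPolynomial (Fin n) A →ₗ[A] MvPowerSeries (Fin n) A ⧸ 𝔔 :=
      ((Ideal.Quotient.mkₐ A 𝔔).comp (MvPolynomial.coeToMvPowerSeries.algHom A)).toLinearMap
    have hf : ∀ p, f p = Ideal.Quotient.mk 𝔔 (ι p) := fun p => by
      simp [f, hι]
    have h1 : (⊤ : Submodule A (MvPowerSeries (Fin n) A ⧸ 𝔔)) ≤ LinearMap.range f := by
      refine Submodule.le_of_le_smul_of_le_jacobson_bot (I := maximalIdeal A)
        Module.Finite.fg_top (maximalIdeal_le_jacobson _) fun z _ => ?_
      obtain ⟨t, rfl⟩ := Ideal.Quotient.mk_surjective z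
      obtain ⟨p, hp⟩ := htr e t
      have h2 : t - ι p ∈ 𝔔 ⊔ (maximalIdeal A).map MvPowerSeries.C := by
        refine (Ideal.span_le.2 ?_ : _ ≤ _) hp
        rintro _ ⟨i, rfl⟩
        exact he i
      have h3 := Ideal.mem_map_of_mem (Ideal.Quotient.mk 𝔔) h2
      rw [Ideal.map_sup, Ideal.map_quotient_self, bot_sup_eq, Ideal.map_map] at h3
      have h4 : Ideal.Quotient.mk 𝔔 (t - ι p) ∈
          (maximalIdeal A • ⊤ : Submodule A (MvPowerSeries (Fin n) A ⧸ 𝔔)) := by
        rw [Ideal.smul_top_eq_map]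
        exact h3
      have h5 : Ideal.Quotient.mk 𝔔 t = f p + Ideal.Quotient.mk 𝔔 (t - ι p) := by
        rw [hf, ← map_add]
        congr 1
        ring
      rw [h5]
      exact Submodule.add_mem_sup ⟨p, rfl⟩ h4
    intro t
    obtain ⟨p, hp⟩ := h1 (Submodule.mem_top : Ideal.Quotient.mk 𝔔 t ∈ ⊤)
    refine ⟨p, ?_⟩
    rw [← Ideal.Quotient.eq, ← hf, hp]
  refine ⟨le_antisymm Ideal.map_comap_le ?_, hs, e, fun i => ?_⟩
  · refine Submodule.le_of_le_smul_of_le_jacobson_bot
      (I := maximalIdeal (MvPowerSeries (Fin n) A)) (IsNoetherian.noetherian _)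
      (maximalIdeal_le_jacobson _) fun t ht => ?_
    obtain ⟨p, hp⟩ := htr 1 t
    have hK : (sp (MvPolynomial.X : Fin n → MvPolynomial (Fin n) A)).map ι =
        sp fun i => (MvPowerSeries.X i : MvPowerSeries (Fin n) A) ^ 1 := by
      rw [sp_map]
      congr 1
      funext i
      simp [hι]
    rw [← hK] at hp
    obtain ⟨u, -, hu⟩ := QPow_approx ι 𝔔 hs _ hp
    have hle : (sp (MvPolynomial.X : Fin n → MvPolynomial (Fin n) A)).map ι ≤
        maximalIdeal (MvPowerSeries (Fin n) A) := by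
      rw [hK, maximalIdeal_mvPowerSeries]
      simp only [pow_one]
      exact le_sup_right
    have h1 : t - ι (p + u) ∈ maximalIdeal (MvPowerSeries (Fin n) A) * 𝔔 := by
      rw [map_add, ← sub_sub]
      exact Ideal.mul_mono_left hle hu
    have h2 : ι (p + u) ∈ 𝔔 := by
      have := 𝔔.sub_mem ht (Ideal.mul_le_right h1)
      rwa [sub_sub_cancel] at this
    have h3 : t = ι (p + u) + (t - ι (p + u)) := by ring
    rw [h3]
    exact Submodule.add_mem_sup (Ideal.mem_map_of_mem _ h2) h1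
  · obtain ⟨q, hq, v, hv, hqv⟩ := Submodule.mem_sup.1 (he i)
    have hK : ((maximalIdeal A).map (MvPolynomial.C : A →+* MvPolynomial (Fin n) A)).map ι =
        (maximalIdeal A).map MvPowerSeries.C := by
      rw [Ideal.map_map]
      congr 1
      ext1 a
      simp [hι]
    rw [← hK] at hv
    obtain ⟨u, hu, hu'⟩ := QPow_approx ι 𝔔 hs _ hv
    have h1 : (MvPolynomial.X i : MvPolynomial (Fin n) A) ^ e - u ∈ 𝔔.comap ι := by
      rw [Ideal.mem_comap, map_sub, map_pow]
      have h2 : ι (MvPolynomial.X i) = MvPowerSeries.X i := by simp [hι]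
      rw [h2, ← hqv, add_sub_assoc]
      exact 𝔔.add_mem hq (Ideal.mul_le_right hu')
    have := Submodule.add_mem_sup h1 hu
    rwa [sub_add_cancel] at this

end Crest.Agent.R188
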