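import Crest.Agent.R188.BDefs
import Crest.Agent.R188.BCovAux
import Crest.Agent.R188.PTilt
import Crest.Agent.R188.PRP
import Crest.Agent.R188.PLam2
import Crest.Agent.R188.PProd
import Crest.Agent.R188.QPow
import Crest.Agent.R188.GGrow

/-!
# From covers of finite precision to the asymptotic cover
-/

set_option autoImplicit false
set_option linter.unusedVariables false
set_option linter.unusedSectionVars false

open scoped ENNReal NNReal TensorProduct

namespace Crest.Agent.R188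

open Crest.Agent.R183 IsLocalRing WittVector

variable {p : ℕ} [Fact p.Prime] {k : Type} [Field k] [CharP k p] [PerfectRing k p]

theorem BCov_sp_cons {B : Type} [CommRing B] {e : ℕ} (a : B) (u : Fin e → B) :
    sp (Fin.cons a u : Fin (e + 1) → B) = Ideal.span {a} ⊔ sp u := by
  rw [sp, Fin.range_cons, Ideal.span_insert]

theorem BCov_sp_map {B B' ι : Type} [CommRing B] [CommRing B'] (f : B →+* B') (u : ι → B) :
    (sp u).map f = sp fun i => f (u i) := by
  rw [sp, Ideal.map_span, ← Set.range_comp]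
  rfl

theorem BCov_max (n : ℕ) : maximalIdeal (WS p k n) =
    Ideal.span {(p : WS p k n)} ⊔ sp MvPowerSeries.X := by
  rw [← (regL_witt_series p k n).max, BCov_sp_cons]

theorem BCov_succ {d : WithBot ℕ∞} {a : ℕ} (h : d + 1 ≤ (a + 1 : ℕ)) : d ≤ a := by
  induction d using WithBot.recBotCoe with
  | bot => exact bot_le
  | coe d =>
    induction d using ENat.recTopCoe with
    | top => exact absurd h (by norm_cast)
    | coe d =>
      norm_cast at h ⊢
      omega

theorem BCov_dim₀ {B : Type} [CommRing B] [IsNoetherianRing B] [IsLocalRing B] {n : ℕ} {π τ w : B}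
    {z : Fin (n + 1) → B} (h : RegL B (Fin.cons π z : Fin (n + 1 + 1) → B)) (hτ : τ ∈ sp z)
    (hw : w ∉ Ideal.span {π - τ}) :
    ringKrullDim (B ⧸ (Ideal.span {π - τ} ⊔ Ideal.span {w})) ≤ n := by
  have h1 : RegL B (Fin.cons (π - τ) z : Fin (n + 1 + 1) → B) := by
    refine h.of_span _ ?_
    rw [← h.max, BCov_sp_cons, BCov_sp_cons]
    refine le_antisymm (sup_le ((Ideal.span_singleton_le_iff_mem _).2 ?_) le_sup_right)
      (sup_le ((Ideal.span_singleton_le_iff_mem _).2 ?_) le_sup_right)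
    · exact sub_mem (Ideal.mem_sup_left (Ideal.mem_span_singleton_self _)) (Ideal.mem_sup_right hτ)
    · have := add_mem (Ideal.mem_sup_left (Ideal.mem_span_singleton_self (π - τ)))
        (Ideal.mem_sup_right hτ)
      rwa [sub_add_cancel] at this
  obtain ⟨-, _, h2⟩ : IsSMulRegular B (π - τ) ∧ ∃ _ : IsLocalRing (B ⧸ Ideal.span {π - τ}),
      RegL (B ⧸ Ideal.span {π - τ}) fun i => Ideal.Quotient.mk _ (z i) := HReg_tail h1
  have := h2.isDomain
  have h4 : Ideal.Quotient.mk (Ideal.span {π - τ}) w ∈ nonZeroDivisors _ :=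
    mem_nonZeroDivisors_of_ne_zero (by rwa [Ne, Ideal.Quotient.eq_zero_iff_mem])
  have h5 := ringKrullDim_quotient_succ_le_of_nonZeroDivisor h4
  rw [h2.dim] at h5
  have e := ringKrullDim_eq_of_ringEquiv
    (DoubleQuot.quotQuotEquivQuotSup (Ideal.span {π - τ}) (Ideal.span {w}))
  rw [Ideal.map_span, Set.image_singleton] at e
  rw [← e]
  exact BCov_succ h5

theorem BCov_dim {a₀ : ℕ} (mix : Bool) {w : WS p k (a₀ + 1)}
    (hw : w ∉ Ideal.span {xi0 p k a₀ mix}) :
    ringKrullDim (WS p k (a₀ + 1) ⧸ (Ideal.span {xi0 p k a₀ mix} ⊔ Ideal.span {w})) ≤ a₀ := by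
  refine BCov_dim₀ (regL_witt_series p k (a₀ + 1)) ?_ hw
  split_ifs
  · exact Ideal.subset_span ⟨0, rfl⟩
  · exact zero_mem _

theorem BCov_sz_sp {B G : Type} [CommRing B] [Fintype G] (μ : LF B) (g : G → B) (I : Ideal B)
    (h : ∀ γ, μ.sz (Ideal.span {g γ}) I = 0) : μ.sz (sp g) I = 0 := by
  classical
  have key : ∀ T : Finset G, μ.sz (Ideal.span (g '' T)) I = 0 := by
    intro T
    induction T using Finset.induction_on with
    | empty => exact μ.sz_eq_zero_of_le (by simp)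
    | insert γ T _ ih =>
      rw [Finset.coe_insert, Set.image_insert_eq, Ideal.span_insert]
      exact le_antisymm ((μ.sz_sup_le _ _ _).trans (by rw [h, ih, add_zero])) zero_le
  simpa only [Finset.coe_univ, Set.image_univ] using key Finset.univ

theorem BCov_arith {C a : ℕ} (h : ∀ e : ℕ, (p ^ e) ^ (a + 1) ≤
    C * ((a + 1) * p ^ e + p ^ e + (a + 1) + 1) ^ a) : False := by
  have hp : p.Prime := Fact.out
  set e := C * (2 * a + 4) ^ a
  have h1 : e < p ^ e := Nat.lt_pow_self hp.one_lt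
  have h2 : 0 < p ^ e := pow_pos hp.pos e
  have h3 : (a + 1) * p ^ e + p ^ e + (a + 1) + 1 ≤ (2 * a + 4) * p ^ e := by nlinarith
  have h4 := (h e).trans (Nat.mul_le_mul_left C (Nat.pow_le_pow_left h3 a))
  rw [mul_pow, ← mul_assoc, pow_succ, mul_comm] at h4
  exact absurd (Nat.le_of_mul_le_mul_right h4 (pow_pos h2 a)) (not_le.2 h1)

theorem BCov_mass {a₀ : ℕ} {Λ O G : Type} [CommRing Λ] [IsNoetherianRing Λ] [IsLocalRing Λ]
    [CommRing O] [CharP O p] [PerfectRing O p]
    [Fintype G] {τ κ : Type} [Fintype τ] [DecidableEq τ] [Fintype κ] {g : τ → κ → O}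
    {s : Fin (a₀ + 1) → O} {Γ : (τ → ℕ) → ℕ → Ideal O} (pf : PF p g s (s 0) Γ)
    (hreg : IsSMulRegular O (s 0)) (θ₀ : Λ →+* WittVector p O) {ξ₀ : Λ} {t : O}
    (ht : t = s 0 ∨ t = 0) (hξ : θ₀ ξ₀ = p - teichmuller p t)
    (hθ₀ : (maximalIdeal Λ).map θ₀ =
      Ideal.span {(p : WittVector p O)} ⊔ sp fun i => teichmuller p (s i))
    (μ ν : LF (WittVector p O)) (hscal : Scal p (a₀ + 1) (μ.comap constantCoeff))
    (hone : (μ.comap constantCoeff).val (O ⧸ sp s) = 1) (c : O)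
    (hν : ∀ (M : Type) [AddCommGroup M] [Module (WittVector p O) M],
      μ.val (LinearMap.range (LinearMap.lsmul _ M (teichmuller p c))) ≤ ν.val M)
    (g' : G → O ≃+* O) (hg' : ∀ γ i, g' γ (s i) = s i)
    (hinv : ∀ γ, Inv μ (WittVector.map (g' γ).toRingHom)) (w₁ : Λ)
    (hw₁ : ringKrullDim (Λ ⧸ (Ideal.span {ξ₀} ⊔ Ideal.span {w₁})) ≤ a₀)
    (hmass : ∀ N : ℕ, ∃ η, μ.Null η ∧ η * θ₀ w₁ ∈ sp (fun γ => teichmuller p (g' γ c)) ⊔
      Ideal.span {θ₀ ξ₀} ⊔ Ideal.span {teichmuller p (s 0) ^ N}) :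
    (ν.comap constantCoeff).val (O ⧸ sp s) ≠ 0 := by
  intro h0
  have hd : Dist (θ₀ ξ₀) (s 0) := by
    rw [hξ]
    exact BCov_dist₁ ht
  obtain ⟨M, hM⟩ : ∃ M : Ideal (WittVector p O),
      M = Ideal.span {(p : WittVector p O)} ⊔ sp fun i => teichmuller p (s i) := ⟨_, rfl⟩
  have hMθ : (maximalIdeal Λ).map θ₀ = M := hθ₀.trans hM.symm
  have hcc : ∀ l : LF (WittVector p O), l.sz ⊤ M = (l.comap constantCoeff).val (O ⧸ sp s) := by
    intro l
    have h1 := sz_map_of_surjective l constantCoeff (constantCoeff_surjective p) ⊤ M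
    have h2 : M.map (constantCoeff : WittVector p O →+* O) = sp s := by
      rw [hM, Ideal.map_sup, Ideal.map_span, Set.image_singleton, map_natCast, BCov_sp_map,
        CharP.cast_eq_zero, Ideal.span_singleton_zero, bot_sup_eq]
      rfl
    have h3 : M ⊔ RingHom.ker (constantCoeff : WittVector p O →+* O) = M := by
      rw [ker_constantCoeff, sup_eq_left, hM]
      exact le_sup_left
    rw [Ideal.map_top, h2, h3, top_sup_eq] at h1
    rw [← h1]
    exact LF.sz_top _ _
  have hup : ∀ (l : LF (WittVector p O)) (J : Ideal Λ) (N : ℕ),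
      l.sz ⊤ (J.map θ₀ ⊔ M ^ N) ≤
        (LF.length _).sz ⊤ (J ⊔ maximalIdeal _ ^ N) * (l.comap constantCoeff).val (O ⧸ sp s) := by
    intro l J N
    have h1 := sz_smul_le θ₀ l ⊤ (J ⊔ maximalIdeal _ ^ N)
      ⟨N, by rw [Ideal.mul_top]; exact le_sup_right⟩ (⊤ : Ideal (WittVector p O))
    simp only [Ideal.smul_eq_mul, Ideal.mul_top, Ideal.map_top, Ideal.map_sup, Ideal.map_pow,
      hMθ, hcc] at h1
    exact h1
  obtain ⟨C, hC⟩ := growth_le _ _ a₀ hw₁ Λ
  -- the upper bound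
  have upper : ∀ N : ℕ, μ.sz ⊤ (Ideal.span {θ₀ ξ₀} ⊔ M ^ N) ≤
      (C * (N + 1) ^ a₀ : ℕ) := by
    intro N
    obtain ⟨I, hI⟩ : ∃ I : Ideal (WittVector p O),
      I = Ideal.span {θ₀ ξ₀} ⊔ M ^ N := ⟨_, rfl⟩
    have h1 : ν.sz ⊤ I = 0 := by
      have := hup ν (Ideal.span {ξ₀}) N
      rw [h0, mul_zero, Ideal.map_span, Set.image_singleton, ← hI] at this
      exact le_antisymm this zero_le
    have h2 : μ.sz (Ideal.span {teichmuller p c}) I = 0 := by
      refine le_antisymm (le_trans ?_ ((hν (WittVector p O ⧸ I)).trans_eq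
        ((ν.sz_top I).symm.trans h1))) zero_le
      rw [LF.LFrange_lsmul_quot]
      refine μ.sz_mono ((Ideal.span_singleton_le_iff_mem _).2 ⟨1, ?_⟩) le_rfl
      simp
    have h3 : ∀ γ, μ.sz (Ideal.span {teichmuller p (g' γ c)}) I = 0 := by
      intro γ
      have e1 : ∀ x, BCov_W p (g' γ) (teichmuller p x) = teichmuller p (g' γ x) := fun x =>
        WittVector.map_teichmuller _ _ _
      have e2 : M.map (BCov_W p (g' γ)) = M := by
        rw [hM, Ideal.map_sup, Ideal.map_span, Set.image_singleton, map_natCast, sp, Ideal.map_span,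
          ← Set.range_comp]
        congr 3
        funext i
        rw [Function.comp_apply, e1, hg']
      have e3 : g' γ t = t := by
        rcases ht with rfl | rfl
        · exact hg' γ 0
        · exact map_zero _
      have e4 : I.map (BCov_W p (g' γ)) = I := by
        rw [hI, Ideal.map_sup, Ideal.map_pow, e2, Ideal.map_span, Set.image_singleton, hξ, map_sub,
          map_natCast, e1, e3]
      have := Inv.sz_map (g := BCov_W p (g' γ)) (hinv γ) (Ideal.span {teichmuller p c}) I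
      rwa [e4, Ideal.map_span, Set.image_singleton, e1, h2] at this
    have h4 : μ.sz (Ideal.span {θ₀ w₁}) I = 0 := by
      obtain ⟨η, hη, hw⟩ := hmass N
      have h5 : μ.sz (Ideal.span {θ₀ w₁}) (sp (fun γ => teichmuller p (g' γ c)) ⊔ I) = 0 := by
        refine μ.sz_eq_zero_of_smul hη fun x hx => ?_
        obtain ⟨z, rfl⟩ := Ideal.mem_span_singleton'.1 hx
        rw [smul_eq_mul, mul_left_comm]
        refine Ideal.mul_mem_left _ _ (SetLike.le_def.1 ?_ hw)
        rw [sup_assoc, hI]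
        refine sup_le_sup_left (sup_le_sup_left ((Ideal.span_singleton_le_iff_mem _).2 ?_) _) _
        refine Ideal.pow_mem_pow ?_ N
        rw [hM]
        exact Ideal.mem_sup_right (Ideal.subset_span ⟨0, rfl⟩)
      refine le_antisymm ((μ.sz_le_of_null_left h5 I).trans ?_) zero_le
      rw [μ.sz_sup_left, BCov_sz_sp μ _ I h3]
    have h6 := hup μ (Ideal.span {ξ₀} ⊔ Ideal.span {w₁}) N
    rw [hone, mul_one, Ideal.map_sup, Ideal.map_span, Set.image_singleton, Ideal.map_span,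
      Set.image_singleton, sup_right_comm, ← hI, sup_comm, LF.sz_top, LF.sz_top,
      LF.length_val] at h6
    have h7 := hC N
    rw [Ideal.smul_eq_mul, Ideal.mul_top] at h7
    rw [← hI]
    refine (μ.sz_triangle _ (Ideal.span {θ₀ w₁} ⊔ I) _).trans ?_
    rw [μ.sz_sup_left, h4, add_zero, LF.sz_top]
    refine h6.trans ?_
    exact_mod_cast h7
  -- the lower bound
  have lower : ∀ e : ℕ, ((p : ℝ≥0∞) ^ e) ^ (a₀ + 1) ≤ μ.sz ⊤ (Ideal.span {θ₀ ξ₀} ⊔
      M ^ ((a₀ + 1) * p ^ e + p ^ e + (a₀ + 1))) := by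
    intro e
    obtain ⟨N, hN⟩ : ∃ N, N = (a₀ + 1) * p ^ e + p ^ e + (a₀ + 1) := ⟨_, rfl⟩
    have hΓ : Γ 0 1 ^ N ≤ Γ 0 N := by simpa using pf.PRP_pow_le N 0 1
    have h1 := hd.sz_eq hreg Cvx.top (pf.cvx 0 N) ⟨0, trivial⟩
      ⟨N, hΓ (Ideal.pow_mem_pow (pf.smem 0) N)⟩ μ
    have h2 : Γ 0 N ≤ (sp s).map (iterateFrobenius O p e) := by
      rw [hN, BCov_sp_map]
      refine (pf.le_pow_mul 0 _).trans (Ideal.mul_le_left.trans ?_)
      exact (PRP_pigeon s (pow_pos (Fact.out : p.Prime).pos e) (by simp)).trans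
        Ideal.mul_le_left
    have h3 := hscal.sz_map e ⊤ (sp s)
    rw [Ideal.map_top, LF.sz_top _ (sp s), hone, mul_one] at h3
    have h4 : M ≤ WI p (Γ 0 1) ⊔ Ideal.span {θ₀ ξ₀} := by
      rw [hM]
      refine sup_le ((Ideal.span_singleton_le_iff_mem _).2 ?_) (Ideal.span_le.2 ?_)
      · have e1 : (p : WittVector p O) = teichmuller p t + θ₀ ξ₀ := by
          rw [hξ, add_sub_cancel]
        rw [e1]
        refine add_mem (Ideal.mem_sup_left (teich_mem_WI ?_))
          (Ideal.mem_sup_right (Ideal.mem_span_singleton_self _))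
        rcases ht with rfl | rfl
        · exact pf.smem 0
        · exact zero_mem _
      · rintro _ ⟨i, rfl⟩
        exact Ideal.mem_sup_left (teich_mem_WI (pf.smem i))
    have h5 : ∀ n : ℕ, M ^ n ≤ WI p (Γ 0 n) ⊔ Ideal.span {θ₀ ξ₀} := by
      intro n
      induction n with
      | zero => rw [pf.top, WI_top, top_sup_eq]; exact le_top
      | succ n ih =>
        rw [pow_succ]
        refine (Ideal.mul_mono ih h4).trans ?_
        rw [Ideal.sup_mul, Ideal.mul_sup]
        refine sup_le (sup_le (le_sup_of_le_left ?_) (le_sup_of_le_right Ideal.mul_le_right))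
          (le_sup_of_le_right Ideal.mul_le_left)
        exact (WI_mul_le _ _).trans (WI_mono (by simpa using pf.mul 0 0 n 1))
    rw [← hN, ← h3]
    refine ((μ.comap constantCoeff).sz_mono le_rfl h2).trans (h1.symm.trans_le ?_)
    exact μ.sz_mono le_top (sup_le le_sup_right (h5 N))
  refine BCov_arith (p := p) (C := C) (a := a₀) fun e => ?_
  exact_mod_cast (lower e).trans (upper _)

/-- the mass of the distinguished component is positive -/
theorem mass_pos {a₀ : ℕ} {mix : Bool} {O G : Type} [CommRing O] [CharP O p] [PerfectRing O p]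
    [Fintype G] {τ κ : Type} [Fintype τ] [DecidableEq τ] [Fintype κ] {g : τ → κ → O}
    {s : Fin (a₀ + 1) → O} {Γ : (τ → ℕ) → ℕ → Ideal O} (pf : PF p g s (s 0) Γ)
    (hreg : IsSMulRegular O (s 0)) (θ₀ : WS p k (a₀ + 1) →+* WittVector p O)
    (hθ₀ : ∀ i, θ₀ (MvPowerSeries.X i) = teichmuller p (s i)) (μ ν : LF (WittVector p O))
    (hscal : Scal p (a₀ + 1) (μ.comap constantCoeff))
    (hone : (μ.comap constantCoeff).val (O ⧸ sp s) = 1) (c : O)
    (hν : ∀ (M : Type) [AddCommGroup M] [Module (WittVector p O) M],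
      μ.val (LinearMap.range (LinearMap.lsmul _ M (teichmuller p c))) ≤ ν.val M)
    (g' : G → O ≃+* O) (hg' : ∀ γ i, g' γ (s i) = s i)
    (hinv : ∀ γ, Inv μ (WittVector.map (g' γ).toRingHom)) (w₁ : WS p k (a₀ + 1))
    (hw₁ : w₁ ∉ Ideal.span {xi0 p k a₀ mix})
    (hmass : ∀ N : ℕ, ∃ η, μ.Null η ∧ η * θ₀ w₁ ∈ sp (fun γ => teichmuller p (g' γ c)) ⊔
      Ideal.span {θ₀ (xi0 p k a₀ mix)} ⊔ Ideal.span {teichmuller p (s 0) ^ N}) :
    (ν.comap constantCoeff).val (O ⧸ sp s) ≠ 0 := by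
  refine BCov_mass pf hreg θ₀ (BCov_ite mix (s 0)) (BCov_xi0 mix θ₀ (hθ₀ 0)) ?_ μ ν hscal hone c hν
    g' hg' hinv w₁ (BCov_dim mix hw₁) hmass
  rw [BCov_max, Ideal.map_sup, Ideal.map_span, Set.image_singleton, map_natCast, BCov_sp_map]
  simp only [hθ₀]

section cover

variable {D : ℕ → Type} [∀ b, CommRing (D b)] [∀ b, CharP (D b) p] [∀ b, PerfectRing (D b) p]
  [CharP (∀ b, D b) p] [PerfectRing (∀ b, D b) p]

theorem BCov_W_pi (g : ∀ b, D b ≃+* D b) (b : ℕ) (x : WittVector p (∀ b, D b)) :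
    WittVector.map (Pi.evalRingHom D b) (BCov_W p (RingEquiv.piCongrRight g) x) =
      WittVector.map (g b).toRingHom (WittVector.map (Pi.evalRingHom D b) x) := by
  ext n
  simp only [BCov_W_apply, WittVector.map_coeff]
  rfl

theorem BCov_rt_apply (e : ℕ) (x : ∀ b, D b) (b : ℕ) : rt p e x b = rt p e (x b) :=
  BCov_map_rt (Pi.evalRingHom D b) e x

/-- the length function on the Witt vectors of the product -/
theorem BCov_lf {a : ℕ} (s : Fin a → ∀ b, D b) (μ : ∀ b, LF (D b)) (h₁ : ∀ b, Scal p a (μ b))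
    (h₂ : ∀ b, (μ b).val (D b ⧸ sp fun i => s i b) = 1) :
    ∃ μ' : LF (WittVector p (∀ b, D b)), Scal p a (μ'.comap constantCoeff) ∧
      (μ'.comap constantCoeff).val ((∀ b, D b) ⧸ sp s) = 1 ∧
      (∀ b₀ : ℕ, μ'.Null (teichmuller p fun b => if b < b₀ then 0 else 1)) ∧
      ∀ g : ∀ b, D b ≃+* D b, (∀ b, Inv (μ b) (g b).toRingHom) →
        Inv μ' (WittVector.map (RingEquiv.piCongrRight g).toRingHom) := by
  obtain ⟨μ₁, a₁, a₂, a₃⟩ := exists_lf_pi D μ
  obtain ⟨μ₂, b₁, b₂, b₃⟩ := exists_lf_witt (p := p) μ₁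
  have e : μ₂.comap constantCoeff = μ₁ := BCov_ext b₁
  refine ⟨μ₂, ?_, ?_, fun b₀ => b₂ _ (a₁ b₀), fun g hg => b₃ _ fun M _ _ => ?_⟩
  · rw [e]
    exact a₂ (fun b => frobenius (D b) p) (frobenius _ p) _ (fun _ _ => rfl) h₁
      (ENNReal.pow_ne_top (ENNReal.natCast_ne_top p))
  · rw [e]
    refine a₃ _ _ fun b => ?_
    rw [BCov_sp_map]
    exact h₂ b
  · rw [a₂ (fun b => (g b).toRingHom) (RingEquiv.piCongrRight g).toRingHom 1 (fun _ _ => rfl)
      (fun b M _ _ => by rw [one_mul, hg b M]) ENNReal.one_ne_top M, one_mul]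

/-- almost acyclicity of the Koszul complex of the product -/
theorem BCov_ak {a : ℕ} (s : Fin a → ∀ b, D b) (c : ∀ b, D b) (n : ℤ)
    (h : ∀ b (x : KI a → D b), (K (fun i => s i b) (DG.single _ (D b))).π n x = x →
      (K (fun i => s i b) (DG.single _ (D b))).D x = 0 →
      ∃ y, (K (fun i => s i b) (DG.single _ (D b))).D y = c b • x)
    (x : (kos s).ι → ∀ b, D b) (hx : x ∈ (K s (DG.single _ (∀ b, D b))).Z n ⊤ ⊥) :
    c • x ∈ (K s (DG.single _ (∀ b, D b))).Bd ⊤ ⊥ := by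
  obtain ⟨⟨-, h1⟩, h2⟩ := (DG.mem_Z _).1 hx
  replace h2 : (kmat a s).mulVec x = 0 := (PRP_D s x).symm.trans ((Submodule.mem_bot _).1 h2)
  replace h1 := (PRP_π s n x).1 h1
  have h3 : ∀ b, ∃ y : KI a → D b,
      (kmat a fun i => s i b).mulVec y = c b • fun i => x i b := by
    intro b
    obtain ⟨y, hy⟩ := h b (fun i => x i b) ((PRP_π _ _ _).2 fun i hi => congrFun (h1 i hi) b) (by
      rw [PRP_D]
      funext i
      exact (PRP_map_D (Pi.evalRingHom D b) s x i).symm.trans (congrFun (congrFun h2 i) b))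
    exact ⟨y, (PRP_D _ _).symm.trans hy⟩
  choose y hy using h3
  have h4 : (K s (DG.single _ (∀ b, D b))).D (fun i b => y b i) = c • x := by
    refine (PRP_D s _).trans ?_
    funext i b
    exact (PRP_map_D (Pi.evalRingHom D b) s (fun i b => y b i) i).trans (congrFun (hy b) i)
  rw [← h4]
  exact DG.D_mem_Bd _ _ trivial

/-- a null element which is a root of `c` at all large levels -/
theorem BCov_eta (c : ∀ b, D b) (good : ℕ → ℕ → Prop)
    (h : ∀ k, ∃ e b₀, k ≤ e ∧ ∀ b, b₀ ≤ b → good b e) :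
    ∃ η : ∀ b, D b, (∀ b, η b = 0 ∨ ∃ e, good b e ∧ η b = rt p e (c b)) ∧
      ∀ k, ∃ b₀ : ℕ, η ∣ (fun b => if b < b₀ then 0 else 1) * rt p k c := by
  classical
  refine ⟨fun b => if good b (Nat.findGreatest (good b) b) then
    rt p (Nat.findGreatest (good b) b) (c b) else 0, fun b => ?_, fun k => ?_⟩
  · by_cases hb : good b (Nat.findGreatest (good b) b)
    · exact Or.inr ⟨_, hb, if_pos hb⟩
    · exact Or.inl (if_neg hb)
  · obtain ⟨e, b₀, hk, he⟩ := h k
    refine ⟨max e b₀, ?_⟩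
    have key : ∀ b, ∃ z : D b, (if b < max e b₀ then 0 else 1) * rt p k (c b) =
        (if good b (Nat.findGreatest (good b) b) then
          rt p (Nat.findGreatest (good b) b) (c b) else 0) * z := by
      intro b
      by_cases hb : b < max e b₀
      · exact ⟨0, by rw [if_pos hb, zero_mul, mul_zero]⟩
      · have h1 : e ≤ b := (le_max_left _ _).trans (not_lt.1 hb)
        have h2 : good b e := he b ((le_max_right _ _).trans (not_lt.1 hb))
        rw [if_neg hb, one_mul, if_pos (Nat.findGreatest_spec h1 h2)]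
        exact BCov_rt_dvd (hk.trans (Nat.le_findGreatest h1 h2)) _
    choose z hz using key
    refine ⟨z, funext fun b => ?_⟩
    rw [Pi.mul_apply, BCov_rt_apply]
    exact hz b

end cover

theorem Base.cov_of_pre (X : Base p k) (h : ∀ K, Nonempty (Pre X K)) : Nonempty (Cov X) := by
  classical
  obtain ⟨P⟩ : Nonempty (∀ b : ℕ, Pre X (X.K₀ + 2 + b)) := ⟨fun b => Classical.choice (h _)⟩
  have hK : ∀ b, 2 ≤ X.K₀ + 2 + b := fun b => by omega
  let D : ℕ → Type := fun b => PerfectClosure (P b).C p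
  let _ : CharP (∀ b, D b) p := BCov_charP
  let _ : PerfectRing (∀ b, D b) p := BCov_perfect
  have hπ := BCov_piW (p := p) (D := D)
  obtain ⟨s, hs⟩ : ∃ s : Fin (X.a₀ + 1) → ∀ b, D b,
    ∀ i b, s i b = PerfectClosure.of (P b).C p ((P b).s i) := ⟨fun i b => _, fun _ _ => rfl⟩
  obtain ⟨c, hc⟩ : ∃ c : ∀ b, D b,
    ∀ b, c b = PerfectClosure.of (P b).C p (P b).c := ⟨fun b => _, fun _ => rfl⟩
  obtain ⟨β, hβ⟩ : ∃ β : Fin (2 * X.m + 1) → X.J → ∀ b, D b,
    ∀ i j b, β i j b = PerfectClosure.of (P b).C p ((P b).β i j) :=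
    ⟨fun i j b => _, fun _ _ _ => rfl⟩
  have hts : ∀ b i, WittVector.map (Pi.evalRingHom D b) (teichmuller p (s i)) =
      tw p ((P b).s i) := fun b i => by
    rw [WittVector.map_teichmuller, Pi.evalRingHom_apply, hs]
  have htβ : ∀ b i j, WittVector.map (Pi.evalRingHom D b) (teichmuller p (β i j)) =
      tw p ((P b).β i j) := fun b i j => by
    rw [WittVector.map_teichmuller, Pi.evalRingHom_apply, hβ]
  have hreg : IsSMulRegular (∀ b, D b) (s 0) := fun x y hxy => funext fun b =>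
    perf_reg (p := p) (P b).reg (by rw [← hs]; exact congrFun hxy b)
  have hjac : ∀ z, IsUnit (1 + s 0 * z) := fun z => Pi.isUnit_iff.2 fun b => by
    rw [Pi.add_apply, Pi.mul_apply, hs]
    exact perf_jac ((P b).smem 0) (z b)
  choose Γ hΓ using fun b => exists_pf (p := p)
    (fun i (j : Option X.J) => j.elim ((P b).s 0 ^ X.K₀) ((P b).β i)) (P b).s (Nat.succ_pos _)
    (P b).reg fun t => ⟨X.K₀, Ideal.subset_span ⟨none, rfl⟩⟩
  have pf := PF.pi (p := p) (O := D) (g := fun i (j : Option X.J) => j.elim (s 0 ^ X.K₀) (β i))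
    (s := s) (ϖ := s 0) (Γ := Γ) fun b => by
      convert hΓ b using 1
      · funext i j
        cases j with
        | none => simp only [Option.elim_none, Pi.pow_apply, hs, map_pow]
        | some j => simp only [Option.elim_some, hβ]
      · funext i
        exact hs i b
      · exact hs 0 b
  obtain ⟨θ, hθ⟩ := hπ.hom fun b => (P b).θ
  obtain ⟨θ₀, hθ₀⟩ := hπ.hom fun b => (P b).θ₀
  have hθX : ∀ i, θ₀ (MvPowerSeries.X i) = teichmuller p (s i) := fun i =>
    hπ.ext _ _ fun b => by rw [hθ₀, (P b).hθ₀, hts]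
  have hJK : ∀ {x : WittVector p (∀ b, D b)} {N : ℕ}, N ≤ X.K₀ + 2 →
      (∀ b, WittVector.map (Pi.evalRingHom D b) x ∈ (P b).JK) →
      x ∈ Ideal.span {θ X.ξ} ⊔ Ideal.span {teichmuller p (s 0) ^ N} := by
    intro x N hN hx
    refine hπ.mem₂ fun b => ?_
    rw [hθ, map_pow, hts]
    exact (P b).BCov_le (hK b) (hN.trans (Nat.le_add_right _ _)) (hx b)
  have hsT : ∀ i {N : ℕ}, N ≤ X.K₀ + 2 → θ (X.sT i) - teichmuller p (s i) ^ X.q₀ ∈
      Ideal.span {θ X.ξ} ⊔ Ideal.span {teichmuller p (s 0) ^ N} := fun i N hN =>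
    hJK hN fun b => by
      rw [map_sub, map_pow, hθ, hts]
      exact (P b).hsT i
  have hdist : Dist (θ X.ξ) (s 0) := by
    choose u v huv _ using fun b => (P b).BCov_uv (hK b)
    obtain ⟨u', hu⟩ := hπ.unit u
    obtain ⟨v', hv⟩ := hπ.unit v
    refine ⟨v', if X.mix then s 0 else 0, BCov_ite _ _, ?_⟩
    rw [← Ideal.span_singleton_mul_left_unit u'.isUnit ((p : WittVector p (∀ b, D b)) * _ - _)]
    congr 2
    refine hπ.ext _ _ fun b => ?_
    rw [hθ, huv, map_mul, map_sub, map_mul, hu, hv, map_natCast, WittVector.map_teichmuller]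
    congr 3
    unfold Pre.BCov_t
    split_ifs
    · exact (hs 0 b).symm
    · rfl
  have hϖ : ∃ u : (WittVector p (∀ b, D b))ˣ,
      θ (X.sT 0) - u * teichmuller p (s 0) ^ X.q₀ ∈ Ideal.span {θ X.ξ} := by
    have h1 : X.q₀ + 1 ≤ X.K₀ + 2 := by
      have : X.q₀ ≤ X.K₀ := Nat.le_mul_of_pos_right _ (Nat.succ_pos _)
      omega
    obtain ⟨y, z, hyz⟩ := BCov_mem₂.1 (hsT 0 h1)
    have h2 : IsUnit (1 + teichmuller p (s 0) * z) := isUnit_of_cc (by
      rw [map_add, map_one, map_mul]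
      exact hjac _)
    refine ⟨h2.unit, Ideal.mem_span_singleton'.2 ⟨y, ?_⟩⟩
    rw [IsUnit.unit_spec]
    linear_combination -hyz
  choose μ₀ hμ₁ hμ₂ hμ₃ using fun b => exists_lf_perf p k (X.a₀ + 1) (P b).C (P b).inj
  obtain ⟨μ, hscal, hone, hnull, hinv⟩ := BCov_lf (p := p) (D := D) s μ₀ hμ₁ fun b => by
    have e : (fun i => s i b) = fun i => PerfectClosure.of (P b).C p
        (algebraMap (MvPowerSeries (Fin (X.a₀ + 1)) k) (P b).C (MvPowerSeries.X i)) :=
      funext fun i => by rw [hs, (P b).hs]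
    rw [e]
    exact hμ₃ b
  obtain ⟨ν, hν⟩ : ∃ ν, BCov_Kill μ ν fun k => teichmuller p (rt p k c) :=
    exists_lf_kill μ _ fun k => by
      rw [← map_pow]
      exact map_dvd _ (BCov_rt_sq k c)
  have hνO : BCov_Kill (μ.comap constantCoeff) (ν.comap constantCoeff) fun k => rt p k c :=
    hν.comap constantCoeff
  obtain ⟨ψ, hψ⟩ := hπ.hom_quot (fun b => (P b).𝔍) fun b => (P b).ψ
  have hg𝔍 : ∀ γ, (⨅ b, (P b).𝔍.comap (WittVector.map (Pi.evalRingHom D b))) =
      (⨅ b, (P b).𝔍.comap (WittVector.map (Pi.evalRingHom D b))).map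
        (BCov_W p (RingEquiv.piCongrRight (R := D) (S := D) fun b => (P b).g γ) :
          WittVector p (∀ b, D b) →+* WittVector p (∀ b, D b)) := by
    intro γ
    have key : ∀ x, BCov_W p (RingEquiv.piCongrRight (R := D) (S := D) fun b => (P b).g γ) x ∈
        (⨅ b, (P b).𝔍.comap (WittVector.map (Pi.evalRingHom D b))) ↔
        x ∈ ⨅ b, (P b).𝔍.comap (WittVector.map (Pi.evalRingHom D b)) := by
      intro x
      simp only [Ideal.mem_iInf, Ideal.mem_comap, BCov_W_pi]
      exact forall_congr' fun b => (P b).hg𝔍 γ _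
    refine le_antisymm (fun x hx => ?_) (Ideal.map_le_iff_le_comap.2 fun x hx => (key x).2 hx)
    obtain ⟨x, rfl⟩ :=
      (BCov_W p (RingEquiv.piCongrRight (R := D) (S := D) fun b => (P b).g γ)).surjective x
    exact Ideal.mem_map_of_mem _ ((key x).1 hx)
  have hsc : s 0 ∣ c := by
    choose z hz using fun b => (P b).hc
    refine ⟨fun b => PerfectClosure.of (P b).C p (z b), funext fun b => ?_⟩
    rw [Pi.mul_apply, hs, hc, hz, map_mul]
  refine ⟨{
    O := ∀ b, D b
    s := s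
    reg := hreg
    jac := hjac
    β := β
    Γ := _
    pf := pf
    θ := θ
    θ₀ := θ₀
    hθ₀ := hθX
    hθι := fun a => hπ.ext _ _ fun b => by rw [hθ₀, hθ, (P b).hθι]
    dist := hdist
    hϖ := hϖ
    hH := fun t ht => hJK (Nat.le_add_right _ _) fun b => by
      rw [hθ]
      exact (P b).hH t ht
    hβ := fun i j t ht => hJK (Nat.le_add_right _ _) fun b => by
      rw [map_sub, hθ, htβ]
      exact (P b).hβ i j t ht
    hsT := fun i => hsT i (Nat.le_add_right _ _)
    ν := ν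
    𝔍 := ⨅ b, (P b).𝔍.comap (WittVector.map (Pi.evalRingHom D b))
    h𝔍 := fun N => ?_
    ψ := ψ
    hψ := fun t => (hψ _ _).2 fun b => by rw [hθ, (P b).hψ]
    hψ₀ := fun t => (hψ _ _).2 fun b => by rw [hθ₀, (P b).hψ₀]
    hψβ := fun i j => (hψ _ _).2 fun b => ?_
    g := fun γ => Ideal.quotientEquiv _ _ _ (hg𝔍 γ)
    hg := fun γ y => ?_
    inv := fun γ => ?_
    scal := hνO.scal hscal
    tight := hνO.tight hsc
    ak := fun n hn => hνO.sz_zero fun e x hx => ?_
    r_ne_top := ne_top_of_le_ne_top ENNReal.one_ne_top ((hνO.le _).trans_eq hone)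
    r_ne_zero := ?_ }⟩
  · obtain ⟨η, h1, h2⟩ := BCov_eta (p := p) (D := D) c
      (fun b e => X.mP ≤ p ^ e ∧ N * p ^ e ≤ X.K₀ + 2 + b) fun e =>
        ⟨e + X.mP, N * p ^ (e + X.mP), Nat.le_add_right _ _, fun b hb =>
          ⟨(Nat.le_add_left _ e).trans (Nat.lt_pow_self (Fact.out : p.Prime).one_lt).le,
            hb.trans (Nat.le_add_left _ _)⟩⟩
    refine ⟨teichmuller p η, hν.null fun e => ?_, fun x hx => hπ.mem₂ fun b => ?_⟩
    · obtain ⟨b₀, hb⟩ := h2 e
      refine ⟨_, hnull b₀, ?_⟩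
      rw [← map_mul]
      exact map_dvd _ hb
    · rw [hθ, map_pow, hts, map_mul, WittVector.map_teichmuller, Pi.evalRingHom_apply]
      rcases h1 b with h0 | ⟨e, ⟨h3, h4⟩, h0⟩
      · rw [h0, teichmuller_zero, zero_mul]
        exact zero_mem _
      · rw [h0, hc]
        exact (P b).BCov_root (hK b) h3 h4 (Ideal.mem_iInf.1 hx b)
  · obtain ⟨t, ht⟩ := X.hπ (X.β i j)
    rw [htβ, ← ht, (P b).hψ]
    exact Ideal.Quotient.eq.2 ((P b).le𝔍 ((P b).hβ i j t ht))
  · obtain ⟨x, hx⟩ := Ideal.Quotient.mk_surjective (ψ y)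
    rw [← hx, Ideal.quotientEquiv_mk]
    refine ((hψ _ _).2 fun b => ?_).symm
    rw [BCov_W_pi]
    exact (P b).hgψ γ y _ ((hψ _ _).1 hx.symm b)
  · refine BCov_inv_quot
      (g := BCov_W p (RingEquiv.piCongrRight (R := D) (S := D) fun b => (P b).g γ))
      (hν.inv (hinv _ fun b => hμ₂ b _ ((P b).hg γ)) fun e => ?_) _ fun _ => rfl
    rw [BCov_W_hom, WittVector.map_teichmuller, BCov_map_rt]
    congr 2
    funext b
    change (P b).g γ (c b) = c b
    rw [hc, (P b).hgc]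
  · refine BCov_ak (D := D) s (rt p e c) n (fun b y h1 h2 => ?_) x hx
    have e1 : (fun i => s i b) = fun i => PerfectClosure.of (P b).C p ((P b).s i) :=
      funext fun i => hs i b
    rw [BCov_rt_apply, hc]
    rw [e1] at h1 h2 ⊢
    exact perf_ak (P b).s (P b).c (P b).ak e n hn y h1 h2
  · refine mass_pos pf hreg θ₀ hθX μ ν hscal hone c (fun M _ _ => ?_)
      (fun γ => RingEquiv.piCongrRight (R := D) (S := D) fun b => (P b).g' γ) (fun γ i => ?_)
      (fun γ => hinv _ fun b => hμ₂ b _ ((P b).hg' γ)) X.w₁ X.hw₁ fun N => ⟨_, hnull N, ?_⟩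
    · have := hν.ge M 0
      rwa [BCov_rt_zero] at this
    · funext b
      change (P b).g' γ (s i b) = s i b
      rw [hs, (P b).hs, (P b).hg']
    · refine hπ.mem₃ fun b => ?_
      rw [map_mul, WittVector.map_teichmuller, Pi.evalRingHom_apply]
      by_cases hb : b < N
      · rw [if_pos hb, teichmuller_zero, zero_mul]
        exact zero_mem _
      · refine Ideal.mul_mem_left _ _ ?_
        have h1 := (P b).BCov_le₀ (N := N) (by omega)
        rw [← BCov_xi0 X.mix (P b).θ₀ ((P b).hθ₀ 0)] at h1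
        rw [hθ₀, hθ₀, map_pow, hts, sup_assoc]
        refine sup_le_sup (le_of_eq ?_) h1 (P b).mass
        congr 2
        funext γ
        rw [WittVector.map_teichmuller, ← hc]
        rfl

end Crest.Agent.R188
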