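import Crest.Agent.R188.GMar

/-!
# Perfect rings: convex ideals, their Witt ideals, real powers, scaling length functions
-/

set_option autoImplicit false

open scoped ENNReal NNReal TensorProduct

namespace Crest.Agent.R188

open Crest.Agent.R183 WittVector

/-- convex ideals -/
def Cvx (p : ℕ) {O : Type} [CommRing O] (𝔞 : Ideal O) : Prop :=
  ∀ (n : ℕ) (z : O), z ^ p ^ n ∈ 𝔞 ^ p ^ n → z ∈ 𝔞

/-- the closed ideal generated by the Teichmüller lifts of the elements of `𝔞` -/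
noncomputable def WI (p : ℕ) [Fact p.Prime] {O : Type} [CommRing O] (𝔞 : Ideal O) :
    Ideal (WittVector p O) :=
  ⨅ n : ℕ, Ideal.span (teichmuller p '' (𝔞 : Set O)) ⊔ Ideal.span {(p : WittVector p O) ^ n}

/-- `ξ` generates the same ideal as `p u - [t]` with `t = ϖ` or `t = 0` -/
def Dist {p : ℕ} [Fact p.Prime] {O : Type} [CommRing O] (ξ : WittVector p O) (ϖ : O) : Prop :=
  ∃ (u : (WittVector p O)ˣ) (t : O), (t = ϖ ∨ t = 0) ∧
    Ideal.span {ξ} = Ideal.span {(p : WittVector p O) * u - teichmuller p t}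

/-- the `p ^ e`-th root -/
noncomputable abbrev rt (p : ℕ) {O : Type} [CommRing O] [ExpChar O p] [PerfectRing O p] (e : ℕ)
    (x : O) : O := (iterateFrobeniusEquiv O p e).symm x

/-- `μ` is invariant under `g` -/
def Inv {B : Type} [CommRing B] (μ : LF B) (g : B →+* B) : Prop :=
  ∀ (M : Type) [AddCommGroup M] [Module B M], (μ.comap g).val M = μ.val M

/-- Frobenius multiplies `μ` by `p ^ a` -/
def Scal (p a : ℕ) {O : Type} [CommRing O] [ExpChar O p] (μ : LF O) : Prop :=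
  ∀ (M : Type) [AddCommGroup M] [Module O M],
    μ.val M = (p : ℝ≥0∞) ^ a * (μ.comap (frobenius O p)).val M

/-- the family of real powers of the ideals `sp (g t)` and `sp s` -/
structure PF (p : ℕ) {O τ κ : Type} [CommRing O] [Fintype τ] [DecidableEq τ] [Fintype κ] {a : ℕ}
    (g : τ → κ → O) (s : Fin a → O) (ϖ : O) (Γ : (τ → ℕ) → ℕ → Ideal O) : Prop where
  top : Γ 0 0 = ⊤
  anti : ∀ w w' ρ ρ', w ≤ w' → ρ ≤ ρ' → Γ w' ρ' ≤ Γ w ρ
  mul : ∀ w w' ρ ρ', Γ w ρ * Γ w' ρ' ≤ Γ (w + w') (ρ + ρ')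
  gmem : ∀ t j, g t j ∈ Γ (Pi.single t 1) 0
  smem : ∀ i, s i ∈ Γ 0 1
  root : ∀ w ρ x, x ^ p ∈ Γ (p • w) (p * ρ) → x ∈ Γ w ρ
  gen : ∀ w ρ t, Fintype.card κ ≤ w t → Γ (w + Pi.single t 1) ρ ≤ sp (g t) * Γ w ρ
  gens : ∀ w ρ, a ≤ ρ → Γ w (ρ + 1) ≤ sp s * Γ w ρ
  col : ∀ w t (c : ℕ) (x : O), 1 ≤ w t →
    (∀ j, x * g t j ∈ Ideal.span {ϖ ^ c} * Γ (w + Pi.single t 1) 0) →
    x ∈ Ideal.span {ϖ ^ c} * Γ w 0
  kv : ∀ (κ' : ℕ) w, 1 ≤ κ' →
    (K (fun i => s i ^ κ') (DG.single O O)).AcycOn (strand a κ' (Γ w))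

end Crest.Agent.R188
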