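import Crest.Agent.R188.VDefs
import Crest.Agent.R188.PDefs

/-!
# The data of the perfectoid comparison

* `GalD`: integral Galois idempotents,
* `Base`: the Noetherian data,
* `Pre X K`: a perfect cover of precision `K`,
* `Cov X`: the asymptotic cover with its length function.
-/

set_option autoImplicit false

open scoped ENNReal NNReal TensorProduct

namespace Crest.Agent.R188

open Crest.Agent.R183 IsLocalRing WittVector

/-- integral multiples of the Galois idempotents of `S ⊗[Λ] S` -/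
structure GalD {Λ S σ : Type} [CommRing Λ] [CommRing S] [Algebra Λ S] [Fintype σ] [DecidableEq σ]
    (gal : σ → S ≃ₐ[Λ] S) (w : Λ) (ε : σ → S ⊗[Λ] S) : Prop where
  comm : ∀ g (a : S), ε g * (a ⊗ₜ 1) = ε g * (1 ⊗ₜ gal g a)
  sum : ∑ g, ε g = algebraMap Λ (S ⊗[Λ] S) w
  orth : ∀ g h, Algebra.TensorProduct.productMap (gal h : S →ₐ[Λ] S) (AlgHom.id Λ S) (ε g) =
    if g = h then algebraMap Λ S w else 0

/-- power series over the Witt vectors -/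
abbrev WS (p : ℕ) [Fact p.Prime] (k : Type) [CommRing k] (n : ℕ) : Type :=
  MvPowerSeries (Fin n) (WittVector p k)

/-- the distinguished element `p - s₀` or `p` -/
noncomputable def xi0 (p : ℕ) [Fact p.Prime] (k : Type) [CommRing k] (a₀ : ℕ) (mix : Bool) :
    WS p k (a₀ + 1) := (p : WS p k (a₀ + 1)) - if mix then MvPowerSeries.X 0 else 0

/-- The Noetherian data. -/
structure Base (p : ℕ) [Fact p.Prime] (k : Type) [Field k] [CharP k p] [PerfectRing k p] where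
  (a₀ b d b' n r m c q₀ mP : ℕ)
  R : Type
  [cR : CommRing R]
  [nR : IsNoetherianRing R]
  [lR : IsLocalRing R]
  x : Fin d → R
  hx : RegL R x
  Q : Ideal R
  [hQ : Q.IsPrime]
  hab : a₀ + 1 + b = d
  hb : ringKrullDim (R ⧸ Q) = b
  van : Van R d
  roots : ∀ j : ℕ, Odd j → ¬ p ∣ j → ∃ ζ : R, RootU j ζ
  π : MvPowerSeries (Fin n) (WS p k b') →+* R
  hπ : Function.Surjective π
  ξ : MvPowerSeries (Fin n) (WS p k b')
  hξ : RingHom.ker π = Ideal.span {ξ}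
  hξ0 : ξ ≠ 0
  η : Fin r → WS p k b'
  hη : ∀ j, η j = p
  hcase : (r = 0 ∧ n = a₀ + 2) ∨ (r = 1 ∧ n = a₀ + 1)
  finQ : Module.Finite (WS p k b') (MvPowerSeries (Fin n) (WS p k b') ⧸ Q.comap π)
  kerQ : (Q.comap π).comap MvPowerSeries.C = sp η
  H : Ideal R
  hHQ : ∃ e : ℕ, maximalIdeal R ^ e ≤ H ⊔ Q
  sT : Fin (a₀ + 1) → MvPowerSeries (Fin n) (WS p k b')
  hsT : ∀ i, π (sT i) ∈ maximalIdeal R
  hHs : ∃ e : ℕ, maximalIdeal R ^ e ≤ H ⊔ sp (fun i => π (sT i)) ⊔ Ideal.span {(p : R)}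
  E : MC R
  δ : ℕ → ℤ
  U : Matrix E.ι (Fin (2 * m)) R
  U' : Matrix (Fin (2 * m)) E.ι R
  hE : E.IsRes (R ⧸ Q)
  hδ : Antitone δ
  spl : ASpl E m δ U U' (π (sT 0) ^ c) H
  hc : π (sT 0) ^ c ∈ H ⊔ Q
  mix : Bool
  hq₀ : 1 ≤ q₀
  hmix : mix = true → sT 0 = p ∧ q₀ = 1
  ιΛ : WS p k b' →+* WS p k (a₀ + 1)
  hι : ∀ w ∉ sp η, ιΛ w ∉ sp fun j => ιΛ (η j)
  S : Type
  [cS : CommRing S]
  [nS : IsNoetherianRing S]
  [lS : IsLocalRing S]
  [dS : IsDomain S]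
  [aR : Algebra R S]
  [aΛ : Algebra (WS p k (a₀ + 1)) S]
  [fR : Module.Finite R S]
  [fΛ : Module.Finite (WS p k (a₀ + 1)) S]
  resR : ∀ t : S, ∃ r : R, t - algebraMap R S r ∈ maximalIdeal S
  resΛ : ∀ t : S, ∃ r : WS p k (a₀ + 1), t - algebraMap _ S r ∈ maximalIdeal S
  hHS : H ≤ RingHom.ker (algebraMap R S)
  dimS : ringKrullDim (R ⧸ RingHom.ker (algebraMap R S)) ≤ (a₀ + 1 : ℕ)
  hmR : ∃ e : ℕ, maximalIdeal S ^ e ≤ (maximalIdeal R).map (algebraMap R S)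
  hmΛ : ∃ e : ℕ, maximalIdeal S ^ e ≤
    sp fun i => algebraMap (WS p k (a₀ + 1)) S (MvPowerSeries.X i)
  hsS : ∀ i, algebraMap R S (π (sT i)) =
    algebraMap (WS p k (a₀ + 1)) S (MvPowerSeries.X i) ^ q₀
  kerΛ : RingHom.ker (algebraMap (WS p k (a₀ + 1)) S) = Ideal.span {xi0 p k a₀ mix}
  σ : Type
  [fσ : Fintype σ]
  [eσ : DecidableEq σ]
  gal : σ → S ≃ₐ[WS p k (a₀ + 1)] S
  w : WS p k (a₀ + 1)
  ε : σ → S ⊗[WS p k (a₀ + 1)] S
  hw : algebraMap _ S w ≠ 0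
  galD : GalD gal w ε
  G : Type
  [fG : Fintype G]
  w₁ : WS p k (a₀ + 1)
  hw₁ : w₁ ∉ Ideal.span {xi0 p k a₀ mix}

attribute [instance] Base.cR Base.nR Base.lR Base.hQ Base.cS Base.nS Base.lS Base.dS Base.aR
  Base.aΛ Base.fR Base.fΛ Base.fσ Base.eσ Base.fG

variable {p : ℕ} [Fact p.Prime] {k : Type} [Field k] [CharP k p] [PerfectRing k p]

namespace Base

variable (X : Base p k)

/-- the ring `T` -/
abbrev T : Type := MvPowerSeries (Fin X.n) (WS p k X.b')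

/-- the ring `Λ` -/
abbrev Λ : Type := WS p k (X.a₀ + 1)

/-- the index set of the Plücker coordinates -/
abbrev J : Type := Fin (2 * X.m) → X.E.ι

/-- the scaled Plücker coordinates -/
noncomputable def β (s : Fin (2 * X.m + 1)) (j : X.J) : X.R := X.π (X.sT 0) * pl X.U s j

/-- the threshold -/
abbrev nG : ℕ := Fintype.card (Option X.J)

/-- the honest precision -/
def K₀ : ℕ := X.q₀ * ((2 * X.m + 1) * X.c + 1)

end Base

/-- Teichmüller lifts of elements of `C` in the Witt vectors of the perfect closure -/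
noncomputable abbrev tw (p : ℕ) [Fact p.Prime] {C : Type} [CommRing C] [CharP C p] (x : C) :
    WittVector p (PerfectClosure C p) := teichmuller p (PerfectClosure.of C p x)

/-- A perfect cover of precision `K`. -/
structure Pre (X : Base p k) (K : ℕ) where
  C : Type
  [cC : CommRing C]
  [nC : IsNoetherianRing C]
  [lC : IsLocalRing C]
  [pC : CharP C p]
  [aC : Algebra (MvPowerSeries (Fin (X.a₀ + 1)) k) C]
  [fC : Module.Finite (MvPowerSeries (Fin (X.a₀ + 1)) k) C]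
  inj : Function.Injective (algebraMap (MvPowerSeries (Fin (X.a₀ + 1)) k) C)
  s : Fin (X.a₀ + 1) → C
  hs : ∀ i, s i = algebraMap (MvPowerSeries (Fin (X.a₀ + 1)) k) C (MvPowerSeries.X i)
  smem : ∀ i, s i ∈ maximalIdeal C
  reg : IsSMulRegular C (s 0)
  β : Fin (2 * X.m + 1) → X.J → C
  c : C
  hc : s 0 ∣ c
  ak : ∀ (e : ℕ) (n : ℤ), 0 < n → ∀ x, (R188.K (fun i => s i ^ p ^ e) (DG.single C C)).π n x = x →
    (R188.K (fun i => s i ^ p ^ e) (DG.single C C)).D x = 0 →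
    ∃ y, (R188.K (fun i => s i ^ p ^ e) (DG.single C C)).D y = c • x
  θ : X.T →+* WittVector p (PerfectClosure C p)
  θ₀ : X.Λ →+* WittVector p (PerfectClosure C p)
  hθ₀ : ∀ i, θ₀ (MvPowerSeries.X i) = tw p (s i)
  hθι : ∀ a, θ₀ (X.ιΛ a) = θ (MvPowerSeries.C a)
  JK : Ideal (WittVector p (PerfectClosure C p))
  hJK : JK = Ideal.span {θ₀ (xi0 p k X.a₀ X.mix)} ⊔
    Ideal.span {(p : WittVector p (PerfectClosure C p)) ^ K}
  hξ : θ X.ξ - p ∈ Ideal.span (tw p '' (maximalIdeal C : Set C))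
  hH : ∀ t, X.π t ∈ X.H → θ t ∈ JK
  hβ : ∀ i j t, X.π t = X.β i j → θ t - tw p (β i j) ∈ JK
  hsT : ∀ i, θ (X.sT i) - tw p (s i) ^ X.q₀ ∈ JK
  𝔍 : Ideal (WittVector p (PerfectClosure C p))
  le𝔍 : JK ≤ 𝔍
  h𝔍 : 𝔍 ≤ Ideal.span {y | tw p c * y ^ X.mP ∈ JK}
  ψ : X.S →+* WittVector p (PerfectClosure C p) ⧸ 𝔍
  hψ : ∀ t, ψ (algebraMap X.R X.S (X.π t)) = Ideal.Quotient.mk 𝔍 (θ t)
  hψ₀ : ∀ a, ψ (algebraMap X.Λ X.S a) = Ideal.Quotient.mk 𝔍 (θ₀ a)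
  g : X.σ → PerfectClosure C p ≃+* PerfectClosure C p
  hg : ∀ γ x, g γ (PerfectClosure.of C p (algebraMap (MvPowerSeries (Fin (X.a₀ + 1)) k) C x)) =
    PerfectClosure.of C p (algebraMap (MvPowerSeries (Fin (X.a₀ + 1)) k) C x)
  hgc : ∀ γ, g γ (PerfectClosure.of C p c) = PerfectClosure.of C p c
  hg𝔍 : ∀ γ x, WittVector.map (g γ).toRingHom x ∈ 𝔍 ↔ x ∈ 𝔍
  hgψ : ∀ γ y x, ψ y = Ideal.Quotient.mk 𝔍 x →
    ψ (X.gal γ y) = Ideal.Quotient.mk 𝔍 (WittVector.map (g γ).toRingHom x)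
  g' : X.G → PerfectClosure C p ≃+* PerfectClosure C p
  hg' : ∀ γ x, g' γ (PerfectClosure.of C p (algebraMap (MvPowerSeries (Fin (X.a₀ + 1)) k) C x)) =
    PerfectClosure.of C p (algebraMap (MvPowerSeries (Fin (X.a₀ + 1)) k) C x)
  mass : θ₀ X.w₁ ∈ sp (fun γ => teichmuller p (g' γ (PerfectClosure.of C p c))) ⊔ JK

attribute [instance] Pre.cC Pre.nC Pre.lC Pre.pC Pre.aC Pre.fC

/-- The asymptotic cover. -/
structure Cov (X : Base p k) where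
  O : Type
  [cO : CommRing O]
  [pO : CharP O p]
  [fO : PerfectRing O p]
  s : Fin (X.a₀ + 1) → O
  reg : IsSMulRegular O (s 0)
  jac : ∀ z, IsUnit (1 + s 0 * z)
  β : Fin (2 * X.m + 1) → X.J → O
  Γ : (Fin (2 * X.m + 1) → ℕ) → ℕ → Ideal O
  pf : PF p (fun i (j : Option X.J) => j.elim (s 0 ^ X.K₀) (β i)) s (s 0) Γ
  θ : X.T →+* WittVector p O
  θ₀ : X.Λ →+* WittVector p O
  hθ₀ : ∀ i, θ₀ (MvPowerSeries.X i) = teichmuller p (s i)
  hθι : ∀ a, θ₀ (X.ιΛ a) = θ (MvPowerSeries.C a)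
  dist : Dist (θ X.ξ) (s 0)
  hϖ : ∃ u : (WittVector p O)ˣ,
    θ (X.sT 0) - u * teichmuller p (s 0) ^ X.q₀ ∈ Ideal.span {θ X.ξ}
  hH : ∀ t, X.π t ∈ X.H → θ t ∈ Ideal.span {θ X.ξ} ⊔ Ideal.span {teichmuller p (s 0) ^ X.K₀}
  hβ : ∀ i j t, X.π t = X.β i j → θ t - teichmuller p (β i j) ∈
    Ideal.span {θ X.ξ} ⊔ Ideal.span {teichmuller p (s 0) ^ X.K₀}
  hsT : ∀ i, θ (X.sT i) - teichmuller p (s i) ^ X.q₀ ∈
    Ideal.span {θ X.ξ} ⊔ Ideal.span {teichmuller p (s 0) ^ X.K₀}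
  ν : LF (WittVector p O)
  𝔍 : Ideal (WittVector p O)
  h𝔍 : ∀ N : ℕ, ∃ η, ν.Null η ∧
    ∀ x ∈ 𝔍, η * x ∈ Ideal.span {θ X.ξ} ⊔ Ideal.span {teichmuller p (s 0) ^ N}
  ψ : X.S →+* WittVector p O ⧸ 𝔍
  hψ : ∀ t, ψ (algebraMap X.R X.S (X.π t)) = Ideal.Quotient.mk 𝔍 (θ t)
  hψ₀ : ∀ a, ψ (algebraMap X.Λ X.S a) = Ideal.Quotient.mk 𝔍 (θ₀ a)
  hψβ : ∀ i j, ψ (algebraMap X.R X.S (X.β i j)) = Ideal.Quotient.mk 𝔍 (teichmuller p (β i j))
  g : X.σ → (WittVector p O ⧸ 𝔍) ≃+* (WittVector p O ⧸ 𝔍)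
  hg : ∀ γ y, g γ (ψ y) = ψ (X.gal γ y)
  inv : ∀ γ, Inv (ν.comap (Ideal.Quotient.mk 𝔍)) (g γ).toRingHom
  scal : Scal p (X.a₀ + 1) (ν.comap constantCoeff)
  tight : ∀ (M : Type) [AddCommGroup M] [Module O M] (c : ℝ≥0∞),
    (∀ e, (ν.comap constantCoeff).val (LinearMap.range (LinearMap.lsmul O M (rt p e (s 0)))) ≤ c) →
    (ν.comap constantCoeff).val M ≤ c
  ak : ∀ n, 0 < n → (K s (DG.single O O)).H (ν.comap constantCoeff) n = 0
  r_ne_top : (ν.comap constantCoeff).val (O ⧸ sp s) ≠ ⊤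
  r_ne_zero : (ν.comap constantCoeff).val (O ⧸ sp s) ≠ 0

attribute [instance] Cov.cO Cov.pO Cov.fO

namespace Cov

variable {X : Base p k} (Y : Cov X)

/-- the Witt vectors of the cover -/
abbrev A : Type := WittVector p Y.O

/-- the untilt -/
abbrev B : Type := WittVector p Y.O ⧸ Ideal.span {Y.θ X.ξ}

/-- the structure map of the untilt -/
noncomputable def φ : X.R →+* Y.B :=
  (X.π.liftOfRightInverse (Function.surjInv X.hπ) (Function.rightInverse_surjInv X.hπ))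
    ⟨(Ideal.Quotient.mk _).comp Y.θ, by
      rw [X.hξ, Ideal.span_le, Set.singleton_subset_iff]
      exact Ideal.Quotient.eq_zero_iff_mem.2 (Ideal.subset_span rfl)⟩

theorem φ_π (t : X.T) : Y.φ (X.π t) = Ideal.Quotient.mk _ (Y.θ t) :=
  RingHom.liftOfRightInverse_comp_apply _ _ _ _ _

/-- the untilted real powers -/
noncomputable def ΓB (w : Fin (2 * X.m + 1) → ℕ) : Ideal Y.B :=
  (WI p (Y.Γ w 0)).map (Ideal.Quotient.mk _)

/-- the length function on modules over the tilt -/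
noncomputable abbrev νO : LF Y.O := Y.ν.comap constantCoeff

/-- the length function on modules over the untilt -/
noncomputable abbrev νB : LF Y.B := Y.ν.comap (Ideal.Quotient.mk _)

end Cov

end Crest.Agent.R188
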