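import Crest.Agent.R188.BDefs
import Crest.Agent.R188.GGrow
import Crest.Agent.R188.PProd

/-!
# Equidistribution over the sheets of a Galois cover
-/

set_option autoImplicit false
set_option linter.unusedVariables false

open scoped ENNReal NNReal TensorProduct

namespace Crest.Agent.R188

open Crest.Agent.R183 IsLocalRing

theorem BEqd_kill {Λ : Type} [CommRing Λ] [IsLocalRing Λ] (Z : Type) [AddCommGroup Z]
    [Module Λ Z] (hZ : Module.length Λ Z ≠ ⊤) :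
    ∃ c : ℕ, ∀ a ∈ maximalIdeal Λ ^ c, ∀ z : Z, a • z = 0 := by
  obtain ⟨_, _⟩ := isFiniteLength_iff_isNoetherian_isArtinian.1 (Module.length_ne_top_iff.1 hZ)
  obtain ⟨c, hc⟩ := IsArtinian.monotone_stabilizes (R := Λ) (M := Z)
    ⟨fun n => OrderDual.toDual (maximalIdeal Λ ^ n • ⊤), fun _ _ h =>
      Submodule.smul_mono_left (Ideal.pow_le_pow_right h)⟩
  have h1 : maximalIdeal Λ ^ c • (⊤ : Submodule Λ Z) = maximalIdeal Λ ^ (c + 1) • ⊤ :=
    hc (c + 1) c.le_succ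
  have h2 := Submodule.eq_bot_of_le_smul_of_le_jacobson_bot (maximalIdeal Λ)
    (maximalIdeal Λ ^ c • (⊤ : Submodule Λ Z)) (IsNoetherian.noetherian _)
    (by rw [← Submodule.mul_smul, ← pow_succ', ← h1]) (maximalIdeal_le_jacobson _)
  exact ⟨c, fun a ha z => (Submodule.eq_bot_iff _).1 h2 _
    (Submodule.smul_mem_smul ha Submodule.mem_top)⟩

/-- numerical flatness -/
theorem val_tensor_eq_of_quot {Λ B : Type} [CommRing Λ] [IsNoetherianRing Λ] [IsLocalRing Λ]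
    [CommRing B] [Algebra Λ B] (ν : LF B) (J : ℕ → Ideal Λ) (𝔨 : Ideal Λ)
    (hJ : ∀ N, ∃ c : ℕ, maximalIdeal Λ ^ c ≤ J N)
    (hJ' : ∀ c : ℕ, ∃ N, J N ≤ 𝔨 ⊔ maximalIdeal Λ ^ c)
    (hr : ν.val (B ⧸ (maximalIdeal Λ).map (algebraMap Λ B)) ≠ ⊤)
    (h : ∀ N, ν.val (B ⧸ (J N).map (algebraMap Λ B)) =
      (LF.length Λ).val (Λ ⧸ J N) * ν.val (B ⧸ (maximalIdeal Λ).map (algebraMap Λ B)))
    (Z : Type) [AddCommGroup Z] [Module Λ Z] (hZ : Module.length Λ Z ≠ ⊤)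
    (h𝔨 : ∀ a ∈ 𝔨, ∀ z : Z, a • z = 0) :
    ν.val (B ⊗[Λ] Z) =
      (LF.length Λ).val Z * ν.val (B ⧸ (maximalIdeal Λ).map (algebraMap Λ B)) := by
  have hle : ∀ (G : Type) [AddCommGroup G] [Module Λ G], Module.length Λ G ≠ ⊤ →
      ν.val (B ⊗[Λ] G) ≤ (LF.length Λ).val G *
        ν.val (B ⧸ (maximalIdeal Λ).map (algebraMap Λ B)) := fun G _ _ hG => by
    have := ν.val_tensor_le (maximalIdeal Λ) B G (BEqd_kill G hG) hG
    rwa [smul_eq_mul, Ideal.mul_top] at this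
  refine le_antisymm (hle Z hZ) ?_
  obtain ⟨c, hc⟩ := BEqd_kill Z hZ
  obtain ⟨N, hN⟩ := hJ' c
  obtain ⟨n, hn⟩ := ENat.ne_top_iff_exists.1 hZ
  obtain ⟨v, hv⟩ := LFexists_span_of_length n Z hn.ge
  obtain ⟨f, hf⟩ := LF.LFexists_surj (J N) v hv fun a ha z => by
    obtain ⟨x, hx, y, hy, rfl⟩ := Submodule.mem_sup.1 (hN ha)
    rw [add_smul, h𝔨 x hx, hc y hy, add_zero]
  have h1 : (LF.length Λ).val (Λ ⧸ J N) ≠ ⊤ := by
    obtain ⟨d, hd⟩ := hJ N
    rw [← LF.sz_top]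
    exact length_sz_ne_top ⟨d, by rwa [Ideal.mul_top]⟩
  have h2 := (LF.length Λ).val_eq_add_of_exact _ f (LinearMap.ker f).subtype_injective hf
    f.exact_subtype_ker_map
  have h3 : (LF.length Λ).val (LinearMap.ker f) ≠ ⊤ := by
    refine ne_top_of_le_ne_top ?_ (h2 ▸ le_self_add)
    rw [LF.val_pi]
    exact ENNReal.mul_ne_top (ENNReal.natCast_ne_top _) h1
  have h4 := ν.le_add_of_exact ((LinearMap.ker f).subtype.baseChange B) (f.baseChange B) (by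
    rw [LinearMap.baseChange_eq_ltensor, LinearMap.baseChange_eq_ltensor]
    exact lTensor_exact B f.exact_subtype_ker_map hf)
  rw [ν.congr (TensorProduct.piRight Λ B B fun _ : Fin n => Λ ⧸ J N), ν.val_pi,
    ← ν.congr (Algebra.TensorProduct.quotIdealMapEquivTensorQuot B (J N)).toLinearEquiv, h N,
    ← mul_assoc, ← LF.val_pi, h2, add_mul] at h4
  refine (ENNReal.add_le_add_iff_left (ENNReal.mul_ne_top h3 hr)).1
    (h4.trans (add_le_add_left (hle _ ?_) _))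
  intro h5
  rw [LF.length_val, h5] at h3
  exact h3 rfl

theorem BEqd_res {B R : Type} [CommRing B] [CommRing R] [Algebra B R] (ν : LF B) (P Q : Ideal R) :
    (ν.comap (algebraMap B R)).sz P Q = ν.sz (P.restrictScalars B) (Q.restrictScalars B) :=
  (PProd_sz ν (algebraMap B R) (M := R) (M' := R)
    ⟨⟨id, fun _ _ => rfl⟩, fun b x => Algebra.smul_def b x⟩ P Q Function.surjective_id).symm

theorem BEqd_core {B R σ : Type} [CommRing B] [CommRing R] [Algebra B R] [Fintype σ]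
    [DecidableEq σ] (ν : LF B) (π : σ → R →ₐ[B] B) (e : σ → R) (w : B)
    (h1 : ∀ g x, e g * x = e g * algebraMap B R (π g x)) (h2 : ∑ g, e g = algebraMap B R w)
    (h3 : ∀ g h, π h (e g) = if g = h then w else 0) {A A' : Ideal R}
    (hf : (ν.comap (algebraMap B R)).sz A A' ≠ ⊤) :
    (ν.comap (algebraMap B R)).sz A A' ≤ ∑ g, ν.sz (A.map (π g)) (A'.map (π g)) +
        (ν.comap (algebraMap B R)).sz A (A' ⊔ Ideal.span {algebraMap B R w} * A) ∧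
      ∑ g, ν.sz (A.map (π g)) (A'.map (π g)) ≤ (ν.comap (algebraMap B R)).sz A A' +
        ∑ g, ν.sz (A.map (π g)) ((A' ⊔ Ideal.span {algebraMap B R w} * A).map (π g)) := by
  have h4 : ∀ g (I : Ideal R), ∀ y ∈ I.map (π g), e g * algebraMap B R y ∈ I := fun g I y hy => by
    obtain ⟨x, hx, rfl⟩ := (Ideal.mem_map_iff_of_surjective (π g)
      fun b => ⟨_, (π g).commutes b⟩).1 hy
    rw [← h1]
    exact I.mul_mem_left _ hx
  let Φ : R →ₗ[B] σ → B := LinearMap.pi fun g => (π g).toLinearMap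
  have h5 : ∀ I : Ideal R, (I.restrictScalars B).map Φ ≤ Submodule.pi Set.univ
      fun g => I.map (π g) := by
    rintro I _ ⟨x, hx, rfl⟩ g _
    exact Ideal.mem_map_of_mem _ hx
  rw [← ν.sz_pi, ← ν.sz_pi]
  constructor
  · rw [LF.sz_tower_right _ A (Q' := A' ⊔ ⨅ g, (A'.map (π g)).comap (π g)) le_sup_left]
    refine add_le_add ?_ (sz_le_of_smul_mem _ hf inf_le_left le_rfl _ fun x hx => ?_)
    · rw [BEqd_res]
      refine le_trans (ν.sz_mono le_rfl fun x hx => ?_)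
        ((ν.sz_map_eq Φ _ _).symm.trans_le (ν.sz_mono (h5 A) le_rfl))
      exact Ideal.mem_sup_right (Ideal.mem_iInf.2 fun g => hx g trivial)
    · obtain ⟨y, hy, z, hz, rfl⟩ := Submodule.mem_sup.1 hx.2
      rw [smul_add]
      refine add_mem (A'.mul_mem_left _ hy) ?_
      rw [smul_eq_mul, ← h2, Finset.sum_mul]
      exact A'.sum_mem fun g _ => h1 g z ▸ h4 g A' _ (Ideal.mem_iInf.1 hz g)
  · rw [ν.sz_tower_left (h5 A), BEqd_res]
    refine add_le_add ((ν.sz_mono le_rfl (h5 A')).trans (ν.sz_map_le Φ _ _))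
      (ν.sz_mono le_rfl fun y hy => ?_)
    have h6 : ∀ g, ∃ a ∈ A'.map (π g), ∃ b ∈ A.map (π g), y g = a + w * b := fun g => by
      have : y g ∈ Ideal.map (π g) _ := hy g trivial
      rw [Ideal.map_sup, Ideal.map_mul, Ideal.map_span, Set.image_singleton,
        AlgHom.commutes] at this
      obtain ⟨a, ha, b, hb, h7⟩ := Submodule.mem_sup.1 this
      obtain ⟨c, hc, rfl⟩ := Ideal.mem_span_singleton_mul.1 hb
      exact ⟨a, ha, c, hc, h7.symm⟩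
    choose a ha b hb h7 using h6
    refine Submodule.mem_sup.2 ⟨_, ⟨∑ g, e g * algebraMap B R (b g),
      A.sum_mem fun g _ => h4 g A _ (hb g), rfl⟩, a, fun g _ => ha g, funext fun g => ?_⟩
    simp [Φ, h3, h7, add_comm]

theorem BEqd_flat {Λ S B : Type} [CommRing Λ] [CommRing S] [IsNoetherianRing S] [IsLocalRing S]
    [Algebra Λ S] [CommRing B] [Algebra Λ B] (ν : LF B) {r : ℝ≥0∞} (hr : r ≠ ⊤)
    (h : ∀ 𝔟 : Ideal S, (∃ c : ℕ, maximalIdeal S ^ c ≤ 𝔟) →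
      ν.val (B ⊗[Λ] (S ⧸ 𝔟)) = (LF.length S).val (S ⧸ 𝔟) * r)
    {𝔞 𝔞' : Ideal S} (hle : 𝔞' ≤ 𝔞) (hc : ∃ c : ℕ, maximalIdeal S ^ c * 𝔞 ≤ 𝔞') :
    (ν.comap (algebraMap B (B ⊗[Λ] S))).sz
        (𝔞.map (Algebra.TensorProduct.includeRight (R := Λ) (A := B)))
        (𝔞'.map (Algebra.TensorProduct.includeRight (R := Λ) (A := B))) =
      (LF.length S).sz 𝔞 𝔞' * r := by
  have h1 : ∀ 𝔟 : Ideal S, (∃ c : ℕ, maximalIdeal S ^ c ≤ 𝔟) →
      (ν.comap (algebraMap B (B ⊗[Λ] S))).sz ⊤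
        (𝔟.map (Algebra.TensorProduct.includeRight (R := Λ) (A := B))) =
      (LF.length S).sz ⊤ 𝔟 * r := fun 𝔟 h𝔟 => by
    rw [LF.sz_top, LF.sz_top, LF.comap_algebraMap_val, ← h 𝔟 h𝔟,
      ν.congr (Algebra.TensorProduct.tensorQuotientEquiv (R := Λ) B S B 𝔟).toLinearEquiv]
  refine le_antisymm ?_ ?_
  · have := sz_smul_le (Algebra.TensorProduct.includeRight (R := Λ) (A := B) (B := S)).toRingHom
      (ν.comap (algebraMap B (B ⊗[Λ] S))) 𝔞 𝔞' hc (⊤ : Ideal (B ⊗[Λ] S))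
    simp only [smul_eq_mul, Ideal.mul_top] at this
    refine this.trans_eq (congrArg _ ((h1 _ ⟨1, (pow_one _).le⟩).trans ?_))
    rw [LF.sz_top, LF.length_val, LFlength_quot_max, ENat.toENNReal_one, one_mul]
  obtain ⟨c, hc⟩ := hc
  obtain ⟨k, hk⟩ := Ideal.exists_pow_inf_eq_pow_smul (maximalIdeal S) 𝔞
  have h2 : 𝔞 ⊓ (𝔞' ⊔ maximalIdeal S ^ (c + k)) = 𝔞 ⊓ 𝔞' := by
    have := hk (c + k) le_add_self
    rw [add_tsub_cancel_right, smul_eq_mul, Ideal.mul_top, smul_eq_mul] at this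
    rw [inf_comm, sup_inf_assoc_of_le _ hle, this, inf_eq_right.2 hle, sup_eq_left]
    exact (Ideal.mul_mono_right inf_le_right).trans hc
  have h3 := h1 (𝔞' ⊔ maximalIdeal S ^ (c + k)) ⟨_, le_sup_right⟩
  have h4 : ∃ d : ℕ, maximalIdeal S ^ d ≤ 𝔞 ⊔ (𝔞' ⊔ maximalIdeal S ^ (c + k)) :=
    ⟨_, le_sup_of_le_right le_sup_right⟩
  rw [LF.sz_tower_left _ (le_top (a := 𝔞.map Algebra.TensorProduct.includeRight)),
    ← Ideal.map_sup, h1 _ h4, LF.sz_tower_left _ (le_top (a := 𝔞)) (𝔞' ⊔ _), add_mul,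
    ENNReal.add_left_inj (ENNReal.mul_ne_top
      (length_sz_ne_top (by simpa only [Ideal.mul_top] using h4)) hr), LF.LFsz_congr _ h2] at h3
  exact h3.ge.trans (LF.sz_mono _ le_rfl (Ideal.map_mono le_sup_left))

theorem BEqd_arith {a b x y r : ℝ≥0∞} {n : ℕ} (hr : r ≠ ⊤) (hx : x ≠ ⊤) (hy : y ≠ ⊤)
    (h1 : x * r ≤ n * a + y * r) (h2 : n * a ≤ x * r + n * b) (h3 : b ≤ y * r) :
    |n * a.toReal - r.toReal * x.toReal| ≤ (n + 1) * r.toReal * y.toReal := by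
  have h4 := h2.trans (add_le_add_right (mul_le_mul_right h3 n) _)
  have h5 : (n : ℝ≥0∞) * a ≠ ⊤ := ne_top_of_le_ne_top (by finiteness) h4
  have h6 := ENNReal.toReal_mono (by finiteness) h1
  have h7 := ENNReal.toReal_mono (by finiteness) h4
  rw [ENNReal.toReal_add (by finiteness) (by finiteness)] at h6 h7
  simp only [ENNReal.toReal_mul, ENNReal.toReal_natCast] at h6 h7
  have h8 : 0 ≤ r.toReal * y.toReal := by positivity
  have h9 : 0 ≤ n * (r.toReal * y.toReal) := by positivity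
  rw [abs_le]
  constructor <;> linarith


theorem eqd {Λ S B σ : Type} [CommRing Λ] [IsNoetherianRing Λ] [IsLocalRing Λ] [CommRing S]
    [IsNoetherianRing S] [IsLocalRing S] [Algebra Λ S] [Module.Finite Λ S] [CommRing B]
    [Fintype σ] [DecidableEq σ] (hres : ∀ t : S, ∃ r : Λ, t - algebraMap Λ S r ∈ maximalIdeal S)
    (hm : ∃ e : ℕ, maximalIdeal S ^ e ≤ (maximalIdeal Λ).map (algebraMap Λ S))
    (hm' : (maximalIdeal Λ).map (algebraMap Λ S) ≤ maximalIdeal S)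
    (ψ : S →+* B) (ν : LF B) (J : ℕ → Ideal Λ) (hJ : ∀ N, ∃ c : ℕ, maximalIdeal Λ ^ c ≤ J N)
    (hJ' : ∀ c : ℕ, ∃ N, J N ≤ RingHom.ker (algebraMap Λ S) ⊔ maximalIdeal Λ ^ c) {r : ℝ≥0∞}
    (hr : r ≠ ⊤) (hr' : ν.val (B ⧸ (maximalIdeal Λ).map (ψ.comp (algebraMap Λ S))) = r)
    (h : ∀ N, ν.val (B ⧸ (J N).map (ψ.comp (algebraMap Λ S))) = (LF.length Λ).val (Λ ⧸ J N) * r)
    {gal : σ → S ≃ₐ[Λ] S} {w : Λ} {ε : σ → S ⊗[Λ] S} (hG : GalD gal w ε) (g : σ → B ≃+* B)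
    (hg : ∀ γ y, g γ (ψ y) = ψ (gal γ y)) (hinv : ∀ γ, Inv ν (g γ).toRingHom) :
    ∃ C : ℝ, ∀ 𝔞 𝔞' : Ideal S, 𝔞' ≤ 𝔞 → (∃ c : ℕ, maximalIdeal S ^ c * 𝔞 ≤ 𝔞') →
      |Fintype.card σ * (ν.sz (𝔞.map ψ) (𝔞'.map ψ)).toReal -
        r.toReal * ((LF.length S).sz 𝔞 𝔞').toReal| ≤
      C * ((LF.length S).sz 𝔞 (𝔞' ⊔ Ideal.span {algebraMap Λ S w} * 𝔞)).toReal := by
  let _ : Algebra Λ B := (ψ.comp (algebraMap Λ S)).toAlgebra
  let ψ' : S →ₐ[Λ] B := ⟨ψ, fun _ => rfl⟩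
  let π : σ → B ⊗[Λ] S →ₐ[B] B := fun γ => Algebra.TensorProduct.lift (AlgHom.id B B)
    (ψ'.comp (gal γ)) fun _ _ => Commute.all _ _
  let Θ : S ⊗[Λ] S →ₐ[Λ] B ⊗[Λ] S := Algebra.TensorProduct.productMap
    Algebra.TensorProduct.includeRight (Algebra.TensorProduct.includeLeft.comp ψ')
  have hπ : ∀ γ b a, π γ (b ⊗ₜ a) = b * ψ (gal γ a) := fun _ _ _ => rfl
  have hΘ : ∀ a a', Θ (a ⊗ₜ a') = ψ a' ⊗ₜ a := fun a a' => by
    show (1 ⊗ₜ a : B ⊗[Λ] S) * (ψ a' ⊗ₜ 1) = _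
    rw [Algebra.TensorProduct.tmul_mul_tmul, one_mul, mul_one]
  have h1 : ∀ γ x, Θ (ε γ) * x = Θ (ε γ) * algebraMap B _ (π γ x) := fun γ x => by
    induction x using TensorProduct.induction_on with
    | zero => simp
    | add x y hx hy => rw [map_add, map_add, mul_add, mul_add, hx, hy]
    | tmul b a =>
      have := congrArg Θ (hG.comm γ a)
      rw [map_mul, map_mul, hΘ, hΘ, map_one] at this
      rw [hπ, map_mul, mul_left_comm]
      refine Eq.trans ?_ (congrArg _ this)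
      rw [mul_left_comm, Algebra.TensorProduct.algebraMap_apply,
        Algebra.TensorProduct.tmul_mul_tmul, mul_one, one_mul]
      rfl
  have h2 : ∑ γ, Θ (ε γ) = algebraMap B _ (ψ (algebraMap Λ S w)) := by
    rw [← map_sum, hG.sum, AlgHom.commutes]
    rfl
  have h3 : ∀ γ γ', π γ' (Θ (ε γ)) = if γ = γ' then ψ (algebraMap Λ S w) else 0 := fun γ γ' => by
    have : ∀ t, π γ' (Θ t) = ψ (Algebra.TensorProduct.productMap (gal γ' : S →ₐ[Λ] S)
        (AlgHom.id Λ S) t) := fun t => by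
      induction t using TensorProduct.induction_on with
      | zero => simp
      | add x y hx hy => simp only [map_add, hx, hy]
      | tmul a a' =>
        rw [hΘ, hπ, Algebra.TensorProduct.productMap_apply_tmul, map_mul, mul_comm]
        rfl
    rw [this, hG.orth, apply_ite ψ, map_zero]
  have h4 : ∀ γ (I : Ideal S), (I.map (Algebra.TensorProduct.includeRight (R := Λ) (A := B))).map
      (π γ) = (I.map ψ).map (g γ) := fun γ I => by
    refine (Ideal.map_map (I := I) (Algebra.TensorProduct.includeRight (R := Λ)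
      (A := B)).toRingHom (π γ).toRingHom).trans (.trans (congrArg I.map ?_)
        (Ideal.map_map ψ (g γ).toRingHom).symm)
    exact RingHom.ext fun a => (hπ γ 1 a).trans ((one_mul _).trans (hg γ a).symm)
  have h5 : ∀ 𝔟 : Ideal S, (∃ c : ℕ, maximalIdeal S ^ c ≤ 𝔟) →
      ν.val (B ⊗[Λ] (S ⧸ 𝔟)) = (LF.length S).val (S ⧸ 𝔟) * r := fun 𝔟 ⟨c, hc⟩ => by
    have h6 := length_eq_of_residue_surj (maximalIdeal S) hres (S ⧸ 𝔟)
      ⟨c, LF.LFkill_quot_ideal hc⟩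
    rw [LF.length_val, ← h6, ← hr']
    refine val_tensor_eq_of_quot ν J _ hJ hJ' (hr' ▸ hr) (hr' ▸ h) _ ?_ fun a ha z => ?_
    · rw [h6]
      exact length_ne_top_of_pow _ (IsNoetherian.noetherian _) _ ⟨c, LF.LFkill_quot_ideal hc⟩
    · rw [← algebraMap_smul S, (RingHom.mem_ker).1 ha, zero_smul]
  refine ⟨(Fintype.card σ + 1) * r.toReal, fun 𝔞 𝔞' hle hc => ?_⟩
  have hc' : ∃ c : ℕ, maximalIdeal S ^ c * 𝔞 ≤ 𝔞' ⊔ Ideal.span {algebraMap Λ S w} * 𝔞 :=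
    hc.imp fun _ => le_sup_of_le_left
  have h6 := BEqd_flat ν hr h5 hle hc
  have h7 := BEqd_flat ν hr h5 (𝔞 := 𝔞) (𝔞' := 𝔞' ⊔ Ideal.span {algebraMap Λ S w} * 𝔞)
    (sup_le hle Ideal.mul_le_right) hc'
  obtain ⟨h8, h9⟩ := BEqd_core ν π _ _ h1 h2 h3
    (h6.trans_ne (ENNReal.mul_ne_top (length_sz_ne_top hc) hr))
  have h10 : 𝔞'.map (Algebra.TensorProduct.includeRight (R := Λ) (A := B)) ⊔
      Ideal.span {algebraMap B (B ⊗[Λ] S) (ψ (algebraMap Λ S w))} *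
        𝔞.map Algebra.TensorProduct.includeRight =
      (𝔞' ⊔ Ideal.span {algebraMap Λ S w} * 𝔞).map Algebra.TensorProduct.includeRight := by
    rw [Ideal.map_sup, Ideal.map_mul, Ideal.map_span, Set.image_singleton, AlgHom.commutes]
    rfl
  rw [h10, h6] at h8 h9
  rw [h7] at h8
  simp only [h4, (hinv _).sz_map, Finset.sum_const, Finset.card_univ, nsmul_eq_mul] at h8 h9
  refine BEqd_arith hr (length_sz_ne_top hc) (length_sz_ne_top hc') h8 h9 ?_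
  have := sz_smul_le ψ ν 𝔞 _ hc' (⊤ : Ideal B)
  simp only [smul_eq_mul, Ideal.mul_top] at this
  refine this.trans (mul_le_mul_right ?_ _)
  rw [LF.sz_top, ← hr', ← Ideal.map_map]
  exact ν.quot_anti (Ideal.map_mono hm')

end Crest.Agent.R188
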