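import Crest.Agent.R188.FLat

/-!
# The flag lemma
-/

set_option autoImplicit false
set_option linter.unusedVariables false

open scoped ENNReal NNReal TensorProduct

namespace Crest.Agent.R188

open Crest.Agent.R183 Crest.Agent.R183.DG

section aux

variable {B : Type} [CommRing B] {M : Type} [AddCommGroup M] [Module B M]

theorem FL_ap_gr (E : MC B) (pat : E.ι → ℕ) (h : ∀ i j, E.d i j ≠ 0 → pat i ≤ pat j)
    (h' : ∀ i j, E.d i j ≠ 0 → pat i = pat j) (k : ℕ) :
    ((E.gr pat h).tp k).ap M = (E.tp k).ap M := by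
  have e : grd E pat = E.d := by
    ext i j
    by_cases hij : E.d i j = 0
    · simp [grd, hij]
    · simp [grd, h' i j hij]
  refine MC.HApp_ext (fun x => ?_) (fun n x => rfl)
  refine (MC.ap_D _ x).trans (Eq.trans ?_ (MC.ap_D (E.tp k) x).symm)
  change matApp (tpd (E.gr pat h) k) M x = matApp (tpd E k) M x
  have : tpd (E.gr pat h) k = tpd E k := by
    funext t t'
    change ∑ l : Fin k, (if ∀ l', l' ≠ l → t l' = t' l' then
      sg (∑ l' ∈ Finset.univ.filter (· < l), E.deg (t l')) • grd E pat (t l) (t' l) else 0) = _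
    rw [e]
    rfl
  exact congrArg (fun A => matApp A M x) this

/-- a contractible complex is acyclic on the lattices which are constant along the blocks of the
differential -/
theorem FL_acyc (E : MC B) (hE : E.Null 1) {κ : Type} (p : E.ι → κ)
    (hp : ∀ i j, E.d i j ≠ 0 → p i = p j) (G : κ → Submodule B M) :
    (E.ap M).AcycOn (Submodule.pi Set.univ fun i => G (p i)) := by
  classical
  obtain ⟨h, -, hh⟩ := hE
  rw [map_one] at hh
  set h' : Matrix E.ι E.ι B := fun i j => if p i = p j then h i j else 0 with hh'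
  have key : E.d * h' + h' * E.d = 1 := by
    ext i j
    have e := congrFun (congrFun hh i) j
    rw [Matrix.add_apply, Matrix.mul_apply, Matrix.mul_apply] at e ⊢
    by_cases hij : p i = p j
    · rw [← e]
      congr 1 <;> refine Finset.sum_congr rfl fun l _ => ?_
      · by_cases h0 : E.d i l = 0
        · rw [h0, zero_mul, zero_mul]
        · simp only [hh', if_pos ((hp i l h0).symm.trans hij)]
      · by_cases h0 : E.d l j = 0
        · rw [h0, mul_zero, mul_zero]
        · simp only [hh', if_pos (hij.trans (hp l j h0).symm)]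
    · rw [Matrix.one_apply_ne fun e => hij (congrArg p e), Finset.sum_eq_zero, Finset.sum_eq_zero,
        add_zero]
      · intro l _
        by_cases h0 : E.d l j = 0
        · rw [h0, mul_zero]
        · simp only [hh', if_neg fun e : p i = p l => hij (e.trans (hp l j h0)), zero_mul]
      · intro l _
        by_cases h0 : E.d i l = 0
        · rw [h0, zero_mul]
        · simp only [hh', if_neg fun e : p l = p j => hij ((hp i l h0).trans e), mul_zero]
  intro n x hx _ hD
  refine ⟨matApp h' M x, fun i _ => ?_, ?_⟩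
  · rw [matApp_apply]
    refine sum_mem fun j _ => ?_
    by_cases hij : p i = p j
    · change _ ∈ G (p i)
      rw [hij]
      exact Submodule.smul_mem _ _ (hx j trivial)
    · simp only [hh', if_neg hij, zero_smul]
      exact zero_mem _
  · rw [MC.ap_D] at hD ⊢
    have e : matApp (E.d * h' + h' * E.d) M x =
        matApp E.d M (matApp h' M x) + matApp h' M (matApp E.d M x) := by
      rw [← matApp_mul, ← matApp_mul]
      funext i
      simp only [matApp_apply, Pi.add_apply, Matrix.add_apply, add_smul, Finset.sum_add_distrib]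
    rw [hD, map_zero, add_zero, key] at e
    rw [← e]
    funext i
    simp [matApp_apply, Matrix.one_apply, ite_smul]

/-- coordinatewise lattices of finite colength -/
theorem FL_pi {μ : LF B} {k : ℕ} [NeZero k] {ζ : B} (hζ : RootU k ζ) (hk : Odd k) (E : MC B)
    (pat : E.ι → ℕ) (hp : Function.Injective pat) (h : ∀ i j, E.d i j ≠ 0 → pat i < pat j)
    {G G' : (Fin k → E.ι) → Submodule B M} (sG : E.StabL k M (Submodule.pi Set.univ G))
    (sG' : E.StabL k M (Submodule.pi Set.univ G')) (hG : ∀ t, G' t ≤ G t)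
    (hf : ∀ t, μ.sz (G t) (G' t) ≠ ⊤) :
    E.FinL μ k M (Submodule.pi Set.univ G) (Submodule.pi Set.univ G') ∧
      E.psiL μ k ζ M (Submodule.pi Set.univ G) (Submodule.pi Set.univ G') =
        ((∑ i, sg (E.deg i) * (μ.sz (G fun _ => i) (G' fun _ => i)).toReal : ℝ) : ℂ) := by
  classical
  have h' : ∀ i j, E.d i j ≠ 0 → pat i ≤ pat j := fun i j e => (h i j e).le
  have hd : (E.gr pat h').d = 0 := by
    ext i j
    change grd E pat i j = 0
    by_cases h0 : E.d i j = 0
    · simp [grd, h0]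
    · simp [grd, (h i j h0).ne]
  have hf' : (E.gr pat h').FinL μ k M (Submodule.pi Set.univ G) (Submodule.pi Set.univ G') := by
    intro n
    exact ne_top_of_le_ne_top ((μ.sz_pi G G').trans_ne (ENNReal.sum_ne_top.2 fun t _ => hf t))
      ((h_le_sz _ _ n).trans (μ.sz_mono inf_le_left le_rfl))
  obtain ⟨a1, a2⟩ := MC.psiL_gr hζ E pat h' sG sG' (Submodule.pi_mono fun t _ => hG t)
    (MC.isGr_pi pat G) (MC.isGr_pi pat G') hf'
  refine ⟨a1, ?_⟩
  rw [a2, MC.psiL_const hζ (E.gr pat h') pat (fun i j e => absurd (by rw [hd]; rfl) e)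
    (MC.IsGr.stabL h' sG (MC.isGr_pi pat G)) (MC.IsGr.stabL h' sG' (MC.isGr_pi pat G')) hG hf'
    (Finset.univ.image pat) (fun i => Finset.mem_image_of_mem _ (Finset.mem_univ i)),
    Finset.sum_image fun i _ j _ e => hp e, Complex.ofReal_sum]
  refine Finset.sum_congr rfl fun i _ => ?_
  have hne : ∀ t : Fin k → E.ι, t ≠ (fun _ => i) → ¬ ∀ l, pat (t l) = pat i :=
    fun t ht hc => ht (funext fun l => hp (hc l))
  rw [MC.psiL_single hζ hk (E.gr pat h') hd i _ _ (by simpa using hG _)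
    (fun t ht => if_neg (hne t ht)) (fun t ht => if_neg (hne t ht)), if_pos fun _ => rfl,
    if_pos fun _ => rfl]
  rfl

theorem FL_Sp_d {m : ℕ} {δ : ℕ → ℤ} {i j : Fin (2 * m)} (h : (Sp B m δ).d i j ≠ 0) :
    i.val % 2 = 0 ∧ j.val = i.val + 1 := by
  by_contra hc
  exact h (if_neg hc)

theorem FL_Sp_null (m : ℕ) (δ : ℕ → ℤ) : (Sp B m δ).Null 1 := by
  refine ⟨(Sp B m δ).d.transpose, fun i j h => (Sp B m δ).hdeg j i h, ?_⟩
  rw [map_one]
  ext i j
  change ∑ l : Fin (2 * m), (if i.val % 2 = 0 ∧ l.val = i.val + 1 then (1 : B) else 0) *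
      (if j.val % 2 = 0 ∧ l.val = j.val + 1 then 1 else 0) +
    ∑ l : Fin (2 * m), (if l.val % 2 = 0 ∧ i.val = l.val + 1 then (1 : B) else 0) *
      (if l.val % 2 = 0 ∧ j.val = l.val + 1 then 1 else 0) = if i = j then 1 else 0
  have hi := i.2
  by_cases h : i.val % 2 = 0
  · rw [Finset.sum_eq_single (⟨i.val + 1, by omega⟩ : Fin (2 * m)), Finset.sum_eq_zero, add_zero,
      if_pos ⟨h, rfl⟩, one_mul]
    · refine if_congr ⟨fun e => Fin.ext (by have := e.2; simp at this; exact this), ?_⟩ rfl rfl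
      rintro rfl
      exact ⟨h, rfl⟩
    · intro l _
      rw [if_neg (by omega), zero_mul]
    · intro l _ hl
      rw [if_neg fun e => hl (Fin.ext e.2), zero_mul]
    · simp
  · rw [Finset.sum_eq_zero, zero_add, Finset.sum_eq_single (⟨i.val - 1, by omega⟩ : Fin (2 * m)),
      if_pos ⟨by simp; omega, by simp; omega⟩, one_mul]
    · refine if_congr ⟨fun e => Fin.ext (by have := e.2; simp at this; omega), ?_⟩ rfl rfl
      rintro rfl
      exact ⟨by simp; omega, by simp; omega⟩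
    · intro l _ hl
      rw [if_neg fun e => hl (Fin.ext (by simp; omega)), zero_mul]
    · simp
    · intro l _
      rw [if_neg fun e => h e.1, zero_mul]

theorem FL_tpd {m : ℕ} {δ : ℕ → ℤ} {k : ℕ} {t t' : Fin k → Fin (2 * m)}
    (h : tpd (Sp B m δ) k t t' ≠ 0) (l : Fin k) : (t l).val / 2 = (t' l).val / 2 := by
  obtain ⟨a, -, ha⟩ := Finset.exists_ne_zero_of_sum_ne_zero h
  split_ifs at ha with hc
  · by_cases e : l = a
    · subst e
      have := FL_Sp_d (δ := δ) (B := B) fun h0 => ha (by rw [h0, smul_zero])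
      omega
    · rw [hc l e]
  · exact absurd rfl ha

theorem FL_deg {m : ℕ} (δ : ℕ → ℤ) {k : ℕ} {t t' : Fin k → Fin (2 * m)} (h : t ≤ t')
    (hne : t' ≠ t) (hs : ∑ l, (t' l).val / 2 ≤ ∑ l, (t l).val / 2) :
    ((Sp B m δ).tp k).deg t < ((Sp B m δ).tp k).deg t' := by
  have h1 : ∀ l, (t l).val ≤ (t' l).val := h
  have h2 : ∀ l, (t l).val / 2 = (t' l).val / 2 := fun l =>
    (Finset.sum_eq_sum_iff_of_le fun l _ => Nat.div_le_div_right (h1 l)).1
      (le_antisymm (Finset.sum_le_sum fun l _ => Nat.div_le_div_right (h1 l)) hs) l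
      (Finset.mem_univ l)
  obtain ⟨a, ha⟩ := Function.ne_iff.1 hne
  change ∑ l, (δ ((t l).val / 2) + ((t l).val % 2 : ℕ)) <
    ∑ l, (δ ((t' l).val / 2) + ((t' l).val % 2 : ℕ))
  refine Finset.sum_lt_sum (fun l _ => ?_) ⟨a, Finset.mem_univ a, ?_⟩
  · have := h1 l
    have := h2 l
    rw [this]
    omega
  · have := h1 a
    have := h2 a
    have : (t' a).val ≠ (t a).val := fun e => ha (Fin.ext e)
    rw [h2 a]
    omega

theorem FL_sz_mul (μ : LF B) {a : B} (ha : IsSMulRegular B a) (P Q : Ideal B) :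
    μ.sz (Ideal.span {a} * P) (Ideal.span {a} * Q) = μ.sz P Q := by
  have e : ∀ P : Ideal B, Ideal.span {a} * P = Submodule.map (LinearMap.lsmul B B a) P := by
    intro P
    ext x
    rw [Ideal.mem_span_singleton_mul]
    rfl
  rw [e, e, μ.sz_map_eq, Submodule.comap_map_eq_of_injective (f := LinearMap.lsmul B B a) ha]

theorem FL_sum_two (F : ℕ → ℝ) (m : ℕ) :
    ∑ c ∈ Finset.range (2 * m), F c = ∑ j ∈ Finset.range m, (F (2 * j) + F (2 * j + 1)) := by
  induction m with
  | zero => simp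
  | succ m ih =>
    rw [Nat.mul_succ, Finset.sum_range_succ, Finset.sum_range_succ, Finset.sum_range_succ, ih,
      add_assoc]

end aux

section main

variable {B : Type} [CommRing B] {E : MC B} {m : ℕ} {δ : ℕ → ℤ}
    {U : Matrix E.ι (Fin (2 * m)) B} {U' : Matrix (Fin (2 * m)) E.ι B} {γ ϖ₀ : B} {C : ℕ}
    {Γ : (Fin (2 * m + 1) → ℕ) → Ideal B}

theorem FL_chain (h : Spl E m δ U U' γ) (hΓ : Fam (plI U ϖ₀) γ C Γ) {v : Fin (2 * m + 1) → ℕ}
    (hv : ∀ s, C ≤ v s) (μ : LF B)
    (hfin : ∀ j < m, ∀ w, v ≤ w →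
      μ.sz (Γ (w + avec (2 * m) (2 * j))) (Γ (w + avec (2 * m) (2 * j + 1))) ≠ ⊤)
    {κ : Type} (t : κ → Fin (2 * m)) (s : Finset κ) : ∀ w, v ≤ w →
      Γ (w + ∑ l ∈ s, avec (2 * m) (2 * ((t l).val / 2) + 1)) ≤
        Γ (w + ∑ l ∈ s, avec (2 * m) (t l)) ∧
      μ.sz (Γ (w + ∑ l ∈ s, avec (2 * m) (t l)))
        (Γ (w + ∑ l ∈ s, avec (2 * m) (2 * ((t l).val / 2) + 1))) ≠ ⊤ := by
  classical
  induction s using Finset.induction_on with
  | empty =>
    intro w hw
    simp only [Finset.sum_empty]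
    exact ⟨le_rfl, by rw [μ.sz_eq_zero_of_le le_rfl]; exact ENNReal.zero_ne_top⟩
  | insert a s ha ih =>
    intro w hw
    rw [Finset.sum_insert ha, Finset.sum_insert ha, ← add_assoc w (avec _ (t a)),
      add_comm (avec _ (2 * _ + 1)), ← add_assoc]
    obtain ⟨i1, i2⟩ := ih (w + avec (2 * m) (t a)) (hw.trans le_self_add)
    rw [add_right_comm w (avec _ (t a)) (∑ l ∈ s, avec (2 * m) (2 * ((t l).val / 2) + 1))]
      at i1 i2
    set w' := w + ∑ l ∈ s, avec (2 * m) (2 * ((t l).val / 2) + 1)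
    have hw' : v ≤ w' := hw.trans le_self_add
    have key : Γ (w' + avec (2 * m) (2 * ((t a).val / 2) + 1)) ≤ Γ (w' + avec (2 * m) (t a)) ∧
        μ.sz (Γ (w' + avec (2 * m) (t a)))
          (Γ (w' + avec (2 * m) (2 * ((t a).val / 2) + 1))) ≠ ⊤ := by
      have hlt : (t a).val / 2 < m := by have := (t a).2; omega
      by_cases hp : (t a).val % 2 = 0
      · have e : (t a).val = 2 * ((t a).val / 2) := by omega
        have k1 := flag_le h hΓ (w := w') (fun s => (hv s).trans (hw' s)) hlt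
        have k2 := hfin _ hlt w' hw'
        rw [← e] at k1 k2
        rw [← e]
        exact ⟨k1, k2⟩
      · rw [show 2 * ((t a).val / 2) + 1 = (t a).val by omega]
        exact ⟨le_rfl, by rw [μ.sz_eq_zero_of_le le_rfl]; exact ENNReal.zero_ne_top⟩
    exact ⟨key.1.trans i1, ne_top_of_le_ne_top (ENNReal.add_ne_top.2 ⟨i2, key.2⟩)
      (μ.sz_triangle _ _ _)⟩

theorem FL_matApp_scalar {ι : Type} [Fintype ι] [DecidableEq ι] (a : B) (x : ι → B) :
    matApp (Matrix.scalar ι a) B x = a • x := by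
  funext i
  simp [matApp_apply, Matrix.diagonal_apply]

theorem FL_isGr (h : Spl E m δ U U' γ) (hΓ : Fam (plI U ϖ₀) γ C Γ) {k : ℕ} [NeZero k]
    {v : Fin (2 * m + 1) → ℕ} (hv : ∀ s, C ≤ v s) :
    MC.IsGr (fun t : Fin (2 * m) => t.val / 2)
      ((cst _ (Γ (v + k • 1))).map (matApp (tpM U' k) B))
      fun t => Ideal.span {γ ^ k} * Γ (v + ∑ l, avec (2 * m) (t l)) := by
  have hUU : ∀ y, matApp (tpM U k) B (matApp (tpM U' k) B y) = γ ^ k • y := fun y => by
    rw [← matApp_mul, ← tpM_mul, h.right, tpM_scalar, FL_matApp_scalar]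
  have hUU' : ∀ y, matApp (tpM U' k) B (matApp (tpM U k) B y) = γ ^ k • y := fun y => by
    rw [← matApp_mul, ← tpM_mul, h.left, tpM_scalar, FL_matApp_scalar]
  have sL := ((h.hom'.tp k).isMap (single B B)).sub_map
    (MC.stabL_cst (k := k) E (Γ (v + k • 1))).sub
  have hπ := MC.ap_π ((Sp B m δ).tp k) (M := B)
  refine ⟨fun x hx t ht => ?_, fun t y hy => ?_⟩
  · have h1 := sL.2 (((Sp B m δ).tp k).deg t) x hx
    have h2 := flag_up hΓ hv ((((Sp B m δ).tp k).ap B).π (((Sp B m δ).tp k).deg t) x) ?_ t ?_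
    · rwa [hπ, if_pos rfl] at h2
    · obtain ⟨y, hy, e⟩ := h1
      intro i
      have := congrFun (hUU y) i
      rw [show matApp (tpM U' k) B y = _ from e] at this
      rw [this]
      exact Ideal.mul_mem_mul (Ideal.mem_span_singleton_self _) (hy i trivial)
    · intro t' h3 h4
      rw [hπ]
      split_ifs with h5
      · exact ht t' (lt_of_not_ge fun h6 => (FL_deg (B := B) δ h3 h4 h6).ne' h5)
      · rfl
  · obtain ⟨y₀, hy₀, rfl⟩ := Ideal.mem_span_singleton_mul.1 hy
    obtain ⟨x, x1, x2, x3⟩ := flag_gen hΓ hv t hy₀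
    refine ⟨(((Sp B m δ).tp k).ap B).π (((Sp B m δ).tp k).deg t) (γ ^ k • x),
      sL.2 _ _ ⟨matApp (tpM U k) B x, fun i _ => x3 i, hUU' x⟩, ?_, fun t' h3 h4 => ?_⟩
    · rw [hπ, if_pos rfl, ← x1]
      rfl
    · rw [hπ]
      split_ifs with h5
      · change γ ^ k * x t' = 0
        rw [x2 t' fun h6 => (FL_deg (B := B) δ h6 h3.symm h4).ne h5, mul_zero]
      · rfl

end main

theorem flag_psi {B : Type} [CommRing B] {E : MC B} {m : ℕ} {δ : ℕ → ℤ}
    {U : Matrix E.ι (Fin (2 * m)) B} {U' : Matrix (Fin (2 * m)) E.ι B} {γ ϖ₀ : B} {C : ℕ}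
    {Γ : (Fin (2 * m + 1) → ℕ) → Ideal B} (h : Spl E m δ U U' γ) (hΓ : Fam (plI U ϖ₀) γ C Γ)
    {k : ℕ} [NeZero k] (hk : Odd k) {ζ : B} (hζ : RootU k ζ) {v : Fin (2 * m + 1) → ℕ}
    (hv : ∀ s, C ≤ v s) (μ : LF B)
    (hfin : ∀ j < m, ∀ w, v ≤ w →
      μ.sz (Γ (w + avec (2 * m) (2 * j))) (Γ (w + avec (2 * m) (2 * j + 1))) ≠ ⊤) :
    E.FinL μ k B (cst _ (Γ (v + k • 1))) ⊥ ∧
    E.psiL μ k ζ B (cst _ (Γ (v + k • 1))) ⊥ = ((∑ j ∈ Finset.range m, sg (δ j) *
      (μ.sz (Γ (v + k • avec (2 * m) (2 * j))) (Γ (v + k • avec (2 * m) (2 * j + 1)))).toReal : ℝ) :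
        ℂ) := by
  classical
  set S := Sp B m δ with hS
  set f := matApp (tpM U' k) B with hf
  set G : (Fin k → Fin (2 * m)) → Submodule B B :=
    fun t => Ideal.span {γ ^ k} * Γ (v + ∑ l, avec (2 * m) (t l)) with hG
  set G' : (Fin k → Fin (2 * m)) → Submodule B B :=
    fun t => Ideal.span {γ ^ k} * Γ (v + ∑ l, avec (2 * m) (2 * ((t l).val / 2) + 1)) with hG'
  have hfi : Function.Injective f := fun x y e => by
    have h1 := congrArg (matApp (tpM U k) B) e
    rw [hf, ← matApp_mul, ← matApp_mul, ← tpM_mul, h.right, tpM_scalar, FL_matApp_scalar,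
      FL_matApp_scalar] at h1
    exact funext fun i => h.reg.pow k (congrFun h1 i)
  have hm : IsMap ((E.tp k).ap B) ((S.tp k).ap B) f := (h.hom'.tp k).isMap (single B B)
  have sA : E.StabL k B (cst _ (Γ (v + k • 1))) := MC.stabL_cst E _
  have sL : S.StabL k B ((cst _ (Γ (v + k • 1))).map f) := ⟨hm.sub_map sA.sub, by
    rintro _ ⟨x, hx, rfl⟩
    exact ⟨_, sA.mem x hx, h.hom'.tpM_cyc k x⟩⟩
  have eS := MC.eqv_cyc S k B
  have eE := MC.eqv_cyc E k B
  have hd : ∀ i j, S.d i j ≠ 0 → i.val / 2 = j.val / 2 := fun i j e => by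
    have := FL_Sp_d e
    omega
  have hd' : ∀ i j, S.d i j ≠ 0 → i.val / 2 ≤ j.val / 2 := fun i j e => (hd i j e).le
  have egr := FL_ap_gr (M := B) S (fun t => t.val / 2) hd' hd k
  have gL := FL_isGr h hΓ (k := k) hv
  have sG : S.StabL k B (Submodule.pi Set.univ G) := by
    have := MC.IsGr.stabL (E := S) hd' sL gL
    exact ⟨egr ▸ this.sub, this.mem⟩
  have sG' : S.StabL k B (Submodule.pi Set.univ G') := by
    refine MC.stabL_pi S G' (fun t l j x hx => ?_) fun t => le_of_eq ?_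
    · by_cases h0 : S.d (t l) j = 0
      · rw [h0, zero_smul]
        exact zero_mem _
      · have e : G' (Function.update t l j) = G' t := by
          simp only [hG']
          congr 3
          refine Finset.sum_congr rfl fun l' _ => ?_
          by_cases e : l' = l
          · rw [e, Function.update_self, hd _ _ h0]
          · rw [Function.update_of_ne e]
        exact Submodule.smul_mem _ _ (e ▸ hx)
    · simp only [hG']
      congr 3
      exact Equiv.sum_comp (finRotate k) fun l => avec (2 * m) (2 * ((t l).val / 2) + 1)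
  have hle : ∀ t, G' t ≤ G t := fun t =>
    Ideal.mul_mono_right (FL_chain h hΓ hv μ hfin t Finset.univ v le_rfl).1
  have hsz : ∀ t, μ.sz (G t) (G' t) ≠ ⊤ := fun t =>
    (FL_sz_mul μ (h.reg.pow k) _ _).trans_ne (FL_chain h hΓ hv μ hfin t Finset.univ v le_rfl).2
  have hac : ∀ n, ((S.tp k).ap B).h μ n (Submodule.pi Set.univ G') ⊥ = 0 :=
    (FL_acyc (S.tp k) ((FL_Sp_null m δ).tp k) (fun t l => (t l).val / 2)
      (fun t t' e => funext (FL_tpd e))
      fun p => Ideal.span {γ ^ k} * Γ (v + ∑ l, avec (2 * m) (2 * p l + 1))).h_eq_zero μ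
  obtain ⟨p1, p2⟩ := FL_pi (μ := μ) hζ hk S Fin.val Fin.val_injective
    (fun i j e => by have := FL_Sp_d e; omega) sG sG' hle hsz
  have sb : S.StabL k B ⊥ := Stab.bot eS.isMap
  have f1 : S.FinL μ k B (Submodule.pi Set.univ G') ⊥ := fun n =>
    (hac n).trans_ne ENNReal.zero_ne_top
  have hle' : Submodule.pi Set.univ G' ≤ Submodule.pi Set.univ G :=
    Submodule.pi_mono fun t _ => hle t
  have f2 : S.FinL μ k B (Submodule.pi Set.univ G) ⊥ :=
    FinH.mid sG.sub sG'.sub sb.sub hle' bot_le p1 f1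
  have q1 : S.psiL μ k ζ B (Submodule.pi Set.univ G) ⊥ =
      S.psiL μ k ζ B (Submodule.pi Set.univ G) (Submodule.pi Set.univ G') := by
    have := psi_add (MC.ap_bdd _ B) hζ eS sG sG' sb hle' bot_le p1 f1
    rw [psi_eq_zero_of_h hζ eS sG' sb bot_le hac, zero_add] at this
    exact this
  have eb : (Submodule.pi Set.univ fun _ : Fin k → Fin (2 * m) => (⊥ : Submodule B B)) = ⊥ :=
    Submodule.pi_univ_bot
  have gb := MC.isGr_pi (k := k) (fun t : Fin (2 * m) => t.val / 2)
    fun _ => (⊥ : Submodule B B)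
  rw [eb] at gb
  obtain ⟨r1, r2⟩ := MC.psiL_gr (μ := μ) hζ S (fun t => t.val / 2) hd' sL sb bot_le gL gb (by
    change (((S.gr _ hd').tp k).ap B).FinH μ _ _
    rw [egr]
    exact eb ▸ f2)
  have r3 : S.psiL μ k ζ B ((cst _ (Γ (v + k • 1))).map f) ⊥ =
      S.psiL μ k ζ B (Submodule.pi Set.univ G) ⊥ := by
    refine r2.trans ?_
    change psi (((S.gr _ hd').tp k).ap B) μ k ζ _ _ _ = _
    rw [egr]
    exact congrArg (S.psiL μ k ζ B (Submodule.pi Set.univ G)) eb
  refine ⟨fun n => ?_, ?_⟩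
  · have := hm.h_map hfi sA.sub (sub_bot _) bot_le μ n
    rw [Submodule.map_bot] at this
    exact this ▸ r1 n
  · have t1 : E.psiL μ k ζ B (cst _ (Γ (v + k • 1))) ⊥ =
        S.psiL μ k ζ B ((cst _ (Γ (v + k • 1))).map f) ⊥ :=
      psi_transport hζ eE eS f sA (Stab.bot eE.isMap) sL sb bot_le bot_le (sup_bot_eq _)
        (eq_bot_iff.2 fun x hx => hfi (hx.2.trans (map_zero f).symm))
        (fun x _ => sub_eq_zero.2 (hm.D x)) (fun n x _ => sub_eq_zero.2 (hm.π n x))
        fun x _ => sub_eq_zero.2 (h.hom'.tpM_cyc k x)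
    rw [t1, r3, q1, p2]
    congr 1
    refine Eq.trans ?_ ((FL_sum_two (fun c => sg (δ (c / 2) + (c % 2 : ℕ)) *
      (μ.sz (Γ (v + k • avec (2 * m) c))
        (Γ (v + k • avec (2 * m) (2 * (c / 2) + 1)))).toReal) m).trans ?_)
    · rw [← Fin.sum_univ_eq_sum_range]
      refine Finset.sum_congr rfl fun c _ => ?_
      simp only [hG, hG', FL_sz_mul μ (h.reg.pow k), Finset.sum_const, Finset.card_univ,
        Fintype.card_fin]
      rfl
    · refine Finset.sum_congr rfl fun j _ => ?_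
      rw [show (2 * j + 1) / 2 = j by omega, show 2 * j / 2 = j by omega,
        show 2 * j % 2 = 0 by omega, μ.sz_eq_zero_of_le (le_refl (Γ (v + k • avec _ (2 * j + 1))))]
      simp

/-- the case `k = 1` -/
theorem flag_chi {B : Type} [CommRing B] {E : MC B} {m : ℕ} {δ : ℕ → ℤ}
    {U : Matrix E.ι (Fin (2 * m)) B} {U' : Matrix (Fin (2 * m)) E.ι B} {γ ϖ₀ : B} {C : ℕ}
    {Γ : (Fin (2 * m + 1) → ℕ) → Ideal B} (h : Spl E m δ U U' γ) (hΓ : Fam (plI U ϖ₀) γ C Γ)
    {v : Fin (2 * m + 1) → ℕ} (hv : ∀ s, C ≤ v s) (μ : LF B)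
    (hfin : ∀ j < m, ∀ w, v ≤ w →
      μ.sz (Γ (w + avec (2 * m) (2 * j))) (Γ (w + avec (2 * m) (2 * j + 1))) ≠ ⊤) :
    E.chi μ (Γ (v + 1)) = ∑ j ∈ Finset.range m, sg (δ j) *
      (μ.sz (Γ (v + avec (2 * m) (2 * j))) (Γ (v + avec (2 * m) (2 * j + 1)))).toReal := by
  have h1 := (flag_psi h hΓ odd_one rootU_one hv μ hfin).2
  have h2 := MC.psiL_one (μ := μ) E (Γ (v + 1)) ⊥
  simp only [one_smul] at h1
  rw [show cst (Fin 1 → E.ι) (⊥ : Submodule B B) = ⊥ from Submodule.pi_univ_bot,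
    show cst E.ι (⊥ : Submodule B B) = ⊥ from Submodule.pi_univ_bot, h1] at h2
  exact (ech_congr fun n => E.ap_H_sub (Γ (v + 1)) μ n).trans (Complex.ofReal_injective h2).symm

end Crest.Agent.R188
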