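import Crest.Agent.R188.HKos

/-!
# Strands of Koszul complexes: change of the exponent
-/

set_option autoImplicit false
set_option linter.unusedVariables false

open scoped ENNReal NNReal TensorProduct

namespace Crest.Agent.R188

open Crest.Agent.R183 Crest.Agent.R183.DG

variable {B : Type} [CommRing B] {X : Type} [AddCommGroup X] [Module B X]
  {X' : Type} [AddCommGroup X'] [Module B X'] {C : DG B X} {C' : DG B X'}

theorem GMar_transfer {f : X →ₗ[B] X'} (hf : IsMap C C' f) (hb : Function.Bijective f)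
    {A : Submodule B X} {A' : Submodule B X'} (h : ∀ x, x ∈ A ↔ f x ∈ A') :
    C.AcycOn A ↔ C'.AcycOn A' := by
  constructor
  · intro H k x' hx' hπ hD
    obtain ⟨x, rfl⟩ := hb.2 x'
    obtain ⟨y, hy, e⟩ := H k x ((h x).2 hx') (hb.1 (by rw [hf.π, hπ]))
      (hb.1 (by rw [hf.D, hD, map_zero]))
    exact ⟨f y, (h y).1 hy, by rw [← hf.D, e]⟩
  · intro H k x hx hπ hD
    obtain ⟨y', hy', e⟩ := H k (f x) ((h x).1 hx) (by rw [← hf.π, hπ])
      (by rw [← hf.D, hD, map_zero])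
    obtain ⟨y, rfl⟩ := hb.2 y'
    exact ⟨y, (h y).2 hy', hb.1 (by rw [hf.D, e])⟩

theorem GMar_coneD (a : B) (x : X × X) :
    (C.coneS a).D x = (C.D x.1 + a • x.2, -C.D x.2) := rfl

theorem GMar_coneπ (a : B) (k : ℤ) (x : X × X) :
    (C.coneS a).π k x = (C.π k x.1, C.π (k - 1) x.2) := rfl

/-- composition of two quasi-isomorphisms between subcomplexes -/
theorem GMar_comp {a b : B} {A₀ A₁ A₂ : Submodule B X} (h₀ : ∀ x ∈ A₀, a • x ∈ A₁)
    (h₁ : ∀ x ∈ A₁, b • x ∈ A₂) (π₁ : ∀ k, ∀ x ∈ A₁, C.π k x ∈ A₁)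
    (Ha : (C.coneS a).AcycOn (A₁.prod A₀)) (Hb : (C.coneS b).AcycOn (A₂.prod A₁))
    (π₂ : ∀ k, ∀ x ∈ A₂, C.π k x ∈ A₂) :
    (C.coneS (b * a)).AcycOn (A₂.prod A₀) := by
  rintro k ⟨u, v⟩ ⟨hu, hv⟩ hπ hD
  rw [GMar_coneπ, Prod.mk.injEq] at hπ
  rw [GMar_coneD, Prod.mk_eq_zero, neg_eq_zero] at hD
  obtain ⟨πu, πv⟩ := hπ
  obtain ⟨Du, Dv⟩ := hD
  dsimp only at hu hv πu πv Du Dv
  obtain ⟨⟨p, q⟩, ⟨hp, hq⟩, e⟩ := Hb k (u, a • v) ⟨hu, h₀ v hv⟩
    (by rw [GMar_coneπ, map_smul, πu, πv])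
    (by rw [GMar_coneD, Prod.mk_eq_zero, map_smul, Dv, smul_zero, neg_zero, smul_smul]
        exact ⟨Du, rfl⟩)
  rw [GMar_coneD, Prod.mk.injEq] at e
  obtain ⟨e1, e2⟩ := e
  dsimp only at hp hq e1 e2
  have e1' : C.D (C.π (k + 1) p) + b • C.π k q = u := by
    rw [← C.πD, ← map_smul, ← map_add, e1, πu]
  have e2' : C.D (C.π k q) + a • v = 0 := by
    have h3 := C.πD (k - 1) q
    rw [sub_add_cancel] at h3
    rw [← h3, ← πv, ← map_smul, ← map_add, ← e2, add_neg_cancel, map_zero]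
  obtain ⟨⟨p', q'⟩, ⟨hp', hq'⟩, e'⟩ := Ha k (C.π k q, v) ⟨π₁ k q hq, hv⟩
    (by rw [GMar_coneπ, C.ππ, πv])
    (by rw [GMar_coneD, Prod.mk_eq_zero, neg_eq_zero]
        exact ⟨e2', Dv⟩)
  rw [GMar_coneD, Prod.mk.injEq] at e'
  obtain ⟨e3, e4⟩ := e'
  dsimp only at hp' hq' e3 e4
  refine ⟨(C.π (k + 1) p + b • p', q'), ⟨A₂.add_mem (π₂ _ p hp) (h₁ p' hp'), hq'⟩, ?_⟩
  rw [GMar_coneD, Prod.mk.injEq]
  refine ⟨?_, e4⟩
  dsimp only
  rw [← e1', ← e3, map_add, map_smul, smul_add, smul_smul, add_assoc]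

theorem GMar_pow_smul {G : ℤ → Submodule B X} {b : B} (hb : ∀ ρ, ∀ x ∈ G ρ, b • x ∈ G (ρ + 1))
    (q : ℕ) (ρ : ℤ) : ∀ x ∈ G ρ, b ^ q • x ∈ G (ρ + q) := by
  intro x hx
  induction q with
  | zero => rwa [pow_zero, one_smul, Nat.cast_zero, add_zero]
  | succ q ih =>
    rw [pow_succ', mul_smul, Nat.cast_succ, ← add_assoc]
    exact hb _ _ ih

/-- one variable -/
theorem GMar_one {G : ℤ → Submodule B X} {b : B} (hπ : ∀ ρ k, ∀ x ∈ G ρ, C.π k x ∈ G ρ)
    (hb : ∀ ρ, ∀ x ∈ G ρ, b • x ∈ G (ρ + 1)) {r : ℤ}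
    (H : ∀ ρ, r ≤ ρ → (C.coneS b).AcycOn ((G ρ).prod (G (ρ - 1)))) (q : ℕ) :
    ∀ ρ, r + q ≤ ρ → (C.coneS (b ^ (q + 1))).AcycOn ((G ρ).prod (G (ρ - (q + 1 : ℕ)))) := by
  induction q with
  | zero =>
    intro ρ hρ
    rw [zero_add, pow_one, Nat.cast_one]
    exact H ρ (by simpa using hρ)
  | succ q ih =>
    intro ρ hρ
    rw [pow_succ]
    push_cast at hρ
    have e : ρ - (q + 1 + 1 : ℕ) = ρ - (q + 1 : ℕ) - 1 := by push_cast; ring
    rw [e]
    refine GMar_comp (A₁ := G (ρ - (q + 1 : ℕ))) (fun x hx => ?_) (fun x hx => ?_) (hπ _)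
      (H _ (by push_cast; omega)) (ih ρ (by omega)) (hπ _)
    · have := hb _ x hx
      rwa [sub_add_cancel] at this
    · have := GMar_pow_smul hb (q + 1) _ x hx
      rwa [sub_add_cancel] at this

/-- the strand -/
def GMar_str (E : MC B) (κ : ℤ) (F : ℤ → Submodule B X) (ρ : ℤ) : Submodule B (E.ι → X) :=
  Submodule.pi Set.univ fun i => F (ρ - κ * E.deg i)

theorem GMar_mem_str {E : MC B} {κ : ℤ} {F : ℤ → Submodule B X} {ρ : ℤ} {x : E.ι → X} :
    x ∈ GMar_str E κ F ρ ↔ ∀ i, x i ∈ F (ρ - κ * E.deg i) :=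
  ⟨fun h i => h i (Set.mem_univ i), fun h i _ => h i⟩

theorem GMar_iso1 (E : MC B) (a : B) (C : DG B X) (κ : ℤ) (F : ℤ → Submodule B X) (ρ : ℤ) :
    ((E.coneS a).app C).AcycOn (GMar_str (E.coneS a) κ F ρ) ↔
      ((E.app C).coneS a).AcycOn ((GMar_str E κ F ρ).prod (GMar_str E κ F (ρ - κ))) := by
  refine GMar_transfer (f := (LinearEquiv.sumArrowLequivProdArrow E.ι E.ι B X).toLinearMap)
    ⟨fun x => ?_, fun k x => ?_⟩ (LinearEquiv.sumArrowLequivProdArrow E.ι E.ι B X).bijective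
    fun x => ?_
  · refine Prod.ext (funext fun i => ?_) (funext fun i => ?_)
    · change ∑ j : E.ι ⊕ E.ι, Matrix.fromBlocks E.d (Matrix.scalar E.ι a) 0 (-E.d) (Sum.inl i) j •
        x j + sg (E.deg i) • C.D (x (Sum.inl i)) = ∑ j, E.d i j • x (Sum.inl j) +
        sg (E.deg i) • C.D (x (Sum.inl i)) + a • x (Sum.inr i)
      rw [Fintype.sum_sum_type]
      simp only [Matrix.fromBlocks_apply₁₁, Matrix.fromBlocks_apply₁₂, Matrix.scalar_apply,
        Matrix.diagonal_apply, ite_smul, zero_smul, Finset.sum_ite_eq, Finset.mem_univ, if_true]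
      abel
    · change ∑ j : E.ι ⊕ E.ι, Matrix.fromBlocks E.d (Matrix.scalar E.ι a) 0 (-E.d) (Sum.inr i) j •
        x j + sg (E.deg i + 1) • C.D (x (Sum.inr i)) = -(∑ j, E.d i j • x (Sum.inr j) +
        sg (E.deg i) • C.D (x (Sum.inr i)))
      rw [Fintype.sum_sum_type, MC.HApp_sg_succ]
      simp only [Matrix.fromBlocks_apply₂₁, Matrix.fromBlocks_apply₂₂, Matrix.zero_apply,
        zero_smul, Finset.sum_const_zero, zero_add, Matrix.neg_apply, neg_smul,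
        Finset.sum_neg_distrib, neg_add]
  · refine Prod.ext rfl (funext fun i => ?_)
    change C.π (k - (E.deg i + 1)) (x (Sum.inr i)) = C.π (k - 1 - E.deg i) (x (Sum.inr i))
    congr 2
    ring
  · have e : ∀ i, ρ - κ * (E.deg i + 1) = ρ - κ - κ * E.deg i := fun i => by ring
    constructor
    · intro h
      refine ⟨fun i _ => h (Sum.inl i) trivial, GMar_mem_str.2 fun i => ?_⟩
      rw [← e]
      exact h (Sum.inr i) trivial
    · rintro ⟨h1, h2⟩ (i | i) _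
      · exact h1 i trivial
      · have := GMar_mem_str.1 h2 i
        rw [← e] at this
        exact this

theorem GMar_iso2 (E : MC B) (a : B) (C : DG B X) (κ : ℤ) (F : ℤ → Submodule B X) (ρ : ℤ) :
    (E.app (C.coneS a)).AcycOn (GMar_str E κ (fun σ => (F σ).prod (F (σ - 1))) ρ) ↔
      ((E.app C).coneS a).AcycOn ((GMar_str E κ F ρ).prod (GMar_str E κ F (ρ - 1))) := by
  refine GMar_transfer (f := LinearMap.prod ((LinearMap.fst B X X).compLeft E.ι)
    (LinearMap.pi fun i => sg (E.deg i) • (LinearMap.snd B X X ∘ₗ LinearMap.proj i)))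
    ⟨fun x => ?_, fun k x => ?_⟩ ⟨fun x y h => ?_, fun y => ?_⟩ fun x => ?_
  · refine Prod.ext (funext fun i => ?_) (funext fun i => ?_)
    · change (∑ j, E.d i j • x j + sg (E.deg i) • (C.coneS a).D (x i)).1 =
        ∑ j, E.d i j • (x j).1 + sg (E.deg i) • C.D (x i).1 + a • (sg (E.deg i) • (x i).2)
      simp only [Prod.fst_add, Prod.fst_sum, Prod.smul_fst, GMar_coneD, smul_add, add_assoc]
      rw [smul_comm a]
    · change sg (E.deg i) • (∑ j, E.d i j • x j + sg (E.deg i) • (C.coneS a).D (x i)).2 =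
        -(∑ j, E.d i j • sg (E.deg j) • (x j).2 + sg (E.deg i) • C.D (sg (E.deg i) • (x i).2))
      simp only [Prod.snd_add, Prod.snd_sum, Prod.smul_snd, GMar_coneD, smul_add, map_zsmul,
        MC.HApp_sg_sg, neg_add, Finset.smul_sum, ← Finset.sum_neg_distrib]
      congr 1
      refine Finset.sum_congr rfl fun j _ => ?_
      by_cases h : E.d i j = 0
      · simp [h]
      · rw [E.hdeg i j h, MC.HApp_sg_succ, neg_smul, smul_neg, neg_neg, smul_comm]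
  · refine Prod.ext rfl (funext fun i => ?_)
    change sg (E.deg i) • C.π (k - E.deg i - 1) (x i).2 =
      C.π (k - 1 - E.deg i) (sg (E.deg i) • (x i).2)
    rw [map_zsmul, sub_right_comm]
  · funext i
    have h1 : (x i).1 = (y i).1 := congrFun (congrArg Prod.fst h) i
    have h2 : sg (E.deg i) • (x i).2 = sg (E.deg i) • (y i).2 := congrFun (congrArg Prod.snd h) i
    refine Prod.ext h1 ?_
    rw [← MC.HApp_sg_sg (E.deg i) (x i).2, h2, MC.HApp_sg_sg]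
  · exact ⟨fun i => (y.1 i, sg (E.deg i) • y.2 i),
      Prod.ext rfl (funext fun i => MC.HApp_sg_sg _ _)⟩
  · have e : ∀ i, ρ - κ * E.deg i - 1 = ρ - 1 - κ * E.deg i := fun i => by ring
    rw [GMar_mem_str, Submodule.mem_prod, GMar_mem_str, GMar_mem_str]
    constructor
    · intro h
      refine ⟨fun i => (h i).1, fun i => ?_⟩
      rw [← e]
      exact zsmul_mem (h i).2 _
    · rintro ⟨h1, h2⟩ i
      refine ⟨h1 i, ?_⟩
      have h3 : sg (E.deg i) • (x i).2 ∈ F (ρ - 1 - κ * E.deg i) := h2 i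
      have h4 := zsmul_mem h3 (sg (E.deg i))
      rw [MC.HApp_sg_sg, ← e] at h4
      exact h4

/-- change of the exponent -/
theorem GMar_exp (q : ℕ) : ∀ (n : ℕ) (y : Fin n → B) (X : Type) [AddCommGroup X] [Module B X]
    (C : DG B X) (F : ℤ → Submodule B X) (r : ℤ), (∀ ρ k, ∀ x ∈ F ρ, C.π k x ∈ F ρ) →
    (∀ i ρ, ∀ x ∈ F ρ, y i • x ∈ F (ρ + 1)) →
    (∀ ρ, r ≤ ρ → (K y C).AcycOn (GMar_str (kos y) 1 F ρ)) →
    ∀ ρ, r + n * q ≤ ρ → (K (fun i => y i ^ (q + 1)) C).AcycOn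
      (GMar_str (kos fun i => y i ^ (q + 1)) (q + 1 : ℕ) F ρ)
  | 0, y, X, _, _, C, F, r, hπ, hy, H, ρ, hρ => by
    have h1 := H ρ (by simpa using hρ)
    have e : GMar_str (kos fun i => y i ^ (q + 1)) (q + 1 : ℕ) F ρ = GMar_str (kos y) 1 F ρ := by
      change (Submodule.pi Set.univ fun i : Unit => F (ρ - ((q + 1 : ℕ) : ℤ) * 0)) =
        Submodule.pi Set.univ fun i : Unit => F (ρ - 1 * 0)
      rw [mul_zero, mul_zero]
    rw [e]
    exact h1
  | n + 1, y, X, _, _, C, F, r, hπ, hy, H, ρ, hρ => by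
    have h1 : ∀ ρ, r ≤ ρ → (K (Fin.tail y) (C.coneS (y 0))).AcycOn
        (GMar_str (kos (Fin.tail y)) 1 (fun σ => (F σ).prod (F (σ - 1))) ρ) := fun ρ hρ =>
      (GMar_iso2 (kos (Fin.tail y)) (y 0) C 1 F ρ).2
        ((GMar_iso1 (kos (Fin.tail y)) (y 0) C 1 F ρ).1 (H ρ hρ))
    have h2 := GMar_exp q n (Fin.tail y) (X × X) (C.coneS (y 0))
      (fun σ => (F σ).prod (F (σ - 1))) r
      (fun ρ k x hx => ⟨hπ _ _ _ hx.1, hπ _ _ _ hx.2⟩)
      (fun i ρ x hx => ⟨hy i.succ _ _ hx.1, by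
        have := hy i.succ _ _ hx.2
        rw [sub_add_cancel] at this
        rw [add_sub_cancel_right]
        exact this⟩) h1
    have h3 := GMar_one (C := K (fun i => Fin.tail y i ^ (q + 1)) C)
      (G := GMar_str (kos fun i => Fin.tail y i ^ (q + 1)) (q + 1 : ℕ) F) (b := y 0)
      (fun ρ k x hx => GMar_mem_str.2 fun i => hπ _ _ _ (GMar_mem_str.1 hx i))
      (fun ρ x hx => GMar_mem_str.2 fun i => by
        rw [add_sub_right_comm]
        exact hy 0 _ _ (GMar_mem_str.1 hx i))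
      (r := r + n * q)
      (fun ρ hρ => (GMar_iso2 (kos fun i => Fin.tail y i ^ (q + 1)) (y 0) C _ F ρ).1 (h2 ρ hρ))
      q ρ (by push_cast at hρ; linarith)
    exact (GMar_iso1 (kos fun i => Fin.tail y i ^ (q + 1)) (y 0 ^ (q + 1)) C _ F ρ).2 h3

end Crest.Agent.R188
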