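import Crest.Agent.R188.HApp

/-!
# Koszul complexes
-/

set_option autoImplicit false
set_option linter.unusedVariables false

open scoped ENNReal NNReal TensorProduct

namespace Crest.Agent.R188

open Crest.Agent.R183 Crest.Agent.R183.DG

variable {B : Type} [CommRing B] {X : Type} [AddCommGroup X] [Module B X]
  {X' : Type} [AddCommGroup X'] [Module B X'] {C : DG B X} {C' : DG B X'} {μ : LF B}

theorem HKos_kmat_map {B' : Type} [CommRing B'] (φ : B →+* B') :
    ∀ (n : ℕ) (y : Fin n → B), (kmat n y).map φ = kmat n fun i => φ (y i)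
  | 0, _ => by simp [kmat]
  | n + 1, y => by
    have ih := HKos_kmat_map φ n (Fin.tail y)
    change (Matrix.fromBlocks (kmat n (Fin.tail y)) (Matrix.scalar (KI n) (y 0)) 0
      (-kmat n (Fin.tail y))).map φ = Matrix.fromBlocks (kmat n fun i => φ (Fin.tail y i))
        (Matrix.scalar (KI n) (φ (y 0))) 0 (-kmat n fun i => φ (Fin.tail y i))
    rw [Matrix.fromBlocks_map, ← ih]
    congr 1
    · simp
    · simp
    · ext i j
      simp

theorem HKos_succ_iso {n : ℕ} (y : Fin (n + 1) → B) (C : DG B X) :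
    (K y C).Iso ((K (Fin.tail y) C).coneS (y 0)) :=
  MC.coneS_app_iso (kos (Fin.tail y)) (y 0) C

theorem HKos_nullH (C : DG B X) : ∀ (n : ℕ) (y : Fin n → B) (i : Fin n), (K y C).NullH (y i)
  | 0, _, i => i.elim0
  | n + 1, y, i => by
    refine (HKos_succ_iso y C).symm.nullH ?_
    induction i using Fin.cases with
    | zero => exact nullH_coneS_self _ _
    | succ i => exact (HKos_nullH C n (Fin.tail y) i).coneS _

theorem HKos_sp_le {n : ℕ} (y : Fin n → B) (C : DG B X) : sp y ≤ (K y C).nullI :=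
  Ideal.span_le.2 (Set.range_subset_iff.2 (HKos_nullH C n y))

theorem HKos_sp_zero (y : Fin 0 → B) : sp y = ⊥ := by
  simp [sp]

theorem HKos_sp_succ {n : ℕ} (y : Fin (n + 1) → B) :
    sp y = Ideal.span {y 0} ⊔ sp (Fin.tail y) := by
  rw [sp, Fin.range_fin_succ, Ideal.span_insert]

theorem HKos_single_qi {M M' : Type} [AddCommGroup M] [Module B M] [AddCommGroup M'] [Module B M']
    (e : M ≃ₗ[B] M') : QI (single B M) (single B M') e.toLinearMap :=
  QI.of_bijective (single_isMap _) e.bijective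

theorem HKos_coneS_swap (C : DG B X) (a b : B) :
    ((C.coneS a).coneS b).Iso ((C.coneS b).coneS a) := by
  refine ⟨LinearEquiv.prodProdProdComm B X X X X ≪≫ₗ (LinearEquiv.refl B _).prodCongr
    ((LinearEquiv.refl B X).prodCongr (LinearEquiv.neg B)), fun x => ?_, fun k x => ?_⟩
  · ext <;> simp [cone_D]
    all_goals abel
  · ext <;> simp [cone_π]

theorem HKos_D_zero (hC : ∀ k < 0, ∀ x, C.π k x = 0) {x : X} (hx : C.π 0 x = x) : C.D x = 0 := by
  rw [← hx, ← neg_add_cancel (1 : ℤ), ← C.πD, hC _ (by norm_num)]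

theorem HKos_π_Bd {x : X} (hx : x ∈ C.Bd ⊤ ⊥) (k : ℤ) : C.π k x ∈ C.Bd ⊤ ⊥ := by
  obtain ⟨a, -, b, hb, rfl⟩ := C.mem_Bd.1 hx
  rw [(Submodule.mem_bot B).1 hb, add_zero, C.πD]
  exact C.D_mem_Bd _ trivial

theorem HKos_H_zero (hC : ∀ k < 0, ∀ x, C.π k x = 0) (μ : LF B) :
    C.H μ 0 = μ.sz (C.deg 0) (C.Bd ⊤ ⊥) := by
  rw [H, h]
  congr 1
  ext x
  exact ⟨fun hx => hx.1.2, fun hx => ⟨⟨trivial, hx⟩, HKos_D_zero hC hx⟩⟩

theorem HKos_cone_neg (hC : ∀ k < 0, ∀ x, C.π k x = 0) (a : B) :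
    ∀ k < 0, ∀ x, (C.coneS a).π k x = 0 := fun k hk x => by
  rw [cone_π, hC k hk, hC (k - 1) (by omega)]
  rfl

theorem HKos_cone_deg (hC : ∀ k < 0, ∀ x, C.π k x = 0) (a : B) :
    (C.coneS a).deg 0 = (C.deg 0).map (LinearMap.inl B X X) := by
  ext ⟨x, x'⟩
  rw [mem_deg, cone_π, hC (0 - 1) (by norm_num), Prod.mk.injEq]
  constructor
  · rintro ⟨h1, rfl⟩
    exact ⟨x, h1, rfl⟩
  · rintro ⟨u, hu, e⟩
    obtain ⟨rfl, rfl⟩ := Prod.mk.inj e
    exact ⟨hu, rfl⟩

theorem HKos_cone_sz (hC : ∀ k < 0, ∀ x, C.π k x = 0) (a : B) (I : Ideal B) (μ : LF B) :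
    μ.sz ((C.coneS a).deg 0) ((C.coneS a).Bd ⊤ ⊥ ⊔ I • ⊤) =
      μ.sz (C.deg 0) (C.Bd ⊤ ⊥ ⊔ (Ideal.span {a} ⊔ I) • ⊤) := by
  rw [HKos_cone_deg hC, μ.sz_map_eq]
  refine le_antisymm (DG_le_right μ fun x hx => ?_) (μ.sz_mono le_rfl fun x hx => ?_)
  · obtain ⟨b, hb, s, hs, rfl⟩ := Submodule.mem_sup.1 hx.2
    rw [Submodule.sup_smul, Submodule.ideal_span_singleton_smul] at hs
    obtain ⟨_, h1, s', hs', rfl⟩ := Submodule.mem_sup.1 hs
    obtain ⟨v, -, rfl⟩ := (Submodule.mem_smul_pointwise_iff_exists _ _ _).1 h1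
    obtain ⟨u, -, b, hb, e⟩ := C.mem_Bd.1 (HKos_π_Bd hb 0)
    rw [(Submodule.mem_bot B).1 hb, add_zero] at e
    rw [Submodule.mem_comap, ← C.mem_deg.1 hx.1, map_add (C.π 0), ← e, map_add (C.π 0), map_smul,
      ← add_assoc, map_add]
    refine Submodule.add_mem_sup ?_ (Submodule.smul_top_le_comap_smul_top I _
      (Submodule.smul_top_le_comap_smul_top I _ hs'))
    convert (C.coneS a).D_mem_Bd (A := ⊤) ⊥ (x := (u, C.π 0 v)) trivial using 1
    simp [cone_D, HKos_D_zero hC (C.ππ 0 v)]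
  · obtain ⟨b, hb, s, hs, e⟩ := Submodule.mem_sup.1 hx
    obtain ⟨u, -, b', hb', rfl⟩ := (C.coneS a).mem_Bd.1 hb
    rw [(Submodule.mem_bot B).1 hb', add_zero] at e
    have e1 : C.D u.1 + a • u.2 + s.1 = x := congrArg Prod.fst e
    rw [← e1, add_assoc]
    refine Submodule.add_mem_sup (C.D_mem_Bd _ trivial) (add_mem (Submodule.smul_mem_smul
      (Ideal.mem_sup_left (Ideal.mem_span_singleton_self a)) trivial) ?_)
    exact Submodule.smul_mono_left le_sup_right
      (Submodule.smul_top_le_comap_smul_top I (LinearMap.fst B X X) hs)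

/-- kernel and cokernel of an endomorphism of a subquotient of finite size -/
theorem HKos_ker_coker (μ : LF B) {P Q : Submodule B X} (f : X →ₗ[B] X) (hP : P.map f ≤ P)
    (hQ : Q ≤ Q.comap f) (h : μ.sz P Q ≠ ⊤) : μ.sz (P ⊓ Q.comap f) Q = μ.sz P (P.map f ⊔ Q) := by
  have h1 := μ.sz_tower_right P hQ
  have h2 := μ.sz_tower_left hP Q
  rw [μ.sz_map_eq] at h2
  exact (ENNReal.add_right_inj (ne_top_of_le_ne_top h (μ.sz_mono le_rfl hQ))).1 (h1.symm.trans h2)

theorem HKos_cone_one (hC : ∀ k < 0, ∀ x, C.π k x = 0) (h0 : C.H μ 0 ≠ ⊤) (w : B) :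
    (C.coneS w).H μ 1 ≤ (C.coneS w).H μ 0 + C.H μ 1 := by
  have hi := HCone_inl (C.isMap_smul w)
  rw [H, ((C.coneS w).les μ (C.coneS w).sub_top (HCone_sub_range hi) (C.coneS w).sub_bot le_top
    bot_le 1).1, add_comm]
  refine add_le_add ?_ ?_
  · rw [HKos_H_zero hC] at h0
    calc μ.sz ((C.coneS w).Z 1 ⊤ ⊥) ((C.coneS w).Bd ⊤ (LinearMap.range (LinearMap.inl B X X)))
        ≤ μ.sz ((C.coneS w).Z 1 ⊤ ⊥) ((C.Bd ⊤ ⊥).comap (LinearMap.snd B X X)) := by
          refine μ.sz_mono le_rfl fun x hx => ?_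
          obtain ⟨u, -, b, hb, e⟩ := C.mem_Bd.1 hx
          rw [(Submodule.mem_bot B).1 hb, add_zero] at e
          refine (C.coneS w).mem_Bd.2 ⟨(0, -u), trivial, _, ⟨x.1 + w • u, rfl⟩, ?_⟩
          ext <;> simp [cone_D, e]
      _ ≤ μ.sz (C.deg 0 ⊓ (C.Bd ⊤ ⊥).comap (LinearMap.lsmul B X w)) (C.Bd ⊤ ⊥) := by
          rw [← μ.sz_map_eq]
          refine μ.sz_mono ?_ le_rfl
          rintro _ ⟨x, hx, rfl⟩
          obtain ⟨⟨-, h1⟩, h2⟩ := (C.coneS w).mem_Z.1 hx
          have e1 : C.π (1 - 1) x.2 = x.2 := congrArg Prod.snd h1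
          have e2 : C.D x.1 + w • x.2 = 0 := congrArg Prod.fst ((Submodule.mem_bot B).1 h2)
          refine ⟨C.mem_deg.2 (by simpa using e1), ?_⟩
          change w • x.2 ∈ C.Bd ⊤ ⊥
          rw [eq_neg_of_add_eq_zero_right e2]
          exact neg_mem (C.D_mem_Bd _ trivial)
      _ = μ.sz (C.deg 0) ((C.deg 0).map (LinearMap.lsmul B X w) ⊔ C.Bd ⊤ ⊥) := by
          refine HKos_ker_coker μ _ ?_ (fun x hx => Submodule.smul_mem _ w hx) h0
          rintro _ ⟨x, hx, rfl⟩
          exact Submodule.smul_mem _ w hx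
      _ ≤ (C.coneS w).H μ 0 := by
          rw [HKos_H_zero (HKos_cone_neg hC w), HKos_cone_deg hC, μ.sz_map_eq]
          refine DG_le_right μ fun x hx => ?_
          obtain ⟨u, -, b, hb, e⟩ := (C.coneS w).mem_Bd.1 hx.2
          rw [(Submodule.mem_bot B).1 hb, add_zero] at e
          have e1 : C.D u.1 + w • u.2 = x := congrArg Prod.fst e
          rw [← C.mem_deg.1 hx.1, ← e1, map_add, map_smul, add_comm, C.πD]
          exact Submodule.add_mem_sup ⟨_, C.ππ 0 _, rfl⟩ (C.D_mem_Bd _ trivial)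
  · rw [← HCone_h_sub hi LinearMap.inl_injective]
    exact μ.sz_mono le_rfl ((C.coneS w).Bd_mono le_top le_rfl)

theorem card_KI (n : ℕ) : Fintype.card (KI n) = 2 ^ n := by
  induction n with
  | zero => rfl
  | succ n ih =>
    rw [pow_succ, mul_two, ← ih, ← Fintype.card_sum]
    exact Fintype.card_congr (Equiv.refl _)

theorem KI_deg_nonneg (n : ℕ) (i : KI n) : 0 ≤ KI.deg n i := by
  induction n with
  | zero => exact le_rfl
  | succ n ih =>
    rcases i with i | i
    · exact ih i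
    · exact (ih i).trans (lt_add_one _).le

theorem KI_deg_le (n : ℕ) (i : KI n) : KI.deg n i ≤ n := by
  induction n with
  | zero => exact le_rfl
  | succ n ih =>
    rw [Nat.cast_succ]
    rcases i with i | i
    · exact (ih i).trans (lt_add_one _).le
    · exact add_le_add (ih i) le_rfl

theorem kos_map {B' : Type} [CommRing B'] {n : ℕ} (y : Fin n → B) (φ : B →+* B') :
    (kos y).map φ = kos fun i => φ (y i) := by
  unfold kos MC.map
  congr 1
  exact HKos_kmat_map φ n y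

theorem kos_null {n : ℕ} (y : Fin n → B) {a : B} (ha : a ∈ sp y) : (kos y).Null a := by
  exact MC.null_iff.2 (HKos_sp_le y (single B B) ha)

theorem kos_supp {n : ℕ} (y : Fin n → B) : (kos y).Supp (sp y) := by
  exact fun a ha => ⟨1, by rw [pow_one]; exact kos_null y ha⟩

theorem K_zero_iso (y : Fin 0 → B) (C : DG B X) : (K y C).Iso C := by
  exact MC.free_app_iso C

theorem K_succ_iso {n : ℕ} (y : Fin (n + 1) → B) (C : DG B X) :
    (K y C).Iso ((K (Fin.tail y) C).coneS (y 0)) := by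
  exact HKos_succ_iso y C

theorem K_succ_iso' {n : ℕ} (y : Fin (n + 1) → B) (C : DG B X) :
    (K y C).Iso (K (Fin.tail y) (C.coneS (y 0))) := by
  exact (K_succ_iso y C).trans (MC.app_coneS_iso _ _ C).symm

theorem HKos_append {m : ℕ} (z : Fin m → B) (C : DG B X) : ∀ (n : ℕ) (y : Fin n → B) (N : ℕ)
    (w : Fin N → B), List.ofFn w = List.ofFn y ++ List.ofFn z → (K w C).Iso (K y (K z C))
  | 0, y, N, w, h => by
    rw [List.ofFn_zero, List.nil_append] at h
    obtain rfl : N = m := by simpa using congrArg List.length h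
    rw [List.ofFn_injective h]
    exact (K_zero_iso y _).symm
  | n + 1, y, 0, w, h => by simp at h
  | n + 1, y, N + 1, w, h => by
    rw [List.ofFn_succ, List.ofFn_succ, List.cons_append, List.cons.injEq] at h
    refine (K_succ_iso w C).trans (Iso.trans ?_ (K_succ_iso y _).symm)
    rw [h.1]
    exact (HKos_append z C n (Fin.tail y) N (Fin.tail w) h.2).coneS _

theorem HKos_perm (C : DG B X) {l l' : List B} (h : l.Perm l') : ∀ (n n' : ℕ) (y : Fin n → B)
    (y' : Fin n' → B), List.ofFn y = l → List.ofFn y' = l' → (K y C).Iso (K y' C) := by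
  induction h with
  | nil =>
    intro n n' y y' h h'
    obtain rfl : n = 0 := by simpa using congrArg List.length h
    obtain rfl : n' = 0 := by simpa using congrArg List.length h'
    exact (K_zero_iso y C).trans (K_zero_iso y' C).symm
  | cons a _ ih =>
    intro n n' y y' h h'
    obtain _ | n := n
    · simp at h
    obtain _ | n' := n'
    · simp at h'
    rw [List.ofFn_succ, List.cons.injEq] at h h'
    refine (K_succ_iso y C).trans (Iso.trans ?_ (K_succ_iso y' C).symm)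
    rw [h.1, h'.1]
    exact (ih _ _ (Fin.tail y) (Fin.tail y') h.2 h'.2).coneS _
  | swap a b l =>
    intro n n' y y' h h'
    obtain rfl : n = l.length + 1 + 1 := by simpa using congrArg List.length h
    obtain rfl : n' = l.length + 1 + 1 := by simpa using congrArg List.length h'
    rw [List.ofFn_succ, List.ofFn_succ, List.cons.injEq, List.cons.injEq] at h h'
    have e : Fin.tail (Fin.tail y) = Fin.tail (Fin.tail y') :=
      List.ofFn_injective (h.2.2.trans h'.2.2.symm)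
    refine (K_succ_iso y C).trans <| ((K_succ_iso _ C).coneS _).trans <| Iso.trans ?_ <|
      ((K_succ_iso _ C).coneS _).symm.trans (K_succ_iso y' C).symm
    rw [e, h.1, h'.1, show Fin.tail y 0 = a from h.2.1, show Fin.tail y' 0 = b from h'.2.1]
    exact HKos_coneS_swap _ _ _
  | trans _ _ ih ih' =>
    intro n n' y y' h h'
    exact (ih _ _ y _ h (List.ofFn_get _)).trans (ih' _ _ _ y' (List.ofFn_get _) h')

theorem K_append_iso {n m : ℕ} (y : Fin n → B) (z : Fin m → B) (C : DG B X) :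
    (K (Fin.append y z) C).Iso (K y (K z C)) := by
  exact HKos_append z C n y _ _ (List.ofFn_fin_append y z)

theorem K_perm_iso {n : ℕ} (y : Fin n → B) (e : Equiv.Perm (Fin n)) (C : DG B X) :
    (K (y ∘ e) C).Iso (K y C) := by
  exact HKos_perm C (Equiv.Perm.ofFn_comp_perm e y) _ _ _ _ rfl rfl

theorem K_bdd {n : ℕ} (y : Fin n → B) (hC : C.Bdd) : (K y C).Bdd := by
  exact MC.app_bdd _ hC

theorem K_nullH {n : ℕ} (y : Fin n → B) (C : DG B X) {a : B} (ha : a ∈ sp y ⊔ C.nullI) :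
    (K y C).NullH a := by
  exact sup_le (HKos_sp_le y C) (fun b hb => MC.app_nullH _ hb : C.nullI ≤ (K y C).nullI) ha

theorem coneS_iso_of_nullH {a a' : B} (h : C.NullH (a - a')) :
    (C.coneS a).Iso (C.coneS a') := by
  obtain ⟨h, h1, h2⟩ := h
  have e := fun y => eq_sub_of_add_eq (h2 y)
  refine ⟨LinearEquiv.ofLinearMap
      (LinearMap.prod (LinearMap.fst B X X + h ∘ₗ LinearMap.snd B X X) (LinearMap.snd B X X))
      (LinearMap.prod (LinearMap.fst B X X - h ∘ₗ LinearMap.snd B X X) (LinearMap.snd B X X))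
      (by ext <;> simp) (by ext <;> simp), fun x => ?_, fun k x => ?_⟩
  · ext
    · simp [cone_D, e, sub_smul]
      abel
    · simp [cone_D]
  · ext <;> simp [cone_π, h1]

theorem coneS_unit_iso (C : DG B X) (a : B) (u : Bˣ) : (C.coneS (u * a)).Iso (C.coneS a) := by
  refine ⟨(LinearEquiv.refl B X).prodCongr (LinearEquiv.smulOfUnit u), fun x => ?_, fun k x => ?_⟩
  · ext
    · simp [cone_D, LinearEquiv.smulOfUnit, Units.smul_def, smul_smul, mul_comm]
    · simp [cone_D, LinearEquiv.smulOfUnit, Units.smul_def]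
  · ext
    · simp [cone_π]
    · simp [cone_π, LinearEquiv.smulOfUnit, Units.smul_def]

theorem K_iso_of_nullH {n : ℕ} {y y' : Fin n → B} (h : ∀ i, C.NullH (y i - y' i)) :
    (K y C).Iso (K y' C) := by
  induction n with
  | zero => exact (K_zero_iso y C).trans (K_zero_iso y' C).symm
  | succ n ih =>
    exact (K_succ_iso y C).trans <| ((ih fun i => h i.succ).coneS _).trans <|
      (coneS_iso_of_nullH (MC.app_nullH _ (h 0))).trans (K_succ_iso y' C).symm

/-- the Koszul complex of a regular element on a module -/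
theorem K_coneS_single_H {n : ℕ} (y : Fin n → B) (M : Type) [AddCommGroup M] [Module B M] {a : B}
    (ha : IsSMulRegular M a) (μ : LF B) (k : ℤ) :
    (K y ((single B M).coneS a)).H μ k = (K y (single B (QuotSMulTop a M))).H μ k := by
  exact (MC.app_qi _ (coneS_single_qi M ha)).H_eq μ k

theorem K_H_pow_le {n : ℕ} (y : Fin n → B) (κ : Fin n → ℕ) (C : DG B X) (μ : LF B) (k : ℤ) :
    (K (fun i => y i ^ κ i) C).H μ k ≤ (∏ i, κ i : ℕ) * (K y C).H μ k := by
  induction n generalizing X with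
  | zero => simp [(K_zero_iso _ C).H_eq]
  | succ n ih =>
    rw [(K_succ_iso _ C).H_eq, (K_succ_iso' y C).H_eq, Fin.prod_univ_succ, Nat.cast_mul, mul_assoc]
    refine (H_coneS_pow_le _ _ _ μ k).trans (mul_le_mul_right ?_ _)
    rw [← (MC.app_coneS_iso _ _ C).H_eq]
    exact ih (Fin.tail y) (Fin.tail κ) _

theorem K_ech_pow {n : ℕ} (y : Fin n → B) (κ : Fin n → ℕ) (hC : C.Bdd)
    (h : (K y C).FinH μ ⊤ ⊥) :
    (K (fun i => y i ^ κ i) C).ech μ ⊤ ⊥ = (∏ i, κ i : ℕ) * (K y C).ech μ ⊤ ⊥ := by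
  induction n generalizing X with
  | zero => simp [(K_zero_iso _ C).ech_eq]
  | succ n ih =>
    have h' : (K (Fin.tail y) (C.coneS (y 0))).FinH μ ⊤ ⊥ := fun k =>
      ((K_succ_iso' y C).H_eq μ k).symm.trans_ne (h k)
    rw [(K_succ_iso _ C).ech_eq, (K_succ_iso' y C).ech_eq, Fin.prod_univ_succ, Nat.cast_mul,
      mul_assoc, ← ih (Fin.tail y) (fun i => κ i.succ) (cone_bdd _ hC hC) h',
      (MC.app_coneS_iso _ _ C).ech_eq]
    refine ech_coneS_pow (K_bdd _ hC) _ _ fun k => ?_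
    refine ((MC.app_coneS_iso _ _ C).H_eq μ k).symm.trans_ne (ne_top_of_le_ne_top ?_
      (K_H_pow_le (Fin.tail y) (fun i => κ i.succ) _ μ k))
    exact ENNReal.mul_ne_top (ENNReal.natCast_ne_top _) (h' k)

/-- `C` is a direct summand of `K y C` when `y` is null-homotopic on `C` -/
theorem H_le_K {n : ℕ} {y : Fin n → B} (h : ∀ i, C.NullH (y i)) (μ : LF B) (k : ℤ) :
    C.H μ k ≤ (K y C).H μ k := by
  induction n with
  | zero => rw [(K_zero_iso _ C).H_eq]
  | succ n ih =>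
    rw [(K_succ_iso _ C).H_eq, (MC.app_nullH _ (h 0)).H_coneS]
    exact (ih fun i => h i.succ).trans le_self_add

theorem H_le_K_top {n : ℕ} {y : Fin n → B} (h : ∀ i, C.NullH (y i)) (μ : LF B) (k : ℤ) :
    C.H μ k ≤ (K y C).H μ (k + n) := by
  induction n with
  | zero => rw [(K_zero_iso _ C).H_eq, Nat.cast_zero, add_zero]
  | succ n ih =>
    rw [(K_succ_iso _ C).H_eq, (MC.app_nullH _ (h 0)).H_coneS, Nat.cast_succ, ← add_assoc,
      add_sub_cancel_right]
    exact (ih fun i => h i.succ).trans le_add_self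

theorem th_le_K {n : ℕ} {y : Fin n → B} (h : ∀ i, C.NullH (y i)) (μ : LF B) :
    C.th μ ≤ (K y C).th μ := by
  exact ENNReal.tsum_le_tsum fun k => H_le_K h μ k

/-- change of parameters for the total homology -/
theorem K_th_le_rad {n m : ℕ} {ys : Fin n → B} {zs : Fin m → B}
    (h : ∀ i, (K zs C).NullH (ys i)) (μ : LF B) :
    (K zs C).th μ ≤ 2 ^ m * (K ys C).th μ := by
  refine (th_le_K h μ).trans ?_
  rw [(MC.swap_iso _ _ C).th_eq]
  refine (MC.app_th_le _ _ μ).trans (le_of_eq ?_)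
  congr 1
  exact_mod_cast congrArg (Nat.cast : ℕ → ℝ≥0∞) (card_KI m)

/-- regularity transfer -/
theorem K_H_le_rt {n m : ℕ} {ys : Fin n → B} {zs : Fin m → B} (hmn : m ≤ n)
    (h : ∀ i, (K zs C).NullH (ys i)) (μ : LF B) {c : ℝ≥0∞}
    (hc : ∀ j, 0 < j → (K ys C).H μ j ≤ c) {k : ℤ} (hk : 0 < k) :
    (K zs C).H μ k ≤ 2 ^ m * c := by
  refine (H_le_K_top h μ k).trans ?_
  rw [(MC.swap_iso _ _ C).H_eq]
  refine (MC.app_H_le _ _ μ _).trans ((Finset.sum_le_card_nsmul _ _ c fun i _ => hc _ ?_).trans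
    (le_of_eq ?_))
  · have : (kos zs).deg i ≤ m := KI_deg_le m i
    omega
  · rw [nsmul_eq_mul, Finset.card_univ]
    congr 1
    exact_mod_cast congrArg (Nat.cast : ℕ → ℝ≥0∞) (card_KI m)

theorem K_π_neg {n : ℕ} (y : Fin n → B) (hC : ∀ k < 0, ∀ x, C.π k x = 0) :
    ∀ k < 0, ∀ x, (K y C).π k x = 0 := by
  exact MC.app_π_neg _ (KI_deg_nonneg n) hC

theorem K_H_zero {n : ℕ} (y : Fin n → B) (hC : ∀ k < 0, ∀ x, C.π k x = 0) (μ : LF B) :
    (K y C).H μ 0 = μ.sz (C.deg 0) (C.Bd ⊤ ⊥ ⊔ sp y • ⊤) := by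
  induction n generalizing X with
  | zero => rw [(K_zero_iso _ C).H_eq, HKos_H_zero hC, HKos_sp_zero, Submodule.bot_smul, sup_bot_eq]
  | succ n ih =>
    rw [(K_succ_iso' y C).H_eq, ih _ (HKos_cone_neg hC _), HKos_cone_sz hC, HKos_sp_succ]

theorem K_H_zero_single {n : ℕ} (y : Fin n → B) (M : Type) [AddCommGroup M] [Module B M]
    (μ : LF B) : (K y (single B M)).H μ 0 = μ.val (M ⧸ (sp y • ⊤ : Submodule B M)) := by
  rw [K_H_zero y (fun k hk x => by simp [single, hk.ne]), ← μ.sz_top]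
  congr 1
  · ext x
    simp [mem_deg, single]
  · simp [Bd, single]

theorem K_H_zero_mono {n m : ℕ} {ys : Fin n → B} {zs : Fin m → B}
    (hC : ∀ k < 0, ∀ x, C.π k x = 0) (h : ∀ j, zs j ∈ sp ys ⊔ C.nullI) (μ : LF B) :
    (K ys C).H μ 0 ≤ (K zs C).H μ 0 := by
  rw [K_H_zero _ hC, K_H_zero _ hC]
  refine DG_le_right μ fun x hx => ?_
  obtain ⟨b, hb, s, hs, rfl⟩ := Submodule.mem_sup.1 hx.2
  rw [← (C.mem_deg.1 hx.1), map_add]
  refine add_mem (Submodule.mem_sup_left (HKos_π_Bd hb 0)) ?_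
  have hle : sp zs ≤ sp ys ⊔ C.nullI := Ideal.span_le.2 (Set.range_subset_iff.2 h)
  refine Submodule.smul_induction_on (p := fun s => C.π 0 s ∈ C.Bd ⊤ ⊥ ⊔ sp ys • ⊤) hs
    (fun r hr v _ => ?_) fun u v hu hv => by rw [map_add]; exact add_mem hu hv
  obtain ⟨r₁, h₁, r₂, h₂, rfl⟩ := Submodule.mem_sup.1 (hle hr)
  obtain ⟨w, -, hw⟩ := NullH.smul_mem h₂ (C.ππ 0 v) (HKos_D_zero hC (C.ππ 0 v))
  rw [map_smul, add_smul, add_comm, ← hw]
  exact Submodule.add_mem_sup (C.D_mem_Bd _ trivial) (Submodule.smul_mem_smul h₁ trivial)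

theorem K_single_H_eq_zero {n : ℕ} (y : Fin n → B) (M : Type) [AddCommGroup M] [Module B M]
    (μ : LF B) {k : ℤ} (hk : k < 0 ∨ (n : ℤ) < k) : (K y (single B M)).H μ k = 0 := by
  refine MC.ap_H_eq_zero _ M μ fun i hi => ?_
  have h1 : 0 ≤ (kos y).deg i := KI_deg_nonneg n i
  have h2 : (kos y).deg i ≤ n := KI_deg_le n i
  omega

/-- the total homology of the cone of `w` in terms of `H₀ / w` and the higher homology -/
theorem th_coneS_le (hC : ∀ k < 0, ∀ x, C.π k x = 0) {L : ℕ} (hL : ∀ k > (L : ℤ), C.H μ k = 0)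
    (h0 : C.H μ 0 ≠ ⊤) {c : ℝ≥0∞} (hc : ∀ k, 0 < k → C.H μ k ≤ c) (w : B) :
    (C.coneS w).th μ ≤ 2 * (C.coneS w).H μ 0 + 2 * L * c := by
  let a : ℤ → ℝ≥0∞ := fun k => if 0 < k then C.H μ k else 0
  have ha : ∑' k, a k ≤ L * c := by
    rw [tsum_eq_sum (s := Finset.Icc (1 : ℤ) L) fun k hk => ?_]
    · refine (Finset.sum_le_card_nsmul _ _ c fun k hk => ?_).trans (le_of_eq ?_)
      · have := (Finset.mem_Icc.1 hk).1
        simp only [a, if_pos (show 0 < k by omega)]
        exact hc k (by omega)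
      · simp
    · rw [Finset.mem_Icc] at hk
      by_cases h : 0 < k
      · simp only [a, if_pos h]
        exact hL k (by omega)
      · simp only [a, if_neg h]
  have hb : ∑' k, a (k - 1) = ∑' k, a k := (Equiv.subRight (1 : ℤ)).tsum_eq a
  have key : ∀ k, (C.coneS w).H μ k ≤ ((if k = 0 then (C.coneS w).H μ 0 else 0) +
      (if k = 1 then (C.coneS w).H μ 0 else 0)) + (a k + a (k - 1)) := by
    intro k
    rcases lt_trichotomy k 0 with h | rfl | h
    · rw [MC.H_neg (HKos_cone_neg hC w) μ h]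
      exact zero_le
    · rw [if_pos rfl, add_assoc]
      exact le_self_add
    · by_cases h1 : k = 1
      · subst h1
        simp only [a, if_pos h, if_neg one_ne_zero, if_true, zero_add, sub_self, lt_irrefl,
          if_false, add_zero]
        exact HKos_cone_one hC h0 w
      · simp only [a, if_pos h, if_pos (show 0 < k - 1 by omega)]
        exact (cone_H_le _ μ k).trans le_add_self
  refine (ENNReal.tsum_le_tsum key).trans ?_
  rw [ENNReal.tsum_add, ENNReal.tsum_add, ENNReal.tsum_add, tsum_ite_eq, tsum_ite_eq, hb, two_mul,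
    mul_assoc, two_mul]
  gcongr

/-- the Koszul complex of a regular sequence is a resolution -/
theorem K_qi_of_reg {n : ℕ} (y : Fin n → B) (M : Type) [AddCommGroup M] [Module B M]
    (h : RingTheory.Sequence.IsWeaklyRegular M (List.ofFn y)) :
    ∃ ε, QI (K y (single B M)) (single B (M ⧸ (sp y • ⊤ : Submodule B M))) ε := by
  induction n generalizing M with
  | zero =>
    obtain ⟨f, hf⟩ := (K_zero_iso y (single B M)).qi
    exact ⟨_, hf.comp (HKos_single_qi (Submodule.quotEquivOfEqBot _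
      (by rw [HKos_sp_zero, Submodule.bot_smul])).symm)⟩
  | succ n ih =>
    rw [List.ofFn_succ, RingTheory.Sequence.isWeaklyRegular_cons_iff] at h
    obtain ⟨f, hf⟩ := (K_succ_iso' y (single B M)).qi
    obtain ⟨g, hg⟩ := ih (Fin.tail y) _ h.2
    refine ⟨_, ((hf.comp (MC.app_qi _ (coneS_single_qi M h.1))).comp hg).comp (HKos_single_qi
      (Submodule.quotEquivOfEq _ _ ?_ ≪≫ₗ
        Submodule.quotientQuotientEquivQuotientSup _ (sp (Fin.tail y) • ⊤) ≪≫ₗ
          Submodule.quotEquivOfEq _ _ ?_))⟩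
    · rw [Submodule.map_smul'', Submodule.map_top, Submodule.range_mkQ]
    · rw [HKos_sp_succ, Submodule.sup_smul, Submodule.ideal_span_singleton_smul]

theorem kos_isRes {n : ℕ} (y : Fin n → B)
    (h : RingTheory.Sequence.IsWeaklyRegular B (List.ofFn y)) : (kos y).IsRes (B ⧸ sp y) := by
  obtain ⟨ε, hε⟩ := K_qi_of_reg y B h
  exact ⟨KI_deg_nonneg n, _, hε.comp (HKos_single_qi (Submodule.quotEquivOfEq _ _ (by simp)))⟩

theorem K_H_eq_zero_of_reg {n : ℕ} (y : Fin n → B) (M : Type) [AddCommGroup M] [Module B M]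
    (h : RingTheory.Sequence.IsWeaklyRegular M (List.ofFn y)) (μ : LF B) {k : ℤ} (hk : k ≠ 0) :
    (K y (single B M)).H μ k = 0 := by
  obtain ⟨ε, hε⟩ := K_qi_of_reg y M h
  rw [hε.H_eq, single_H, if_neg hk]

end Crest.Agent.R188
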