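import Crest.Agent.R188.FDefs
import Crest.Agent.R188.HKos
import Crest.Agent.R188.GMarAux

/-!
# Multigraded Artin–Rees, Ratliff–Rush, Koszul strands
-/

set_option autoImplicit false
set_option linter.unusedVariables false
set_option linter.unusedSectionVars false

open scoped ENNReal NNReal TensorProduct

namespace Crest.Agent.R188

open Crest.Agent.R183 Crest.Agent.R183.DG

variable {Y τ : Type} [CommRing Y] [Fintype τ] [DecidableEq τ]

theorem Iw_zero (I : τ → Ideal Y) : Iw I 0 = ⊤ := by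
  unfold Iw
  simp only [Pi.zero_apply, pow_zero, Finset.prod_const_one]
  exact Ideal.one_eq_top

theorem Iw_add (I : τ → Ideal Y) (w w' : τ → ℕ) : Iw I (w + w') = Iw I w * Iw I w' := by
  unfold Iw
  simp only [Pi.add_apply, pow_add, Finset.prod_mul_distrib]

theorem Iw_single (I : τ → Ideal Y) (t : τ) : Iw I (Pi.single t 1) = I t := by
  unfold Iw
  rw [Finset.prod_eq_single t]
  · rw [Pi.single_eq_same, pow_one]
  · intro s _ hs
    rw [Pi.single_eq_of_ne hs, pow_zero]
  · intro h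
    exact absurd (Finset.mem_univ t) h

theorem Iw_smul (I : τ → Ideal Y) (q : ℕ) (w : τ → ℕ) : Iw I (q • w) = Iw I w ^ q := by
  unfold Iw
  rw [← Finset.prod_pow]
  refine Finset.prod_congr rfl fun t _ => ?_
  rw [Pi.smul_apply, smul_eq_mul, mul_comm, pow_mul]

theorem Iw_anti (I : τ → Ideal Y) {w w' : τ → ℕ} (h : w ≤ w') : Iw I w' ≤ Iw I w := by
  obtain ⟨u, rfl⟩ := exists_add_of_le h
  rw [Iw_add]
  exact Ideal.mul_le_left

theorem Iw_map {Y' : Type} [CommRing Y'] (I : τ → Ideal Y) (φ : Y →+* Y') (w : τ → ℕ) :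
    (Iw I w).map φ = Iw (fun t => (I t).map φ) w := by
  unfold Iw
  change Ideal.mapHom φ (∏ t, I t ^ w t) = _
  rw [map_prod]
  refine Finset.prod_congr rfl fun t _ => ?_
  rw [map_pow]
  rfl

theorem pow_mem_Iw (I : τ → Ideal Y) {γ : Y} {c : ℕ} (h : ∀ t, γ ^ c ∈ I t) (w : τ → ℕ) :
    γ ^ (c * ∑ t, w t) ∈ Iw I w := by
  unfold Iw
  rw [pow_mul, ← Finset.prod_pow_eq_pow_sum]
  exact Ideal.prod_mem_prod fun t _ => Ideal.pow_mem_pow (h t) _

theorem GMar_pred {w : τ → ℕ} {t : τ} (h : 0 < w t) : ∃ w' : τ → ℕ, w = w' + Pi.single t 1 := by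
  refine ⟨w - Pi.single t 1, (tsub_add_cancel_of_le fun s => ?_).symm⟩
  by_cases hs : s = t
  · subst hs
    rw [Pi.single_eq_same]
    exact h
  · rw [Pi.single_eq_of_ne hs]
    exact Nat.zero_le _

/-- the multi-Rees algebra -/
theorem GMar_rees [IsNoetherianRing Y] (I : τ → Ideal Y) :
    ∃ (G : Set (AddMonoidAlgebra Y (τ → ℕ))), G.Finite ∧
      (∀ g ∈ G, ∃ t, ∃ a ∈ I t, g = AddMonoidAlgebra.single (Pi.single t 1) a) ∧
      ∀ w, ∀ b ∈ Iw I w, AddMonoidAlgebra.single w b ∈ Algebra.adjoin Y G := by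
  have hfg : ∀ t, ∃ S : Finset Y, Ideal.span (S : Set Y) = I t := fun t =>
    IsNoetherian.noetherian (I t)
  choose S hS using hfg
  let G : Set (AddMonoidAlgebra Y (τ → ℕ)) :=
    ⋃ t, (fun a => AddMonoidAlgebra.single (Pi.single t 1) a) '' (S t : Set Y)
  have hsm : ∀ (w : τ → ℕ) (c b : Y), AddMonoidAlgebra.single w (c * b) =
      c • AddMonoidAlgebra.single w b := fun w c b => by
    rw [AddMonoidAlgebra.smul_single, smul_eq_mul]
  have h1 : ∀ t, ∀ b ∈ I t,
      AddMonoidAlgebra.single (Pi.single t 1 : τ → ℕ) b ∈ Algebra.adjoin Y G := by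
    intro t b hb
    rw [← hS t] at hb
    induction hb using Submodule.span_induction with
    | mem a ha => exact Algebra.subset_adjoin (Set.mem_iUnion.2 ⟨t, a, ha, rfl⟩)
    | zero => rw [AddMonoidAlgebra.single_zero]; exact zero_mem _
    | add a a' _ _ h h' => rw [AddMonoidAlgebra.single_add]; exact add_mem h h'
    | smul c a _ h => rw [smul_eq_mul, hsm]; exact Subalgebra.smul_mem _ h _
  have h0 : ∀ b : Y, AddMonoidAlgebra.single (0 : τ → ℕ) b ∈ Algebra.adjoin Y G := fun b => by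
    rw [← mul_one b, hsm]
    exact Subalgebra.smul_mem _ (one_mem _) _
  have h2 : ∀ w w' : τ → ℕ, (∀ b ∈ Iw I w, AddMonoidAlgebra.single w b ∈ Algebra.adjoin Y G) →
      (∀ b ∈ Iw I w', AddMonoidAlgebra.single w' b ∈ Algebra.adjoin Y G) →
      ∀ b ∈ Iw I (w + w'), AddMonoidAlgebra.single (w + w') b ∈ Algebra.adjoin Y G := by
    intro w w' h h' b hb
    rw [Iw_add] at hb
    refine Submodule.mul_induction_on hb (fun a ha a' ha' => ?_) fun a a' h h' => ?_
    · rw [← AddMonoidAlgebra.single_mul_single]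
      exact mul_mem (h a ha) (h' a' ha')
    · rw [AddMonoidAlgebra.single_add]
      exact add_mem h h'
  refine ⟨G, Set.finite_iUnion fun t => (S t).finite_toSet.image _, fun g hg => ?_, fun w => ?_⟩
  · obtain ⟨t, a, ha, rfl⟩ := Set.mem_iUnion.1 hg
    exact ⟨t, a, hS t ▸ Ideal.subset_span ha, rfl⟩
  · induction w using Pi.single_induction with
    | zero => exact fun b _ => h0 b
    | add w w' h h' => exact h2 w w' h h'
    | single t m =>
      induction m with
      | zero => rw [Pi.single_zero]; exact fun b _ => h0 b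
      | succ m ih =>
        rw [Pi.single_add]
        exact h2 _ _ ih fun b hb => h1 t b (Iw_single I t ▸ hb)

/-- a `Y`-submodule which is stable under the generators is a submodule over the algebra -/
theorem GMar_stable {A F : Type} [CommRing A] [Algebra Y A] (G : Set A) [AddCommGroup F]
    [Module Y F] [Module (Algebra.adjoin Y G) F] [IsScalarTower Y (Algebra.adjoin Y G) F]
    (N : Submodule Y F)
    (h : ∀ (g : A) (hg : g ∈ G), ∀ p ∈ N, (⟨g, Algebra.subset_adjoin hg⟩ : Algebra.adjoin Y G) • p ∈ N) :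
    ∃ N' : Submodule (Algebra.adjoin Y G) F, ∀ p, p ∈ N' ↔ p ∈ N := by
  have key : ∀ (r : A) (hr : r ∈ Algebra.adjoin Y G), ∀ p ∈ N,
      (⟨r, hr⟩ : Algebra.adjoin Y G) • p ∈ N := by
    intro r hr
    induction hr using Algebra.adjoin_induction with
    | mem g hg => exact h g hg
    | algebraMap c =>
      intro p hp
      change algebraMap Y (Algebra.adjoin Y G) c • p ∈ N
      rw [algebraMap_smul]
      exact N.smul_mem c hp
    | add a a' ha ha' h h' =>
      intro p hp
      change ((⟨a, ha⟩ : Algebra.adjoin Y G) + ⟨a', ha'⟩) • p ∈ N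
      rw [add_smul]
      exact N.add_mem (h p hp) (h' p hp)
    | mul a a' ha ha' h h' =>
      intro p hp
      change ((⟨a, ha⟩ : Algebra.adjoin Y G) * ⟨a', ha'⟩) • p ∈ N
      rw [mul_smul]
      exact h _ (h' p hp)
  exact ⟨⟨N.toAddSubmonoid, fun r p hp => key r.1 r.2 p hp⟩, fun _ => Iff.rfl⟩

/-- multigraded Artin–Rees lemma -/
theorem mar [IsNoetherianRing Y] (I : τ → Ideal Y) (M : Type) [AddCommGroup M] [Module Y M]
    [Module.Finite Y M] (L : (τ → ℕ) → Submodule Y M) (hL : ∀ w, L w ≤ Iw I w • ⊤)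
    (hmul : ∀ w t, I t • L w ≤ L (w + Pi.single t 1)) :
    ∃ C : ℕ, ∀ w t, C ≤ w t → L (w + Pi.single t 1) ≤ I t • L w := by
  obtain ⟨G, hG, hG1, hG2⟩ := GMar_rees I
  obtain ⟨n, m, hm⟩ := Module.Finite.exists_fin (R := Y) (M := M)
  have : IsNoetherianRing (Algebra.adjoin Y G) :=
    isNoetherianRing_of_fg ((Subalgebra.fg_def).2 ⟨G, hG, rfl⟩)
  let c : (τ → ℕ) → (Fin n → Algebra.adjoin Y G) →ₗ[Y] M := fun w =>
    { toFun := fun p => ∑ i, (p i).1.coeff w • m i
      map_add' := fun p p' => by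
        rw [← Finset.sum_add_distrib]
        refine Finset.sum_congr rfl fun i _ => ?_
        rw [← add_smul]
        rfl
      map_smul' := fun a p => by
        rw [RingHom.id_apply, Finset.smul_sum]
        refine Finset.sum_congr rfl fun i _ => ?_
        rw [smul_smul]
        rfl }
  have hc : ∀ w p, c w p = ∑ i, (p i).1.coeff w • m i := fun _ _ => rfl
  have hc1 : ∀ (s : τ) (a : Y) (hg : AddMonoidAlgebra.single (Pi.single s 1) a ∈ Algebra.adjoin Y G)
      (w : τ → ℕ) (p : Fin n → Algebra.adjoin Y G),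
      c (w + Pi.single s 1) ((⟨_, hg⟩ : Algebra.adjoin Y G) • p) = a • c w p := by
    intro s a hg w p
    rw [hc, hc, Finset.smul_sum]
    refine Finset.sum_congr rfl fun i _ => ?_
    change (AddMonoidAlgebra.single (Pi.single s 1) a * (p i).1).coeff (w + Pi.single s 1) • m i = _
    rw [add_comm w, AddMonoidAlgebra.coeff_single_mul_add, smul_smul]
  have hc0 : ∀ (s : τ) (a : Y) (hg : AddMonoidAlgebra.single (Pi.single s 1) a ∈ Algebra.adjoin Y G)
      (w : τ → ℕ) (p : Fin n → Algebra.adjoin Y G), w s = 0 →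
      c w ((⟨_, hg⟩ : Algebra.adjoin Y G) • p) = 0 := by
    intro s a hg w p hw
    rw [hc]
    refine Finset.sum_eq_zero fun i _ => ?_
    change (AddMonoidAlgebra.single (Pi.single s 1) a * (p i).1).coeff w • m i = _
    rw [AddMonoidAlgebra.coeff_single_mul_of_forall_add_ne, zero_smul]
    intro d hd
    have := congrFun hd s
    rw [Pi.add_apply, Pi.single_eq_same, hw] at this
    omega
  let N : ℕ → Submodule Y (Fin n → Algebra.adjoin Y G) := fun C =>
    (⨅ w, (L w).comap (c w)) ⊓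
      ⨅ (w : τ → ℕ) (t : τ) (_ : C ≤ w t), (I t • L w).comap (c (w + Pi.single t 1))
  have hN : ∀ C p, p ∈ N C ↔ (∀ w, c w p ∈ L w) ∧
      ∀ w t, C ≤ w t → c (w + Pi.single t 1) p ∈ I t • L w := fun C p => by
    simp only [N, Submodule.mem_inf, Submodule.mem_iInf, Submodule.mem_comap]
  have hst : ∀ C, ∃ N' : Submodule (Algebra.adjoin Y G) (Fin n → Algebra.adjoin Y G),
      ∀ p, p ∈ N' ↔ p ∈ N C := by
    intro C
    refine GMar_stable G (N C) fun g hg p hp => ?_
    obtain ⟨s, a, ha, rfl⟩ := hG1 g hg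
    obtain ⟨h1, h2⟩ := (hN C p).1 hp
    refine (hN C _).2 ⟨fun w => ?_, fun w t hw => ?_⟩
    · rcases Nat.eq_zero_or_pos (w s) with h | h
      · rw [hc0 s a _ w p h]
        exact zero_mem _
      · obtain ⟨w', rfl⟩ := GMar_pred h
        rw [hc1]
        exact hmul w' s (Submodule.smul_mem_smul ha (h1 w'))
    · by_cases hs : s = t
      · subst hs
        rw [hc1]
        exact Submodule.smul_mem_smul ha (h1 w)
      · rcases Nat.eq_zero_or_pos (w s) with h | h
        · rw [hc0 s a _ _ p (by rw [Pi.add_apply, Pi.single_eq_of_ne hs, h, add_zero])]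
          exact zero_mem _
        · obtain ⟨w', rfl⟩ := GMar_pred h
          rw [add_right_comm, hc1]
          rw [Pi.add_apply, Pi.single_eq_of_ne (Ne.symm hs), add_zero] at hw
          have h3 : I s • (I t • L w') ≤ I t • L (w' + Pi.single s 1) := by
            rw [smul_comm]
            exact Submodule.smul_mono le_rfl (hmul w' s)
          exact h3 (Submodule.smul_mem_smul ha (h2 w' t hw))
  choose N' hN' using hst
  have hmono : Monotone N' := fun C C' h p hp => by
    obtain ⟨h1, h2⟩ := (hN C p).1 ((hN' C p).1 hp)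
    exact (hN' C' p).2 ((hN C' p).2 ⟨h1, fun w t hw => h2 w t (h.trans hw)⟩)
  obtain ⟨C, hC⟩ := monotone_stabilizes_iff_noetherian.2
    (inferInstance : IsNoetherian (Algebra.adjoin Y G) (Fin n → Algebra.adjoin Y G)) ⟨N', hmono⟩
  refine ⟨C, fun w t hw x hx => ?_⟩
  have hx' := hL _ hx
  rw [← hm, Submodule.mem_ideal_smul_span_iff_exists_sum] at hx'
  obtain ⟨b, hb, rfl⟩ := hx'
  let p : Fin n → Algebra.adjoin Y G := fun i => ⟨_, hG2 (w + Pi.single t 1) (b i) (hb i)⟩
  have hp1 : c (w + Pi.single t 1) p = b.sum fun i a => a • m i := by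
    rw [hc, Finsupp.sum_fintype _ (fun i a => a • m i) fun i => zero_smul _ _]
    refine Finset.sum_congr rfl fun i _ => ?_
    change Finsupp.single (w + Pi.single t 1) (b i) (w + Pi.single t 1) • m i = _
    rw [Finsupp.single_eq_same]
  have hp0 : ∀ w', w' ≠ w + Pi.single t 1 → c w' p = 0 := fun w' hw' => by
    rw [hc]
    refine Finset.sum_eq_zero fun i _ => ?_
    change Finsupp.single (w + Pi.single t 1) (b i) w' • m i = _
    rw [Finsupp.single_eq_of_ne hw', zero_smul]
  have hp : p ∈ N' (C + (∑ s, w s + 2)) := by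
    refine (hN' _ p).2 ((hN _ p).2 ⟨fun w' => ?_, fun w' t' hw' => ?_⟩)
    · by_cases h : w' = w + Pi.single t 1
      · rw [h, hp1]
        exact hx
      · rw [hp0 w' h]
        exact zero_mem _
    · rw [hp0]
      · exact zero_mem _
      · intro h
        have h1 := congrFun h t'
        have h2 : w t' ≤ ∑ s, w s :=
          Finset.single_le_sum (f := w) (fun _ _ => Nat.zero_le _) (Finset.mem_univ t')
        have h3 : (Pi.single t 1 : τ → ℕ) t' ≤ 1 := by
          by_cases h4 : t' = t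
          · rw [h4, Pi.single_eq_same]
          · rw [Pi.single_eq_of_ne h4]
            exact Nat.zero_le _
        rw [Pi.add_apply, Pi.add_apply] at h1
        omega
  have e : N' C = N' (C + (∑ s, w s + 2)) := hC _ (Nat.le_add_right _ _)
  rw [← e] at hp
  rw [← hp1]
  exact ((hN C p).1 ((hN' C p).1 hp)).2 w t hw

/-- Ratliff–Rush: the colon property in large degrees -/
theorem fam_Iw [IsNoetherianRing Y] (I : τ → Ideal Y) {γ : Y} (hγ : IsSMulRegular Y γ)
    (h : ∀ t, ∃ c : ℕ, γ ^ c ∈ I t) : ∃ C : ℕ, Fam I γ C (Iw I) := by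
  choose c hc using h
  have hreg : ∀ (e : ℕ) (x y : Y), γ ^ e * x = γ ^ e * y → x = y := fun e x y h =>
    hγ.pow e h
  have hstep : ∀ w s, Iw I (w + Pi.single s 1) = I s * Iw I w := fun w s => by
    rw [Iw_add, Iw_single, mul_comm]
  let L : τ → (τ → ℕ) → Ideal Y := fun s w =>
    { carrier := {x | ∀ b ∈ I s, x * b ∈ Ideal.span {γ ^ c s} * Iw I (w + Pi.single s 1)}
      add_mem' := fun {x y} hx hy b hb => by
        rw [add_mul]
        exact add_mem (hx b hb) (hy b hb)
      zero_mem' := fun b hb => by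
        rw [zero_mul]
        exact zero_mem _
      smul_mem' := fun a x hx b hb => by
        rw [smul_eq_mul, mul_assoc]
        exact Ideal.mul_mem_left _ a (hx b hb) }
  have hL : ∀ s w x, x ∈ L s w ↔
      ∀ b ∈ I s, x * b ∈ Ideal.span {γ ^ c s} * Iw I (w + Pi.single s 1) := fun _ _ _ => Iff.rfl
  have hm : ∀ s, ∃ C : ℕ, ∀ w t, C ≤ w t → L s (w + Pi.single t 1) ≤ I t • L s w := by
    intro s
    refine mar I Y (L s) (fun w x hx => ?_) fun w t => ?_
    · obtain ⟨y, hy, e⟩ := Ideal.mem_span_singleton_mul.1 ((hL s w x).1 hx _ (hc s))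
      rw [mul_comm x] at e
      rw [smul_eq_mul, Ideal.mul_top, ← hreg _ _ _ e]
      exact Iw_anti I le_self_add hy
    · refine Submodule.smul_le.2 fun a ha x hx => (hL _ _ _).2 fun b hb => ?_
      rw [add_right_comm, hstep _ t, mul_left_comm, smul_eq_mul, mul_assoc]
      exact Ideal.mul_mem_mul ha ((hL s w x).1 hx b hb)
  choose C hC using hm
  refine ⟨∑ s, C s + 1, fun w s => (hstep w s).ge, fun w s _ => (hstep w s).le,
    fun w s e x hw hx => ?_⟩
  have h1 : C s ≤ ∑ s, C s :=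
    Finset.single_le_sum (f := C) (fun _ _ => Nat.zero_le _) (Finset.mem_univ s)
  obtain ⟨w', rfl⟩ := GMar_pred (w := w) (t := s) (by omega)
  rw [Pi.add_apply, Pi.single_eq_same] at hw
  obtain ⟨y, hy, e1⟩ := Ideal.mem_span_singleton_mul.1 (hx _ (hc s))
  have h2 : y ∈ L s (w' + Pi.single s 1) := by
    refine (hL _ _ _).2 fun b hb => ?_
    obtain ⟨z, hz, e2⟩ := Ideal.mem_span_singleton_mul.1 (hx b hb)
    refine Ideal.mem_span_singleton_mul.2 ⟨z, hz, hreg e _ _ ?_⟩
    rw [mul_left_comm, e2, ← mul_assoc (γ ^ e), e1]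
    ring
  have h3 : I s • L s w' ≤ Ideal.span {γ ^ c s} * Iw I (w' + Pi.single s 1) := by
    refine Submodule.smul_le.2 fun a ha x hx => ?_
    rw [smul_eq_mul, mul_comm a]
    exact (hL _ _ _).1 hx a ha
  obtain ⟨z, hz, e3⟩ := Ideal.mem_span_singleton_mul.1 (h3 (hC s w' s (by omega) h2))
  refine Ideal.mem_span_singleton_mul.2 ⟨z, hz, hreg (c s) _ _ ?_⟩
  rw [mul_left_comm, e3, e1, mul_comm]

/-- the strand of the Koszul complex of `s ^ κ` in degree `κ (a + 1)` -/
def strand {B : Type} [CommRing B] (a κ : ℕ) (Γ : ℕ → Ideal B) : Submodule B (KI a → B) :=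
  Submodule.pi Set.univ fun i => Γ (κ * (a + 1 - (KI.deg a i).toNat))

theorem GMar_step (J m : Ideal Y) (σ : ℤ) {b x : Y} (hb : b ∈ m) (hx : x ∈ J * m ^ σ.toNat) :
    b * x ∈ J * m ^ (σ + 1).toNat := by
  have h1 : m * (J * m ^ σ.toNat) ≤ J * m ^ (σ + 1).toNat := by
    rw [mul_left_comm, ← pow_succ']
    exact Ideal.mul_mono_right (Ideal.pow_le_pow_right (by omega))
  exact h1 (Ideal.mul_mem_mul hb hx)

/-- exponent one -/
theorem GMar_one_acyc [IsNoetherianRing Y] (I : τ → Ideal Y) {a : ℕ} (s : Fin a → Y) :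
    ∃ r : ℕ, ∀ (w : τ → ℕ) (ρ : ℤ), r ≤ ρ → (K s (single Y Y)).AcycOn
      (GMar_str (kos s) 1 (fun σ => Iw I w * sp s ^ σ.toNat) ρ) := by
  let I' : Option τ → Ideal Y := fun t => t.elim (sp s) I
  let L : (Option τ → ℕ) → Submodule Y ((kos s).ι → Y) := fun w =>
    LinearMap.ker (K s (single Y Y)).D ⊓
      GMar_str (kos s) 1 (fun σ => Iw I (fun t => w (some t)) * sp s ^ σ.toNat) (w none + a)
  have hL : ∀ w z, z ∈ L w ↔ (K s (single Y Y)).D z = 0 ∧ ∀ i, z i ∈
      Iw I (fun t => w (some t)) * sp s ^ ((w none : ℤ) + a - 1 * KI.deg a i).toNat := fun w z =>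
    and_congr Iff.rfl GMar_mem_str
  obtain ⟨C, hC⟩ := mar I' ((kos s).ι → Y) L (fun w z hz => by
    have h1 : ∀ i, z i ∈ Iw I' w := fun i => by
      have h2 : Iw I' w = sp s ^ w none * Iw I fun t => w (some t) := Fintype.prod_option _
      have h3 := KI_deg_le a i
      rw [h2, mul_comm]
      exact Ideal.mul_mono_right (Ideal.pow_le_pow_right (by omega)) (((hL w z).1 hz).2 i)
    rw [pi_eq_sum_univ' z]
    exact Submodule.sum_mem _ fun i _ => Submodule.smul_mem_smul (h1 i) Submodule.mem_top)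
    (fun w t => Submodule.smul_le.2 fun b hb z hz => by
      obtain ⟨h1, h2⟩ := (hL w z).1 hz
      refine (hL _ _).2 ⟨by rw [map_smul, h1, smul_zero], fun i => ?_⟩
      rw [Pi.smul_apply, smul_eq_mul]
      cases t with
      | none =>
        have e1 : (fun t => (w + Pi.single none 1 : Option τ → ℕ) (some t)) = fun t => w (some t) := by
          funext t
          rw [Pi.add_apply, Pi.single_eq_of_ne (Option.some_ne_none t), add_zero]
        have e2 : (((w + Pi.single none 1 : Option τ → ℕ) none : ℕ) : ℤ) + a - 1 * KI.deg a i =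
            (w none : ℤ) + a - 1 * KI.deg a i + 1 := by
          rw [Pi.add_apply, Pi.single_eq_same]
          push_cast
          ring
        rw [e1, e2]
        exact GMar_step _ _ _ hb (h2 i)
      | some t =>
        have e1 : (fun u => (w + Pi.single (some t) 1 : Option τ → ℕ) (some u)) =
            (fun u => w (some u)) + Pi.single t 1 := by
          funext u
          rw [Pi.add_apply, Pi.add_apply]
          by_cases h : u = t
          · rw [h, Pi.single_eq_same, Pi.single_eq_same]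
          · rw [Pi.single_eq_of_ne h, Pi.single_eq_of_ne fun h' => h (Option.some.inj h')]
        have e2 : (w + Pi.single (some t) 1 : Option τ → ℕ) none = w none := by
          rw [Pi.add_apply, Pi.single_eq_of_ne (Option.some_ne_none t).symm, add_zero]
        rw [e1, e2, Iw_add, Iw_single, mul_comm _ (I t), mul_assoc]
        exact Ideal.mul_mem_mul hb (h2 i))
  refine ⟨C + a + 1, fun w ρ hρ k z hz _ hD => ?_⟩
  obtain ⟨ρ₀, hρ₀, rfl⟩ : ∃ ρ₀ : ℕ, C ≤ ρ₀ ∧ ρ = (ρ₀ : ℤ) + 1 + a :=
    ⟨(ρ - 1 - a).toNat, by push_cast at hρ; omega, by push_cast at hρ; omega⟩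
  let w' : Option τ → ℕ := fun t => t.elim ρ₀ w
  have h1 : z ∈ L (w' + Pi.single none 1) := by
    refine (hL _ _).2 ⟨hD, fun i => ?_⟩
    have e1 : (fun t => (w' + Pi.single none 1 : Option τ → ℕ) (some t)) = w := by
      funext t
      rw [Pi.add_apply, Pi.single_eq_of_ne (Option.some_ne_none t), add_zero]
      rfl
    have e2 : (w' + Pi.single none 1 : Option τ → ℕ) none = ρ₀ + 1 := by
      rw [Pi.add_apply, Pi.single_eq_same]
      rfl
    rw [e1, e2, Nat.cast_succ]
    exact GMar_mem_str.1 hz i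
  have h2 := hC w' none hρ₀ h1
  clear h1 hz hD
  refine Submodule.smul_induction_on h2 (fun b hb x hx => ?_) ?_
  · obtain ⟨h3, h4⟩ := (hL w' x).1 hx
    obtain ⟨h, hh, e⟩ := kos_null s (a := b) hb
    have hDx : ∀ u : (kos s).ι → Y, (K s (single Y Y)).D u = matApp (kos s).d Y u := fun u => by
      funext i
      change ∑ j, (kos s).d i j • u j + sg ((kos s).deg i) • (0 : Y) = ∑ j, (kos s).d i j • u j
      rw [smul_zero, add_zero]
    refine ⟨matApp h Y x, GMar_mem_str.2 fun i => ?_, ?_⟩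
    · rw [matApp_apply]
      refine Submodule.sum_mem _ fun j _ => ?_
      by_cases h0 : h i j = 0
      · rw [h0, zero_smul]
        exact zero_mem _
      · have e1 : (ρ₀ : ℤ) + 1 + a - 1 * (kos s).deg i = (w' none : ℤ) + a - 1 * KI.deg a j := by
          rw [hh i j h0]
          change _ = (ρ₀ : ℤ) + a - 1 * (kos s).deg j
          ring
        rw [e1]
        exact Submodule.smul_mem _ _ (h4 j)
    · rw [hDx] at h3
      rw [hDx, ← matApp_mul, eq_sub_of_add_eq e]
      have h5 : matApp (h * (kos s).d) Y x = 0 := by rw [matApp_mul, h3, map_zero]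
      funext i
      have h6 := congrFun h5 i
      rw [matApp_apply] at h6
      simp only [matApp_apply, Matrix.sub_apply, sub_smul, Finset.sum_sub_distrib, h6,
        Matrix.scalar_apply, Matrix.diagonal_apply, ite_smul, zero_smul, Finset.sum_ite_eq,
        Finset.mem_univ, if_true, Pi.zero_apply, sub_zero, Pi.smul_apply]
  · rintro x x' ⟨y, hy, rfl⟩ ⟨y', hy', rfl⟩
    exact ⟨y + y', add_mem hy hy', map_add _ _ _⟩

/-- the strands are acyclic, uniformly in the exponent and the multi-index -/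
theorem strand_acyc [IsNoetherianRing Y] (I : τ → Ideal Y) {a : ℕ} (s : Fin a → Y) (ha : 0 < a) :
    ∃ r : ℕ, ∀ (κ : ℕ) (w : τ → ℕ), r ≤ κ →
      (K (fun i => s i ^ κ) (single Y Y)).AcycOn (strand a κ fun ρ => Iw I w * sp s ^ ρ) := by
  obtain ⟨r, hr⟩ := GMar_one_acyc I s
  refine ⟨r + 1, fun κ w hκ => ?_⟩
  obtain ⟨q, rfl⟩ : ∃ q, κ = q + 1 := ⟨κ - 1, by omega⟩
  have h1 := GMar_exp q a s Y (single Y Y) (fun σ => Iw I w * sp s ^ σ.toNat) r
    (fun ρ k x hx => by
      change (if k = 0 then LinearMap.id else 0 : Y →ₗ[Y] Y) x ∈ _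
      split_ifs
      · exact hx
      · exact zero_mem _)
    (fun i ρ x hx => GMar_step _ _ _ (Ideal.subset_span ⟨i, rfl⟩) hx) (hr w)
    ((q + 1 : ℕ) * (a + 1 : ℕ)) (by
      have : (r : ℤ) ≤ q := by omega
      push_cast
      nlinarith [Int.natCast_nonneg a])
  have e : (strand a (q + 1) fun ρ => Iw I w * sp s ^ ρ) = GMar_str (kos fun i => s i ^ (q + 1))
      (q + 1 : ℕ) (fun σ => Iw I w * sp s ^ σ.toNat) ((q + 1 : ℕ) * (a + 1 : ℕ)) := by
    change (Submodule.pi Set.univ fun i : KI a =>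
      Iw I w * sp s ^ ((q + 1) * (a + 1 - (KI.deg a i).toNat))) = Submodule.pi Set.univ
        fun i : KI a => Iw I w * sp s ^
          (((q + 1 : ℕ) : ℤ) * (a + 1 : ℕ) - (q + 1 : ℕ) * KI.deg a i).toNat
    congr 1
    funext i
    have h2 := KI_deg_nonneg a i
    have h3 := KI_deg_le a i
    have h4 : ((a + 1 : ℕ) : ℤ) - KI.deg a i = (a + 1 - (KI.deg a i).toNat : ℕ) := by omega
    rw [← mul_sub, h4, ← Nat.cast_mul, Int.toNat_natCast]
  rw [e]
  exact h1

end Crest.Agent.R188
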