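import Crest.Agent.R188.VDefs
import Crest.Agent.R188.AE
import Crest.Agent.R188.FL
import Crest.Agent.R188.GGrow
import Crest.Agent.R188.GMar

/-!
# The intersection multiplicity as a leading coefficient
-/

set_option autoImplicit false
set_option linter.unusedVariables false

open scoped ENNReal NNReal TensorProduct

namespace Crest.Agent.R188

open Crest.Agent.R183 Crest.Agent.R183.DG IsLocalRing

/-- consecutive lattices differ by a power of the maximal ideal -/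
theorem flag_pow_le {B : Type} [CommRing B] {E : MC B} {m : ℕ} {δ : ℕ → ℤ}
    {U : Matrix E.ι (Fin (2 * m)) B} {U' : Matrix (Fin (2 * m)) E.ι B} {γ ϖ₀ : B} {C : ℕ}
    {Γ : (Fin (2 * m + 1) → ℕ) → Ideal B} (h : Spl E m δ U U' γ) (hδ : Antitone δ)
    (hΓ : Fam (plI U ϖ₀) γ C Γ) {𝔮 : Ideal B} (h𝔮 : ∀ y ∈ 𝔮, E.Null y) {j : ℕ} (hj : j < m)
    {w : Fin (2 * m + 1) → ℕ} (hw : ∀ s, C ≤ w s) (q : ℕ) :
    𝔮 ^ q * Γ (w + q • avec (2 * m) (2 * j)) ≤ Γ (w + q • avec (2 * m) (2 * j + 1)) ∧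
      Γ (w + q • avec (2 * m) (2 * j + 1)) ≤ Γ (w + q • avec (2 * m) (2 * j)) := by
  induction q generalizing w with
  | zero => simp
  | succ q ih =>
    set a₀ := avec (2 * m) (2 * j) with ha₀
    set a₁ := avec (2 * m) (2 * j + 1) with ha₁
    obtain ⟨h1, h2⟩ := ih (w := w + a₀) fun s => (hw s).trans (Nat.le_add_right _ _)
    have hw' : ∀ s, C ≤ (w + q • a₁) s := fun s => (hw s).trans (Nat.le_add_right _ _)
    have e0 : w + (q + 1) • a₀ = w + a₀ + q • a₀ := by rw [succ_nsmul]; abel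
    have e1 : w + (q + 1) • a₁ = w + q • a₁ + a₁ := by rw [succ_nsmul]; abel
    have e2 : w + a₀ + q • a₁ = w + q • a₁ + a₀ := by abel
    rw [e2] at h1 h2
    rw [e0, e1]
    refine ⟨?_, (flag_le h hΓ hw' hj).trans h2⟩
    rw [pow_succ', mul_assoc]
    exact (Ideal.mul_mono_right h1).trans
      (Ideal.mul_le.2 fun y hy x hx => flag_null h hδ hΓ hw' hj (h𝔮 y hy) x hx)

theorem VSS_dim_lt {R : Type} [CommRing R] {P J : Ideal R} (hP : P.IsPrime) (hlt : P < J)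
    (hJ : J ≠ ⊤) {b : ℕ} (h : ringKrullDim (R ⧸ P) ≤ b) :
    ∃ b' : ℕ, b = b' + 1 ∧ ringKrullDim (R ⧸ J) ≤ b' := by
  obtain ⟨r, hr, hrP⟩ := SetLike.exists_of_lt hlt
  have h1 := (ringKrullDim_succ_le_of_surjective (Ideal.Quotient.factor hlt.le)
    (Ideal.Quotient.factor_surjective hlt.le) (r := Ideal.Quotient.mk P r)
    (mem_nonZeroDivisors_of_ne_zero fun h0 => hrP (Ideal.Quotient.eq_zero_iff_mem.1 h0))
    (by simpa using Ideal.Quotient.eq_zero_iff_mem.2 hr)).trans h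
  have : Nontrivial (R ⧸ J) := Ideal.Quotient.nontrivial_iff.2 hJ
  have h0 : 0 ≤ ringKrullDim (R ⧸ J) := ringKrullDim_nonneg_of_nontrivial
  generalize ringKrullDim (R ⧸ J) = z at h1 h0
  induction z using WithBot.recBotCoe with
  | bot => simp at h0
  | coe z =>
    have h2 : z + 1 ≤ (b : ℕ∞) := by exact_mod_cast h1
    induction z using ENat.recTopCoe with
    | top => simp at h2
    | coe z =>
      have h3 : z + 1 ≤ b := by exact_mod_cast h2
      exact ⟨b - 1, by omega, WithBot.coe_le_coe.2 (ENat.natCast_le_natCast.2 (by omega))⟩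

theorem VSS_null_map {R S : Type} [CommRing R] [CommRing S] (φ : R →+* S) {Q : Ideal R}
    {E : MC R} (hE : E.IsRes (R ⧸ Q)) : ∀ y ∈ Q.map φ, (E.map φ).Null y := by
  have h0 : ∀ a ∈ Q, (E.map φ).Null (φ a) := fun a ha =>
    (hE.null (LF.LFkill_quot_ideal le_rfl a ha)).map φ
  intro y hy
  induction hy using Submodule.span_induction with
  | mem y hy =>
    obtain ⟨a, ha, rfl⟩ := hy
    exact h0 a ha
  | zero => simpa using h0 0 Q.zero_mem
  | add y z _ _ hy hz => exact hy.add hz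
  | smul c y _ hy => exact hy.mul c

theorem VSS_pow_le_map {R S : Type} [CommRing R] [IsLocalRing R] [CommRing S] [IsLocalRing S]
    (φ : R →+* S) {Q : Ideal R} (hQ : ∃ c : ℕ, maximalIdeal R ^ c ≤ Q ⊔ RingHom.ker φ)
    (hS : ∃ c : ℕ, maximalIdeal S ^ c ≤ (maximalIdeal R).map φ) :
    ∃ N : ℕ, maximalIdeal S ^ N ≤ Q.map φ := by
  obtain ⟨c, hc⟩ := hQ
  obtain ⟨c', hc'⟩ := hS
  refine ⟨c' * c, ?_⟩
  rw [pow_mul]
  refine (Ideal.pow_right_mono hc' c).trans ?_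
  rw [← Ideal.map_pow]
  refine (Ideal.map_mono hc).trans ?_
  rw [Ideal.map_sup, (Ideal.map_eq_bot_iff_le_ker φ).2 le_rfl, sup_bot_eq]

theorem VSS_sz_eq {R S : Type} [CommRing R] [CommRing S] [IsLocalRing S] [Algebra R S]
    (hres : ∀ t : S, ∃ r : R, t - algebraMap R S r ∈ maximalIdeal S) {𝔞 𝔞' : Ideal S}
    (h : ∃ c : ℕ, maximalIdeal S ^ c * 𝔞 ≤ 𝔞') :
    ((LF.length R).comap (algebraMap R S)).sz 𝔞 𝔞' = (LF.length S).sz 𝔞 𝔞' := by
  obtain ⟨c, hc⟩ := h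
  rw [LF.sz, LF.sz, LF.comap_algebraMap_val, LF.length_val, LF.length_val,
    length_eq_of_residue_surj (maximalIdeal S) hres _ ⟨c, fun a ha x => ?_⟩]
  obtain ⟨_, y, hy, rfl⟩ := x
  refine Subtype.ext ?_
  change a • 𝔞'.mkQ y = 0
  rw [← map_smul]
  exact (Submodule.Quotient.mk_eq_zero _).2 (hc (Ideal.mul_mem_mul ha hy))

theorem VSS_mem_plI {B ι : Type} [CommRing B] [Fintype ι] [DecidableEq ι] {n : ℕ}
    (U : Matrix ι (Fin n) B) (U' : Matrix (Fin n) ι B) {γ : B} (h : U' * U = Matrix.scalar _ γ)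
    (ϖ₀ : B) (s : Fin (n + 1)) : ϖ₀ * γ ^ n ∈ plI U ϖ₀ s := by
  have h1 := pow_mem_pl U U' h s (Nat.lt_succ_iff.1 s.2)
  generalize γ ^ n = y at h1
  induction h1 using Submodule.span_induction with
  | mem y hy =>
    obtain ⟨J, rfl⟩ := hy
    exact Ideal.subset_span ⟨J, rfl⟩
  | zero => simp
  | add y z _ _ hy hz => rw [mul_add]; exact add_mem hy hz
  | smul c y _ hy => rw [smul_eq_mul, mul_left_comm]; exact Ideal.mul_mem_left _ c hy

theorem chi_eq_sum {R : Type} [CommRing R] [IsNoetherianRing R] [IsLocalRing R] {d : ℕ}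
    {x : Fin d → R} (hx : RegL R x) (Q : Ideal R) [Q.IsPrime] {a a' b : ℕ} (hab : a' + b = d)
    (hb : ringKrullDim (R ⧸ Q) = b) (hvan : Van R (a + b))
    (S : Type) [CommRing S] [IsNoetherianRing S] [IsLocalRing S] [IsDomain S] [Algebra R S]
    [Module.Finite R S] (hres : ∀ t : S, ∃ r : R, t - algebraMap R S r ∈ maximalIdeal S)
    (ha : ringKrullDim (R ⧸ RingHom.ker (algebraMap R S)) ≤ a)
    (hQ : ∃ c : ℕ, maximalIdeal R ^ c ≤ Q ⊔ RingHom.ker (algebraMap R S))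
    (hS : ∃ c : ℕ, maximalIdeal S ^ c ≤ (maximalIdeal R).map (algebraMap R S))
    {E : MC R} (hE : E.IsRes (R ⧸ Q)) {m : ℕ} {δ : ℕ → ℤ} (hδ : Antitone δ)
    {U : Matrix E.ι (Fin (2 * m)) S} {U' : Matrix (Fin (2 * m)) E.ι S} {γ ϖ₀ : S}
    (h : Spl (E.map (algebraMap R S)) m δ U U' γ) (hϖ₀ : ϖ₀ ≠ 0) {C : ℕ}
    (hΓ : Fam (plI U ϖ₀) γ C (Iw (plI U ϖ₀))) {k : ℕ} (hk : Odd k) {ζ : R} (hζ : RootU k ζ) :
    (k : ℝ) ^ a' * E.chi (LF.length R) S = ∑ j ∈ Finset.range m, sg (δ j) *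
      ((LF.length S).sz (Iw (plI U ϖ₀) (uvec (2 * m) C (2 * j)) ^ k)
        (Iw (plI U ϖ₀) (uvec (2 * m) C (2 * j + 1)) ^ k)).toReal := by
  have hk0 : 0 < k := hk.pos
  have : NeZero k := ⟨hk0.ne'⟩
  obtain ⟨N, hN⟩ := VSS_pow_le_map (algebraMap R S) hQ hS
  have hpow : ∀ j < m, ∀ w : Fin (2 * m + 1) → ℕ, (∀ s, C ≤ w s) → ∀ q : ℕ, ∃ c : ℕ,
      maximalIdeal S ^ c * Iw (plI U ϖ₀) (w + q • avec (2 * m) (2 * j)) ≤
        Iw (plI U ϖ₀) (w + q • avec (2 * m) (2 * j + 1)) := fun j hj w hw q =>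
    ⟨N * q, (Ideal.mul_mono_left (by rw [pow_mul]; exact Ideal.pow_right_mono hN q)).trans
      (flag_pow_le h hδ hΓ (VSS_null_map _ hE) hj hw q).1⟩
  set v : Fin (2 * m + 1) → ℕ := fun _ => k * C with hv
  have hvC : ∀ s, C ≤ v s := fun s => Nat.le_mul_of_pos_left C hk0
  obtain ⟨-, hψ⟩ := flag_psi h hΓ hk (hζ.map (algebraMap R S)) hvC
    ((LF.length R).comap (algebraMap R S)) fun j hj w hw => by
      have h1 := hpow j hj w (fun s => (hvC s).trans (hw s)) 1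
      rw [one_smul, one_smul] at h1
      rw [VSS_sz_eq hres h1]
      exact length_sz_ne_top h1
  set M : Ideal S := Iw (plI U ϖ₀) (v + k • 1) with hM
  have hγ : γ ≠ 0 := fun h0 => by
    have h1 := h.reg
    rw [h0] at h1
    exact one_ne_zero (h1 (show (0 : S) • (1 : S) = (0 : S) • (0 : S) by simp))
  obtain ⟨z, hz, hz0⟩ : ∃ z ∈ M, z ≠ 0 :=
    ⟨_, pow_mem_Iw (plI U ϖ₀) (γ := ϖ₀ * γ ^ (2 * m)) (c := 1)
      (fun t => by rw [pow_one]; exact VSS_mem_plI U U' h.left ϖ₀ t) _,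
      pow_ne_zero _ (mul_ne_zero hϖ₀ (pow_ne_zero _ hγ))⟩
  have hker : ∀ r ∈ RingHom.ker (algebraMap R S), ∀ y : S, r • y = 0 := fun r hr y => by
    rw [Algebra.smul_def, RingHom.mem_ker.1 hr, zero_mul]
  set M' : Submodule R S := M.restrictScalars R with hM'
  have k1 : RingHom.ker (algebraMap R S) ≤ Module.annihilator R M' := fun r hr =>
    Module.mem_annihilator.2 (LF.LFkill_sub M' hker r hr)
  have k2 : RingHom.ker (algebraMap R S) ≤ Module.annihilator R (S ⧸ M') := fun r hr =>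
    Module.mem_annihilator.2 (LF.LFkill_quot M' hker r hr)
  obtain ⟨c, hc⟩ := hQ
  have q1 : ∃ c : ℕ, maximalIdeal R ^ c ≤ Q ⊔ Module.annihilator R M' :=
    ⟨c, hc.trans (sup_le_sup_left k1 _)⟩
  have q2 : ∃ c : ℕ, maximalIdeal R ^ c ≤ Q ⊔ Module.annihilator R (S ⧸ M') :=
    ⟨c, hc.trans (sup_le_sup_left k2 _)⟩
  -- the quotient does not contribute
  have hquot : E.chi (LF.length R) (S ⧸ M') = 0 := by
    by_cases hJ : Module.annihilator R (S ⧸ M') = ⊤
    · have : Subsingleton (S ⧸ M') := Module.annihilator_eq_top_iff.1 hJ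
      rw [E.chi_of_val (by rw [LF.zero]; exact ENNReal.zero_ne_top), LF.zero]
      simp
    · have hlt : RingHom.ker (algebraMap R S) < Module.annihilator R (S ⧸ M') := by
        refine lt_of_lt_of_le (Ideal.comap_lt_comap_of_integral_mem_sdiff (R := R)
          (I := (⊥ : Ideal S)) (J := M) bot_le ⟨hz, hz0⟩ (Algebra.IsIntegral.isIntegral z))
          fun r hr => Module.mem_annihilator.2 fun y => ?_
        obtain ⟨y, rfl⟩ := M'.mkQ_surjective y
        rw [← map_smul]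
        refine (Submodule.Quotient.mk_eq_zero _).2 ?_
        rw [Algebra.smul_def]
        exact M.mul_mem_right y hr
      obtain ⟨a₁, ha₁, ha₂⟩ := VSS_dim_lt (RingHom.ker_isPrime _) hlt hJ ha
      exact hvan a₁ b Q _ E (by omega) inferInstance hb.le ha₂ q2 hE
  have hses := E.chi_ses (μ := LF.length R) M'.injective_subtype M'.mkQ_surjective
    (LinearMap.exact_subtype_mkQ M') (hE.supp_quot.fin'_length q1) (hE.supp_quot.fin'_length q2)
  rw [hquot, add_zero] at hses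
  obtain ⟨y, hy, hyQ, hmin⟩ := hx.exists_ht_seq Q hab hb
  have hΨ := Psi_res_prime hx Q y hy hyQ hmin hE M' q1 (fun p hp hlt F hF => by
    obtain ⟨b₁, hb₁, hb₂⟩ := VSS_dim_lt inferInstance hlt hp.ne_top hb.le
    exact hvan a b₁ p _ F (by omega) hp hb₂ ((ringKrullDim_le_of_surjective
      (Ideal.Quotient.factor k1) (Ideal.Quotient.factor_surjective k1)).trans ha)
      ⟨c, hc.trans (sup_le_sup hlt.le k1)⟩ hF) hk hζ
  rw [MC.psiL_map] at hψ
  rw [MC.Psi_sub] at hΨ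
  have e1 : (cst (Fin k → E.ι) M : Submodule S _).restrictScalars R = cst _ M' := rfl
  have e2 : ∀ t, v + k • avec (2 * m) t = k • uvec (2 * m) C t := fun t => by
    funext s
    simp [hv, uvec, mul_add]
  have e3 : E.psiL (LF.length R) k ζ S (cst _ M') ⊥ = _ := hψ
  rw [hΨ, ← hses] at e3
  have e4 := congrArg Complex.re e3
  rw [← Complex.ofReal_natCast, ← Complex.ofReal_pow, ← Complex.ofReal_mul, Complex.ofReal_re,
    Complex.ofReal_re] at e4
  rw [e4]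
  refine Finset.sum_congr rfl fun j hj => ?_
  rw [VSS_sz_eq hres (hpow j (Finset.mem_range.1 hj) v hvC k), e2, e2, Iw_smul, Iw_smul]

end Crest.Agent.R188
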