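import Crest.Agent.R188.BDefs
import Crest.Agent.R188.PTilt
import Crest.Agent.R188.PRP
import Crest.Agent.R188.PProd
import Crest.Agent.R188.QPow
import Crest.Agent.R188.VSS

/-!
# The flag lemma on the untilt
-/

set_option autoImplicit false
set_option linter.unusedVariables false

open scoped ENNReal NNReal TensorProduct

namespace Crest.Agent.R188

open Crest.Agent.R183 IsLocalRing WittVector

variable {p : ℕ} [Fact p.Prime] {k : Type} [Field k] [CharP k p] [PerfectRing k p]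

namespace Base

variable (X : Base p k)

theorem BFam_X_not_mem : (MvPowerSeries.X 0 : X.Λ) ∉ Ideal.span {xi0 p k X.a₀ X.mix} := by
  intro h
  obtain ⟨a, ha⟩ := Ideal.mem_span_singleton'.1 h
  obtain ⟨m, hm⟩ : ∃ m : X.Λ, xi0 p k X.a₀ X.mix = (p : X.Λ) - MvPowerSeries.X 0 * m := by
    refine ⟨if X.mix then 1 else 0, ?_⟩
    unfold xi0
    split_ifs <;> simp
  rw [hm] at ha
  have h0 : MvPowerSeries.constantCoeff a = 0 := by
    have := congrArg MvPowerSeries.constantCoeff ha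
    simp only [map_mul, map_sub, map_natCast, MvPowerSeries.constantCoeff_X, zero_mul,
      sub_zero] at this
    exact (mul_eq_zero.1 this).resolve_right (WittVector.p_nonzero p k)
  have hu : IsUnit (1 + a * m) := by
    rw [MvPowerSeries.isUnit_iff_constantCoeff]
    simp [h0]
  have h1 : MvPowerSeries.X 0 * (1 + a * m) = a * (p : X.Λ) := by linear_combination -ha
  have h2 := congrArg
    (MvPowerSeries.map (σ := Fin (X.a₀ + 1)) (constantCoeff : WittVector p k →+* k)) h1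
  rw [map_mul, map_mul, map_natCast, MvPowerSeries.map_X] at h2
  have h3 : ((p : ℕ) : MvPowerSeries (Fin (X.a₀ + 1)) k) = 0 := by
    rw [← map_natCast (MvPowerSeries.C : k →+* MvPowerSeries (Fin (X.a₀ + 1)) k),
      CharP.cast_eq_zero, map_zero]
  rw [h3, mul_zero, (hu.map _).mul_left_eq_zero] at h2
  have h4 := congrArg (MvPowerSeries.coeff (Finsupp.single (0 : Fin (X.a₀ + 1)) 1)) h2
  simp at h4

theorem ϖ_ne_zero : algebraMap X.R X.S (X.π (X.sT 0)) ≠ 0 := by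
  rw [X.hsS]
  refine pow_ne_zero _ fun h => X.BFam_X_not_mem ?_
  rw [← X.kerΛ]
  exact h

theorem BFam_map_max {r : X.R} (hr : r ∈ maximalIdeal X.R) :
    algebraMap X.R X.S r ∈ maximalIdeal X.S := by
  have h := Ideal.isMaximal_comap_of_isIntegral_of_isMaximal (R := X.R) (maximalIdeal X.S)
  rw [← eq_maximalIdeal h] at hr
  exact hr

theorem BFam_π_max {t : X.T} : X.π t ∈ maximalIdeal X.R ↔ t ∈ maximalIdeal X.T := by
  have h := Ideal.comap_isMaximal_of_surjective X.π X.hπ (K := maximalIdeal X.R)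
  rw [← eq_maximalIdeal h]
  rfl

theorem BFam_π_ξ : X.π X.ξ = 0 := by
  rw [← RingHom.mem_ker, X.hξ]
  exact Ideal.subset_span rfl

theorem BFam_K₀ : ∃ r : ℕ, X.K₀ = X.q₀ * X.c + 1 + r := by
  refine Nat.exists_eq_add_of_le ?_
  have := X.hq₀
  unfold K₀
  nlinarith [Nat.zero_le (X.q₀ * X.m * X.c)]

theorem BFam_K₀' : X.K₀ = X.q₀ * (1 + X.c * (2 * X.m)) + X.q₀ * X.c := by
  unfold K₀
  ring

theorem dim_S : ringKrullDim X.S ≤ (X.a₀ + 1 : ℕ) := by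
  obtain ⟨e, he⟩ := X.hmΛ
  refine ringKrullDim_le_of_sop X.S _ (fun i => ?_) he
  have h := X.BFam_map_max (X.hsT i)
  rw [X.hsS] at h
  exact Ideal.IsPrime.mem_of_pow_mem inferInstance _ h

/-- the Plücker ideals of `S` -/
noncomputable abbrev IS : Fin (2 * X.m + 1) → Ideal X.S :=
  plI (X.U.map (algebraMap X.R X.S)) (algebraMap X.R X.S (X.π (X.sT 0)))

theorem exists_splS : ∃ U'', Spl (X.E.map (algebraMap X.R X.S)) X.m X.δ
    (X.U.map (algebraMap X.R X.S)) U'' (algebraMap X.R X.S (X.π (X.sT 0) ^ X.c)) := by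
  refine ASpl.exists_spl (𝔧 := ⊥) (X.spl.map (algebraMap X.R X.S) fun a ha => ?_) ?_ bot_le
  · rw [show algebraMap X.R X.S a = 0 from X.hHS ha]
    exact zero_mem _
  · rw [map_pow]
    exact fun x y h => mul_left_cancel₀ (pow_ne_zero _ X.ϖ_ne_zero) h

theorem pow_mem_IS (t : Fin (2 * X.m + 1)) :
    algebraMap X.R X.S (X.π (X.sT 0)) ^ ((2 * X.m + 1) * X.c + 1) ∈ X.IS t := by
  obtain ⟨U'', h⟩ := X.exists_splS
  have h1 := VSS_mem_plI _ _ h.left (algebraMap X.R X.S (X.π (X.sT 0))) t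
  refine Ideal.mem_of_dvd _ ⟨algebraMap X.R X.S (X.π (X.sT 0)) ^ X.c, ?_⟩ h1
  rw [map_pow]
  ring

theorem exists_famS : ∃ C₀, ∀ C, C₀ ≤ C →
    Fam X.IS (algebraMap X.R X.S (X.π (X.sT 0) ^ X.c)) C (Iw X.IS) := by
  obtain ⟨C₀, h⟩ := fam_Iw X.IS (γ := algebraMap X.R X.S (X.π (X.sT 0)))
    (fun x y h => mul_left_cancel₀ X.ϖ_ne_zero h) fun t => ⟨_, X.pow_mem_IS t⟩
  refine ⟨C₀, fun C hC => ⟨h.mul, fun w s hw => h.gen w s (hC.trans hw), fun w s e x hw hx => ?_⟩⟩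
  rw [map_pow, ← pow_mul] at hx ⊢
  exact h.col w s _ x (hC.trans hw) hx

end Base

namespace Cov

variable {X : Base p k} (Y : Cov X)

theorem pow_mem_Γ (w : Fin (2 * X.m + 1) → ℕ) (ρ : ℕ) : ∃ N : ℕ, Y.s 0 ^ N ∈ Y.Γ w ρ := by
  have h := Y.pf.Iw_mul_le w 0 ρ 0
  rw [Y.pf.top, Ideal.mul_top, add_zero, add_zero] at h
  have h1 := pow_mem_Iw (fun t => sp fun j : Option X.J => j.elim (Y.s 0 ^ X.K₀) (Y.β t))
    (γ := Y.s 0) (c := X.K₀) (fun t => Ideal.subset_span ⟨none, rfl⟩) w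
  have h2 : Y.s 0 ^ ρ ∈ sp Y.s ^ ρ :=
    Ideal.pow_mem_pow (Ideal.subset_span (Set.mem_range_self 0)) ρ
  have h3 := h (Ideal.mul_mem_mul h1 h2)
  rw [← pow_add] at h3
  exact ⟨_, h3⟩

theorem ξ_mem : Y.θ X.ξ ∈ Y.𝔍 := by
  rw [← Ideal.Quotient.eq_zero_iff_mem, ← Y.hψ, X.BFam_π_ξ, map_zero, map_zero]

theorem isUnit_one_add (z : Y.A) : IsUnit (1 + teichmuller p (Y.s 0) * z) := by
  refine isUnit_of_cc ?_
  rw [map_add, map_one, map_mul]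
  have : constantCoeff (teichmuller p (Y.s 0)) = Y.s 0 := by simp
  rw [this]
  exact Y.jac _

/-- the image of `[s₀]` in the untilt -/
noncomputable abbrev BFam_τ : Y.B := Ideal.Quotient.mk _ (teichmuller p (Y.s 0))

theorem BFam_ϖ : ∃ u : Y.Bˣ, Y.φ (X.π (X.sT 0)) = u * Y.BFam_τ ^ X.q₀ := by
  obtain ⟨u, hu⟩ := Y.hϖ
  refine ⟨Units.map (Ideal.Quotient.mk (Ideal.span {Y.θ X.ξ})).toMonoidHom u, ?_⟩
  rw [Y.φ_π, Ideal.Quotient.eq.2 hu]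
  simp

theorem BFam_τ_reg : IsSMulRegular Y.B Y.BFam_τ := by
  intro x y h
  obtain ⟨x, rfl⟩ := Ideal.Quotient.mk_surjective x
  obtain ⟨y, rfl⟩ := Ideal.Quotient.mk_surjective y
  refine Ideal.Quotient.eq.2 (Y.dist.teich_reg Y.reg ?_)
  rw [mul_sub]
  exact Ideal.Quotient.eq.1 h

theorem BFam_mk_mem {x : Y.A} {N : ℕ}
    (h : x ∈ Ideal.span {Y.θ X.ξ} ⊔ Ideal.span {teichmuller p (Y.s 0) ^ N}) :
    Y.BFam_τ ^ N ∣ Ideal.Quotient.mk (Ideal.span {Y.θ X.ξ}) x := by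
  obtain ⟨a, ha, b, hb, rfl⟩ := Submodule.mem_sup.1 h
  rw [map_add, Ideal.Quotient.eq_zero_iff_mem.2 ha, zero_add, ← map_pow]
  exact map_dvd _ (Ideal.mem_span_singleton.1 hb)

theorem BFam_mem_map {K : Ideal Y.A} (hK : Y.θ X.ξ ∈ K) {x : Y.A} :
    Ideal.Quotient.mk (Ideal.span {Y.θ X.ξ}) x ∈ K.map (Ideal.Quotient.mk _) ↔ x ∈ K := by
  rw [← Ideal.mem_comap, Ideal.comap_map_of_surjective _ Ideal.Quotient.mk_surjective,
    ← RingHom.ker_eq_comap_bot, Ideal.mk_ker, sup_eq_left.2]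
  rwa [Ideal.span_singleton_le_iff_mem]

theorem exists_spl : ∃ U'', Spl (X.E.map Y.φ) X.m X.δ (X.U.map Y.φ) U''
    (Y.φ (X.π (X.sT 0) ^ X.c)) := by
  obtain ⟨u, hu⟩ := Y.BFam_ϖ
  refine ASpl.exists_spl (𝔧 := Ideal.span {Y.BFam_τ}) (X.spl.map Y.φ fun a ha => ?_) ?_ ?_
  · obtain ⟨t, rfl⟩ := X.hπ a
    obtain ⟨b, hb⟩ := Y.BFam_mk_mem (Y.hH t ha)
    obtain ⟨r, hr⟩ := X.BFam_K₀
    rw [Y.φ_π, hb, Ideal.span_singleton_mul_span_singleton, Ideal.mem_span_singleton, map_pow, hu,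
      hr]
    refine ⟨(u⁻¹ : Y.Bˣ) ^ X.c * Y.BFam_τ ^ r * b, ?_⟩
    have : (u : Y.B) ^ X.c * (u⁻¹ : Y.Bˣ) ^ X.c = 1 := by
      rw [← mul_pow, Units.mul_inv, one_pow]
    linear_combination (-(Y.BFam_τ ^ (X.q₀ * X.c + 1 + r) * b)) * this
  · rw [map_pow, hu]
    exact ((Units.isSMulRegular _ u).mul (Y.BFam_τ_reg.pow _)).pow _
  · rw [Ideal.span_singleton_le_iff_mem, Ideal.mem_jacobson_bot]
    intro y
    obtain ⟨y, rfl⟩ := Ideal.Quotient.mk_surjective y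
    have := (Y.isUnit_one_add y).map (Ideal.Quotient.mk (Ideal.span {Y.θ X.ξ}))
    rwa [map_add, map_one, map_mul, add_comm] at this

/-- the Plücker ideals of the untilt are generated by Teichmüller lifts -/
theorem plI_eq (t : Fin (2 * X.m + 1)) : plI (X.U.map Y.φ) (Y.φ (X.π (X.sT 0))) t =
    sp fun j : Option X.J => Ideal.Quotient.mk (Ideal.span {Y.θ X.ξ})
      (teichmuller p (j.elim (Y.s 0 ^ X.K₀) (Y.β t))) := by
  have hβ : ∀ j, Y.BFam_τ ^ X.K₀ ∣ Y.φ (X.π (X.sT 0)) * pl (X.U.map Y.φ) t j -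
      Ideal.Quotient.mk (Ideal.span {Y.θ X.ξ}) (teichmuller p (Y.β t j)) := by
    intro j
    obtain ⟨a, ha⟩ := X.hπ (X.β t j)
    have h := Y.BFam_mk_mem (Y.hβ t j a ha)
    rwa [map_sub, ← Y.φ_π, ha, Base.β, map_mul, ← pl_map] at h
  have h1 : Y.BFam_τ ^ X.K₀ ∈ plI (X.U.map Y.φ) (Y.φ (X.π (X.sT 0))) t := by
    obtain ⟨U'', h⟩ := Y.exists_spl
    obtain ⟨u, hu⟩ := Y.BFam_ϖ
    have h1 := VSS_mem_plI _ _ h.left (Y.φ (X.π (X.sT 0))) t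
    refine Ideal.mem_of_dvd _
      ⟨(u⁻¹ : Y.Bˣ) ^ (1 + X.c * (2 * X.m)) * Y.BFam_τ ^ (X.q₀ * X.c), ?_⟩ h1
    have : (u : Y.B) ^ (1 + X.c * (2 * X.m)) * (u⁻¹ : Y.Bˣ) ^ (1 + X.c * (2 * X.m)) = 1 := by
      rw [← mul_pow, Units.mul_inv, one_pow]
    rw [map_pow, hu, X.BFam_K₀']
    linear_combination
      (-(Y.BFam_τ ^ (X.q₀ * (1 + X.c * (2 * X.m)) + X.q₀ * X.c))) * this
  have h2 : Y.BFam_τ ^ X.K₀ ∈ sp fun j : Option X.J => Ideal.Quotient.mk (Ideal.span {Y.θ X.ξ})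
      (teichmuller p (j.elim (Y.s 0 ^ X.K₀) (Y.β t))) :=
    Ideal.subset_span ⟨none, by simp⟩
  refine le_antisymm (Ideal.span_le.2 ?_) (Ideal.span_le.2 ?_)
  · rintro _ ⟨j, rfl⟩
    have h3 := Ideal.mem_of_dvd _ (hβ j) h2
    exact (Submodule.sub_mem_iff_left _ (Ideal.subset_span (Set.mem_range_self (some j)))).1 h3
  · rintro _ ⟨_ | j, rfl⟩
    · simpa using h1
    · have h3 := Ideal.mem_of_dvd _ (hβ j) h1
      exact (Submodule.sub_mem_iff_right _ (Ideal.subset_span (Set.mem_range_self j))).1 h3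

theorem IS_map (t : Fin (2 * X.m + 1)) : (X.IS t).map Y.ψ =
    sp fun j : Option X.J => Ideal.Quotient.mk Y.𝔍
      (teichmuller p (j.elim (Y.s 0 ^ X.K₀) (Y.β t))) := by
  have hβ : ∀ j, Y.ψ (algebraMap X.R X.S (X.π (X.sT 0)) * pl (X.U.map (algebraMap X.R X.S)) t j) =
      Ideal.Quotient.mk Y.𝔍 (teichmuller p (Y.β t j)) := by
    intro j
    rw [← Y.hψβ, Base.β, map_mul (algebraMap X.R X.S), pl_map]
  refine le_antisymm (Ideal.map_le_iff_le_comap.2 (Ideal.span_le.2 ?_)) (Ideal.span_le.2 ?_)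
  · rintro _ ⟨j, rfl⟩
    exact Ideal.subset_span ⟨some j, (hβ j).symm⟩
  · rintro _ ⟨_ | j, rfl⟩
    · have h := Ideal.mem_map_of_mem Y.ψ (X.pow_mem_IS t)
      rw [X.hsS, ← pow_mul, map_pow, Y.hψ₀, Y.hθ₀] at h
      simpa [Base.K₀] using h
    · have h := Ideal.mem_map_of_mem Y.ψ (I := X.IS t) (Ideal.subset_span ⟨j, rfl⟩)
      rw [hβ] at h
      exact h

theorem BFam_plI_map (t : Fin (2 * X.m + 1)) : plI (X.U.map Y.φ) (Y.φ (X.π (X.sT 0))) t =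
    (sp fun j : Option X.J => teichmuller p (j.elim (Y.s 0 ^ X.K₀) (Y.β t))).map
      (Ideal.Quotient.mk (Ideal.span {Y.θ X.ξ})) := by
  rw [Y.plI_eq, Ideal.map_span, ← Set.range_comp]
  rfl

theorem BFam_g_mul (w : Fin (2 * X.m + 1) → ℕ) (t : Fin (2 * X.m + 1)) :
    (sp fun j : Option X.J => j.elim (Y.s 0 ^ X.K₀) (Y.β t)) * Y.Γ w 0 ≤
      Y.Γ (w + Pi.single t 1) 0 := by
  have h := Y.pf.mul (Pi.single t 1) w 0 0
  rw [add_comm _ w] at h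
  refine le_trans (Ideal.mul_mono_left (Ideal.span_le.2 ?_)) h
  rintro _ ⟨j, rfl⟩
  exact Y.pf.gmem t j

theorem BFam_span (e : ℕ) (w : Fin (2 * X.m + 1) → ℕ) :
    Ideal.span {Y.φ (X.π (X.sT 0) ^ X.c) ^ e} * Y.ΓB w =
      (WI p (Ideal.span {Y.s 0 ^ (X.q₀ * X.c * e)} * Y.Γ w 0)).map
        (Ideal.Quotient.mk (Ideal.span {Y.θ X.ξ})) := by
  obtain ⟨u, hu⟩ := Y.BFam_ϖ
  rw [(Y.pf.cvx w 0).WI_span_mul, Ideal.map_mul, Ideal.map_span, Set.image_singleton, ΓB]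
  congr 1
  rw [map_pow, hu, mul_pow, mul_pow, Ideal.span_singleton_mul_left_unit
    ((u.isUnit.pow _).pow _), map_pow, map_pow, pow_mul, pow_mul]

theorem fam {C : ℕ} (hC : X.nG ≤ C) : Fam (plI (X.U.map Y.φ) (Y.φ (X.π (X.sT 0))))
    (Y.φ (X.π (X.sT 0) ^ X.c)) C Y.ΓB := by
  refine ⟨fun w s => ?_, fun w s hw => ?_, fun w s e x hw hx => ?_⟩
  · rw [Y.BFam_plI_map, ΓB, ΓB, ← Ideal.map_mul]
    refine Ideal.map_mono (le_trans (Ideal.mul_mono_left (Ideal.span_le.2 ?_))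
      ((WI_mul_le _ _).trans (WI_mono (Y.BFam_g_mul w s))))
    rintro _ ⟨j, rfl⟩
    exact teich_mem_WI (Ideal.subset_span ⟨j, rfl⟩)
  · rw [Y.BFam_plI_map, ΓB, ΓB, ← Ideal.map_mul]
    exact Ideal.map_mono (WI_le_sp_mul _ (Y.pf.cvx _ _) (Y.pf.cvx _ _) (Y.BFam_g_mul w s)
      (Y.pf.gen w 0 s (hC.trans hw)))
  · obtain ⟨x, rfl⟩ := Ideal.Quotient.mk_surjective x
    have hw1 : 1 ≤ w s := le_trans Fintype.card_pos (hC.trans hw)
    have hn : ∀ v, ∃ N : ℕ, Y.s 0 ^ N ∈ Ideal.span {Y.s 0 ^ (X.q₀ * X.c * e)} * Y.Γ v 0 := by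
      intro v
      obtain ⟨N, hN⟩ := Y.pow_mem_Γ v 0
      exact ⟨_, by rw [pow_add]; exact Ideal.mul_mem_mul (Ideal.subset_span rfl) hN⟩
    have key : ∀ (K : Ideal Y.A) (y : Y.A),
        Ideal.Quotient.mk (Ideal.span {Y.θ X.ξ}) y ∈ K.map (Ideal.Quotient.mk _) ↔
          y ∈ K ⊔ Ideal.span {Y.θ X.ξ} := by
      intro K y
      rw [← Ideal.mem_comap, Ideal.comap_map_of_surjective _ Ideal.Quotient.mk_surjective,
        ← RingHom.ker_eq_comap_bot, Ideal.mk_ker]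
    rw [Y.BFam_span] at hx ⊢
    rw [key]
    refine Y.dist.col Y.reg (fun j : Option X.J => j.elim (Y.s 0 ^ X.K₀) (Y.β s))
      ((Y.pf.cvx _ _).span_mul _) ((Y.pf.cvx (w + Pi.single s 1) 0).span_mul _) (hn _) (hn _) ?_
      (fun y hy => Y.pf.col w s _ y hw1 hy) fun j => ?_
    · rw [mul_left_comm]
      exact Ideal.mul_mono_right (Y.BFam_g_mul w s)
    · rw [← key, map_mul]
      refine hx _ ?_
      rw [Y.plI_eq]
      exact Ideal.subset_span ⟨j, rfl⟩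

theorem sz_ΓB (w w' : Fin (2 * X.m + 1) → ℕ) :
    Y.νB.sz (Y.ΓB w) (Y.ΓB w') = Y.νO.sz (Y.Γ w 0) (Y.Γ w' 0) := by
  rw [ΓB, ΓB, sz_map_of_surjective _ _ Ideal.Quotient.mk_surjective, Ideal.mk_ker]
  exact Y.dist.sz_eq Y.reg (Y.pf.cvx _ _) (Y.pf.cvx _ _) (Y.pow_mem_Γ _ _) (Y.pow_mem_Γ _ _) _

/-- passing to the quotient by `𝔍` does not change sizes -/
theorem sz_bar {P Q : Ideal Y.A} {N : ℕ} (h₁ : Y.θ X.ξ ∈ Q)
    (h₂ : teichmuller p (Y.s 0) ^ N ∈ Q) :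
    (Y.ν.comap (Ideal.Quotient.mk Y.𝔍)).sz (P.map (Ideal.Quotient.mk Y.𝔍))
      (Q.map (Ideal.Quotient.mk Y.𝔍)) = Y.ν.sz P Q := by
  obtain ⟨η, hη, h⟩ := Y.h𝔍 N
  rw [sz_map_of_surjective _ _ Ideal.Quotient.mk_surjective, Ideal.mk_ker]
  refine sz_sup_of_null _ hη _ _ _ fun x hx => ?_
  exact (sup_le ((Ideal.span_singleton_le_iff_mem _).2 h₁)
    ((Ideal.span_singleton_le_iff_mem _).2 h₂) :) (h x hx)

theorem BFam_of_le {K : Ideal Y.A} (hK : Y.θ X.ξ ∈ K) {J : Ideal X.R}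
    (h : J ≤ (K.map (Ideal.Quotient.mk _)).comap Y.φ) {t : X.T} (ht : X.π t ∈ J) : Y.θ t ∈ K := by
  rw [← Y.BFam_mem_map hK, ← Y.φ_π]
  exact h ht

theorem BFam_le {K : Ideal Y.A} {J : Ideal X.R} (h : ∀ t, X.π t ∈ J → Y.θ t ∈ K) :
    J ≤ (K.map (Ideal.Quotient.mk _)).comap Y.φ := by
  intro r hr
  obtain ⟨t, rfl⟩ := X.hπ r
  rw [Ideal.mem_comap, Y.φ_π]
  exact Ideal.mem_map_of_mem _ (h t hr)

theorem max_pow_le : ∃ e : ℕ, ∀ t ∈ maximalIdeal X.T, Y.θ t ^ e ∈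
    Ideal.span {(p : Y.A)} ⊔ sp fun i => teichmuller p (Y.s i) := by
  obtain ⟨e, he⟩ := X.hHs
  obtain ⟨r, hr⟩ := X.BFam_K₀
  set K : Ideal Y.A := Ideal.span {(p : Y.A)} ⊔ sp fun i => teichmuller p (Y.s i) with hK
  have hs : ∀ i, teichmuller p (Y.s i) ∈ K :=
    fun i => Ideal.mem_sup_right (Ideal.subset_span ⟨i, rfl⟩)
  have hξ : Y.θ X.ξ ∈ K := by
    have h : Y.θ X.ξ ∈ Ideal.span {Y.θ X.ξ} ⊔ Ideal.span {teichmuller p (Y.s 0)} :=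
      Ideal.mem_sup_left (Ideal.subset_span rfl)
    rw [Y.dist.sup_eq] at h
    exact (sup_le le_sup_left ((Ideal.span_singleton_le_iff_mem _).2 (hs 0)) :) h
  have hle : Ideal.span {Y.θ X.ξ} ⊔ Ideal.span {teichmuller p (Y.s 0) ^ X.K₀} ≤ K :=
    sup_le ((Ideal.span_singleton_le_iff_mem _).2 hξ)
      ((Ideal.span_singleton_le_iff_mem _).2 (Ideal.pow_mem_of_mem _ (hs 0) _ (by omega)))
  refine ⟨e, fun t ht => ?_⟩
  rw [← map_pow]
  refine Y.BFam_of_le hξ (J := maximalIdeal X.R ^ e) (he.trans (sup_le (sup_le ?_ ?_) ?_)) ?_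
  · exact Y.BFam_le fun t ht => hle (Y.hH t ht)
  · refine Ideal.span_le.2 ?_
    rintro _ ⟨i, rfl⟩
    rw [SetLike.mem_coe, Ideal.mem_comap, Y.φ_π]
    refine Ideal.mem_map_of_mem _ ?_
    exact (Submodule.sub_mem_iff_left _ (Ideal.pow_mem_of_mem _ (hs i) _ X.hq₀)).1
      (hle (Y.hsT i))
  · rw [Ideal.span_singleton_le_iff_mem, Ideal.mem_comap, map_natCast,
      ← map_natCast (Ideal.Quotient.mk (Ideal.span {Y.θ X.ξ}))]
    exact Ideal.mem_map_of_mem _ (Ideal.mem_sup_left (Ideal.subset_span rfl))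
  · rw [map_pow]
    exact Ideal.pow_mem_pow (X.BFam_π_max.2 ht) e

theorem max_pow_le_Q : ∃ e : ℕ, (∀ t ∈ maximalIdeal X.T, Y.θ t ^ e ∈ (X.Q.comap X.π).map Y.θ) ∧
    ∀ i, teichmuller p (Y.s i) ^ e ∈ (X.Q.comap X.π).map Y.θ := by
  obtain ⟨e, he⟩ := X.hHQ
  obtain ⟨r, hr⟩ := X.BFam_K₀
  set K : Ideal Y.A := (X.Q.comap X.π).map Y.θ with hK
  have hQ : ∀ t, X.π t ∈ X.Q → Y.θ t ∈ K := fun t ht => Ideal.mem_map_of_mem _ ht
  have hξ : Y.θ X.ξ ∈ K := hQ _ (by rw [X.BFam_π_ξ]; exact zero_mem _)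
  have hs : teichmuller p (Y.s 0) ^ X.K₀ ∈ K := by
    obtain ⟨h, hh, q, hq, hhq⟩ := Submodule.mem_sup.1 X.hc
    obtain ⟨t, rfl⟩ := X.hπ h
    obtain ⟨t', rfl⟩ := X.hπ q
    obtain ⟨u, hu⟩ := Y.BFam_ϖ
    obtain ⟨b, hb⟩ := Y.BFam_mk_mem (Y.hH t hh)
    have h1 : Y.φ (X.π t') ∈ K.map (Ideal.Quotient.mk _) := by
      rw [Y.φ_π]
      exact Ideal.mem_map_of_mem _ (hQ _ hq)
    have h2 := congrArg Y.φ hhq
    rw [map_add, map_pow, hu, Y.φ_π t, hb, hr] at h2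
    obtain ⟨z, hz⟩ := Ideal.Quotient.mk_surjective
      (-((u⁻¹ : Y.Bˣ) ^ X.c * Y.BFam_τ ^ r * b : Y.B))
    have hu' := (Y.isUnit_one_add z).map (Ideal.Quotient.mk (Ideal.span {Y.θ X.ξ}))
    rw [map_add, map_one, map_mul, hz] at hu'
    have h3 : (u : Y.B) ^ X.c * (u⁻¹ : Y.Bˣ) ^ X.c = 1 := by
      rw [← mul_pow, Units.mul_inv, one_pow]
    have h4 : Y.φ (X.π t') = (u : Y.B) ^ X.c *
        (1 + Y.BFam_τ * -((u⁻¹ : Y.Bˣ) ^ X.c * Y.BFam_τ ^ r * b)) * Y.BFam_τ ^ (X.q₀ * X.c) := by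
      linear_combination h2 + (Y.BFam_τ ^ (X.q₀ * X.c + 1 + r) * b) * h3
    rw [h4, Ideal.unit_mul_mem_iff_mem _ ((u.isUnit.pow _).mul hu'), ← map_pow,
      Y.BFam_mem_map hξ] at h1
    exact Ideal.pow_mem_of_pow_mem _ h1 (by omega)
  have hle : Ideal.span {Y.θ X.ξ} ⊔ Ideal.span {teichmuller p (Y.s 0) ^ X.K₀} ≤ K :=
    sup_le ((Ideal.span_singleton_le_iff_mem _).2 hξ) ((Ideal.span_singleton_le_iff_mem _).2 hs)
  have hm : ∀ t ∈ maximalIdeal X.T, Y.θ t ^ e ∈ K := by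
    intro t ht
    rw [← map_pow]
    refine Y.BFam_of_le hξ (J := maximalIdeal X.R ^ e) (he.trans (sup_le ?_ ?_)) ?_
    · exact Y.BFam_le fun t ht => hle (Y.hH t ht)
    · exact Y.BFam_le hQ
    · rw [map_pow]
      exact Ideal.pow_mem_pow (X.BFam_π_max.2 ht) e
  refine ⟨X.q₀ * e, fun t ht => Ideal.pow_mem_of_pow_mem _ (hm t ht)
    (Nat.le_mul_of_pos_left _ X.hq₀), fun i => ?_⟩
  have h1 := hm _ (X.BFam_π_max.1 (X.hsT i))
  have h2 := Ideal.mem_of_dvd _ (sub_dvd_pow_sub_pow _ _ e) (hle (Y.hsT i))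
  rw [pow_mul]
  exact (Submodule.sub_mem_iff_right _ h1).1 h2

end Cov

end Crest.Agent.R188
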