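import Crest.Agent.R188.GGrow
import Crest.Agent.R188.GMar

/-!
# Real powers versus ordinary powers
-/

set_option autoImplicit false
set_option linter.unusedVariables false

open scoped ENNReal NNReal TensorProduct

namespace Crest.Agent.R188

open Crest.Agent.R183 IsLocalRing

theorem BRvo_sub {τ : Type} {n q : ℕ} (hq : n ≤ q) {v : τ → ℕ} (hv : ∀ t, 1 ≤ v t) :
    (q • v - fun _ => n) + (fun _ => n) = q • v := by
  funext t
  have h1 : q ≤ q * v t := Nat.le_mul_of_pos_right q (hv t)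
  simp only [Pi.add_apply, Pi.sub_apply, Pi.smul_apply, smul_eq_mul]
  omega

theorem BRvo_sub' {τ : Type} {n q : ℕ} (hq : n ≤ q) {v : τ → ℕ} (hv : ∀ t, 1 ≤ v t) :
    (q • v - fun _ => n) = (q - n) • v + (n • v - fun _ => n) := by
  funext t
  have h1 : n ≤ n * v t := Nat.le_mul_of_pos_right n (hv t)
  obtain ⟨k, rfl⟩ := Nat.exists_eq_add_of_le hq
  simp only [Pi.add_apply, Pi.sub_apply, Pi.smul_apply, smul_eq_mul, Nat.add_sub_cancel_left,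
    add_mul]
  omega

theorem BRvo_abs {I K L a b : ℝ≥0∞} (hI : I ≠ ⊤) (ha : a ≠ ⊤) (hb : b ≠ ⊤) (hK : K ≤ a)
    (hL : L ≤ b) : |(I + L).toReal - (I + K).toReal| ≤ a.toReal + b.toReal := by
  have hKf : K ≠ ⊤ := ne_top_of_le_ne_top ha hK
  have hLf : L ≠ ⊤ := ne_top_of_le_ne_top hb hL
  rw [ENNReal.toReal_add hI hKf, ENNReal.toReal_add hI hLf]
  have hK' := ENNReal.toReal_mono ha hK
  have hL' := ENNReal.toReal_mono hb hL
  have k0 : 0 ≤ K.toReal := ENNReal.toReal_nonneg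
  have l0 : 0 ≤ L.toReal := ENNReal.toReal_nonneg
  rw [abs_le]
  constructor <;> linarith

theorem rvo {S B τ : Type} [CommRing S] [IsNoetherianRing S] [IsLocalRing S] [IsDomain S]
    [CommRing B] [Fintype τ] [DecidableEq τ] (δ : ℕ) (hd : ringKrullDim S ≤ (δ + 1 : ℕ))
    (I : τ → Ideal S) {ϖ : S} (hϖ : ϖ ≠ 0) (hI : ∀ t, ∃ c : ℕ, ϖ ^ c ∈ I t) (ψ : S →+* B)
    (ν : LF B) (Γ : (τ → ℕ) → Ideal B) (n : ℕ) (hle : ∀ w, (Iw I w).map ψ ≤ Γ w)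
    (hmul : ∀ w, (Iw I w).map ψ * Γ (fun _ => n) ≤ Γ (w + fun _ => n))
    (hgen : ∀ w, Γ (w + fun _ => n) ≤ (Iw I w).map ψ * Γ fun _ => n)
    (hm : ν.sz (Γ fun _ => n) ((maximalIdeal S).map ψ * Γ fun _ => n) ≠ ⊤)
    (hr : ν.val (B ⧸ (maximalIdeal S).map ψ) ≠ ⊤) (u u' : τ → ℕ) (hu : ∀ t, 1 ≤ u t)
    (hu' : ∀ t, 1 ≤ u' t) {N : ℕ} (h₁ : maximalIdeal S ^ N * Iw I u ≤ Iw I u')
    (h₂ : Iw I u' ≤ Iw I u)
    (h₃ : ∀ q : ℕ, (maximalIdeal S ^ (N * q)).map ψ * Γ (q • u) ≤ Γ (q • u'))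
    (h₄ : ∀ q : ℕ, Γ (q • u') ≤ Γ (q • u)) :
    ∃ C : ℝ, ∀ q : ℕ, n ≤ q → |(ν.sz (Γ (q • u)) (Γ (q • u'))).toReal -
      (ν.sz ((Iw I u ^ q).map ψ) ((Iw I u' ^ q).map ψ)).toReal| ≤ C * (q + 1) ^ δ := by
  choose c hc using hI
  have hc0 : ∀ t, ϖ ^ (∑ s, c s) ∈ I t := fun t => by
    obtain ⟨k, hk⟩ := Nat.exists_eq_add_of_le
      (Finset.single_le_sum (f := c) (fun _ _ => Nat.zero_le _) (Finset.mem_univ t))
    rw [hk, pow_add]
    exact Ideal.mul_mem_right _ _ (hc t)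
  obtain ⟨g, hg0, hg⟩ : ∃ g : S, g ≠ 0 ∧ g ∈ Iw I (fun _ => n) :=
    ⟨_, pow_ne_zero _ hϖ, pow_mem_Iw I hc0 _⟩
  have hgJ : ∀ q, n ≤ q → ∀ v : τ → ℕ, (∀ t, 1 ≤ v t) →
      Ideal.span {g} * Iw I (q • v - fun _ => n) ≤ Iw I v ^ q := fun q hq v hv => by
    rw [← Iw_smul, mul_comm]
    conv_rhs => rw [← BRvo_sub hq hv, Iw_add]
    exact Ideal.mul_mono_right ((Ideal.span_singleton_le_iff_mem _).2 hg)
  obtain ⟨C₁, hC₁⟩ := growth_pair_quot δ hd h₁ hg0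
  obtain ⟨C₂, hC₂⟩ := growth_pow_quot δ hd (Iw I u) hg0
  obtain ⟨k, v, hv⟩ := GGrow_exists_gen (Iw I (n • u - fun _ => n))
  have hr' : ν.sz (⊤ : Submodule B B) ((maximalIdeal S).map ψ • ⊤) ≠ ⊤ := by
    rw [LF.sz_top, smul_eq_mul, Ideal.mul_top]
    exact hr
  obtain ⟨r, hrr⟩ : ∃ r, r = ν.sz (⊤ : Submodule B B) ((maximalIdeal S).map ψ • ⊤) := ⟨_, rfl⟩
  obtain ⟨m, hmm⟩ : ∃ m, m = ν.sz (Γ fun _ => n) ((maximalIdeal S).map ψ * Γ fun _ => n) :=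
    ⟨_, rfl⟩
  refine ⟨C₁ * r.toReal + (k * (C₂ * (N + 1) ^ δ) : ℕ) * m.toReal, fun q hq => ?_⟩
  have hA : (Iw I u ^ q).map ψ ≤ Γ (q • u) := by
    rw [← Iw_smul]
    exact hle _
  have hA' : (Iw I u' ^ q).map ψ ≤ Γ (q • u') := by
    rw [← Iw_smul]
    exact hle _
  have hfin : ν.sz ((Iw I u ^ q).map ψ) ((Iw I u' ^ q).map ψ) ≠ ⊤ := by
    have h := sz_smul_le ψ ν (Iw I u ^ q) (Iw I u' ^ q) ⟨N * q, GGrow_pow_le h₁ q⟩
      (⊤ : Submodule B B)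
    rw [smul_eq_mul, smul_eq_mul, Ideal.mul_top, Ideal.mul_top] at h
    exact ne_top_of_le_ne_top
      (ENNReal.mul_ne_top (length_sz_ne_top ⟨N * q, GGrow_pow_le h₁ q⟩) hr') h
  have hK : ν.sz ((Iw I u ^ q).map ψ ⊓ Γ (q • u')) ((Iw I u' ^ q).map ψ) ≤
      (C₁ * (q + 1) ^ δ : ℕ) * r := by
    refine (sz_le_of_smul_mem ν hfin inf_le_left le_rfl (ψ g) fun x hx => ?_).trans ?_
    · have h1 : x ∈ (Iw I (q • u' - fun _ => n)).map ψ := by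
        have h2 := hgen (q • u' - fun _ => n)
        rw [BRvo_sub hq hu'] at h2
        exact Ideal.mul_le_left (h2 hx.2)
      refine Ideal.map_mono (hgJ q hq u' hu') ?_
      rw [Ideal.map_mul]
      exact Ideal.mul_mem_mul (Ideal.mem_map_of_mem ψ (Ideal.mem_span_singleton_self g)) h1
    · have h := sz_smul_le ψ ν (Iw I u ^ q) (Iw I u' ^ q ⊔ Ideal.span {g} * Iw I u ^ q)
        ⟨N * q, (GGrow_pow_le h₁ q).trans le_sup_left⟩ (⊤ : Submodule B B)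
      rw [smul_eq_mul, smul_eq_mul, Ideal.mul_top, Ideal.mul_top, Ideal.map_sup, Ideal.map_mul,
        Ideal.map_span, Set.image_singleton, ← hrr] at h
      rw [smul_eq_mul]
      exact h.trans (mul_le_mul_left (hC₁ q) r)
  have hL : ν.sz (Γ (q • u)) ((Iw I u ^ q).map ψ ⊔ Γ (q • u')) ≤
      (k * (C₂ * (N + 1) ^ δ) * (q + 1) ^ δ : ℕ) * m := by
    have h1 := hgen (q • u - fun _ => n)
    have h2 := hmul (q • u - fun _ => n)
    rw [BRvo_sub hq hu] at h1 h2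
    have h3 : ((Ideal.span {g} ⊔ maximalIdeal S ^ (N * q)) * Iw I (q • u - fun _ => n)).map ψ •
        (Γ fun _ => n) ≤ (Iw I u ^ q).map ψ ⊔ Γ (q • u') := by
      rw [smul_eq_mul, Ideal.sup_mul, Ideal.map_sup, Ideal.sup_mul]
      refine sup_le_sup (Ideal.mul_le_left.trans (Ideal.map_mono (hgJ q hq u hu))) ?_
      rw [Ideal.map_mul, mul_assoc]
      exact (Ideal.mul_mono_right h2).trans (h₃ q)
    have h4 := sz_smul_le ψ ν (Iw I (q • u - fun _ => n))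
      ((Ideal.span {g} ⊔ maximalIdeal S ^ (N * q)) * Iw I (q • u - fun _ => n))
      ⟨N * q, Ideal.mul_mono_left le_sup_right⟩ (Γ fun _ => n)
    refine (ν.sz_mono h1 h3).trans (h4.trans ?_)
    rw [smul_eq_mul, ← hmm]
    refine mul_le_mul_left ?_ m
    rw [BRvo_sub' hq hu, Iw_add, Iw_smul, ← mul_assoc]
    refine (length_sz_mul_le _ _ _ v hv).trans ?_
    refine (mul_le_mul_right (hC₂ (q - n) (N * q)) _).trans ?_
    rw [← Nat.cast_mul, Nat.cast_le, mul_assoc]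
    refine Nat.mul_le_mul_left _ (le_trans ?_ (GGrow_arith C₂ N q δ))
    exact Nat.mul_le_mul_left _ (Nat.pow_le_pow_left (by omega) δ)
  have hI' : ν.sz ((Iw I u ^ q).map ψ) (Γ (q • u')) ≠ ⊤ :=
    ne_top_of_le_ne_top hfin (ν.sz_mono le_rfl hA')
  rw [ν.sz_tower_left hA (Γ (q • u')), ν.sz_tower_right ((Iw I u ^ q).map ψ) hA']
  rw [← hrr] at hr'
  rw [← hmm] at hm
  refine (BRvo_abs hI' (ENNReal.mul_ne_top (ENNReal.natCast_ne_top _) hr')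
    (ENNReal.mul_ne_top (ENNReal.natCast_ne_top _) hm) hK hL).trans (le_of_eq ?_)
  rw [ENNReal.toReal_mul, ENNReal.toReal_mul, ENNReal.toReal_natCast, ENNReal.toReal_natCast]
  push_cast
  ring

end Crest.Agent.R188
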