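import Crest.Agent.R188.BReg
import Crest.Agent.R188.BEqd
import Crest.Agent.R188.BRvo
import Crest.Agent.R188.BCov

/-!
# The comparison of the two Euler characteristics
-/

set_option autoImplicit false
set_option linter.unusedVariables false

open scoped ENNReal NNReal TensorProduct

namespace Crest.Agent.R188

open Crest.Agent.R183 Crest.Agent.R183.DG IsLocalRing WittVector

section fam

variable {B τ : Type} [CommRing B] [Fintype τ] [DecidableEq τ] {I : τ → Ideal B} {γ : B} {C : ℕ}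
  {Γ : (τ → ℕ) → Ideal B}

theorem BFin_Iw_mul_le (h : Fam I γ C Γ) (w w' : τ → ℕ) : Iw I w * Γ w' ≤ Γ (w + w') := by
  have h1 : ∀ (n : ℕ) (w : τ → ℕ), ∑ t, w t = n → Iw I w * Γ w' ≤ Γ (w + w') := by
    intro n
    induction n with
    | zero =>
      intro w hw
      obtain rfl : w = 0 := by
        funext t
        exact (Finset.sum_eq_zero_iff.1 hw) t (Finset.mem_univ t)
      rw [Iw_zero, zero_add, Ideal.top_mul]
    | succ n ih =>
      intro w hw0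
      obtain ⟨t, -, ht⟩ := Finset.exists_ne_zero_of_sum_ne_zero (s := Finset.univ) (f := w)
        (by omega)
      obtain ⟨w0, rfl⟩ := GMar_pred (Nat.pos_of_ne_zero ht)
      rw [add_right_comm, Iw_add, Iw_single, mul_comm (Iw _ w0), mul_assoc]
      refine (Ideal.mul_mono_right (ih w0 ?_)).trans (h.mul _ t)
      simpa [Finset.sum_add_distrib] using hw0
  exact h1 _ w rfl

theorem BFin_le_Iw_mul (h : Fam I γ C Γ) (w w' : τ → ℕ) (hw : ∀ t, C ≤ w' t) :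
    Γ (w + w') ≤ Iw I w * Γ w' := by
  have h1 : ∀ (n : ℕ) (w : τ → ℕ), ∑ t, w t = n → Γ (w + w') ≤ Iw I w * Γ w' := by
    intro n
    induction n with
    | zero =>
      intro w hw
      obtain rfl : w = 0 := by
        funext t
        exact (Finset.sum_eq_zero_iff.1 hw) t (Finset.mem_univ t)
      rw [Iw_zero, zero_add, Ideal.top_mul]
    | succ n ih =>
      intro w hw0
      obtain ⟨t, -, ht⟩ := Finset.exists_ne_zero_of_sum_ne_zero (s := Finset.univ) (f := w)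
        (by omega)
      obtain ⟨w0, rfl⟩ := GMar_pred (Nat.pos_of_ne_zero ht)
      rw [add_right_comm, Iw_add, Iw_single, mul_comm (Iw _ w0), mul_assoc]
      refine (h.gen _ t ((hw t).trans (Nat.le_add_left _ _))).trans
        (Ideal.mul_mono_right (ih w0 ?_))
      simpa [Finset.sum_add_distrib] using hw0
  exact h1 _ w rfl

end fam

theorem BFin_sp_cons {B : Type} [CommRing B] {n : ℕ} (a : B) (x : Fin n → B) :
    sp (Fin.cons a x : Fin (n + 1) → B) = Ideal.span {a} ⊔ sp x := by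
  rw [sp, Fin.range_cons, Ideal.span_insert]

theorem BFin_map_sp {B B' ι : Type} [CommRing B] [CommRing B'] (f : B →+* B') (x : ι → B) :
    (sp x).map f = sp fun i => f (x i) := by
  rw [sp, Ideal.map_span, ← Set.range_comp]
  rfl

theorem BFin_smul_uvec (n C t q : ℕ) :
    q • uvec n C t = (fun _ => q * C) + q • avec n t := by
  funext s
  simp [uvec, mul_add]

theorem BFin_uvec (n C t : ℕ) : uvec n C t = (fun _ => C) + 1 • avec n t := by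
  funext s
  simp [uvec]

theorem BFin_lim {p : ℕ} (hp : 1 < p) {a : ℕ} {c M : ℝ} (hc : 0 < c) (n : ℕ)
    (h : ∀ e, n ≤ p ^ e → 1 ≤ e → c * ((p : ℝ) ^ e) ^ (a + 1) ≤ M * ((p : ℝ) ^ e + 2) ^ a) :
    False := by
  obtain ⟨e₀, he₀⟩ := exists_nat_gt (|M| * 3 ^ a / c)
  have hlt : e₀ + n + 1 < p ^ (e₀ + n + 1) := Nat.lt_pow_self hp
  have h1 := h (e₀ + n + 1) (by omega) (by omega)
  have hq : ((e₀ + n + 1 : ℕ) : ℝ) < (p : ℝ) ^ (e₀ + n + 1) := by exact_mod_cast hlt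
  generalize (p : ℝ) ^ (e₀ + n + 1) = q at h1 hq
  have hn : (0 : ℝ) ≤ n := Nat.cast_nonneg n
  have he : (0 : ℝ) ≤ e₀ := Nat.cast_nonneg e₀
  push_cast at hq
  have hq1 : 1 ≤ q := by linarith
  have h2 : (q + 2) ^ a ≤ 3 ^ a * q ^ a := by
    rw [← mul_pow]
    exact pow_le_pow_left₀ (by linarith) (by linarith) a
  have h3 : M * (q + 2) ^ a ≤ |M| * (3 ^ a * q ^ a) :=
    (mul_le_mul_of_nonneg_right (le_abs_self M) (by positivity)).trans
      (mul_le_mul_of_nonneg_left h2 (abs_nonneg M))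
  have hqa : 0 < q ^ a := by positivity
  have h4 : c * q ≤ |M| * 3 ^ a := by
    refine le_of_mul_le_mul_right ?_ hqa
    calc c * q * q ^ a = c * q ^ (a + 1) := by ring
      _ ≤ |M| * (3 ^ a * q ^ a) := h1.trans h3
      _ = |M| * 3 ^ a * q ^ a := by ring
  rw [div_lt_iff₀ hc] at he₀
  nlinarith

theorem BFin_abs_sg (n : ℤ) : |((sg n : ℤ) : ℝ)| = 1 := by
  rcases Int.units_eq_one_or n.negOnePow with h | h <;> simp [sg, h]

theorem BFin_final {p : ℕ} (hp : p.Prime) {a m n : ℕ} {c r χ : ℝ} {δ : ℕ → ℤ} {s D G : ℕ → ℝ}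
    {l : ℕ → ℕ → ℝ} (hc : 0 < c) (hr : 0 ≤ r)
    (hpos : 0 < ∑ j ∈ Finset.range m, (sg (δ j) : ℝ) * s j) (hneg : χ ≤ 0)
    (hD : ∀ j ∈ Finset.range m, ∀ e : ℕ, n ≤ p ^ e →
      |c * ((p : ℝ) ^ e) ^ (a + 1) * s j - r * l j (p ^ e)| ≤ D j * ((p : ℝ) ^ e + 1) ^ a)
    (hG : ∀ j ∈ Finset.range m, ∀ q : ℕ, |l j (q + 1) - l j q| ≤ G j * ((q : ℝ) + 1) ^ a)
    (hsum : ∀ k : ℕ, Odd k → ¬ p ∣ k →
      (k : ℝ) ^ (a + 1) * χ = ∑ j ∈ Finset.range m, (sg (δ j) : ℝ) * l j k) : False := by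
  refine BFin_lim hp.one_lt (a := a) (M := ∑ j ∈ Finset.range m, (|D j| + r * (2 * |G j|)))
    (mul_pos hc hpos) n fun e he he1 => ?_
  have hpe : p ∣ p ^ e := dvd_pow_self p (by omega)
  have hq0 : (0 : ℝ) ≤ (p : ℝ) ^ e := by positivity
  have hb : ∀ (x y : ℝ), 0 ≤ y → y ≤ (p : ℝ) ^ e + 2 → x * y ^ a ≤ |x| * ((p : ℝ) ^ e + 2) ^ a :=
    fun x y h0 h1 => (mul_le_mul_of_nonneg_right (le_abs_self x) (by positivity)).trans
      (mul_le_mul_of_nonneg_left (pow_le_pow_left₀ h0 h1 a) (abs_nonneg x))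
  obtain ⟨k, hk, hk', hkl⟩ : ∃ k : ℕ, Odd k ∧ ¬ p ∣ k ∧ ∀ j ∈ Finset.range m,
      |l j k - l j (p ^ e)| ≤ 2 * |G j| * ((p : ℝ) ^ e + 2) ^ a := by
    have h1 : ∀ j ∈ Finset.range m,
        |l j (p ^ e + 1) - l j (p ^ e)| ≤ |G j| * ((p : ℝ) ^ e + 2) ^ a := fun j hj =>
      (hG j hj _).trans (hb _ _ (by positivity) (by push_cast; linarith))
    have h2 : ∀ j ∈ Finset.range m,
        |l j (p ^ e + 1 + 1) - l j (p ^ e + 1)| ≤ |G j| * ((p : ℝ) ^ e + 2) ^ a := fun j hj =>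
      (hG j hj _).trans (hb _ _ (by positivity) (by push_cast; linarith))
    rcases hp.eq_two_or_odd' with h | h
    · refine ⟨p ^ e + 1, ?_, ?_, fun j hj => (h1 j hj).trans ?_⟩
      · exact Even.add_one (even_iff_two_dvd.2 (h ▸ hpe))
      · intro hd
        exact hp.one_lt.ne' (Nat.dvd_one.1 ((Nat.dvd_add_right hpe).1 hd))
      · have : 0 ≤ |G j| * ((p : ℝ) ^ e + 2) ^ a := by positivity
        linarith
    · refine ⟨p ^ e + 1 + 1, ?_, ?_, fun j hj => ?_⟩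
      · exact (h.pow).add_one.add_one
      · intro hd
        have h3 : p ∣ 2 := (Nat.dvd_add_right hpe).1 hd
        have h4 := (Nat.prime_dvd_prime_iff_eq hp Nat.prime_two).1 h3
        rw [h4] at h
        exact absurd h (by decide)
      · have := abs_sub_le (l j (p ^ e + 1 + 1)) (l j (p ^ e + 1)) (l j (p ^ e))
        have := h1 j hj
        have := h2 j hj
        linarith
  have h5 : r * ∑ j ∈ Finset.range m, (sg (δ j) : ℝ) * l j k ≤ 0 := by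
    rw [← hsum k hk hk']
    exact mul_nonpos_of_nonneg_of_nonpos hr (mul_nonpos_of_nonneg_of_nonpos (by positivity) hneg)
  have h6 : ∑ j ∈ Finset.range m, (sg (δ j) : ℝ) *
      (c * ((p : ℝ) ^ e) ^ (a + 1) * s j - r * l j k) ≤
      ∑ j ∈ Finset.range m, (|D j| + r * (2 * |G j|)) * ((p : ℝ) ^ e + 2) ^ a := by
    refine Finset.sum_le_sum fun j hj => (le_abs_self _).trans ?_
    rw [abs_mul, BFin_abs_sg, one_mul]
    have h7 := (hD j hj e he).trans (hb _ _ (by positivity) (by linarith))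
    have h8 := mul_le_mul_of_nonneg_left (hkl j hj) hr
    rw [← abs_of_nonneg hr, ← abs_mul, abs_of_nonneg hr, mul_sub, abs_sub_comm] at h8
    refine (abs_sub_le _ _ _).trans ((add_le_add h7 h8).trans (le_of_eq ?_))
    ring
  have h9 : ∑ j ∈ Finset.range m, (sg (δ j) : ℝ) *
      (c * ((p : ℝ) ^ e) ^ (a + 1) * s j - r * l j k) =
      c * (∑ j ∈ Finset.range m, (sg (δ j) : ℝ) * s j) * ((p : ℝ) ^ e) ^ (a + 1) -
        r * ∑ j ∈ Finset.range m, (sg (δ j) : ℝ) * l j k := by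
    rw [Finset.mul_sum, Finset.mul_sum, Finset.sum_mul, ← Finset.sum_sub_distrib]
    exact Finset.sum_congr rfl fun j _ => by ring
  rw [h9, ← Finset.sum_mul] at h6
  linarith

variable {p : ℕ} [Fact p.Prime] {k : Type} [Field k] [CharP k p] [PerfectRing k p]

theorem BFin_max (a₀ : ℕ) (mix : Bool) :
    Ideal.span {xi0 p k a₀ mix} ⊔ sp MvPowerSeries.X = maximalIdeal (WS p k (a₀ + 1)) := by
  rw [← (regL_witt_series p k (a₀ + 1)).max, BFin_sp_cons]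
  have h0 : (if mix then MvPowerSeries.X 0 else 0 : WS p k (a₀ + 1)) ∈ sp MvPowerSeries.X := by
    split_ifs
    · exact Ideal.subset_span ⟨0, rfl⟩
    · exact zero_mem _
  refine le_antisymm (sup_le ?_ le_sup_right) (sup_le ?_ le_sup_right)
  · rw [Ideal.span_le, Set.singleton_subset_iff]
    exact sub_mem (Ideal.mem_sup_left (Ideal.subset_span rfl)) (Ideal.mem_sup_right h0)
  · rw [Ideal.span_le, Set.singleton_subset_iff]
    have : (p : WS p k (a₀ + 1)) = xi0 p k a₀ mix + if mix then MvPowerSeries.X 0 else 0 := by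
      rw [xi0, sub_add_cancel]
    rw [this]
    exact add_mem (Ideal.mem_sup_left (Ideal.subset_span rfl)) (Ideal.mem_sup_right h0)

theorem BFin_p_mem (a₀ : ℕ) : (p : WS p k (a₀ + 1)) ∈ maximalIdeal (WS p k (a₀ + 1)) :=
  (regL_witt_series p k (a₀ + 1)).mem_max 0

theorem BFin_X_mem (a₀ : ℕ) (i : Fin (a₀ + 1)) :
    (MvPowerSeries.X i : WS p k (a₀ + 1)) ∈ maximalIdeal (WS p k (a₀ + 1)) :=
  (regL_witt_series p k (a₀ + 1)).mem_max i.succ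

variable (p k) in
/-- the ideals `(ξ₀, X ^ N)` -/
noncomputable def BFin_J (a₀ : ℕ) (mix : Bool) (N : ℕ) : Ideal (WS p k (a₀ + 1)) :=
  Ideal.span {xi0 p k a₀ mix} ⊔ sp fun i => MvPowerSeries.X i ^ N

theorem BFin_J_one (a₀ : ℕ) (mix : Bool) : BFin_J p k a₀ mix 1 = maximalIdeal _ := by
  rw [← BFin_max a₀ mix, BFin_J]
  simp only [pow_one]

theorem BFin_pow_le_J (a₀ : ℕ) (mix : Bool) (N : ℕ) :
    ∃ c : ℕ, maximalIdeal _ ^ c ≤ BFin_J p k a₀ mix N := by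
  refine Ideal.exists_pow_le_of_le_radical_of_fg ?_ (IsNoetherian.noetherian _)
  rw [← BFin_max a₀ mix]
  refine sup_le (le_sup_left.trans Ideal.le_radical) (Ideal.span_le.2 ?_)
  rintro _ ⟨i, rfl⟩
  exact ⟨N, Ideal.mem_sup_right (Ideal.subset_span ⟨i, rfl⟩)⟩

theorem BFin_length_J (a₀ : ℕ) (mix : Bool) (N : ℕ) :
    (LF.length (WS p k (a₀ + 1))).val (WS p k (a₀ + 1) ⧸ BFin_J p k a₀ mix N) =
      (N : ℝ≥0∞) ^ (a₀ + 1) := by
  have hR : RegL (WS p k (a₀ + 1))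
      (Fin.cons (xi0 p k a₀ mix) MvPowerSeries.X : Fin (a₀ + 1 + 1) → _) :=
    (regL_witt_series p k (a₀ + 1)).of_span _ (by rw [BFin_sp_cons, BFin_max])
  have h := hR.length_quot_pow (Fin.cons 1 fun _ => N)
  have e : (sp fun i => (Fin.cons (xi0 p k a₀ mix) MvPowerSeries.X : Fin (a₀ + 1 + 1) → _) i ^
      (Fin.cons 1 fun _ => N : Fin (a₀ + 1 + 1) → ℕ) i) = BFin_J p k a₀ mix N := by
    rw [BFin_J, ← BFin_sp_cons]
    congr 1
    funext i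
    refine Fin.cases ?_ (fun i => ?_) i
    · simp
    · simp
  rw [e] at h
  rw [LF.length_val, h, Fin.prod_univ_succ]
  simp

namespace Base

variable (X : Base p k)

theorem BFin_map_le : (maximalIdeal X.Λ).map (algebraMap X.Λ X.S) ≤ maximalIdeal X.S := by
  rw [Ideal.map_le_iff_le_comap]
  have h : ((maximalIdeal X.S).comap (algebraMap X.Λ X.S)).IsMaximal :=
    Ideal.isMaximal_comap_of_isIntegral_of_isMaximal _
  exact (eq_maximalIdeal h).ge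

theorem BFin_hQ : ∃ c : ℕ, maximalIdeal X.R ^ c ≤ X.Q ⊔ RingHom.ker (algebraMap X.R X.S) := by
  obtain ⟨e, he⟩ := X.hHQ
  exact ⟨e, he.trans (sup_le (X.hHS.trans le_sup_right) le_sup_left)⟩

theorem BFin_card : 0 < Fintype.card X.σ := by
  by_contra h
  have h0 : Fintype.card X.σ = 0 := by omega
  have := Fintype.card_eq_zero_iff.1 h0
  have h1 := congrArg (Algebra.TensorProduct.productMap (AlgHom.id X.Λ X.S) (AlgHom.id X.Λ X.S))
    X.galD.sum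
  rw [Finset.univ_eq_empty, Finset.sum_empty, map_zero, AlgHom.commutes] at h1
  exact X.hw h1.symm

theorem BFin_Iw_ne_bot (w : Fin (2 * X.m + 1) → ℕ) : Iw X.IS w ≠ ⊥ := by
  intro h
  have h1 := pow_mem_Iw X.IS X.pow_mem_IS w
  rw [h, Ideal.mem_bot] at h1
  exact pow_ne_zero _ X.ϖ_ne_zero h1

theorem BFin_flag {C : ℕ}
    (hF : Fam X.IS (algebraMap X.R X.S (X.π (X.sT 0) ^ X.c)) C (Iw X.IS)) {j : ℕ} (hj : j < X.m) :
    X.Q.map (algebraMap X.R X.S) * Iw X.IS (uvec (2 * X.m) C (2 * j)) ≤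
        Iw X.IS (uvec (2 * X.m) C (2 * j + 1)) ∧
      Iw X.IS (uvec (2 * X.m) C (2 * j + 1)) ≤ Iw X.IS (uvec (2 * X.m) C (2 * j)) := by
  obtain ⟨U'', hU⟩ := X.exists_splS
  have h := flag_pow_le hU X.hδ hF (VSS_null_map (algebraMap X.R X.S) X.hE) hj
    (w := fun _ => C) (fun _ => le_rfl) 1
  rw [pow_one, ← BFin_uvec, ← BFin_uvec] at h
  exact h

end Base

namespace Cov

variable {X : Base p k} (Y : Cov X)

/-- the projection from the untilt -/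
noncomputable def BFin_f : Y.B →+* Y.A ⧸ Y.𝔍 :=
  Ideal.Quotient.factor (by
    rw [Ideal.span_le, Set.singleton_subset_iff]
    exact Y.ξ_mem)

theorem BFin_f_φ : Y.BFin_f.comp Y.φ = Y.ψ.comp (algebraMap X.R X.S) := by
  refine RingHom.ext fun r => ?_
  obtain ⟨t, rfl⟩ := X.hπ r
  rw [RingHom.comp_apply, RingHom.comp_apply, Y.φ_π, Y.hψ]
  rfl

theorem BFin_map_map (I : Ideal X.R) :
    (I.map (algebraMap X.R X.S)).map Y.ψ = (I.map Y.φ).map Y.BFin_f := by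
  rw [Ideal.map_map, Ideal.map_map, BFin_f_φ]

/-- the real powers in the quotient by `𝔍` -/
noncomputable def BFin_Γ (w : Fin (2 * X.m + 1) → ℕ) : Ideal (Y.A ⧸ Y.𝔍) :=
  (WI p (Y.Γ w 0)).map (Ideal.Quotient.mk _)

theorem BFin_Γ_eq (w : Fin (2 * X.m + 1) → ℕ) : Y.BFin_Γ w = (Y.ΓB w).map Y.BFin_f := by
  rw [ΓB, Ideal.map_map]
  rfl

theorem BFin_Iw (w : Fin (2 * X.m + 1) → ℕ) : (Iw X.IS w).map Y.ψ =
    (Iw (plI (X.U.map Y.φ) (Y.φ (X.π (X.sT 0)))) w).map Y.BFin_f := by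
  rw [Iw_map, Iw_map]
  congr 1
  funext t
  rw [Base.IS, plI_map, plI_map, BFin_map_map]

theorem BFin_map_sup (P : Ideal Y.A) :
    (P ⊔ Ideal.span {Y.θ X.ξ}).map (Ideal.Quotient.mk Y.𝔍) = P.map (Ideal.Quotient.mk Y.𝔍) := by
  rw [Ideal.map_sup, sup_eq_left, Ideal.map_span, Set.image_singleton,
    Ideal.Quotient.eq_zero_iff_mem.2 Y.ξ_mem, Ideal.span_singleton_zero]
  exact bot_le

theorem BFin_sz (w w' : Fin (2 * X.m + 1) → ℕ) :
    (Y.ν.comap (Ideal.Quotient.mk Y.𝔍)).sz (Y.BFin_Γ w) (Y.BFin_Γ w') =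
      Y.νO.sz (Y.Γ w 0) (Y.Γ w' 0) := by
  obtain ⟨N, hN⟩ := Y.pow_mem_Γ w' 0
  have h := Y.sz_bar (P := WI p (Y.Γ w 0) ⊔ Ideal.span {Y.θ X.ξ})
    (Q := WI p (Y.Γ w' 0) ⊔ Ideal.span {Y.θ X.ξ}) (N := N)
    (Ideal.mem_sup_right (Ideal.subset_span rfl))
    (Ideal.mem_sup_left (by rw [← map_pow]; exact teich_mem_WI hN))
  rw [Y.dist.sz_eq Y.reg (Y.pf.cvx _ _) (Y.pf.cvx _ _) (Y.pow_mem_Γ _ _) (Y.pow_mem_Γ _ _),
    BFin_map_sup, BFin_map_sup] at h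
  exact h

theorem BFin_sz_pow (e : ℕ) (w w' : Fin (2 * X.m + 1) → ℕ) :
    (Y.ν.comap (Ideal.Quotient.mk Y.𝔍)).sz (Y.BFin_Γ (p ^ e • w)) (Y.BFin_Γ (p ^ e • w')) =
      ((p : ℝ≥0∞) ^ e) ^ (X.a₀ + 1) * Y.νO.sz (Y.Γ w 0) (Y.Γ w' 0) := by
  rw [BFin_sz, ← Scal.sz_map Y.scal e, Y.pf.map_frob, Y.pf.map_frob, mul_zero]

theorem BFin_val_J (N : ℕ) : (Y.ν.comap (Ideal.Quotient.mk Y.𝔍)).val
    ((Y.A ⧸ Y.𝔍) ⧸ (BFin_J p k X.a₀ X.mix N).map (Y.ψ.comp (algebraMap X.Λ X.S))) =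
      (N : ℝ≥0∞) ^ (X.a₀ + 1) * Y.νO.val (Y.O ⧸ sp Y.s) := by
  have h0 : algebraMap X.Λ X.S (xi0 p k X.a₀ X.mix) = 0 := by
    rw [← RingHom.mem_ker, X.kerΛ]
    exact Ideal.subset_span rfl
  have e : (BFin_J p k X.a₀ X.mix N).map (Y.ψ.comp (algebraMap X.Λ X.S)) =
      (Ideal.span {Y.θ X.ξ} ⊔ sp fun i => teichmuller p (Y.s i) ^ N).map
        (Ideal.Quotient.mk Y.𝔍) := by
    rw [sup_comm, BFin_map_sup, BFin_J, Ideal.map_sup, Ideal.map_span, Set.image_singleton,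
      RingHom.comp_apply, h0, map_zero, Ideal.span_singleton_zero, bot_sup_eq, BFin_map_sp,
      BFin_map_sp]
    congr 1
    funext i
    rw [RingHom.comp_apply, Y.hψ₀, map_pow, Y.hθ₀]
  have ht : (⊤ : Ideal (Y.A ⧸ Y.𝔍)) = (⊤ : Ideal Y.A).map (Ideal.Quotient.mk Y.𝔍) :=
    (Ideal.map_top _).symm
  rw [e, ← LF.sz_top, ← Y.val_quot_pow, ← LF.sz_top]
  refine Eq.trans ?_ (Y.sz_bar (N := N) (Ideal.mem_sup_left (Ideal.subset_span rfl))
    (Ideal.mem_sup_right (Ideal.subset_span ⟨0, rfl⟩)))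
  rw [Ideal.map_top]

theorem BFin_val_max : (Y.ν.comap (Ideal.Quotient.mk Y.𝔍)).val
    ((Y.A ⧸ Y.𝔍) ⧸ (maximalIdeal X.Λ).map (Y.ψ.comp (algebraMap X.Λ X.S))) =
      Y.νO.val (Y.O ⧸ sp Y.s) := by
  have h := Y.BFin_val_J 1
  rw [BFin_J_one] at h
  simpa using h

theorem BFin_eqd : ∃ C : ℝ, ∀ 𝔞 𝔞' : Ideal X.S, 𝔞' ≤ 𝔞 →
    (∃ c : ℕ, maximalIdeal X.S ^ c * 𝔞 ≤ 𝔞') →
      |Fintype.card X.σ *
          ((Y.ν.comap (Ideal.Quotient.mk Y.𝔍)).sz (𝔞.map Y.ψ) (𝔞'.map Y.ψ)).toReal -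
        (Y.νO.val (Y.O ⧸ sp Y.s)).toReal * ((LF.length X.S).sz 𝔞 𝔞').toReal| ≤
      C * ((LF.length X.S).sz 𝔞 (𝔞' ⊔ Ideal.span {algebraMap X.Λ X.S X.w} * 𝔞)).toReal := by
  refine eqd (Λ := X.Λ) X.resΛ ?_ X.BFin_map_le Y.ψ _ (BFin_J p k X.a₀ X.mix)
    (BFin_pow_le_J X.a₀ X.mix) ?_ Y.r_ne_top Y.BFin_val_max ?_ X.galD Y.g Y.hg Y.inv
  · obtain ⟨e, he⟩ := X.hmΛ
    refine ⟨e, he.trans (Ideal.span_le.2 ?_)⟩
    rintro _ ⟨i, rfl⟩
    exact Ideal.mem_map_of_mem _ (BFin_X_mem X.a₀ i)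
  · intro c
    refine ⟨c, sup_le (X.kerΛ.ge.trans le_sup_left) (Ideal.span_le.2 ?_)⟩
    rintro _ ⟨i, rfl⟩
    exact Ideal.mem_sup_right (Ideal.pow_mem_pow (BFin_X_mem X.a₀ i) c)
  · intro N
    rw [BFin_val_J, BFin_length_J]

theorem BFin_hm (w : Fin (2 * X.m + 1) → ℕ) : (Y.ν.comap (Ideal.Quotient.mk Y.𝔍)).sz
    (Y.BFin_Γ w) ((maximalIdeal X.S).map Y.ψ * Y.BFin_Γ w) ≠ ⊤ := by
  have hm : ∀ a ∈ maximalIdeal X.Λ,
      Ideal.Quotient.mk Y.𝔍 (Y.θ₀ a) ∈ (maximalIdeal X.S).map Y.ψ := by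
    intro a ha
    rw [← Y.hψ₀]
    exact Ideal.mem_map_of_mem _ (X.BFin_map_le (Ideal.mem_map_of_mem _ ha))
  have h1 : (Ideal.span {(p : Y.A)} ⊔ sp fun i => teichmuller p (Y.s i)).map
      (Ideal.Quotient.mk Y.𝔍) ≤ (maximalIdeal X.S).map Y.ψ := by
    rw [Ideal.map_le_iff_le_comap]
    refine sup_le ?_ (Ideal.span_le.2 ?_)
    · rw [Ideal.span_le, Set.singleton_subset_iff]
      have := hm _ (BFin_p_mem X.a₀)
      rw [map_natCast] at this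
      exact this
    · rintro _ ⟨i, rfl⟩
      have := hm _ (BFin_X_mem X.a₀ i)
      rw [Y.hθ₀] at this
      exact this
  refine ne_top_of_le_ne_top (Y.mbar_W w) ?_
  refine le_trans (LF.sz_mono _ le_rfl (Ideal.mul_mono_left h1)) ?_
  rw [BFin_Γ, ← Ideal.map_mul, sz_map_of_surjective _ _ Ideal.Quotient.mk_surjective]
  refine (LF.sz_sup_le _ _ _ _).trans ?_
  rw [LF.sz_eq_zero_of_le _ (P := RingHom.ker (Ideal.Quotient.mk Y.𝔍)) le_sup_right, add_zero]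
  exact LF.sz_mono _ le_rfl le_sup_left

theorem BFin_hr : (Y.ν.comap (Ideal.Quotient.mk Y.𝔍)).val
    ((Y.A ⧸ Y.𝔍) ⧸ (maximalIdeal X.S).map Y.ψ) ≠ ⊤ := by
  refine ne_top_of_le_ne_top Y.r_ne_top ?_
  refine le_trans (LF.quot_anti _ ?_) Y.BFin_val_max.le
  rw [← Ideal.map_map]
  exact Ideal.map_mono X.BFin_map_le

theorem BFin_flag {C : ℕ} (hC : X.nG ≤ C) {j : ℕ} (hj : j < X.m) (q : ℕ) :
    ((X.Q.map (algebraMap X.R X.S)) ^ q).map Y.ψ * Y.BFin_Γ (q • uvec (2 * X.m) C (2 * j)) ≤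
        Y.BFin_Γ (q • uvec (2 * X.m) C (2 * j + 1)) ∧
      Y.BFin_Γ (q • uvec (2 * X.m) C (2 * j + 1)) ≤ Y.BFin_Γ (q • uvec (2 * X.m) C (2 * j)) := by
  rcases Nat.eq_zero_or_pos q with rfl | hq
  · rw [zero_smul, zero_smul]
    exact ⟨Ideal.mul_le_right, le_rfl⟩
  obtain ⟨U'', hU⟩ := Y.exists_spl
  have h := flag_pow_le hU X.hδ (Y.fam hC) (VSS_null_map Y.φ X.hE) hj
    (w := fun _ => q * C) (fun _ => Nat.le_mul_of_pos_left C hq) q
  rw [← BFin_smul_uvec, ← BFin_smul_uvec] at h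
  rw [BFin_Γ_eq, BFin_Γ_eq, Ideal.map_pow, BFin_map_map, ← Ideal.map_pow, ← Ideal.map_mul]
  exact ⟨Ideal.map_mono h.1, Ideal.map_mono h.2⟩

/-- one pair of the flag -/
theorem pair_est {C : ℕ} (hC : X.nG ≤ C)
    (hF : Fam X.IS (algebraMap X.R X.S (X.π (X.sT 0) ^ X.c)) C (Iw X.IS)) {j : ℕ} (hj : j < X.m) :
    ∃ D : ℝ, ∀ e : ℕ, X.nG ≤ p ^ e →
      |Fintype.card X.σ * ((p : ℝ) ^ e) ^ (X.a₀ + 1) *
        (Y.νO.sz (Y.Γ (uvec (2 * X.m) C (2 * j)) 0)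
          (Y.Γ (uvec (2 * X.m) C (2 * j + 1)) 0)).toReal -
        (Y.νO.val (Y.O ⧸ sp Y.s)).toReal *
          ((LF.length X.S).sz (Iw X.IS (uvec (2 * X.m) C (2 * j)) ^ p ^ e)
            (Iw X.IS (uvec (2 * X.m) C (2 * j + 1)) ^ p ^ e)).toReal| ≤
        D * ((p : ℝ) ^ e + 1) ^ X.a₀ := by
  obtain ⟨N, hN⟩ := VSS_pow_le_map (algebraMap X.R X.S) X.BFin_hQ X.hmR
  obtain ⟨h₁', h₂⟩ := X.BFin_flag hF hj
  have h₁ := (Ideal.mul_mono_left hN).trans h₁'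
  have hfam := Y.fam (le_refl X.nG)
  have hC1 : 1 ≤ C := le_trans Fintype.card_pos hC
  have hmul : ∀ w w', (Iw X.IS w).map Y.ψ * Y.BFin_Γ w' ≤ Y.BFin_Γ (w + w') := by
    intro w w'
    rw [BFin_Iw, BFin_Γ_eq, BFin_Γ_eq, ← Ideal.map_mul]
    exact Ideal.map_mono (BFin_Iw_mul_le hfam w w')
  obtain ⟨C₁, hC₁⟩ := rvo X.a₀ X.dim_S X.IS X.ϖ_ne_zero (fun t => ⟨_, X.pow_mem_IS t⟩) Y.ψ
    (Y.ν.comap (Ideal.Quotient.mk Y.𝔍)) Y.BFin_Γ X.nG
    (fun w => by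
      have h := hmul w 0
      rwa [add_zero, BFin_Γ, Y.pf.top, WI_top, Ideal.map_top, Ideal.mul_top] at h)
    (fun w => hmul w _)
    (fun w => by
      rw [BFin_Iw, BFin_Γ_eq, BFin_Γ_eq, ← Ideal.map_mul]
      exact Ideal.map_mono (BFin_le_Iw_mul hfam w _ fun _ => le_rfl))
    (Y.BFin_hm _) Y.BFin_hr (uvec (2 * X.m) C (2 * j)) (uvec (2 * X.m) C (2 * j + 1))
    (fun t => hC1.trans (Nat.le_add_right _ _)) (fun t => hC1.trans (Nat.le_add_right _ _)) h₁ h₂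
    (fun q => le_trans (Ideal.mul_mono_left (Ideal.map_mono (by
      rw [pow_mul]
      exact Ideal.pow_right_mono hN q))) (Y.BFin_flag hC hj q).1)
    (fun q => (Y.BFin_flag hC hj q).2)
  obtain ⟨C₂, hC₂⟩ := Y.BFin_eqd
  obtain ⟨C₃, hC₃⟩ := growth_pair_quot X.a₀ X.dim_S h₁ X.hw
  refine ⟨Fintype.card X.σ * C₁ + |C₂| * C₃, fun e he => ?_⟩
  have e₁ := hC₁ (p ^ e) he
  have e₂ := hC₂ _ _ (Ideal.pow_right_mono h₂ (p ^ e)) ⟨_, GGrow_pow_le h₁ (p ^ e)⟩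
  have e₃ := ENNReal.toReal_mono (ENNReal.natCast_ne_top _) (hC₃ (p ^ e))
  rw [BFin_sz_pow, ENNReal.toReal_mul, ENNReal.toReal_pow, ENNReal.toReal_pow,
    ENNReal.toReal_natCast] at e₁
  rw [ENNReal.toReal_natCast] at e₃
  push_cast at e₁ e₃
  have e₄ := e₂.trans ((mul_le_mul_of_nonneg_right (le_abs_self C₂) ENNReal.toReal_nonneg).trans
    (mul_le_mul_of_nonneg_left e₃ (abs_nonneg C₂)))
  have hσ : (0 : ℝ) ≤ Fintype.card X.σ := Nat.cast_nonneg _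
  have e₅ := mul_le_mul_of_nonneg_left e₁ hσ
  rw [← abs_of_nonneg hσ, ← abs_mul, abs_of_nonneg hσ, mul_sub, ← mul_assoc] at e₅
  refine (abs_sub_le _ _ _).trans ((add_le_add e₅ e₄).trans (le_of_eq ?_))
  ring

include Y in
theorem chi_pos : 0 < X.E.chi (LF.length X.R) X.S := by
  by_contra hneg
  rw [not_lt] at hneg
  have hp : p.Prime := Fact.out
  obtain ⟨C₀, hC₀⟩ := X.exists_famS
  have hC : X.nG ≤ max X.nG C₀ := le_max_left _ _
  have hF := hC₀ _ (le_max_right X.nG C₀)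
  generalize max X.nG C₀ = C at hC hF
  have hpos := Y.chi_ΓB_pos ((fun _ => C) + 1)
  rw [Y.chi_ΓB hC] at hpos
  obtain ⟨N, hN⟩ := VSS_pow_le_map (algebraMap X.R X.S) X.BFin_hQ X.hmR
  obtain ⟨U'', hU⟩ := X.exists_splS
  have hD := fun j (hj : j ∈ Finset.range X.m) => Y.pair_est hC hF (Finset.mem_range.1 hj)
  have hG := fun j (hj : j ∈ Finset.range X.m) => growth_step X.a₀ X.dim_S
    (X.BFin_flag hF (Finset.mem_range.1 hj)).2 (X.BFin_Iw_ne_bot _)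
    ((Ideal.mul_mono_left hN).trans (X.BFin_flag hF (Finset.mem_range.1 hj)).1)
  choose! D hD using hD
  choose! G hG using hG
  have hsum := fun (n : ℕ) (hn : Odd n) (hn' : ¬ p ∣ n) =>
    chi_eq_sum X.hx X.Q X.hab X.hb (X.hab ▸ X.van) X.S X.resR X.dimS X.BFin_hQ X.hmR X.hE X.hδ hU
      X.ϖ_ne_zero hF hn (X.roots n hn hn').choose_spec
  exact BFin_final hp (Nat.cast_pos.2 X.BFin_card) ENNReal.toReal_nonneg hpos hneg hD hG hsum

end Cov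

theorem Base.chi_pos (X : Base p k) (h : ∀ K, Nonempty (Pre X K)) :
    0 < X.E.chi (LF.length X.R) X.S := by
  obtain ⟨Y⟩ := X.cov_of_pre h
  exact Y.chi_pos

end Crest.Agent.R188
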