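import Crest.Agent.R188.PDefs
import Crest.Agent.R183.PM

/-!
# Witt ideals of convex ideals
-/

set_option autoImplicit false
set_option linter.unusedVariables false
set_option linter.unusedSectionVars false

open scoped ENNReal NNReal TensorProduct

namespace Crest.Agent.R188

open Crest.Agent.R183 WittVector

variable {p : ℕ} [Fact p.Prime] {O : Type} [CommRing O] [CharP O p] [PerfectRing O p]
  {𝔞 𝔞' 𝔟 : Ideal O}

theorem Cvx.top : Cvx p (⊤ : Ideal O) := by
  exact fun _ _ _ => trivial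

theorem Cvx.inf (h : Cvx p 𝔞) (h' : Cvx p 𝔟) : Cvx p (𝔞 ⊓ 𝔟) := by
  exact fun n z hz => ⟨h n z (Ideal.pow_right_mono inf_le_left _ hz),
    h' n z (Ideal.pow_right_mono inf_le_right _ hz)⟩

theorem Cvx.span_mul (h : Cvx p 𝔞) (t : O) : Cvx p (Ideal.span {t} * 𝔞) := by
  intro n z hz
  rw [mul_pow, Ideal.span_singleton_pow, Ideal.mem_span_singleton_mul] at hz
  obtain ⟨w, hw, e⟩ := hz
  obtain ⟨w', rfl⟩ := PM_exists_root (p := p) n w
  refine Ideal.mem_span_singleton_mul.2 ⟨w', h n w' hw, ?_⟩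
  apply (iterateFrobeniusEquiv O p n).injective
  rw [iterateFrobeniusEquiv_def, iterateFrobeniusEquiv_def, mul_pow, e]

/-- the approximations of `WI` -/
noncomputable abbrev PW_T (p : ℕ) [Fact p.Prime] {O : Type} [CommRing O] (𝔞 : Ideal O) (n : ℕ) :
    Ideal (WittVector p O) :=
  Ideal.span (teichmuller p '' (𝔞 : Set O)) ⊔ Ideal.span {(p : WittVector p O) ^ n}

omit [CharP O p] [PerfectRing O p] in
theorem PW_mem {x : WittVector p O} : x ∈ WI p 𝔞 ↔ ∀ n, x ∈ PW_T p 𝔞 n := Ideal.mem_iInf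

omit [CharP O p] [PerfectRing O p] in
theorem PW_teich {u : O} (h : u ∈ 𝔞) (n : ℕ) : teichmuller p u ∈ PW_T p 𝔞 n :=
  Ideal.mem_sup_left (Ideal.subset_span ⟨u, h, rfl⟩)

omit [CharP O p] [PerfectRing O p] in
theorem PW_dvd {x : WittVector p O} {n : ℕ} (h : (p : WittVector p O) ^ n ∣ x) : x ∈ PW_T p 𝔞 n :=
  Ideal.mem_sup_right (Ideal.mem_span_singleton.2 h)

theorem PW_add (h : Cvx p 𝔞) (n : ℕ) {u v : O} (hu : u ∈ 𝔞) (hv : v ∈ 𝔞) :
    ∃ w ∈ PW_T p 𝔞 n, teichmuller p u + teichmuller p v = teichmuller p (u + v) + p * w := by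
  obtain ⟨u', rfl⟩ := PM_exists_root (p := p) n u
  obtain ⟨v', rfl⟩ := PM_exists_root (p := p) n v
  obtain ⟨c, hc⟩ := dvd_sub_pow_of_dvd_sub
    (PM_dvd (p := p) (x := teichmuller p (u' + v')) (y := teichmuller p u' + teichmuller p v')
      (by simp only [map_add, PM_cc_teich])) n
  rw [add_pow_prime_pow_eq' (Fact.out : p.Prime)] at hc
  set S := ∑ k ∈ Finset.Ioo 0 (p ^ n), teichmuller p u' ^ k * teichmuller p v' ^ (p ^ n - k) *
    (((p ^ n).choose k / p : ℕ) : WittVector p O) with hS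
  have hSm : S ∈ PW_T p 𝔞 n := by
    refine Ideal.sum_mem _ fun k hk => Ideal.mul_mem_right _ _ ?_
    have hk' : k ≤ p ^ n := (Finset.mem_Ioo.1 hk).2.le
    rw [← map_pow, ← map_pow, ← map_mul]
    refine PW_teich (h n _ ?_) n
    have := Ideal.mul_mem_mul (Ideal.pow_mem_pow hu k) (Ideal.pow_mem_pow hv (p ^ n - k))
    rw [← pow_add, Nat.add_sub_cancel' hk'] at this
    rwa [mul_pow, pow_right_comm u', pow_right_comm v']
  refine ⟨-S - p ^ n * c, Ideal.sub_mem _ (neg_mem hSm) (PW_dvd (dvd_mul_right _ _)), ?_⟩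
  rw [← add_pow_char_pow, map_pow, map_pow, map_pow]
  linear_combination -hc

theorem PW_decomp (h : Cvx p 𝔞) (n : ℕ) {x : WittVector p O} (hx : x ∈ PW_T p 𝔞 (n + 1)) :
    ∃ u ∈ 𝔞, ∃ x' ∈ PW_T p 𝔞 n, x = teichmuller p u + p * x' := by
  rw [PW_T, ← Ideal.span_union] at hx
  induction hx using Submodule.span_induction with
  | mem x hx =>
    rcases hx with ⟨u, hu, rfl⟩ | rfl
    · exact ⟨u, hu, 0, zero_mem _, by simp⟩
    · exact ⟨0, zero_mem _, p ^ n, PW_dvd dvd_rfl, by rw [teichmuller_zero]; ring⟩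
  | zero => exact ⟨0, zero_mem _, 0, zero_mem _, by simp⟩
  | add x y _ _ ihx ihy =>
    obtain ⟨u, hu, x', hx', rfl⟩ := ihx
    obtain ⟨v, hv, y', hy', rfl⟩ := ihy
    obtain ⟨w, hw, e⟩ := PW_add h n hu hv
    refine ⟨u + v, add_mem hu hv, w + x' + y', add_mem (add_mem hw hx') hy', ?_⟩
    linear_combination e
  | smul a x _ ihx =>
    obtain ⟨u, hu, x', hx', rfl⟩ := ihx
    obtain ⟨a', ha⟩ := exists_teich_add a
    refine ⟨a.coeff 0 * u, Ideal.mul_mem_left _ _ hu, a' * teichmuller p u + a * x',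
      add_mem (Ideal.mul_mem_left _ _ (PW_teich hu n)) (Ideal.mul_mem_left _ _ hx'), ?_⟩
    rw [map_mul, smul_eq_mul]
    linear_combination (teichmuller p u) * ha

theorem PW_haus {x : WittVector p O} (h : ∀ n, (p : WittVector p O) ^ n ∣ x) : x = 0 := by
  ext n
  rw [zero_coeff]
  exact (mem_span_p_pow_iff_le_coeff_eq_zero x (n + 1)).1 (Ideal.mem_span_singleton.2 (h _)) n
    n.lt_succ_self

theorem PW_lim (y : ℕ → WittVector p O) : ∃ L : WittVector p O, ∀ n,
    (p : WittVector p O) ^ n ∣ ∑ i ∈ Finset.range n, (p : WittVector p O) ^ i * y i - L := by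
  have := IsPrecomplete.prec (I := Ideal.span {(p : WittVector p O)}) (M := WittVector p O)
    inferInstance (f := fun n => ∑ i ∈ Finset.range n, (p : WittVector p O) ^ i * y i)
  simp only [Ideal.span_singleton_pow, smul_eq_mul, Ideal.mul_top, SModEq.sub_mem,
    Ideal.mem_span_singleton] at this
  refine this fun {m n} hmn => ?_
  rw [← dvd_neg, neg_sub, ← Finset.sum_Ico_eq_sub _ hmn]
  exact Finset.dvd_sum fun i hi => (pow_dvd_pow _ (Finset.mem_Ico.1 hi).1).mul_right _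

theorem teich_mem_WI {u : O} (h : u ∈ 𝔞) : teichmuller p u ∈ WI p 𝔞 := by
  exact PW_mem.2 (PW_teich h)

theorem cc_mem_of_mem_WI {x : WittVector p O} (h : x ∈ WI p 𝔞) : constantCoeff x ∈ 𝔞 := by
  have : PW_T p 𝔞 1 ≤ 𝔞.comap constantCoeff := by
    refine sup_le (Ideal.span_le.2 ?_) ((Ideal.span_singleton_le_iff_mem _).2 ?_)
    · rintro _ ⟨u, hu, rfl⟩
      exact Ideal.mem_comap.2 (by rwa [PM_cc_teich])
    · rw [Ideal.mem_comap, pow_one, PM_cc_p]
      exact zero_mem _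
  exact this (PW_mem.1 h 1)

theorem WI_mono (h : 𝔞 ≤ 𝔟) : WI p 𝔞 ≤ WI p 𝔟 := by
  exact iInf_mono fun n => sup_le_sup_right (Ideal.span_mono (Set.image_mono h)) _

theorem WI_top : WI p (⊤ : Ideal O) = ⊤ := by
  rw [Ideal.eq_top_iff_one, ← map_one (teichmuller p)]
  exact teich_mem_WI trivial

theorem WI_mul_le (𝔞 𝔟 : Ideal O) : WI p 𝔞 * WI p 𝔟 ≤ WI p (𝔞 * 𝔟) := by
  refine le_iInf fun n => (Ideal.mul_mono (iInf_le _ n) (iInf_le _ n)).trans ?_
  rw [Ideal.sup_mul, Ideal.mul_sup]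
  refine sup_le (sup_le (le_sup_of_le_left ?_) (le_sup_of_le_right Ideal.mul_le_right))
    (le_sup_of_le_right Ideal.mul_le_left)
  rw [Ideal.span_mul_span']
  refine Ideal.span_mono ?_
  rintro _ ⟨_, ⟨u, hu, rfl⟩, _, ⟨v, hv, rfl⟩, rfl⟩
  exact ⟨u * v, Ideal.mul_mem_mul hu hv, map_mul _ _ _⟩

theorem mem_WI_of_forall {x : WittVector p O}
    (h : ∀ n : ℕ, x ∈ WI p 𝔞 ⊔ Ideal.span {(p : WittVector p O) ^ n}) : x ∈ WI p 𝔞 := by
  exact PW_mem.2 fun n => (sup_le (iInf_le _ n) le_sup_right : _ ≤ PW_T p 𝔞 n) (h n)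

theorem PW_of_mem (h : Cvx p 𝔞) {u : O} {x : WittVector p O}
    (hx : teichmuller p u + p * x ∈ WI p 𝔞) : x ∈ WI p 𝔞 := by
  refine PW_mem.2 fun n => ?_
  obtain ⟨u', -, x', hx', e⟩ := PW_decomp h n (PW_mem.1 hx (n + 1))
  rwa [(teich_add_unique e).2]

theorem Cvx.mem_WI_of_p_mul (h : Cvx p 𝔞) {x : WittVector p O} (hx : p * x ∈ WI p 𝔞) :
    x ∈ WI p 𝔞 := by
  exact PW_of_mem h (u := 0) (by rwa [teichmuller_zero, zero_add])

theorem Cvx.exists_decomp (h : Cvx p 𝔞) {x : WittVector p O} (hx : x ∈ WI p 𝔞) :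
    ∃ x' ∈ WI p 𝔞, x = teichmuller p (constantCoeff x) + p * x' := by
  obtain ⟨x', e⟩ := exists_teich_add x
  exact ⟨x', PW_of_mem h (e ▸ hx), e⟩

theorem Cvx.WI_inf (h : Cvx p 𝔞) (h' : Cvx p 𝔟) : WI p (𝔞 ⊓ 𝔟) = WI p 𝔞 ⊓ WI p 𝔟 := by
  refine le_antisymm (le_inf (WI_mono inf_le_left) (WI_mono inf_le_right)) (le_iInf fun n => ?_)
  induction n with
  | zero => exact fun x _ => PW_dvd (by simp)
  | succ n ih =>
    intro x hx
    obtain ⟨x', e⟩ := exists_teich_add x
    have h1 := ih (Ideal.mem_inf.2 ⟨PW_of_mem h (e ▸ hx.1), PW_of_mem h' (e ▸ hx.2)⟩)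
    rw [e]
    refine add_mem (PW_teich
      (Ideal.mem_inf.2 ⟨cc_mem_of_mem_WI hx.1, cc_mem_of_mem_WI hx.2⟩) _) ?_
    obtain ⟨a, ha, b, hb, rfl⟩ := Submodule.mem_sup.1 h1
    rw [mul_add]
    refine add_mem (Ideal.mem_sup_left (Ideal.mul_mem_left _ _ ha)) (PW_dvd ?_)
    rw [pow_succ']
    exact mul_dvd_mul_left _ (Ideal.mem_span_singleton.1 hb)

theorem PW_approx {κ : Type} [Fintype κ] (β : κ → WittVector p O) (B : Ideal (WittVector p O))
    (h : ∀ x ∈ B, ∃ y : κ → WittVector p O, (∀ j, y j ∈ WI p 𝔞) ∧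
      ∃ x' ∈ B, x = ∑ j, β j * y j + p * x') : B ≤ sp β * WI p 𝔞 := by
  choose! Y hY N hN e using h
  intro x hx
  have h1 : ∀ n, N^[n] x ∈ B := fun n => by
    induction n with
    | zero => exact hx
    | succ n ih =>
      rw [Function.iterate_succ_apply']
      exact hN _ ih
  have h2 : ∀ n, x = ∑ j, β j * ∑ i ∈ Finset.range n, (p : WittVector p O) ^ i * Y (N^[i] x) j +
      p ^ n * N^[n] x := fun n => by
    induction n with
    | zero => simp
    | succ n ih =>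
      have h3 : ∑ j, β j * ((p : WittVector p O) ^ n * Y (N^[n] x) j) =
          p ^ n * ∑ j, β j * Y (N^[n] x) j := by
        rw [Finset.mul_sum]
        exact Finset.sum_congr rfl fun j _ => mul_left_comm _ _ _
      simp only [Finset.sum_range_succ, mul_add, Finset.sum_add_distrib, h3,
        Function.iterate_succ_apply']
      linear_combination ih + p ^ n * e _ (h1 n)
  choose L hL using fun j => PW_lim fun i => Y (N^[i] x) j
  have h3 : x - ∑ j, β j * L j = 0 := PW_haus fun n => by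
    have h4 : x - ∑ j, β j * L j = ∑ j, β j *
        (∑ i ∈ Finset.range n, (p : WittVector p O) ^ i * Y (N^[i] x) j - L j) +
          p ^ n * N^[n] x := by
      simp only [mul_sub, Finset.sum_sub_distrib]
      linear_combination h2 n
    rw [h4]
    exact dvd_add (Finset.dvd_sum fun j _ => (hL j n).mul_left _) (dvd_mul_right _ _)
  rw [sub_eq_zero.1 h3]
  refine Ideal.sum_mem _ fun j _ => Ideal.mul_mem_mul (Ideal.subset_span ⟨j, rfl⟩)
    (mem_WI_of_forall fun n => ?_)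
  rw [← sub_sub_cancel (∑ i ∈ Finset.range n, (p : WittVector p O) ^ i * Y (N^[i] x) j) (L j)]
  exact Ideal.sub_mem _ (Ideal.mem_sup_left (Ideal.sum_mem _ fun i _ =>
    Ideal.mul_mem_left _ _ (hY _ (h1 i) j)))
    (Ideal.mem_sup_right (Ideal.mem_span_singleton.2 (hL j n)))

theorem PW_gen {κ : Type} [Fintype κ] (β : κ → O) (h𝔟 : Cvx p 𝔟)
    (h₁ : sp β * 𝔞 ≤ 𝔟) (h₂ : 𝔟 ≤ sp β * 𝔞) :
    WI p 𝔟 ≤ sp (fun j => teichmuller p (β j)) * WI p 𝔞 := by
  refine PW_approx _ _ fun x hx => ?_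
  have h3 := h₂ (cc_mem_of_mem_WI hx)
  rw [mul_comm, ← smul_eq_mul] at h3
  obtain ⟨a, ha, e⟩ := (Submodule.mem_ideal_smul_span_iff_exists_sum 𝔞 β _).1 h3
  rw [Finsupp.sum_fintype _ _ (by simp)] at e
  obtain ⟨c, hc⟩ := PM_dvd (x := x) (y := ∑ j, teichmuller p (β j) * teichmuller p (a j)) (by
    simp only [map_sum, map_mul, PM_cc_teich, ← e, smul_eq_mul, mul_comm])
  refine ⟨fun j => teichmuller p (a j), fun j => teich_mem_WI (ha j), c, h𝔟.mem_WI_of_p_mul ?_,
    by linear_combination hc⟩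
  rw [← hc]
  refine Ideal.sub_mem _ hx (Ideal.sum_mem _ fun j _ => ?_)
  rw [← map_mul]
  exact teich_mem_WI (h₁ (Ideal.mul_mem_mul (Ideal.subset_span ⟨j, rfl⟩) (ha j)))

theorem Cvx.WI_span_mul (h : Cvx p 𝔞) (t : O) :
    WI p (Ideal.span {t} * 𝔞) = Ideal.span {teichmuller p t} * WI p 𝔞 := by
  refine le_antisymm ?_ (le_trans (Ideal.mul_mono_left ?_) (WI_mul_le _ _))
  · simpa only [sp, Set.range_const] using PW_gen (𝔞 := 𝔞) (fun _ : Unit => t) (h.span_mul t)
      (by simp only [sp, Set.range_const, le_refl]) (by simp only [sp, Set.range_const, le_refl])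
  · exact (Ideal.span_singleton_le_iff_mem _).2 (teich_mem_WI (Ideal.mem_span_singleton_self t))

/-- generation tilts -/
theorem WI_le_sp_mul {κ : Type} [Fintype κ] (β : κ → O) (h𝔞 : Cvx p 𝔞) (h𝔟 : Cvx p 𝔟)
    (h₁ : sp β * 𝔞 ≤ 𝔟) (h₂ : 𝔟 ≤ sp β * 𝔞) :
    WI p 𝔟 ≤ sp (fun j => teichmuller p (β j)) * WI p 𝔞 := by
  exact PW_gen β h𝔟 h₁ h₂

/-- `WI 𝔞 / p WI 𝔞 = 𝔞` -/
theorem Cvx.exists_cc (h : Cvx p 𝔞) [Algebra (WittVector p O) O]
    (hA : algebraMap (WittVector p O) O = constantCoeff) :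
    ∃ g : WI p 𝔞 →ₗ[WittVector p O] 𝔞, Function.Surjective g ∧
      LinearMap.ker g = Ideal.span {(p : WittVector p O)} • ⊤ ∧
      ∀ x, (g x : O) = constantCoeff (x : WittVector p O) := by
  refine ⟨⟨⟨fun x => ⟨constantCoeff (x : WittVector p O), cc_mem_of_mem_WI x.2⟩, fun x y =>
    Subtype.ext (map_add _ _ _)⟩, fun r x => Subtype.ext ?_⟩, fun u => ?_, ?_, fun _ => rfl⟩
  · change constantCoeff (r * (x : WittVector p O)) = r • constantCoeff (x : WittVector p O)
    rw [Algebra.smul_def, hA, map_mul]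
  · exact ⟨⟨teichmuller p u, teich_mem_WI u.2⟩, Subtype.ext (PM_cc_teich _)⟩
  · ext x
    rw [Submodule.ideal_span_singleton_smul, Submodule.mem_smul_pointwise_iff_exists,
      LinearMap.mem_ker, Subtype.ext_iff]
    change constantCoeff (x : WittVector p O) = 0 ↔ _
    constructor
    · intro h0
      obtain ⟨x', hx', e⟩ := h.exists_decomp x.2
      rw [h0, teichmuller_zero, zero_add] at e
      exact ⟨⟨x', hx'⟩, trivial, Subtype.ext e.symm⟩
    · rintro ⟨y, -, rfl⟩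
      change constantCoeff ((p : WittVector p O) * (y : WittVector p O)) = 0
      rw [map_mul, PM_cc_p, zero_mul]

theorem isUnit_of_cc {x : WittVector p O} (h : IsUnit (constantCoeff x)) : IsUnit x := by
  obtain ⟨u, hu⟩ := h.exists_right_inv
  refine isUnit_of_mul_isUnit_left (y := teichmuller p u)
    (Ideal.isUnit_of_sub_one_mem_jacobson_bot _
      (IsAdicComplete.le_jacobson_bot (Ideal.span {(p : WittVector p O)}) ?_))
  exact Ideal.mem_span_singleton.2 (PM_dvd (by rw [map_mul, PM_cc_teich, hu, map_one]))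

theorem reg_p : IsSMulRegular (WittVector p O) (p : WittVector p O) := by
  intro x y h
  exact (teich_add_unique (u := 0) (u' := 0) (congrArg (teichmuller p (0 : O) + ·) h)).2

theorem reg_teich {ϖ : O} (h : IsSMulRegular O ϖ) :
    IsSMulRegular (WittVector p O) (teichmuller p ϖ) := by
  have key : ∀ n, ∀ x : WittVector p O, teichmuller p ϖ * x = 0 → (p : WittVector p O) ^ n ∣ x := by
    intro n
    induction n with
    | zero => exact fun x _ => by simp
    | succ n ih =>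
      intro x hx
      have h1 := congrArg constantCoeff hx
      rw [map_mul, PM_cc_teich, map_zero] at h1
      obtain ⟨c, hc⟩ := PM_dvd (x := x) (y := 0)
        (by rw [map_zero]; exact h.right_eq_zero_of_smul h1)
      rw [sub_zero] at hc
      subst hc
      rw [pow_succ']
      refine mul_dvd_mul_left _ (ih c (eq_zero_of_p_mul_eq_zero _ ?_))
      linear_combination hx
  exact IsSMulRegular.of_right_eq_zero_of_smul fun x hx => PW_haus fun n => key n x hx

/-- Witt vectors of a product -/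
theorem exists_wittPi {ι : Type} (D : ι → Type) [∀ b, CommRing (D b)] :
    ∃ e : WittVector p (∀ b, D b) ≃+* ∀ b, WittVector p (D b),
      ∀ x b, e x b = WittVector.map (Pi.evalRingHom D b) x := by
  refine ⟨RingEquiv.ofBijective (RingHom.pi fun b => WittVector.map (Pi.evalRingHom D b))
    ⟨fun x y h => ?_, fun y => ⟨mk p fun n b => (y b).coeff n, ?_⟩⟩, fun _ _ => rfl⟩
  · ext n b
    exact congrArg (fun z => (z b).coeff n) h
  · funext b
    ext n
    rfl

end Crest.Agent.R188
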