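import Crest.Agent.R188.VSS
import Crest.Agent.R188.PRP
import Crest.Agent.R188.PW
import Crest.Agent.R188.QPow

/-!
# Auxiliary lemmas for the positivity on the untilt
-/

set_option autoImplicit false
set_option linter.unusedVariables false

open scoped ENNReal NNReal TensorProduct
open Filter

namespace Crest.Agent.R188

open Crest.Agent.R183 Crest.Agent.R183.DG IsLocalRing WittVector

theorem BReg_kmat_mem {B : Type} [CommRing B] :
    ∀ (n : ℕ) (y : Fin n → B) (i j : KI n), kmat n y i j ∈ sp y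
  | 0, _, _, _ => zero_mem _
  | n + 1, y, i, j => by
    have ih := BReg_kmat_mem n (Fin.tail y)
    have hle : sp (Fin.tail y) ≤ sp y := by
      rw [HKos_sp_succ y]
      exact le_sup_right
    rcases i with i | i <;> rcases j with j | j
    · exact hle (ih i j)
    · change Matrix.scalar (KI n) (y 0) i j ∈ sp y
      rw [Matrix.scalar_apply, Matrix.diagonal_apply]
      split_ifs
      · exact Ideal.subset_span ⟨0, rfl⟩
      · exact zero_mem _
    · exact zero_mem _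
    · exact neg_mem (hle (ih i j))

theorem BReg_strand_sub {B : Type} [CommRing B] {a κ : ℕ} (y : Fin a → B) (G : ℕ → Ideal B)
    (hG : ∀ ρ, sp y * G ρ ≤ G (κ + ρ)) : (K y (single B B)).Sub (strand a κ G) := by
  refine ⟨fun x hx => (PRP_mem_strand _ _ _).2 fun i => ?_,
    fun n x hx => (PRP_mem_strand _ _ _).2 fun i => ?_⟩
  · have hx' := (PRP_mem_strand _ _ _).1 hx
    have e : (K y (single B B)).D x i = ∑ j, kmat a y i j • x j :=
      congrFun ((kos y).ap_D x) i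
    rw [e]
    refine Submodule.sum_mem _ fun j _ => ?_
    by_cases h0 : kmat a y i j = 0
    · rw [h0, zero_smul]
      exact zero_mem _
    · have h1 := (kmat_spec a y).1 i j h0
      have h2 := KI_deg_nonneg a i
      have h3 := KI_deg_le a j
      have h4 : a + 1 - (KI.deg a i).toNat = 1 + (a + 1 - (KI.deg a j).toNat) := by omega
      rw [h4, mul_add, mul_one]
      exact hG _ (Ideal.mul_mem_mul (BReg_kmat_mem a y i j) (hx' j))
  · have e : (K y (single B B)).π n x i = if (kos y).deg i = n then x i else 0 :=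
      (kos y).ap_π n x i
    rw [e]
    split_ifs
    · exact (PRP_mem_strand _ _ _).1 hx i
    · exact zero_mem _

theorem BReg_pi_sup {B M ι : Type} [CommRing B] [AddCommGroup M] [Module B M]
    (P Q : ι → Submodule B M) : Submodule.pi Set.univ (fun i => P i ⊔ Q i) ≤
      Submodule.pi Set.univ P ⊔ Submodule.pi Set.univ Q := by
  intro x hx
  choose u hu v hv huv using fun i => Submodule.mem_sup.1 (hx i trivial)
  exact Submodule.mem_sup.2 ⟨u, fun i _ => hu i, v, fun i _ => hv i, funext huv⟩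

/-- the homology of the Koszul complex of `G 0` through two acyclic strands -/
theorem BReg_high {B : Type} [CommRing B] (μ : LF B) {a κ : ℕ} (y : Fin a → B)
    (G G₀ : ℕ → Ideal B) (hG : ∀ ρ, G ρ ≤ G 0) (hle : ∀ ρ, G ρ ≤ G₀ ρ)
    (hs : ∀ ρ, sp y * G ρ ≤ G (κ + ρ)) (hs₀ : ∀ ρ, sp y * G₀ ρ ≤ G₀ (κ + ρ))
    (kv : (K y (single B B)).AcycOn (strand a κ G))
    (kv₀ : (K y (single B B)).AcycOn (strand a κ G₀)) {j : ℤ}
    (h0 : (K y (single B B)).H μ j = 0) {c c' : ℝ≥0∞}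
    (h₁ : ∀ ρ ≤ κ * (a + 1), μ.sz (G 0 ⊓ G₀ ρ) (G ρ) ≤ c)
    (h₂ : ∀ ρ ≤ κ * (a + 1), μ.sz ⊤ (G 0 ⊔ G₀ ρ) ≤ c') :
    (K y (single B (G 0))).H μ j ≤ (2 ^ a : ℕ) * (c + c') := by
  have s₁ : (K y (single B B)).Sub (cst (KI a) (G 0)) := (kos y).sub_cst (G 0)
  have s₂ := BReg_strand_sub y G hs
  have s₀ := BReg_strand_sub y G₀ hs₀
  have l₂₁ : strand a κ G ≤ cst (KI a) (G 0) := Submodule.pi_mono fun i _ => hG _
  have l₂₀ : strand a κ G ≤ strand a κ G₀ := Submodule.pi_mono fun i _ => hle _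
  have hρ : ∀ i : KI a, κ * (a + 1 - (KI.deg a i).toNat) ≤ κ * (a + 1) := fun i =>
    Nat.mul_le_mul_left _ (Nat.sub_le _ _)
  have e₁ : (K y (single B (G 0))).H μ j = (K y (single B B)).h μ j (cst (KI a) (G 0)) ⊥ :=
    (kos y).ap_H_sub (G 0) μ j
  have e₂ := (K y (single B B)).h_le_add μ s₁ s₂ (sub_bot _) l₂₁ bot_le j
  have e₃ := (K y (single B B)).h_le_add μ s₁ (s₁.inf s₀) s₂ inf_le_left (le_inf l₂₁ l₂₀) j
  have e₄ := ((K y (single B B)).h_second_iso μ s₀ s₁ j).1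
  have e₅ := h_sub_le (μ := μ) (sub_top _) (s₁.sup s₀) s₀ le_top le_sup_right j
  have e₆ := h_quot_le (μ := μ) (sub_top _) s₀ (sub_bot _) le_top bot_le j
  rw [kv.h_eq_zero, zero_add] at e₂
  rw [kv₀.h_eq_zero, add_zero] at e₆
  have e₇ : (K y (single B B)).h μ j ⊤ (strand a κ G₀) = 0 := le_antisymm (e₆.trans h0.le) zero_le
  rw [e₇, add_zero] at e₅
  have b₁ : (K y (single B B)).h μ j (cst (KI a) (G 0) ⊓ strand a κ G₀) (strand a κ G) ≤
      (2 ^ a : ℕ) * c := by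
    have l : cst (KI a) (G 0) ⊓ strand a κ G₀ ≤ Submodule.pi Set.univ fun i : KI a =>
        G 0 ⊓ G₀ (κ * (a + 1 - (KI.deg a i).toNat)) := fun x hx i hi => ⟨hx.1 i hi, hx.2 i hi⟩
    refine (h_le_sz _ _ _).trans ?_
    refine (μ.sz_mono (inf_le_left.trans l) le_rfl).trans ?_
    refine (μ.sz_pi _ _).trans_le ?_
    refine (Finset.sum_le_card_nsmul _ _ c fun i _ => h₁ _ (hρ i)).trans ?_
    rw [Finset.card_univ, card_KI, nsmul_eq_mul]
  have b₂ : (K y (single B B)).h μ (j + 1) ⊤ (cst (KI a) (G 0) ⊔ strand a κ G₀) ≤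
      (2 ^ a : ℕ) * c' := by
    refine (h_le_sz _ _ _).trans ?_
    refine (μ.sz_mono (P' := Submodule.pi Set.univ fun i : KI a => (⊤ : Ideal B))
      (fun x hx i hi => trivial) (BReg_pi_sup (fun _ => G 0)
        fun i : KI a => G₀ (κ * (a + 1 - (KI.deg a i).toNat)))).trans ?_
    refine (μ.sz_pi _ _).trans_le ?_
    refine (Finset.sum_le_card_nsmul _ _ c' fun i _ => h₂ _ (hρ i)).trans ?_
    rw [Finset.card_univ, card_KI, nsmul_eq_mul]
  rw [e₁, mul_add]
  exact e₂.trans (e₃.trans (add_le_add b₁ (e₄.trans_le (e₅.trans b₂))))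

section count

variable {S B M : Type} [CommRing S] [IsNoetherianRing S] [IsLocalRing S] [CommRing B]
  [AddCommGroup M] [Module B M] (ψ : S →+* B) (μ : LF B) (Γ : Submodule B M)

theorem BReg_cnt (hΓ : μ.sz Γ ((maximalIdeal S).map ψ • Γ) ≠ ⊤) (J : Ideal S) (δ : ℕ)
    (hJ : ringKrullDim (S ⧸ J) ≤ δ) : ∃ C : ℕ, ∀ ρ : ℕ,
      μ.sz Γ ((J.map ψ ⊔ (maximalIdeal S).map ψ ^ ρ) • Γ) ≤ (C * (ρ + 1) ^ δ : ℕ) := by
  obtain ⟨C, hC⟩ := growth_le S J δ hJ S
  obtain ⟨n, hn⟩ := ENNReal.exists_nat_gt hΓ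
  refine ⟨C * n, fun ρ => ?_⟩
  have h1 := sz_smul_le ψ μ ⊤ (J ⊔ maximalIdeal S ^ ρ)
    ⟨ρ, by rw [Ideal.mul_top]; exact le_sup_right⟩ Γ
  rw [Ideal.map_top, Submodule.top_smul, Ideal.map_sup, Ideal.map_pow, LF.sz_top,
    LF.length_val] at h1
  have h2 := hC ρ
  rw [smul_eq_mul, Ideal.mul_top] at h2
  have h3 : (Module.length S (S ⧸ (J ⊔ maximalIdeal S ^ ρ)) : ℝ≥0∞) ≤ (C * (ρ + 1) ^ δ : ℕ) := by
    exact_mod_cast ENat.toENNReal_le.2 h2
  refine h1.trans ((mul_le_mul' h3 hn.le).trans_eq ?_)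
  push_cast
  ring

theorem BReg_fin (hΓ : μ.sz Γ ((maximalIdeal S).map ψ • Γ) ≠ ⊤) (ρ : ℕ) :
    μ.sz Γ (((maximalIdeal S).map ψ ^ ρ) • Γ) ≠ ⊤ := by
  have h0 : ∃ c : ℕ, maximalIdeal S ^ c * ⊤ ≤ maximalIdeal S ^ ρ := ⟨ρ, by rw [Ideal.mul_top]⟩
  have h1 := sz_smul_le ψ μ ⊤ (maximalIdeal S ^ ρ) h0 Γ
  rw [Ideal.map_top, Submodule.top_smul, Ideal.map_pow] at h1
  exact ne_top_of_le_ne_top (ENNReal.mul_ne_top (length_sz_ne_top h0) hΓ) h1

end count

theorem BReg_dim {R : Type} [CommRing R] {P : Ideal R} (hP : P.IsPrime) {x : R} (hx : x ∉ P)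
    {b : ℕ} (h : ringKrullDim (R ⧸ P) ≤ (b + 1 : ℕ)) :
    ringKrullDim (R ⧸ (P ⊔ Ideal.span {x})) ≤ b := by
  by_cases hJ : P ⊔ Ideal.span {x} = ⊤
  · have : Subsingleton (R ⧸ (P ⊔ Ideal.span {x})) := Ideal.Quotient.subsingleton_iff.2 hJ
    rw [ringKrullDim_eq_bot_of_subsingleton]
    exact bot_le
  · obtain ⟨b', hb', h'⟩ := VSS_dim_lt hP (lt_of_le_of_ne le_sup_left fun e =>
      hx (e ▸ Ideal.mem_sup_right (Ideal.mem_span_singleton_self x))) hJ h
    obtain rfl : b = b' := by omega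
    exact h'

theorem BReg_sup_pow {R : Type} [CommRing R] (I J : Ideal R) (n : ℕ) :
    (I ⊔ J) ^ n ≤ I ^ n ⊔ J := by
  induction n with
  | zero => simp
  | succ n ih =>
    rw [pow_succ, pow_succ]
    refine (Ideal.mul_mono_left ih).trans ?_
    rw [Ideal.sup_mul, Ideal.mul_sup]
    exact sup_le (sup_le_sup_left Ideal.mul_le_right _) (Ideal.mul_le_left.trans le_sup_right)

theorem BReg_val_quot {B M : Type} [CommRing B] [AddCommGroup M] [Module B M] (μ : LF B)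
    (P : Submodule B M) (I : Ideal B) :
    μ.val (P ⧸ (I • ⊤ : Submodule B P)) = μ.sz P (I • P) := by
  rw [μ.sz_eq_quot]
  have e : (I • P).comap P.subtype = I • ⊤ := by
    have e' : I • P = (I • ⊤ : Submodule B P).map P.subtype := by
      rw [Submodule.map_smul'', Submodule.map_top, P.range_subtype]
    rw [e']
    exact Submodule.comap_map_eq_of_injective P.injective_subtype _
  rw [e]

theorem BReg_ev (C δ : ℕ) {ε : ℝ} (hε : 0 < ε) : ∀ᶠ κ : ℕ in atTop,
    ((C * (κ + 1) ^ δ : ℕ) : ℝ≥0∞) ≤ ENNReal.ofReal (ε * κ ^ (δ + 1)) := by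
  obtain ⟨N, hN⟩ := exists_nat_ge (C * 2 ^ δ / ε)
  filter_upwards [eventually_ge_atTop (N + 1)] with κ hκ
  rw [← ENNReal.ofReal_natCast]
  refine ENNReal.ofReal_le_ofReal ?_
  have h1 : (N : ℝ) + 1 ≤ κ := by exact_mod_cast hκ
  have h0 : (0 : ℝ) ≤ N := Nat.cast_nonneg N
  have h2 : ((κ : ℝ) + 1) ^ δ ≤ (2 * κ) ^ δ := pow_le_pow_left₀ (by positivity) (by linarith) δ
  have h3 : (C : ℝ) * 2 ^ δ ≤ ε * κ := by
    rw [div_le_iff₀ hε] at hN
    nlinarith
  push_cast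
  calc (C : ℝ) * (κ + 1) ^ δ ≤ C * (2 * κ) ^ δ := by gcongr
    _ = C * 2 ^ δ * κ ^ δ := by ring
    _ ≤ ε * κ * κ ^ δ := by gcongr
    _ = ε * κ ^ (δ + 1) := by ring

theorem BReg_arith (C N δ κ ρ : ℕ) (h : ρ ≤ N * κ + 1) :
    C * (ρ + 1) ^ δ ≤ C * (N + 2) ^ δ * (κ + 1) ^ δ := by
  rw [mul_assoc, ← mul_pow]
  refine Nat.mul_le_mul_left _ (Nat.pow_le_pow_left ?_ _)
  nlinarith

theorem BReg_pos {χ r C : ℝ} {δ : ℕ} (hr : 0 < r)
    (h : ∀ κ : ℕ, (κ : ℝ) ^ (δ + 1) * r ≤ κ ^ (δ + 1) * χ + C * (κ + 1) ^ δ) : 0 < χ := by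
  by_contra hχ
  push Not at hχ
  obtain ⟨C', hC'⟩ := exists_nat_ge C
  obtain ⟨κ, hκ, hκ1⟩ := ((BReg_ev C' δ (half_pos hr)).and (eventually_ge_atTop 1)).exists
  rw [← ENNReal.ofReal_natCast, ENNReal.ofReal_le_ofReal_iff (by positivity)] at hκ
  push_cast at hκ
  have h1 : (0 : ℝ) < (κ : ℝ) ^ (δ + 1) := pow_pos (by exact_mod_cast hκ1) _
  have h2 := h κ
  have h3 : C * ((κ : ℝ) + 1) ^ δ ≤ C' * (κ + 1) ^ δ := by gcongr
  nlinarith

section witt

variable {p : ℕ} [Fact p.Prime] {O : Type} [CommRing O] [CharP O p] [PerfectRing O p]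

theorem BReg_reg_sub {B : Type} [CommRing B] {a : B} (h : IsSMulRegular B a) (I : Ideal B) :
    IsSMulRegular I a := fun x y hxy => Subtype.ext (h (congrArg Subtype.val hxy))

/-- killing `p` on the Witt ideal gives back the ideal -/
theorem BReg_H_cone {𝔞 : Ideal O} (h : Cvx p 𝔞) {a : ℕ} (z : Fin a → O)
    (ν : LF (WittVector p O)) (j : ℤ) :
    (K (fun i => teichmuller p (z i)) ((single (WittVector p O) (WI p 𝔞)).coneS p)).H ν j =
      (K z (single O 𝔞)).H (ν.comap constantCoeff) j := by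
  let _ : Algebra (WittVector p O) O := (constantCoeff : WittVector p O →+* O).toAlgebra
  obtain ⟨g, hg, hk, -⟩ := h.exists_cc rfl
  have e : QuotSMulTop (p : WittVector p O) (WI p 𝔞) ≃ₗ[WittVector p O] 𝔞 :=
    (Submodule.quotEquivOfEq _ _ (by rw [hk, Submodule.ideal_span_singleton_smul])).trans
      (g.quotKerEquivOfSurjective hg)
  rw [K_coneS_single_H _ _ (BReg_reg_sub reg_p _), ((kos _).ap_iso e).H_eq]
  have h1 := (kos fun i => teichmuller p (z i)).map_ap_H (B := O) (X := 𝔞) ν j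
  rw [kos_map] at h1
  exact h1.symm

variable (p) (k : Type) [Field k] [CharP k p] [PerfectRing k p]

theorem BReg_max_map {a : ℕ} {B : Type} [CommRing B]
    (ψ : MvPowerSeries (Fin a) (WittVector p k) →+* B) :
    (maximalIdeal (MvPowerSeries (Fin a) (WittVector p k))).map ψ =
      Ideal.span {(p : B)} ⊔ sp fun i => ψ (MvPowerSeries.X i) := by
  rw [← (regL_witt_series p k a).max, HKos_sp_succ, Ideal.map_sup, Ideal.map_span, Ideal.map_span,
    Set.image_singleton, ← Set.range_comp, Fin.cons_zero, map_natCast]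
  rfl

theorem BReg_isDomain (a : ℕ) : IsDomain (MvPowerSeries (Fin a) (WittVector p k)) :=
  (regL_witt_series p k a).isDomain

theorem BReg_dim_bot (a : ℕ) :
    ringKrullDim (MvPowerSeries (Fin a) (WittVector p k) ⧸
      (⊥ : Ideal (MvPowerSeries (Fin a) (WittVector p k)))) ≤ (a + 1 : ℕ) := by
  rw [ringKrullDim_eq_of_ringEquiv (RingEquiv.quotientBot _), (regL_witt_series p k a).dim]

theorem BReg_reg_p (a : ℕ) : IsSMulRegular (MvPowerSeries (Fin a) (WittVector p k))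
    (p : MvPowerSeries (Fin a) (WittVector p k)) :=
  (HReg_tail (regL_witt_series p k a)).1

theorem BReg_reg_η (a : ℕ) {r : ℕ} (η : Fin r → MvPowerSeries (Fin a) (WittVector p k))
    (hη : ∀ j, η j = p) (hr : r ≤ 1) : RingTheory.Sequence.IsWeaklyRegular
      (MvPowerSeries (Fin a) (WittVector p k)) (List.ofFn η) := by
  rcases Nat.le_one_iff_eq_zero_or_eq_one.1 hr with rfl | rfl
  · rw [List.ofFn_zero]
    exact RingTheory.Sequence.IsWeaklyRegular.nil _ _
  · rw [List.ofFn_succ, List.ofFn_zero, hη, RingTheory.Sequence.isWeaklyRegular_singleton_iff]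
    exact BReg_reg_p p k a

theorem BReg_prime_p (a : ℕ) :
    (Ideal.span {(p : MvPowerSeries (Fin a) (WittVector p k))}).IsPrime := by
  obtain ⟨_, h⟩ := (HReg_tail (regL_witt_series p k a)).2
  exact (Ideal.Quotient.isDomain_iff_prime _).1 h.isDomain

theorem BReg_dim_p (a : ℕ) : ringKrullDim (MvPowerSeries (Fin a) (WittVector p k) ⧸
    Ideal.span {(p : MvPowerSeries (Fin a) (WittVector p k))}) ≤ a := by
  obtain ⟨_, h⟩ := (HReg_tail (regL_witt_series p k a)).2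
  exact h.dim.le

theorem BReg_X_notMem (a : ℕ) : (MvPowerSeries.X 0 : MvPowerSeries (Fin (a + 1)) (WittVector p k)) ∉
    Ideal.span {(p : MvPowerSeries (Fin (a + 1)) (WittVector p k))} := by
  obtain ⟨_, h⟩ := (HReg_tail (regL_witt_series p k (a + 1))).2
  intro hX
  have h1 := (HReg_tail h).1
  have h2 : Ideal.Quotient.mk (Ideal.span {(p : MvPowerSeries (Fin (a + 1)) (WittVector p k))})
      (MvPowerSeries.X 0) = 0 := Ideal.Quotient.eq_zero_iff_mem.2 hX
  exact IsSMulRegular.not_zero (h2 ▸ h1 :)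

theorem BReg_dim_pX (a N : ℕ) : ringKrullDim (MvPowerSeries (Fin (a + 1)) (WittVector p k) ⧸
    (Ideal.span {(p : MvPowerSeries (Fin (a + 1)) (WittVector p k))} ⊔
      Ideal.span {MvPowerSeries.X 0 ^ N})) ≤ a :=
  BReg_dim (BReg_prime_p p k (a + 1))
    (fun h => BReg_X_notMem p k a ((BReg_prime_p p k (a + 1)).mem_of_pow_mem N h))
    (BReg_dim_p p k (a + 1))

theorem BReg_p_mem (a n : ℕ) :
    (p : MvPowerSeries (Fin n) (MvPowerSeries (Fin a) (WittVector p k))) ∈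
      maximalIdeal (MvPowerSeries (Fin n) (MvPowerSeries (Fin a) (WittVector p k))) := by
  have h := ((regL_witt_series p k a).mvPowerSeries n).mem_max (Fin.castAdd n 0)
  rwa [Fin.append_left, Fin.cons_zero, map_natCast] at h

end witt

end Crest.Agent.R188
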