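import Crest.Agent.R188.HRes

/-!
# Change of rings `T → T / ξ` and the link with `Tor`
-/

set_option autoImplicit false
set_option linter.unusedVariables false

open scoped ENNReal NNReal TensorProduct

namespace Crest.Agent.R188

open Crest.Agent.R183 Crest.Agent.R183.DG

/-- the complex over `T` attached to a lift `d` of a differential with `d * d = ξ • t` -/
def HChange_mc {T : Type} [CommRing T] {ι : Type} [Fintype ι] [DecidableEq ι] (deg : ι → ℤ)
    (ξ : T) (d t : Matrix ι ι T) (hd : ∀ i j, d i j ≠ 0 → deg j = deg i + 1)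
    (ht : ∀ i j, t i j ≠ 0 → deg j = deg i + 2) (h1 : d * d = ξ • t) (h2 : t * d = d * t) :
    MC T where
  ι := ι ⊕ ι
  deg := Sum.elim deg fun i => deg i + 1
  d := Matrix.fromBlocks d (ξ • 1) (-t) (-d)
  hdeg := by
    rintro (i | i) (j | j) h
    · exact hd i j h
    · obtain rfl : i = j := by_contra fun hij => h (by simp [Matrix.one_apply_ne hij])
      rfl
    · have := ht i j (by simpa using h)
      simp only [Sum.elim_inl, Sum.elim_inr, this]
      ring
    · have := hd i j (by simpa using h)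
      simp [this]
  dd := by
    rw [Matrix.fromBlocks_multiply]
    simp [h1, h2]

theorem HChange_lift {T R : Type} [CommRing T] [CommRing R] (π : T →+* R)
    (hπ : Function.Surjective π) (ξ : T) (hξ : RingHom.ker π = Ideal.span {ξ})
    (hreg : IsSMulRegular T ξ) (E : MC R) : ∃ d t : Matrix E.ι E.ι T,
      (∀ i j, d i j ≠ 0 → E.deg j = E.deg i + 1) ∧ (∀ i j, t i j ≠ 0 → E.deg j = E.deg i + 2) ∧
      d * d = ξ • t ∧ t * d = d * t ∧ ∀ i j, π (d i j) = E.d i j := by
  have h0 : ∀ r : R, ∃ s : T, π s = r ∧ (r = 0 → s = 0) := fun r => by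
    by_cases h : r = 0
    · exact ⟨0, by rw [h, map_zero], fun _ => rfl⟩
    · exact (hπ r).imp fun s hs => ⟨hs, fun h' => absurd h' h⟩
  choose s hs hs0 using h0
  have hd : ∀ i j, E.d.map s i j ≠ 0 → E.deg j = E.deg i + 1 :=
    fun i j h => E.hdeg i j fun h' => h (hs0 _ h')
  have h1 : ∀ i j, ∃ c, c * ξ = (E.d.map s * E.d.map s) i j := fun i j => by
    rw [← Ideal.mem_span_singleton', ← hξ, RingHom.mem_ker]
    simpa [Matrix.mul_apply, hs] using congrFun (congrFun E.dd i) j
  choose t ht using h1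
  have h2 : E.d.map s * E.d.map s = ξ • Matrix.of t := by
    ext i j
    rw [← ht, mul_comm]
    rfl
  refine ⟨E.d.map s, Matrix.of t, hd, fun i j h => ?_, h2, ?_, fun i j => hs _⟩
  · have h3 : (E.d.map s * E.d.map s) i j ≠ 0 := fun h' =>
      h (hreg ((congrFun (congrFun h2 i) j).symm.trans (h'.trans (smul_zero ξ).symm)))
    obtain ⟨l, -, hl⟩ := Finset.exists_ne_zero_of_sum_ne_zero h3
    rw [hd l j (right_ne_zero_of_mul hl), hd i l (left_ne_zero_of_mul hl)]
    ring
  · have h3 : ξ • (Matrix.of t * E.d.map s) = ξ • (E.d.map s * Matrix.of t) := by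
      rw [← Matrix.smul_mul, ← Matrix.mul_smul, ← h2, Matrix.mul_assoc]
    ext i j
    exact hreg (congrFun (congrFun h3 i) j)

theorem HChange_qi {T R : Type} [CommRing T] [CommRing R] (π : T →+* R) (ξ : T) (E : MC R)
    (d t : Matrix E.ι E.ι T) (hd : ∀ i j, d i j ≠ 0 → E.deg j = E.deg i + 1)
    (ht : ∀ i j, t i j ≠ 0 → E.deg j = E.deg i + 2) (h1 : d * d = ξ • t) (h2 : t * d = d * t)
    (h3 : ∀ i j, π (d i j) = E.d i j)
    {A B : Type} [CommRing A] [CommRing B] [Algebra A B] (θ : T →+* A) (φ : R →+* B)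
    (hφ : ∀ t, φ (π t) = algebraMap A B (θ t)) {M M' : Type} [AddCommGroup M] [Module A M]
    [AddCommGroup M'] [Module A M'] [Module B M'] [IsScalarTower A B M'] (g : M →ₗ[A] M')
    (hg : Function.Surjective g)
    (hk : LinearMap.ker g = Ideal.span {θ ξ} • (⊤ : Submodule A M))
    (hM : IsSMulRegular M (θ ξ)) :
    ∃ F, QI (((HChange_mc E.deg ξ d t hd ht h1 h2).map θ).ap M) (((E.map φ).ap M').res A) F := by
  set E' := (HChange_mc E.deg ξ d t hd ht h1 h2).map θ with hE'
  have hker : ∀ x : M, g x = 0 ↔ ∃ z, θ ξ • z = x := fun x => by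
    rw [← LinearMap.mem_ker, hk, Submodule.ideal_span_singleton_smul,
      Submodule.mem_smul_pointwise_iff_exists]
    simp
  have hl : ∀ (x : E.ι ⊕ E.ι → M) (i : E.ι), (E'.ap M).D x (Sum.inl i) =
      ∑ j, θ (d i j) • x (Sum.inl j) + θ ξ • x (Sum.inr i) := fun x i => by
    rw [MC.ap_D, matApp_apply]
    refine (Fintype.sum_sum_type _).trans (congrArg₂ _ rfl ?_)
    refine (Finset.sum_eq_single i (fun j _ hj => ?_) (by simp)).trans ?_
    · show θ ((ξ • (1 : Matrix E.ι E.ι T)) i j) • _ = 0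
      simp [Matrix.one_apply_ne hj.symm]
    · show θ ((ξ • (1 : Matrix E.ι E.ι T)) i i) • _ = _
      simp
  have hr : ∀ (z : E.ι → M) (i : E.ι), (E'.ap M).D (Sum.elim 0 z) (Sum.inr i) =
      -∑ j, θ (d i j) • z j := fun z i => by
    rw [MC.ap_D, matApp_apply]
    refine (Fintype.sum_sum_type _).trans ?_
    show ∑ j, θ (-t i j) • (0 : M) + ∑ j, θ (-d i j) • z j = _
    simp
  let F : (E.ι ⊕ E.ι → M) →ₗ[A] (E.ι → M') :=
    LinearMap.pi fun i => g ∘ₗ LinearMap.proj (Sum.inl i)
  refine ⟨F, QI.of_surjective ⟨fun x => funext fun i => ?_, fun k x => funext fun i => ?_⟩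
    (fun y => ?_) fun k x hx _ hD => ?_⟩
  · show g ((E'.ap M).D x (Sum.inl i)) = ((E.map φ).ap M').D (F x) i
    rw [hl, MC.ap_D, matApp_apply, map_add, (hker _).2 ⟨_, rfl⟩, add_zero, map_sum]
    refine Finset.sum_congr rfl fun j _ => ?_
    show _ = φ (E.d i j) • g (x (Sum.inl j))
    rw [← h3, hφ, algebraMap_smul, map_smul]
  · show g ((E'.ap M).π k x (Sum.inl i)) = ((E.map φ).ap M').π k (F x) i
    rw [MC.ap_π, MC.ap_π, apply_ite g, map_zero]
    rfl
  · choose s hs using hg
    exact ⟨Sum.elim (fun i => s (y i)) 0, funext fun i => hs _⟩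
  · choose z hz using fun i => (hker _).1 (congrFun hx i)
    refine ⟨Sum.elim 0 z, funext fun i => map_zero g, funext ?_⟩
    rintro (i | i)
    · rw [hl]
      simpa using hz i
    · rw [hr]
      refine hM ?_
      have h4 := (hl x i).symm.trans (congrFun hD (Sum.inl i))
      show θ ξ • _ = θ ξ • _
      rw [smul_neg, Finset.smul_sum, neg_eq_iff_add_eq_zero]
      refine Eq.trans (congrArg₂ _ (Finset.sum_congr rfl fun j _ => ?_) rfl) h4
      rw [smul_comm, hz]
      rfl

/-- A finite free complex over `R = T / ξ` comes from a finite free complex over `T`. -/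
theorem exists_change {T R : Type} [CommRing T] [CommRing R] (π : T →+* R)
    (hπ : Function.Surjective π) (ξ : T) (hξ : RingHom.ker π = Ideal.span {ξ})
    (hreg : IsSMulRegular T ξ) (E : MC R) :
    ∃ E' : MC T, (∀ Q : Ideal R, E.IsRes (R ⧸ Q) → E'.IsRes (T ⧸ Q.comap π)) ∧
      ∀ (A B : Type) [CommRing A] [CommRing B] [Algebra A B] (θ : T →+* A) (φ : R →+* B)
        (hφ : ∀ t, φ (π t) = algebraMap A B (θ t)) (M M' : Type) [AddCommGroup M] [Module A M]
        [AddCommGroup M'] [Module A M'] [Module B M'] [IsScalarTower A B M'] (g : M →ₗ[A] M')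
        (hg : Function.Surjective g)
        (hk : LinearMap.ker g = Ideal.span {θ ξ} • (⊤ : Submodule A M))
        (hM : IsSMulRegular M (θ ξ)) (μ : LF A) (k : ℤ),
        ((E'.map θ).ap M).H μ k = ((E.map φ).ap M').H (μ.comap (algebraMap A B)) k := by
  obtain ⟨d, t, hd, ht, h1, h2, h3⟩ := HChange_lift π hπ ξ hξ hreg E
  refine ⟨HChange_mc E.deg ξ d t hd ht h1 h2, fun Q ⟨h0, ε, hε⟩ => ?_,
    fun A B _ _ _ θ φ hφ M M' _ _ _ _ _ _ g hg hk hM μ k => ?_⟩
  · let _ := π.toAlgebra
    have hF := HChange_qi π ξ E d t hd ht h1 h2 h3 (RingHom.id T) (RingHom.id R)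
      (fun _ => rfl) (Algebra.linearMap T R) hπ (by
        rw [smul_eq_mul, Ideal.mul_top]
        exact hξ) hreg
    rw [MC.map_id, MC.map_id] at hF
    obtain ⟨F, hF⟩ := hF
    have h4 := hε.res (S := T)
    rw [res_single] at h4
    have h5 : (HChange_mc E.deg ξ d t hd ht h1 h2).IsRes (R ⧸ Q) := ⟨?_, _, hF.comp h4⟩
    · exact h5.congr (((Q.mkQ.restrictScalars T ∘ₗ Algebra.linearMap T R).quotKerEquivOfSurjective
        (Q.mkQ_surjective.comp hπ)).symm.trans (Submodule.quotEquivOfEq _ _ (by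
          ext x
          exact Ideal.Quotient.eq_zero_iff_mem)))
    · rintro (i | i)
      · exact h0 i
      · exact add_nonneg (h0 i) zero_le_one
  · obtain ⟨F, hF⟩ := HChange_qi π ξ E d t hd ht h1 h2 h3 θ φ hφ g hg hk hM
    rw [hF.H_eq, res_H]

end Crest.Agent.R188
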