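import Crest.Agent.R188.HDev
import Crest.Agent.R183.Gonfl

/-!
# Reduction to the diagonal
-/

set_option autoImplicit false
set_option linter.unusedVariables false

open scoped ENNReal NNReal TensorProduct

namespace Crest.Agent.R188

open Crest.Agent.R183 Crest.Agent.R183.DG IsLocalRing MvPolynomial

open RingTheory.Sequence Pointwise in
theorem QDiag_poly {A : Type} [CommRing A] {l : List A} (h : IsWeaklyRegular A l) (c : A) :
    IsWeaklyRegular (Polynomial A) ((Polynomial.C c - Polynomial.X) :: l.map Polynomial.C) := by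
  rw [isWeaklyRegular_cons_iff]
  refine ⟨fun a b hab => (Polynomial.monic_X_sub_C c).isRegular.left (neg_injective ?_), ?_⟩
  · simpa [sub_mul] using hab
  have hk : ((Polynomial.C c - Polynomial.X : Polynomial A) •
      (⊤ : Submodule (Polynomial A) (Polynomial A))) =
      RingHom.ker (Polynomial.evalRingHom c) := by
    rw [← Submodule.ideal_span_singleton_smul, smul_eq_mul, Ideal.mul_top,
      Polynomial.ker_evalRingHom, ← Ideal.span_singleton_neg, neg_sub]
  let e1 : QuotSMulTop (Polynomial.C c - Polynomial.X : Polynomial A) (Polynomial A) ≃ₗ[Polynomial A]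
      Polynomial A ⧸ RingHom.ker (Polynomial.evalRingHom c) := Submodule.quotEquivOfEq _ _ hk
  rw [e1.isWeaklyRegular_congr]
  have hs : Function.Surjective (Polynomial.evalRingHom c) := fun a => ⟨Polynomial.C a, by simp⟩
  let e2 := (RingHom.quotientKerEquivOfSurjective hs).toAddEquiv
  refine (e2.isWeaklyRegular_congr (bs := l) ?_).2 h
  refine List.forall₂_map_left_iff.mpr <| List.forall₂_same.mpr fun r _ x => ?_
  obtain ⟨y, rfl⟩ := Ideal.Quotient.mk_surjective x
  change Polynomial.evalRingHom c (Polynomial.C r * y) = r * Polynomial.evalRingHom c y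
  simp

open RingTheory.Sequence in
theorem QDiag_reg {N : Type} [CommRing N] (n : ℕ) (c : Fin n → N) :
    IsWeaklyRegular (MvPolynomial (Fin n) N)
      (List.ofFn fun i => (C (c i) - X i : MvPolynomial (Fin n) N)) := by
  induction n with
  | zero => simp
  | succ n ih =>
    let e := (finSuccEquiv N n).toRingEquiv
    have h : ∀ l : List (MvPolynomial (Fin (n + 1)) N), IsWeaklyRegular _ l ↔
        IsWeaklyRegular (Polynomial (MvPolynomial (Fin n) N)) (l.map e) := fun l =>
      e.toAddEquiv.isWeaklyRegular_congr <| List.forall₂_map_right_iff.mpr <|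
        List.forall₂_same.mpr fun r _ x => e.map_mul r x
    rw [h]
    refine (congrArg _ ?_).mpr (QDiag_poly (ih (Fin.tail c)) (C (c 0)))
    have hC : ∀ a : N, e (C a) = Polynomial.C (C a) := fun a =>
      RingHom.congr_fun (finSuccEquiv_comp_C_eq_C n) a ▸ by
        simp [e, finSuccEquiv_apply]
    rw [List.ofFn_succ, List.map_cons, List.map_ofFn, List.map_ofFn]
    congr 1
    · rw [map_sub, hC]
      congr 1
      exact finSuccEquiv_X_zero
    · congr 1
      funext i
      simp only [Function.comp_apply, map_sub, hC]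
      congr 1
      exact finSuccEquiv_X_succ

theorem QDiag_ker {N : Type} [CommRing N] {n : ℕ} (c : Fin n → N) (y : MvPolynomial (Fin n) N) :
    y ∈ Ideal.span (Set.range fun i => (C (c i) - X i : MvPolynomial (Fin n) N)) ↔
      eval c y = 0 := by
  refine ⟨fun hy => ?_, fun hy => ?_⟩
  · refine (Ideal.span_le.2 ?_ : _ ≤ RingHom.ker (eval c)) hy
    rintro _ ⟨i, rfl⟩
    simp [RingHom.mem_ker]
  have h3 : ∀ y, C (eval c y) - y ∈
      Ideal.span (Set.range fun i => (C (c i) - X i : MvPolynomial (Fin n) N)) := by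
    intro y
    induction y using MvPolynomial.induction_on with
    | C a => simp
    | add a b ha hb =>
      rw [map_add, map_add, add_sub_add_comm]
      exact add_mem ha hb
    | mul_X a i ha =>
      have := add_mem (Ideal.mul_mem_right (C (c i)) _ ha)
        (Ideal.mul_mem_left _ a (Ideal.subset_span ⟨i, rfl⟩))
      convert this using 1
      simp only [map_mul, eval_X]
      ring
  have h4 := neg_mem (h3 y)
  rwa [hy, map_zero, zero_sub, neg_neg] at h4

theorem QDiag_rho {A B ι : Type} [CommRing A] [CommRing B] [Fintype ι] [DecidableEq ι] {n : ℕ}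
    (α : MvPolynomial (Fin n) A →ₐ[A] Matrix ι ι A) (φ : A →+* B) :
    ∃ ρ : MvPolynomial (Fin n) B →+* Matrix ι ι B, (∀ b, ρ (C b) = Matrix.scalar ι b) ∧
      ∀ t, ρ (MvPolynomial.map φ t) = (α t).map φ := by
  letI := φ.toAlgebra
  let g : MvPolynomial (Fin n) A →ₐ[A] Matrix ι ι B := (Algebra.ofId A B).mapMatrix.comp α
  let f := Algebra.TensorProduct.lift (Algebra.ofId B (Matrix ι ι B)) g
    fun b t => Algebra.commutes b _
  refine ⟨(f.comp (algebraTensorAlgEquiv A B).symm.toAlgHom).toRingHom, fun b => ?_, fun t => ?_⟩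
  · exact (f.comp (algebraTensorAlgEquiv A B).symm.toAlgHom).commutes b
  · change f ((algebraTensorAlgEquiv A B).symm (MvPolynomial.map (algebraMap A B) t)) = _
    rw [algebraTensorAlgEquiv_symm_map, Algebra.TensorProduct.lift_tmul, map_one, one_mul]
    rfl

theorem QDiag_hom {B : Type} [CommRing B] {n : ℕ} {G : MC B}
    (ρ : MvPolynomial (Fin n) B →+* Matrix G.ι G.ι B) (hC : ∀ b, ρ (C b) = Matrix.scalar _ b)
    (hX : ∀ i, MC.IsHom G G (ρ (X i))) (u : MvPolynomial (Fin n) B) : MC.IsHom G G (ρ u) := by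
  induction u using MvPolynomial.induction_on with
  | C b => exact hC b ▸ G.isHom_scalar b
  | add u v hu hv =>
    refine ⟨fun i j h => ?_, by rw [map_add, add_mul, mul_add, hu.comm, hv.comm]⟩
    by_contra hne
    refine h ?_
    rw [map_add, Matrix.add_apply, not_not.1 (mt (hu.deg i j) hne), not_not.1 (mt (hv.deg i j) hne),
      add_zero]
  | mul_X u i hu => exact map_mul ρ u (X i) ▸ (hX i).comp hu

theorem QDiag_comm {B ι : Type} [CommRing B] [Fintype ι] [DecidableEq ι] {n : ℕ}
    (ρ : MvPolynomial (Fin n) B →+* Matrix ι ι B) (hC : ∀ b, ρ (C b) = Matrix.scalar _ b)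
    {h : Matrix ι ι B} (hX : ∀ i, h * ρ (X i) = ρ (X i) * h) (u : MvPolynomial (Fin n) B) :
    h * ρ u = ρ u * h := by
  induction u using MvPolynomial.induction_on with
  | C b => exact hC b ▸ (Matrix.scalar_commute b (fun _ => Commute.all _ _) h).symm
  | add u v hu hv => rw [map_add, add_mul, mul_add, hu, hv]
  | mul_X u i hu => rw [map_mul, ← mul_assoc, hu, mul_assoc, hX, mul_assoc]

open scoped Matrix.Module in
theorem QDiag_dg {B : Type} [CommRing B] {n : ℕ} (G : MC B)
    (ρ : MvPolynomial (Fin n) B →+* Matrix G.ι G.ι B) (hC : ∀ b, ρ (C b) = Matrix.scalar _ b)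
    (hX : ∀ i, MC.IsHom G G (ρ (X i))) (M : Type) [AddCommGroup M] [Module B M] :
    ∃ (_ : Module (MvPolynomial (Fin n) B) (G.ι → M))
      (_ : IsScalarTower B (MvPolynomial (Fin n) B) (G.ι → M))
      (D : DG (MvPolynomial (Fin n) B) (G.ι → M)), D.res B = G.ap M ∧
      (∀ (u : MvPolynomial (Fin n) B) (v : G.ι → M), u • v = matApp (ρ u) M v) ∧
      ∀ (h : Matrix G.ι G.ι B) (u : MvPolynomial (Fin n) B),
        (∀ i j, h i j ≠ 0 → G.deg i = G.deg j + 1) → G.d * h + h * G.d = ρ u →
        (∀ i, h * ρ (X i) = ρ (X i) * h) → D.NullH u := by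
  letI inst : Module (MvPolynomial (Fin n) B) (G.ι → M) := Module.compHom (G.ι → M) ρ
  have hs : ∀ (u : MvPolynomial (Fin n) B) (v : G.ι → M), u • v = matApp (ρ u) M v :=
    fun u v => rfl
  have hsc : ∀ (b : B) (v : G.ι → M), matApp (Matrix.scalar G.ι b) M v = b • v := fun b v =>
    Matrix.Module.scalar_smul b v
  have tower : IsScalarTower B (MvPolynomial (Fin n) B) (G.ι → M) := ⟨fun b u v => by
    rw [hs, hs, smul_eq_C_mul, map_mul, matApp_mul, hC, hsc]⟩
  let L : (f : (G.ι → M) →ₗ[B] (G.ι → M)) → (∀ u v, f (matApp (ρ u) M v) = matApp (ρ u) M (f v)) →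
      (G.ι → M) →ₗ[MvPolynomial (Fin n) B] (G.ι → M) := fun f hf =>
    { toFun := f, map_add' := f.map_add, map_smul' := hf }
  have hm := fun u => (QDiag_hom ρ hC hX u).isMap (single B M)
  let D : DG (MvPolynomial (Fin n) B) (G.ι → M) :=
    { D := L (G.ap M).D fun u v => ((hm u).D v).symm
      π := fun k => L ((G.ap M).π k) fun u v => ((hm u).π k v).symm
      DD := (G.ap M).DD, πD := (G.ap M).πD, ππ := (G.ap M).ππ, ππ' := (G.ap M).ππ' }
  refine ⟨inst, tower, D, rfl, hs, fun h u h1 h2 h3 => ?_⟩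
  refine ⟨L (matApp h M) fun u v => by
    rw [← matApp_mul, ← matApp_mul, QDiag_comm ρ hC h3], fun k v => ?_, fun v => ?_⟩
  · funext i
    change matApp h M ((G.ap M).π k v) i = (G.ap M).π (k + 1) (matApp h M v) i
    simp only [matApp_apply, MC.ap_π]
    split_ifs with hi
    · refine Finset.sum_congr rfl fun j _ => ?_
      by_cases hij : h i j = 0
      · simp [hij]
      · rw [if_pos (by have := h1 i j hij; omega)]
    · refine Finset.sum_eq_zero fun j _ => ?_
      by_cases hij : h i j = 0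
      · simp [hij]
      · rw [if_neg (by have := h1 i j hij; omega), smul_zero]
  · change (G.ap M).D (matApp h M v) + matApp h M ((G.ap M).D v) = matApp (ρ u) M v
    rw [MC.ap_D, MC.ap_D, ← matApp_mul, ← matApp_mul, ← h2]
    funext i
    simp [matApp_apply, add_smul, Finset.sum_add_distrib]

/-- the matrix of the total differential -/
def QDiag_d {U A T : Type} [CommRing U] [CommRing A] [CommRing T] (E : MC U) (G : MC A)
    (c : A →+* T) (ρ : U →+* Matrix G.ι G.ι T) : Matrix (E.ι × G.ι) (E.ι × G.ι) T := fun p q =>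
  ρ (E.d p.1 q.1) p.2 q.2 + if p.1 = q.1 then sg (E.deg p.1) • c (G.d p.2 q.2) else 0

theorem QDiag_apply {U A T U' B M : Type} [CommRing U] [CommRing A] [CommRing T] [CommRing U']
    [CommRing B] [AddCommGroup M] [Module B M] (E : MC U) (G : MC A) (c : A →+* T)
    (ρ : U →+* Matrix G.ι G.ι T)
    (θ : T →+* B) (ψ : U →+* U') [Module U' (G.ι → M)] (D : DG U' (G.ι → M))
    (hψ : ∀ (u : U) (v : G.ι → M), ψ u • v = matApp ((ρ u).map θ) M v)
    (hD : ∀ v, D.D v = matApp (G.d.map (θ.comp c)) M v) (x : E.ι × G.ι → M) (a : E.ι) (i : G.ι) :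
    matApp ((QDiag_d E G c ρ).map θ) M x (a, i) =
      ((E.map ψ).app D).D (fun a i => x (a, i)) a i := by
  rw [MC.app_D, matApp_apply, Fintype.sum_prod_type, Pi.add_apply, Finset.sum_apply, hD]
  simp only [QDiag_d, Matrix.map_apply, map_add, add_smul, Finset.sum_add_distrib]
  congr 1
  · exact Finset.sum_congr rfl fun b _ => (congrFun (hψ (E.d a b) fun i => x (b, i)) i).symm
  · rw [Finset.sum_eq_single a]
    · change _ = sg (E.deg a) • matApp (G.d.map (θ.comp c)) M (fun i => x (a, i)) i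
      simp only [if_true, map_zsmul, smul_assoc, matApp_apply, Finset.smul_sum, Matrix.map_apply,
        RingHom.comp_apply]
    · intro b _ hb
      simp [hb.symm]
    · simp

/-- the total complex -/
def QDiag_tot {U A T : Type} [CommRing U] [CommRing A] [CommRing T] (E : MC U) (G : MC A)
    (c : A →+* T) (ρ : U →+* Matrix G.ι G.ι T)
    (hρ : ∀ u i j, ρ u i j ≠ 0 → G.deg i = G.deg j)
    (hdd : QDiag_d E G c ρ * QDiag_d E G c ρ = 0) : MC T where
  ι := E.ι × G.ι
  deg p := E.deg p.1 + G.deg p.2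
  d := QDiag_d E G c ρ
  hdeg p q h := by
    by_cases h1 : ρ (E.d p.1 q.1) p.2 q.2 = 0
    · simp only [QDiag_d, h1, zero_add] at h
      have h2 : p.1 = q.1 := by
        by_contra h2
        exact h (if_neg h2)
      rw [if_pos h2] at h
      rw [h2, G.hdeg p.2 q.2 fun h0 => h (by rw [h0, map_zero, smul_zero]), add_assoc]
    · rw [hρ _ _ _ h1, E.hdeg p.1 q.1 fun h0 => h1 (by rw [h0, map_zero]; rfl)]
      ring
  dd := hdd

theorem QDiag_iso {U A T U' B M : Type} [CommRing U] [CommRing A] [CommRing T] [CommRing U']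
    [CommRing B] [AddCommGroup M] [Module B M] (E : MC U) (G : MC A) (c : A →+* T)
    (ρ : U →+* Matrix G.ι G.ι T) (hρ : ∀ u i j, ρ u i j ≠ 0 → G.deg i = G.deg j)
    (hdd : QDiag_d E G c ρ * QDiag_d E G c ρ = 0)
    (θ : T →+* B) (ψ : U →+* U') [Algebra B U'] [Module U' (G.ι → M)]
    [IsScalarTower B U' (G.ι → M)] (D : DG U' (G.ι → M))
    (hψ : ∀ (u : U) (v : G.ι → M), ψ u • v = matApp ((ρ u).map θ) M v)
    (hD : D.res B = (G.map (θ.comp c)).ap M) :
    (((QDiag_tot E G c ρ hρ hdd).map θ).ap M).Iso (((E.map ψ).app D).res B) := by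
  have h1 : ∀ v, D.D v = matApp (G.d.map (θ.comp c)) M v := fun v =>
    (congrArg (fun C => C.D v) hD).trans ((G.map (θ.comp c)).ap_D v)
  have h2 : ∀ k v i, D.π k v i = if G.deg i = k then v i else 0 := fun k v i =>
    (congrArg (fun C => C.π k v i) hD).trans ((G.map (θ.comp c)).ap_π k v i)
  refine ⟨LinearEquiv.curry B M E.ι G.ι, fun x => ?_, fun k x => ?_⟩
  · funext a i
    rw [MC.ap_D]
    exact QDiag_apply E G c ρ θ ψ D hψ h1 x a i
  · funext a i
    refine (MC.ap_π _ k x (a, i)).trans (Eq.trans ?_ (h2 (k - E.deg a) (fun i => x (a, i)) i).symm)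
    refine if_congr ?_ rfl rfl
    change E.deg a + G.deg i = k ↔ _
    omega

theorem QDiag_free {A : Type} [CommRing A] {n : ℕ} (𝔔 : Ideal (MvPolynomial (Fin n) A))
    [Module.Finite A (MvPolynomial (Fin n) A ⧸ 𝔔)] :
    ∃ I : Ideal (MvPolynomial (Fin n) A), I ≤ 𝔔 ∧ Module.Free A (MvPolynomial (Fin n) A ⧸ I) ∧
      Module.Finite A (MvPolynomial (Fin n) A ⧸ I) := by
  rcases subsingleton_or_nontrivial A with hA | hA
  · have : Subsingleton (MvPolynomial (Fin n) A ⧸ 𝔔) := Module.subsingleton A _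
    exact ⟨𝔔, le_rfl, inferInstance, inferInstance⟩
  choose f hf hf' using fun i => Algebra.IsIntegral.isIntegral (R := A) (Ideal.Quotient.mk 𝔔 (X i))
  let D := ∑ i, (f i).natDegree + 1
  have hD : ∀ i, (f i).natDegree < D := fun i => Nat.lt_succ_of_le
    (Finset.single_le_sum (f := fun i => (f i).natDegree) (fun _ _ => Nat.zero_le _)
      (Finset.mem_univ i))
  let g : Fin n → Polynomial A := fun i => Polynomial.X ^ (D - (f i).natDegree) * f i
  have hg : ∀ i, (g i).Monic := fun i => (Polynomial.monic_X_pow _).mul (hf i)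
  have hgD : ∀ i, (g i).natDegree = D := fun i => by
    rw [(Polynomial.monic_X_pow _).natDegree_mul (hf i), Polynomial.natDegree_X_pow]
    have := hD i
    omega
  obtain ⟨b, -⟩ := exists_basis_quot_totalDegree D (Nat.succ_pos _)
    (fun i => Polynomial.aeval (X i : MvPolynomial (Fin n) A) (g i)) fun i => by
      rw [Polynomial.aeval_eq_sum_range, hgD, Finset.sum_range_succ, ← hgD i,
        (hg i).coeff_natDegree, one_smul, add_sub_cancel_right, hgD]
      refine lt_of_le_of_lt (totalDegree_finset_sum _ _) ?_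
      rw [Finset.sup_lt_iff (Nat.succ_pos _)]
      intro j hj
      refine lt_of_le_of_lt (totalDegree_smul_le _ _) ?_
      rw [totalDegree_X_pow]
      exact Finset.mem_range.1 hj
  refine ⟨_, Ideal.span_le.2 ?_, Module.Free.of_basis b, Module.Finite.of_basis b⟩
  rintro _ ⟨i, rfl⟩
  refine Ideal.Quotient.eq_zero_iff_mem.1 ?_
  rw [← Ideal.Quotient.mkₐ_eq_mk A, ← Polynomial.aeval_algHom_apply, map_mul,
    Ideal.Quotient.mkₐ_eq_mk, Polynomial.aeval_def (Ideal.Quotient.mk 𝔔 (X i)) (f i), hf', mul_zero]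

theorem exists_diag {A : Type} [CommRing A] [IsNoetherianRing A] [IsLocalRing A] {e : ℕ}
    {x : Fin e → A} (hx : RegL A x) {n : ℕ} (𝔔 : Ideal (MvPolynomial (Fin n) A))
    [Module.Finite A (MvPolynomial (Fin n) A ⧸ 𝔔)] :
    ∃ (G : MC A) (F : MC (MvPolynomial (Fin n) A)), G.IsRes (MvPolynomial (Fin n) A ⧸ 𝔔) ∧
      F.IsRes (MvPolynomial (Fin n) A ⧸ 𝔔) ∧
      ∀ (B : Type) [CommRing B] (θ : MvPolynomial (Fin n) A →+* B) (M : Type) [AddCommGroup M]
        [Module B M], ∃ (_ : Module (MvPolynomial (Fin n) B) (G.ι → M))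
        (_ : IsScalarTower B (MvPolynomial (Fin n) B) (G.ι → M))
        (D : DG (MvPolynomial (Fin n) B) (G.ι → M)),
        D.res B = (G.map (θ.comp C)).ap M ∧
        (∀ t ∈ 𝔔, D.NullH (MvPolynomial.map (θ.comp C) t)) ∧
        ((F.map θ).ap M).Iso ((K (fun i => X i - C (θ (X i))) D).res B) := by
  obtain ⟨I, hI, _, _⟩ := QDiag_free 𝔔
  letI : Algebra (MvPolynomial (Fin n) A ⧸ I) (MvPolynomial (Fin n) A ⧸ 𝔔) :=
    (Ideal.Quotient.factor hI).toAlgebra
  haveI : IsScalarTower A (MvPolynomial (Fin n) A ⧸ I) (MvPolynomial (Fin n) A ⧸ 𝔔) :=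
    IsScalarTower.of_algebraMap_eq (R := A) (S := MvPolynomial (Fin n) A ⧸ I)
      (A := MvPolynomial (Fin n) A ⧸ 𝔔) fun _ => rfl
  haveI : Module.Finite (MvPolynomial (Fin n) A ⧸ I) (MvPolynomial (Fin n) A ⧸ 𝔔) :=
    Module.Finite.of_restrictScalars_finite A _ _
  obtain ⟨G, act, ε, hdeg, hε, hact, hεa, hnull⟩ :=
    exists_res_over hx (MvPolynomial (Fin n) A ⧸ I) (MvPolynomial (Fin n) A ⧸ 𝔔)
  let α := act.comp (Ideal.Quotient.mkₐ A I)
  have key : ∀ (B : Type) [CommRing B] (φ : A →+* B) (M : Type) [AddCommGroup M] [Module B M],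
      ∃ (ρ : MvPolynomial (Fin n) B →+* Matrix G.ι G.ι B)
        (_ : Module (MvPolynomial (Fin n) B) (G.ι → M))
        (_ : IsScalarTower B (MvPolynomial (Fin n) B) (G.ι → M))
        (D : DG (MvPolynomial (Fin n) B) (G.ι → M)),
        (∀ b, ρ (C b) = Matrix.scalar _ b) ∧ (∀ i, ρ (X i) = (α (X i)).map φ) ∧
        D.res B = (G.map φ).ap M ∧
        (∀ (u : MvPolynomial (Fin n) B) (v : G.ι → M), u • v = matApp (ρ u) M v) ∧
        ∀ t ∈ 𝔔, D.NullH (MvPolynomial.map φ t) := by
    intro B _ φ M _ _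
    obtain ⟨ρ, hC, hρ⟩ := QDiag_rho α φ
    have hX : ∀ i, ρ (X i) = (α (X i)).map φ := fun i => by rw [← hρ, map_X]
    obtain ⟨i1, i2, D, h1, h2, h3⟩ := QDiag_dg (G.map φ) ρ hC
      (fun i => hX i ▸ (hact _).map φ) M
    refine ⟨ρ, i1, i2, D, hC, hX, h1, h2, fun t ht => ?_⟩
    obtain ⟨h, a1, a2, a3⟩ := hnull (Ideal.Quotient.mk I t) fun y => by
      change Ideal.Quotient.mk 𝔔 t * y = 0
      rw [Ideal.Quotient.eq_zero_iff_mem.2 ht, zero_mul]
    refine h3 (h.map φ) _ (fun i j hij => a1 i j fun h0 => hij (by simp [h0])) ?_ fun i => ?_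
    · refine Eq.trans ?_ (hρ t).symm
      change G.d.map φ * h.map φ + h.map φ * G.d.map φ = (act (Ideal.Quotient.mk I t)).map φ
      rw [← a2, ← Matrix.map_mul, ← Matrix.map_mul, Matrix.map_add _ (map_add φ)]
    · change h.map φ * ρ (X i) = ρ (X i) * h.map φ
      rw [hX]
      exact Matrix.map_mul.symm.trans ((congrArg (·.map φ) (a3 _)).trans Matrix.map_mul)
  obtain ⟨ρ, i1, i2, D, hC, hX, h1, h2, -⟩ :=
    key (MvPolynomial (Fin n) A) C (MvPolynomial (Fin n) A)
  have hρ : ∀ u i j, ρ u i j ≠ 0 → G.deg i = G.deg j := fun u =>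
    (QDiag_hom (G := G.map C) ρ hC (fun i => hX i ▸ (hact _).map C) u).deg
  let E := kos fun i : Fin n => (X i - C (X i) : MvPolynomial (Fin n) (MvPolynomial (Fin n) A))
  have hid : ∀ (u : MvPolynomial (Fin n) (MvPolynomial (Fin n) A))
      (v : G.ι → MvPolynomial (Fin n) A),
      RingHom.id _ u • v = matApp ((ρ u).map (RingHom.id _)) _ v := fun u v => h2 u v
  have hdd : QDiag_d E G C ρ * QDiag_d E G C ρ = 0 := by
    have h3 := QDiag_apply E G C ρ (RingHom.id _) (RingHom.id _) D hid
      fun v => (congrArg (fun C => C.D v) h1).trans ((G.map C).ap_D v)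
    have h4 : ∀ v, matApp (QDiag_d E G C ρ * QDiag_d E G C ρ) _ v =
        (0 : E.ι × G.ι → MvPolynomial (Fin n) A) := fun v => by
      funext ⟨a, i⟩
      rw [matApp_mul]
      refine (h3 _ a i).trans ?_
      have h5 := ((E.map (RingHom.id _)).app D).DD fun a i => v (a, i)
      refine Eq.trans ?_ (congrFun (congrFun h5 a) i)
      exact congrArg (fun w => ((E.map (RingHom.id _)).app D).D w a i)
        (funext fun b => funext fun j => h3 v b j)
    refine Matrix.ext fun p q => ?_
    have := congrFun (h4 (Pi.single q 1)) p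
    rw [HDev_matApp, Matrix.mulVec_single_one] at this
    exact this
  refine ⟨G, QDiag_tot E G C ρ hρ hdd, ⟨fun i => (hdeg i).1, ε, hε⟩,
    ⟨fun p => add_nonneg (KI_deg_nonneg n p.1) (hdeg p.2).1, ?_⟩, fun B _ θ M _ _ => ?_⟩
  · obtain ⟨f₀, hf₀⟩ := (QDiag_iso E G C ρ hρ hdd (RingHom.id _) (RingHom.id _) D hid h1).qi
    let N := MvPolynomial (Fin n) A ⧸ 𝔔
    let S := MvPolynomial (Fin n) N
    let χ : MvPolynomial (Fin n) (MvPolynomial (Fin n) A) →+* S :=
      eval₂Hom (MvPolynomial.map (algebraMap A N)) fun i => C (Ideal.Quotient.mk 𝔔 (X i))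
    letI : Algebra (MvPolynomial (Fin n) (MvPolynomial (Fin n) A)) S := χ.toAlgebra
    letI : Algebra (MvPolynomial (Fin n) A) S := (MvPolynomial.map (algebraMap A N)).toAlgebra
    letI : Module (MvPolynomial (Fin n) A) S := Algebra.toModule
    haveI : IsScalarTower (MvPolynomial (Fin n) A)
        (MvPolynomial (Fin n) (MvPolynomial (Fin n) A)) S :=
      IsScalarTower.of_algebraMap_eq (R := MvPolynomial (Fin n) A)
        (S := MvPolynomial (Fin n) (MvPolynomial (Fin n) A)) (A := S) fun t =>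
          (eval₂Hom_C _ _ t).symm
    let e : MvPolynomial (Fin n) A ⊗[A] N ≃ₗ[A] S :=
      (TensorProduct.comm A _ _).trans
        ((algebraTensorAlgEquiv A N).toLinearEquiv.restrictScalars A)
    have he : ∀ t y, e (t ⊗ₜ y) = MvPolynomial.map (algebraMap A N) t * C y := fun t y => by
      simp [e, smul_eq_C_mul, mul_comm]
    let ε₁ : (G.ι → MvPolynomial (Fin n) A) →ₗ[A] S := e.toLinearMap ∘ₗ
      (ε.lTensor _ ∘ₗ (TensorProduct.piScalarRight A A (MvPolynomial (Fin n) A) G.ι).symm.toLinearMap)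
    have q₁ : QI (G.ap (MvPolynomial (Fin n) A)) (single A S) ε₁ :=
      (MC.HRes_flat (MvPolynomial (Fin n) A) (fun i => (hdeg i).1) hε).comp
        (QI.of_bijective (single_isMap _) e.bijective)
    have hε₁ : ∀ v, ε₁ v = ∑ j, MvPolynomial.map (algebraMap A N) (v j) * C (ε (Pi.single j 1)) := by
      intro v
      conv_lhs => rw [← Finset.univ_sum_single v, map_sum]
      refine Finset.sum_congr rfl fun j _ => ?_
      simp [ε₁, TensorProduct.piScalarRight_symm_single, he]
    have hlin : ∀ (u : MvPolynomial (Fin n) (MvPolynomial (Fin n) A))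
        (v : G.ι → MvPolynomial (Fin n) A), ε₁ (matApp (ρ u) _ v) = χ u * ε₁ v := by
      intro u
      induction u using MvPolynomial.induction_on with
      | C t =>
        intro v
        rw [hC, hε₁, hε₁, Finset.mul_sum]
        refine Finset.sum_congr rfl fun j _ => ?_
        simp [χ, HDev_matApp, Matrix.mulVec_diagonal, mul_assoc]
      | add u u' hu hu' =>
        intro v
        rw [map_add χ, add_mul, ← hu, ← hu', ← map_add, HDev_matApp, HDev_matApp,
          HDev_matApp, map_add ρ, Matrix.add_mulVec]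
      | mul_X u i hu =>
        intro v
        rw [map_mul ρ, matApp_mul, hu, map_mul χ, mul_assoc, hX, hε₁, hε₁]
        refine congrArg (χ u * ·) ?_
        rw [Finset.mul_sum]
        simp only [matApp_apply, map_sum, Finset.sum_mul]
        rw [Finset.sum_comm]
        refine Finset.sum_congr rfl fun l _ => ?_
        have h3 := hεa (Ideal.Quotient.mk I (X i)) (Pi.single l 1)
        have h4 : matApp (act (Ideal.Quotient.mk I (X i))) A (Pi.single l 1) =
            ∑ j, α (X i) j l • (Pi.single j 1 : G.ι → A) := by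
          funext j
          simp [HDev_matApp, Finset.sum_apply, Pi.single_apply, α]
        rw [h4, map_sum] at h3
        have h5 : χ (X i) * (MvPolynomial.map (algebraMap A N) (v l) * C (ε (Pi.single l 1))) =
            MvPolynomial.map (algebraMap A N) (v l) *
              C (Ideal.Quotient.mk I (X i) • ε (Pi.single l 1)) := by
          rw [show χ (X i) = C (Ideal.Quotient.mk 𝔔 (X i)) from eval₂Hom_X' _ _ i, mul_left_comm,
            ← map_mul]
          rfl
        rw [h5, ← h3, map_sum, Finset.mul_sum]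
        refine Finset.sum_congr rfl fun j _ => ?_
        rw [ε.map_smul, Algebra.smul_def (R := A) (A := N), map_mul C, Matrix.map_apply, smul_eq_mul,
          map_mul, map_C, mul_assoc, mul_left_comm]
    let ε₂ : (G.ι → MvPolynomial (Fin n) A) →ₗ[MvPolynomial (Fin n) (MvPolynomial (Fin n) A)] S :=
      { toFun := ε₁, map_add' := ε₁.map_add, map_smul' := fun u v => by rw [h2]; exact hlin u v }
    have hD : ∀ v, D.D v = (G.ap (MvPolynomial (Fin n) A)).D v := fun v => by
      refine ((congrArg (fun C => C.D v) h1).trans ((G.map C).ap_D v)).trans ?_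
      rw [MC.ap_D]
      funext i
      refine (matApp_apply _ _ i).trans (Eq.trans ?_ (matApp_apply _ _ i).symm)
      exact Finset.sum_congr rfl fun j _ => (smul_eq_C_mul _ _).symm
    have hπ : ∀ k v, D.π k v = (G.ap (MvPolynomial (Fin n) A)).π k v := fun k v =>
      funext fun i => ((congrArg (fun C => C.π k v i) h1).trans ((G.map C).ap_π k v i)).trans
        (G.ap_π k v i).symm
    have q₂ : QI D (single _ S) ε₂ := by
      refine ⟨⟨fun v => ?_, fun k v => ?_⟩, fun k y a1 a2 => ?_, fun k v a1 a2 z a3 => ?_⟩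
      · rw [hD]
        exact q₁.D v
      · rw [hπ, HDev_single_π]
        exact (q₁.π k v).trans (HDev_single_π k _)
      · obtain ⟨v, z, b1, b2, b3⟩ := q₁.surj k y
          ((HDev_single_π k y).trans ((HDev_single_π k y).symm.trans a1)) rfl
        exact ⟨v, z, (hπ k v).trans b1, (hD v).trans b2, b3⟩
      · obtain ⟨w, hw⟩ := q₁.inj k v ((hπ k v).symm.trans a1) ((hD v).symm.trans a2) z a3
        exact ⟨w, hw.trans (hD w).symm⟩
    have hΔ : ∀ i, χ (X i - C (X i)) = C (Ideal.Quotient.mk 𝔔 (X i)) - X i := fun i => by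
      rw [map_sub, eval₂Hom_X', eval₂Hom_C, map_X]
    have hreg : RingTheory.Sequence.IsWeaklyRegular S (List.ofFn fun i : Fin n =>
        (X i - C (X i) : MvPolynomial (Fin n) (MvPolynomial (Fin n) A))) := by
      rw [← RingTheory.Sequence.isWeaklyRegular_map_algebraMap_iff S, List.map_ofFn]
      convert QDiag_reg n fun i => Ideal.Quotient.mk 𝔔 (X i) using 2
      exact funext hΔ
    obtain ⟨ε₃, q₃⟩ := K_qi_of_reg _ S hreg
    let ev : S →ₗ[MvPolynomial (Fin n) A] N :=
      { toFun := eval fun i => Ideal.Quotient.mk 𝔔 (X i)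
        map_add' := map_add _
        map_smul' := fun t y => by
          change eval _ (MvPolynomial.map (algebraMap A N) t * y) = Ideal.Quotient.mk 𝔔 t * _
          rw [map_mul, eval_map, ← aeval_def]
          congr 1
          exact (comp_aeval_apply X (Ideal.Quotient.mkₐ A 𝔔) t).symm.trans (by simp) }
    have hker : ((sp fun i : Fin n =>
        (X i - C (X i) : MvPolynomial (Fin n) (MvPolynomial (Fin n) A))) • ⊤ :
          Submodule (MvPolynomial (Fin n) (MvPolynomial (Fin n) A)) S).restrictScalars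
            (MvPolynomial (Fin n) A) = LinearMap.ker ev := by
      ext y
      rw [Submodule.restrictScalars_mem, Ideal.smul_top_eq_map, Submodule.restrictScalars_mem]
      change y ∈ Ideal.map χ (Ideal.span (Set.range _)) ↔ eval _ y = 0
      rw [Ideal.map_span, ← Set.range_comp, show (χ ∘ fun i => X i - C (X i)) = _ from funext hΔ]
      exact QDiag_ker _ y
    let e₄ := ((Submodule.Quotient.restrictScalarsEquiv (MvPolynomial (Fin n) A) _).symm.trans
      (Submodule.quotEquivOfEq _ _ hker)).trans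
        (ev.quotKerEquivOfSurjective fun y => ⟨C y, eval_C (f := fun i => Ideal.Quotient.mk 𝔔 (X i)) y⟩)
    have q₄ := ((E.app_qi q₂).comp q₃).res (S := MvPolynomial (Fin n) A)
    rw [res_single] at q₄
    exact ⟨_, (hf₀.comp q₄).comp (HKos_single_qi e₄)⟩
  · obtain ⟨ρ', j1, j2, D', hC', hX', h1', h2', h3'⟩ := key B (θ.comp C) M
    refine ⟨j1, j2, D', h1', h3', ?_⟩
    have h4 : ρ'.comp (MvPolynomial.map θ) = θ.mapMatrix.comp ρ := by
      refine ringHom_ext (fun t => ?_) fun i => ?_
      · simp [hC, hC']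
      · simp [hX, hX', Matrix.map_map]
    have h5 := QDiag_iso E G C ρ hρ hdd θ (MvPolynomial.map θ) D'
      (fun u v => (h2' _ v).trans (by rw [← RingHom.comp_apply, h4]; rfl)) h1'
    have h6 : (fun i : Fin n => (X i - C (θ (X i)) : MvPolynomial (Fin n) B)) =
        fun i => MvPolynomial.map θ (X i - C (X i)) := by
      funext i
      simp
    rw [h6]
    have h7 : ∀ E₁ E₂ : MC (MvPolynomial (Fin n) B), E₁ = E₂ →
        ((E₁.app D').res B).Iso ((E₂.app D').res B) := by
      rintro E₁ _ rfl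
      exact Iso.refl _
    exact h5.trans (h7 _ _ (kos_map _ _))

end Crest.Agent.R188
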