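import Crest.Agent.R188.QEst
import Crest.Agent.R188.QDiag
import Crest.Agent.R188.QPow

/-!
# Positivity by reduction to the diagonal
-/

set_option autoImplicit false
set_option linter.unusedVariables false

open scoped ENNReal NNReal TensorProduct
open Filter

namespace Crest.Agent.R188

open Crest.Agent.R183 Crest.Agent.R183.DG IsLocalRing

section aux

variable {U : Type} [CommRing U] {X : Type} [AddCommGroup X] [Module U X]

theorem QPos_pow_mem {I J : Ideal U} {x : U} (h : x ∈ J ⊔ I) (m : ℕ) : x ^ m ∈ J ^ m ⊔ I := by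
  obtain ⟨a, ha, b, hb, rfl⟩ := Submodule.mem_sup.1 h
  obtain ⟨c, hc⟩ := sub_dvd_pow_sub_pow (a + b) a m
  rw [add_sub_cancel_left, sub_eq_iff_eq_add'] at hc
  rw [hc]
  exact Submodule.add_mem_sup (Ideal.pow_mem_pow ha m) (I.mul_mem_right c hb)

theorem QPos_unif {n : ℕ} {x z : Fin n → U} {I : Ideal U} (h : ∀ i, x i ∈ (sp z ⊔ I).radical) :
    ∃ a : ℕ, 1 ≤ a ∧ ∀ κ, 1 ≤ κ → ∀ i, x i ^ (a * κ) ∈ (sp fun i => z i ^ κ) ⊔ I := by
  choose c hc using h
  refine ⟨(Finset.univ.sup c + 1) * (n + 1), Nat.one_le_iff_ne_zero.2 (by positivity),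
    fun κ hκ i => ?_⟩
  have h1 := sp_pow_le_sp_pow z κ
  rw [Fintype.card_fin] at h1
  have h2 := sup_le_sup_right h1 I (QPos_pow_mem (hc i) (n * κ + 1))
  rw [← pow_mul] at h2
  refine Ideal.pow_mem_of_pow_mem _ h2 ?_
  rw [mul_assoc]
  exact Nat.mul_le_mul ((Finset.le_sup (f := c) (Finset.mem_univ i)).trans (Nat.le_succ _))
    (by rw [add_mul, one_mul]; omega)

/-- positivity of the Euler characteristic does not depend on the system of parameters -/
theorem QPos_transfer {D : DG U X} (hD : D.Bdd) (hneg : ∀ k < 0, ∀ x, D.π k x = 0) {μ : LF U}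
    {n : ℕ} {y z : Fin n → U} (ha : ∀ i, y i ∈ (sp z ⊔ D.nullI).radical)
    (hb : ∀ i, z i ∈ (sp y ⊔ D.nullI).radical)
    (hfin : ∀ κ : ℕ, (K (fun i => y i ^ κ) D).FinH μ ⊤ ⊥)
    (hhi : ∀ ε : ℝ, 0 < ε → ∀ᶠ κ : ℕ in atTop, ∀ j, 0 < j →
      (K (fun i => y i ^ κ) D).H μ j ≤ ENNReal.ofReal (ε * κ ^ n))
    {c : ℝ} (hc : 0 < c)
    (hlo : ∀ᶠ κ : ℕ in atTop, ENNReal.ofReal (c * κ ^ n) ≤ (K (fun i => y i ^ κ) D).H μ 0) :
    0 < (K z D).ech μ ⊤ ⊥ := by
  obtain ⟨a, ha1, ha2⟩ := QPos_unif ha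
  obtain ⟨b, hb1, hb2⟩ := QPos_unif hb
  obtain ⟨L, hL⟩ := QEst_K_bdd hD n
  have hf : (K z D).FinH μ ⊤ ⊥ := by
    refine finH_of_th (ne_top_of_le_ne_top ?_
      (K_th_le_rad (ys := fun i => y i ^ (a * 1)) (fun i => K_nullH _ _ ?_) μ))
    · exact ENNReal.mul_ne_top (ENNReal.pow_ne_top ENNReal.ofNat_ne_top)
        (th_ne_top (K_bdd _ hD) (hfin _))
    · simpa only [pow_one] using ha2 1 le_rfl i
  by_contra hE
  have hE' := not_lt.1 hE
  obtain ⟨ε, hε, hεc⟩ : ∃ ε : ℝ, 0 < ε ∧ 2 * L * (2 ^ n * (ε * (a * b) ^ n)) < c := by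
    obtain ⟨s, hs⟩ : ∃ s : ℝ, s = 2 * L * (2 ^ n * (a * b) ^ n) := ⟨_, rfl⟩
    have hs0 : 0 ≤ s := by rw [hs]; positivity
    refine ⟨c / (s + 1), by positivity, ?_⟩
    calc _ = c / (s + 1) * s := by rw [hs]; ring
      _ < c / (s + 1) * (s + 1) := mul_lt_mul_of_pos_left (lt_add_one s) (by positivity)
      _ = c := div_mul_cancel₀ _ (by positivity)
  have ht : Tendsto (fun κ : ℕ => a * (b * κ)) atTop atTop :=
    tendsto_atTop_mono (fun κ => (Nat.le_mul_of_pos_left κ hb1).trans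
      (Nat.le_mul_of_pos_left _ ha1)) tendsto_id
  obtain ⟨κ, h1, h2, h3⟩ := ((ht.eventually (hhi ε hε)).and (hlo.and (eventually_ge_atTop 1))).exists
  have h4 : 1 ≤ b * κ := Nat.mul_pos hb1 h3
  have h0 : (K (fun i => z i ^ (b * κ)) D).H μ 0 ≠ ⊤ :=
    ne_top_of_le_ne_top (ENNReal.mul_ne_top (ENNReal.natCast_ne_top _) (hf 0))
      (K_H_pow_le z (fun _ => b * κ) _ μ 0)
  have h5 := le_ech (c := 2 ^ n * ENNReal.ofReal (ε * (a * (b * κ) : ℕ) ^ n))
    (ENNReal.mul_ne_top (ENNReal.pow_ne_top ENNReal.ofNat_ne_top) ENNReal.ofReal_ne_top)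
    (hL (fun i => z i ^ (b * κ)) μ) h0 fun k hk => by
      rcases lt_or_gt_of_ne hk with hk | hk
      · rw [MC.H_neg (K_π_neg _ hneg) μ hk]
        exact zero_le
      · exact K_H_le_rt le_rfl (fun i => K_nullH _ _ (ha2 _ h4 i)) μ h1 hk
  have h6 := (ENNReal.ofReal_le_iff_le_toReal h0).1
    (h2.trans (K_H_zero_mono hneg (hb2 κ h3) μ))
  rw [K_ech_pow z (fun _ => b * κ) hD hf, ENNReal.toReal_mul, ENNReal.toReal_pow,
    ENNReal.toReal_ofNat, ENNReal.toReal_ofReal (by positivity)] at h5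
  have h7 := mul_nonpos_of_nonneg_of_nonpos
    (Nat.cast_nonneg (α := ℝ) (∏ _i : Fin n, b * κ)) hE'
  have h8 := mul_lt_mul_of_pos_right hεc (pow_pos (Nat.cast_pos.2 h3 : (0 : ℝ) < κ) n)
  have h9 : (2 * L * (2 ^ n * (ε * ((a * (b * κ) : ℕ) : ℝ) ^ n)) : ℝ) =
      2 * L * (2 ^ n * (ε * (a * b) ^ n)) * (κ : ℝ) ^ n := by
    push_cast
    ring
  linarith

theorem QPos_res_map {R S : Type} [CommRing R] [CommRing S] (f : R →+* S) (hf : f.Flat)
    (I : Ideal R) {E : MC R} (h : E.IsRes (R ⧸ I)) : (E.map f).IsRes (S ⧸ I.map f) := by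
  let _ := f.toAlgebra
  have : Module.Flat R S := hf
  exact (h.map (B' := S)).congr
    (Algebra.TensorProduct.quotIdealMapEquivTensorQuot S I).symm.toLinearEquiv

theorem QPos_K_res {B : Type} [CommRing B] [Algebra B U] [Module B X] [IsScalarTower B U X]
    (D : DG U X) {n : ℕ} (y : Fin n → B) (ν : LF B) (κ : ℕ) (k : ℤ) :
    (K (fun i => algebraMap B U (y i) ^ κ) D).H (ν.comap (algebraMap B U)) k =
      (K (fun i => y i ^ κ) (D.res B)).H ν k := by
  have h1 := res_H B (((kos fun i => y i ^ κ).map (algebraMap B U)).app D) ν k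
  have h2 : (kos fun i => y i ^ κ).map (algebraMap B U) =
      kos fun i => algebraMap B U (y i) ^ κ := by
    rw [kos_map]
    simp only [map_pow]
  have h3 := congrArg (fun E : MC U => (E.app D).H (ν.comap (algebraMap B U)) k) h2
  exact h3.symm.trans (h1.trans
    (congrArg (fun C => DG.H C ν k) (MC.map_app_res (kos fun i => y i ^ κ) D)))

end aux

theorem pos_diag {A : Type} [CommRing A] [IsNoetherianRing A] [IsLocalRing A]
    [IsAdicComplete (maximalIdeal A) A] {e : ℕ} {x : Fin e → A} (hx : RegL A x) {n : ℕ}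
    (𝔔 : Ideal (MvPowerSeries (Fin n) A)) [Module.Finite A (MvPowerSeries (Fin n) A ⧸ 𝔔)]
    {r : ℕ} (η : Fin r → A) (hη : RingTheory.Sequence.IsWeaklyRegular A (List.ofFn η))
    (hp : (sp η).IsPrime) (hker : 𝔔.comap MvPowerSeries.C = sp η)
    {F : MC (MvPowerSeries (Fin n) A)} (hF : F.IsRes (MvPowerSeries (Fin n) A ⧸ 𝔔))
    {B : Type} [CommRing B] (θ : MvPowerSeries (Fin n) A →+* B) (ν : LF B) (M : Type)
    [AddCommGroup M] [Module B M] (y : Fin n → B)
    (h₁ : ∀ t ∈ maximalIdeal (MvPowerSeries (Fin n) A), ∃ c : ℕ,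
      θ t ^ c ∈ sp y ⊔ sp fun j => θ (MvPowerSeries.C (η j)))
    (h₂ : ∀ i, ∃ c : ℕ, y i ^ c ∈ 𝔔.map θ)
    (h : AReg (θ.comp MvPowerSeries.C) η y ν M) : 0 < (F.map θ).chi ν M := by
  obtain ⟨hq1, -, e₀, hq3⟩ := exists_poly_ideal 𝔔
  have hflat := flat_mvPowerSeries A n
  have hιC : ∀ a : A, (MvPolynomial.coeToMvPowerSeries.ringHom :
      MvPolynomial (Fin n) A →+* MvPowerSeries (Fin n) A) (MvPolynomial.C a) =
      MvPowerSeries.C a := fun a => MvPolynomial.coe_C a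
  have hιX : ∀ i, (MvPolynomial.coeToMvPowerSeries.ringHom :
      MvPolynomial (Fin n) A →+* MvPowerSeries (Fin n) A) (MvPolynomial.X i) =
      MvPowerSeries.X i := fun i => MvPolynomial.coe_X i
  generalize (MvPolynomial.coeToMvPowerSeries.ringHom :
      MvPolynomial (Fin n) A →+* MvPowerSeries (Fin n) A) = ι at hq1 hq3 hflat hιC hιX
  have hmem : ∀ a : A, MvPolynomial.C a ∈ 𝔔.comap ι ↔ a ∈ sp η := fun a => by
    rw [Ideal.mem_comap, hιC, ← hker, Ideal.mem_comap]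
  have hfin : Module.Finite A (MvPolynomial (Fin n) A ⧸ 𝔔.comap ι) := by
    let j : (MvPolynomial (Fin n) A ⧸ 𝔔.comap ι) →ₗ[A] (MvPowerSeries (Fin n) A ⧸ 𝔔) :=
      { toFun := Ideal.quotientMap 𝔔 ι le_rfl
        map_add' := map_add _
        map_smul' := fun a t => by
          obtain ⟨t, rfl⟩ := Ideal.Quotient.mk_surjective t
          change Ideal.Quotient.mk 𝔔 (ι (a • t)) = Ideal.Quotient.mk 𝔔 (a • ι t)
          rw [MvPolynomial.smul_eq_C_mul, MvPowerSeries.smul_eq_C_mul, map_mul ι, hιC] }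
    exact Module.Finite.of_injective j Ideal.quotientMap_injective
  have hφ : θ.comp MvPowerSeries.C = (θ.comp ι).comp MvPolynomial.C :=
    RingHom.ext fun a => congrArg θ (hιC a).symm
  have hφ' : ∀ a, ((θ.comp ι).comp MvPolynomial.C) a = θ (MvPowerSeries.C a) := fun a => by
    rw [← hφ]; rfl
  rw [hφ] at h
  obtain ⟨G, F₀, hG, hF₀, hD⟩ := exists_diag hx (𝔔.comap ι)
  obtain ⟨_, _, D, hD1, hD2, hD3⟩ := hD B (θ.comp ι) M
  have hF₁ := QPos_res_map ι hflat _ hF₀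
  rw [hq1] at hF₁
  obtain ⟨f, hf⟩ := QEst_res_qi θ hF hF₁ (single B M)
  have hN : ∀ j (t : MvPolynomial (Fin n) A ⧸ 𝔔.comap ι), η j • t = 0 := fun j t => by
    obtain ⟨t, rfl⟩ := Ideal.Quotient.mk_surjective t
    change Ideal.Quotient.mk _ (η j • t) = 0
    rw [Ideal.Quotient.eq_zero_iff_mem, MvPolynomial.smul_eq_C_mul]
    exact Ideal.mul_mem_right _ _ ((hmem _).2 (Ideal.subset_span ⟨j, rfl⟩))
  obtain ⟨c, hc, hlo⟩ := h.low_res hx.hasRes hη hp hN 1 (fun a ha => by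
    change Ideal.Quotient.mk _ (a • 1) = 0 at ha
    rw [Ideal.Quotient.eq_zero_iff_mem, ← MvPolynomial.C_eq_smul_one] at ha
    exact (hmem a).1 ha) hG
  have hπ : ∀ k v, D.π k v = ((G.map ((θ.comp ι).comp MvPolynomial.C)).ap M).π k v :=
    fun k v => by rw [← hD1]; rfl
  have hK := QPos_K_res D y ν
  rw [hD1] at hK
  have e1 : (F.map θ).chi ν M =
      (K (fun i => MvPolynomial.X i - MvPolynomial.C ((θ.comp ι) (MvPolynomial.X i))) D).ech
        (ν.comap (algebraMap B (MvPolynomial (Fin n) B))) ⊤ ⊥ := by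
    refine (hf.ech_eq ν).trans ?_
    rw [MC.map_map]
    exact (hD3.ech_eq ν).trans (ech_congr fun k => (res_H B _ ν k).symm)
  rw [e1]
  refine QPos_transfer (y := fun i => algebraMap B (MvPolynomial (Fin n) B) (y i)) ?_ ?_
    (fun i => ?_) (fun i => ?_) (fun κ k => ?_) (fun ε hε => ?_) hc ?_
  · obtain ⟨L, hL⟩ := MC.ap_bdd (G.map ((θ.comp ι).comp MvPolynomial.C)) M
    exact ⟨L, fun k hk v => (hπ k v).trans (hL k hk v)⟩
  · exact fun k hk v => (hπ k v).trans (MC.app_π_neg (G.map ((θ.comp ι).comp MvPolynomial.C))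
      (C := single B M) hG.1 QEst_single_neg k hk v)
  · obtain ⟨c', hc'⟩ := h₂ i
    refine ⟨c', ?_⟩
    rw [← hq1, Ideal.map_map] at hc'
    rw [← map_pow]
    refine Ideal.mem_comap.1 ((Ideal.map_le_iff_le_comap.2 fun t ht => ?_ :
      _ ≤ Ideal.comap (algebraMap B (MvPolynomial (Fin n) B)) _) hc')
    obtain ⟨J, hJ⟩ : ∃ J : Ideal (MvPolynomial (Fin n) B), J = sp fun i =>
      MvPolynomial.X i - MvPolynomial.C ((θ.comp ι) (MvPolynomial.X i)) := ⟨_, rfl⟩
    have h1 : (Ideal.Quotient.mk J).comp (MvPolynomial.map ((θ.comp ι).comp MvPolynomial.C)) =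
        (Ideal.Quotient.mk J).comp (MvPolynomial.C.comp (θ.comp ι)) := by
      refine MvPolynomial.ringHom_ext (fun a => ?_) fun i => ?_
      · rw [RingHom.comp_apply, MvPolynomial.map_C]
        rfl
      · rw [RingHom.comp_apply, MvPolynomial.map_X]
        exact Ideal.Quotient.eq.2 (hJ ▸ Ideal.subset_span ⟨i, rfl⟩)
    have h2 := Ideal.Quotient.eq.1 (RingHom.congr_fun h1 t).symm
    rw [← hJ]
    have h3 := Submodule.add_mem_sup h2 (mem_nullI.2 (hD2 t ht))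
    rw [sub_add_cancel] at h3
    exact h3
  · obtain ⟨J, hJ⟩ : ∃ J : Ideal (MvPolynomial (Fin n) B),
      J = (sp fun i => algebraMap B (MvPolynomial (Fin n) B) (y i)) ⊔ D.nullI := ⟨_, rfl⟩
    rw [← hJ]
    have hJ1 : ∀ t ∈ 𝔔.comap ι, MvPolynomial.map ((θ.comp ι).comp MvPolynomial.C) t ∈ J :=
      fun t ht => hJ ▸ Ideal.mem_sup_right (mem_nullI.2 (hD2 t ht))
    have hJ2 : ∀ t ∈ maximalIdeal (MvPowerSeries (Fin n) A),
        (MvPolynomial.C (θ t) : MvPolynomial (Fin n) B) ∈ J.radical := fun t ht => by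
      obtain ⟨c', hc'⟩ := h₁ t ht
      refine ⟨c', ?_⟩
      rw [← map_pow]
      refine (sup_le (Ideal.span_le.2 (Set.range_subset_iff.2 fun i => ?_))
        (Ideal.span_le.2 (Set.range_subset_iff.2 fun j => ?_)) : _ ≤ J.comap MvPolynomial.C) hc'
      · exact hJ ▸ Ideal.mem_sup_left (Ideal.subset_span ⟨i, rfl⟩)
      · have h1 := hJ1 _ ((hmem (η j)).2 (Ideal.subset_span ⟨j, rfl⟩))
        rw [MvPolynomial.map_C, hφ'] at h1
        exact h1
    refine Ideal.sub_mem _ ?_ ?_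
    · refine Ideal.radical_idem J ▸ ⟨e₀, ?_⟩
      have h1 : 𝔔.comap ι ⊔ (maximalIdeal A).map MvPolynomial.C ≤
          J.radical.comap (MvPolynomial.map ((θ.comp ι).comp MvPolynomial.C)) := by
        refine sup_le (fun t ht => Ideal.le_radical (hJ1 t ht))
          (Ideal.map_le_iff_le_comap.2 fun a ha => ?_)
        rw [Ideal.mem_comap, Ideal.mem_comap, MvPolynomial.map_C, hφ']
        refine hJ2 _ fun hu => ha ?_
        simpa using MvPowerSeries.isUnit_iff_constantCoeff.1 hu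
      have h2 := h1 (hq3 i)
      rwa [Ideal.mem_comap, map_pow, MvPolynomial.map_X] at h2
    · rw [RingHom.comp_apply, hιX]
      refine hJ2 _ fun hu => ?_
      simpa using MvPowerSeries.isUnit_iff_constantCoeff.1 hu
  · exact (hK κ k).trans_ne (h.finH (fun j => hG.null (hN j)) κ k)
  · filter_upwards [h.high_res hx.hasRes hη hp hN hG ε hε] with κ hκ j hj
    exact (hK κ j).trans_le (hκ j hj)
  · filter_upwards [hlo] with κ hκ
    exact hκ.trans_eq (hK κ 0).symm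

end Crest.Agent.R188
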