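import Crest.Agent.R188.BBar
import Crest.Agent.R188.QPos
import Crest.Agent.R188.HChange
import Crest.Agent.R188.BRegAux

/-!
# Positivity on the untilt
-/

set_option autoImplicit false
set_option linter.unusedVariables false

open scoped ENNReal NNReal TensorProduct
open Filter

namespace Crest.Agent.R188

open Crest.Agent.R183 Crest.Agent.R183.DG IsLocalRing WittVector

variable {p : ℕ} [Fact p.Prime] {k : Type} [Field k] [CharP k p] [PerfectRing k p]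

namespace Cov

variable {X : Base p k} (Y : Cov X)

theorem BReg_max_O : (maximalIdeal X.Λ).map ((constantCoeff : Y.A →+* Y.O).comp Y.θ₀) =
    sp Y.s := by
  rw [BReg_max_map, CharP.cast_eq_zero, Ideal.span_singleton_zero, bot_sup_eq]
  congr 2
  funext i
  rw [RingHom.comp_apply, Y.hθ₀]
  rfl

theorem BReg_max_A : (maximalIdeal X.Λ).map Y.θ₀ =
    Ideal.span {(p : Y.A)} ⊔ sp fun i => teichmuller p (Y.s i) := by
  rw [BReg_max_map]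
  simp only [Y.hθ₀]

theorem BReg_cnt_O (Γ : Ideal Y.O) (hΓ : Y.νO.sz Γ (sp Y.s * Γ) ≠ ⊤) (N : ℕ) : ∃ C : ℕ, ∀ ρ : ℕ,
    Y.νO.sz Γ ((Ideal.span {Y.s 0 ^ N} ⊔ sp Y.s ^ ρ) * Γ) ≤ (C * (ρ + 1) ^ X.a₀ : ℕ) := by
  have h := BReg_cnt ((constantCoeff : Y.A →+* Y.O).comp Y.θ₀) Y.νO Γ
    (by rwa [Y.BReg_max_O]) _ _ (BReg_dim_pX p k X.a₀ N)
  rw [Y.BReg_max_O, Ideal.map_sup, Ideal.map_span, Ideal.map_span, Set.image_singleton,
    Set.image_singleton, map_natCast, CharP.cast_eq_zero, Ideal.span_singleton_zero, bot_sup_eq,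
    map_pow, RingHom.comp_apply, Y.hθ₀] at h
  exact h

theorem BReg_fin_O (Γ : Ideal Y.O) (hΓ : Y.νO.sz Γ (sp Y.s * Γ) ≠ ⊤) (ρ : ℕ) :
    Y.νO.sz Γ (sp Y.s ^ ρ * Γ) ≠ ⊤ := by
  have h := BReg_fin ((constantCoeff : Y.A →+* Y.O).comp Y.θ₀) Y.νO Γ
    (by rwa [Y.BReg_max_O]) ρ
  rw [Y.BReg_max_O] at h
  exact h

theorem BReg_top : Y.νO.sz (⊤ : Ideal Y.O) (sp Y.s * ⊤) ≠ ⊤ := by
  rw [Ideal.mul_top, LF.sz_top]
  exact Y.r_ne_top

theorem BReg_pow_mul (w : Fin (2 * X.m + 1) → ℕ) (κ ρ : ℕ) :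
    sp Y.s ^ κ * Y.Γ w ρ ≤ Y.Γ w (κ + ρ) := by
  have h := Y.pf.Iw_mul_le 0 w κ ρ
  rwa [Iw_zero, Ideal.top_mul, zero_add] at h

theorem BReg_pow_le (ρ : ℕ) : sp Y.s ^ ρ ≤ Y.Γ 0 ρ := by
  have h := Y.BReg_pow_mul 0 ρ 0
  rwa [Y.pf.top, Ideal.mul_top] at h

theorem BReg_ak (κ : ℕ) {j : ℤ} (hj : 0 < j) :
    (K (fun i => Y.s i ^ κ) (single Y.O Y.O)).H Y.νO j = 0 := by
  have h := K_H_pow_le Y.s (fun _ => κ) (single Y.O Y.O) Y.νO j
  rw [Y.ak j hj, mul_zero] at h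
  exact le_antisymm h zero_le

/-- the higher Koszul homology of the real powers is of lower order -/
theorem K_high (w : Fin (2 * X.m + 1) → ℕ) : ∃ C : ℕ, ∀ κ : ℕ, ∀ j, 0 < j →
    (K (fun i => Y.s i ^ κ) (single Y.O (Y.Γ w 0))).H Y.νO j ≤ (C * (κ + 1) ^ X.a₀ : ℕ) := by
  obtain ⟨N, hN⟩ := Y.pow_mem_Γ w 0
  obtain ⟨C₁, hC₁⟩ := Y.BReg_cnt_O (Y.Γ w 0) (Y.mbar w) N
  obtain ⟨C₂, hC₂⟩ := Y.BReg_cnt_O ⊤ Y.BReg_top N
  refine ⟨2 ^ (X.a₀ + 1) * ((C₁ + C₂) * (X.a₀ + 1 + 1 + 2) ^ X.a₀), fun κ j hj => ?_⟩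
  rcases Nat.eq_zero_or_pos κ with rfl | hκ
  · have h := K_H_pow_le Y.s (fun _ => 0) (single Y.O (Y.Γ w 0)) Y.νO j
    rw [Finset.prod_eq_zero (Finset.mem_univ 0) rfl, Nat.cast_zero, zero_mul] at h
    exact h.trans zero_le
  have hs : ∀ w' ρ, sp (fun i => Y.s i ^ κ) * Y.Γ w' ρ ≤ Y.Γ w' (κ + ρ) := fun w' ρ =>
    (Ideal.mul_mono_left (sp_pow_le_pow _ _)).trans (Y.BReg_pow_mul w' κ ρ)
  have har : ∀ (C ρ : ℕ), ρ ≤ κ * (X.a₀ + 1 + 1) → ((C * (ρ + 1) ^ X.a₀ : ℕ) : ℝ≥0∞) ≤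
      (C * (X.a₀ + 1 + 1 + 2) ^ X.a₀ * (κ + 1) ^ X.a₀ : ℕ) := fun C ρ hρ =>
    Nat.cast_le.2 (BReg_arith _ _ _ _ _ (hρ.trans ((mul_comm _ _).trans_le (Nat.le_succ _))))
  refine (BReg_high Y.νO _ (Y.Γ w) (Y.Γ 0) (fun ρ => Y.pf.anti _ _ _ _ le_rfl (Nat.zero_le _))
    (fun ρ => Y.pf.anti _ _ _ _ zero_le le_rfl) (hs w) (hs 0) (Y.pf.kv κ w hκ)
    (Y.pf.kv κ 0 hκ) (Y.BReg_ak κ hj) (fun ρ hρ => le_trans ?_ (har C₁ ρ hρ))
    (fun ρ hρ => le_trans ?_ (har C₂ ρ hρ))).trans_eq ?_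
  · refine (sz_le_of_smul_mem Y.νO (Y.BReg_fin_O _ (Y.mbar w) ρ) inf_le_left
      (Y.BReg_pow_mul w ρ 0) (Y.s 0 ^ N) fun x hx => ?_).trans (le_trans (le_of_eq ?_) (hC₁ ρ))
    · have h := Y.pf.mul w 0 0 ρ (Ideal.mul_mem_mul hN hx.2)
      rwa [add_zero, zero_add] at h
    · rw [Ideal.sup_mul, sup_comm, smul_eq_mul]
  · refine le_trans (Y.νO.sz_mono le_rfl ?_) (hC₂ ρ)
    rw [Ideal.mul_top]
    exact sup_le_sup ((Ideal.span_singleton_le_iff_mem _).2 hN) (Y.BReg_pow_le ρ)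
  · push_cast
    ring

theorem K_fin (w : Fin (2 * X.m + 1) → ℕ) :
    (K Y.s (single Y.O (Y.Γ w 0))).FinH Y.νO ⊤ ⊥ := by
  intro j
  rcases lt_trichotomy j 0 with hj | rfl | hj
  · exact (K_single_H_eq_zero Y.s _ Y.νO (Or.inl hj)).trans_ne ENNReal.zero_ne_top
  · refine (K_H_zero_single Y.s _ Y.νO).trans_ne ?_
    rw [BReg_val_quot]
    exact Y.mbar w
  · obtain ⟨C, hC⟩ := Y.K_high w
    have h := hC 1 j hj
    rw [show (fun i => Y.s i ^ 1) = Y.s from funext fun i => pow_one _] at h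
    exact ne_top_of_le_ne_top (ENNReal.natCast_ne_top _) h

theorem BReg_quot_pow (κ : ℕ) : Y.νO.sz ⊤ (sp fun i => Y.s i ^ κ) ≠ ⊤ ∧
    (Y.νO.sz ⊤ (sp fun i => Y.s i ^ κ)).toReal =
      κ ^ (X.a₀ + 1) * (Y.νO.val (Y.O ⧸ sp Y.s)).toReal := by
  have h0 : ∀ y : Fin (X.a₀ + 1) → Y.O, (K y (single Y.O Y.O)).H Y.νO 0 = Y.νO.val (Y.O ⧸ sp y) :=
    fun y => by rw [K_H_zero_single, smul_eq_mul, Ideal.mul_top]
  have h1 : ∀ κ : ℕ, (K (fun i => Y.s i ^ κ) (single Y.O Y.O)).ech Y.νO ⊤ ⊥ =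
      (Y.νO.val (Y.O ⧸ sp fun i => Y.s i ^ κ)).toReal := fun κ => by
    rw [ech_eq_single 0 fun j hj => ?_, ← h0]
    · simp [sg]
    · rcases lt_or_gt_of_ne hj with hj | hj
      · exact K_single_H_eq_zero _ _ _ (Or.inl hj)
      · exact Y.BReg_ak κ hj
  have h2 : (K Y.s (single Y.O Y.O)).FinH Y.νO ⊤ ⊥ := fun j => by
    rcases lt_trichotomy j 0 with hj | rfl | hj
    · exact (K_single_H_eq_zero Y.s _ Y.νO (Or.inl hj)).trans_ne ENNReal.zero_ne_top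
    · exact (h0 _).trans_ne Y.r_ne_top
    · exact (Y.ak j hj).trans_ne ENNReal.zero_ne_top
  rw [LF.sz_top]
  refine ⟨?_, ?_⟩
  · rw [← h0]
    exact ne_top_of_le_ne_top (ENNReal.mul_ne_top (ENNReal.natCast_ne_top _) (h2 0))
      (K_H_pow_le Y.s (fun _ => κ) (single Y.O Y.O) Y.νO 0)
  · have h3 := h1 1
    rw [show (fun i => Y.s i ^ 1) = Y.s from funext fun i => pow_one _] at h3
    rw [← h1, K_ech_pow Y.s (fun _ => κ) (single_bdd _) h2, h3]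
    simp

theorem K_pos (w : Fin (2 * X.m + 1) → ℕ) :
    0 < (K Y.s (single Y.O (Y.Γ w 0))).ech Y.νO ⊤ ⊥ := by
  obtain ⟨N, hN⟩ := Y.pow_mem_Γ w 0
  obtain ⟨C₁, hC₁⟩ := Y.K_high w
  obtain ⟨C₂, hC₂⟩ := Y.BReg_cnt_O ⊤ Y.BReg_top N
  refine BReg_pos (δ := X.a₀) (ENNReal.toReal_pos Y.r_ne_zero Y.r_ne_top)
    (C := (C₂ * (X.a₀ + 1 + 2) ^ X.a₀ : ℕ) + 2 * (X.a₀ + 1 : ℕ) * C₁) fun κ => ?_
  have h0 : (K (fun i => Y.s i ^ κ) (single Y.O (Y.Γ w 0))).H Y.νO 0 ≠ ⊤ :=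
    ne_top_of_le_ne_top (ENNReal.mul_ne_top (ENNReal.natCast_ne_top _) (Y.K_fin w 0))
      (K_H_pow_le Y.s (fun _ => κ) _ Y.νO 0)
  have h1 := le_ech (C := K (fun i => Y.s i ^ κ) (single Y.O (Y.Γ w 0))) (μ := Y.νO)
    (L := X.a₀ + 1) (ENNReal.natCast_ne_top (C₁ * (κ + 1) ^ X.a₀))
    (fun j hj => K_single_H_eq_zero _ _ _ (by
      rcases lt_abs.1 hj with h | h
      · exact Or.inr h
      · exact Or.inl (by omega))) h0 fun j hj => by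
      rcases lt_or_gt_of_ne hj with hj | hj
      · exact (K_single_H_eq_zero _ _ _ (Or.inl hj)).trans_le zero_le
      · exact hC₁ κ j hj
  rw [K_ech_pow Y.s (fun _ => κ) (single_bdd _) (Y.K_fin w), ENNReal.toReal_natCast] at h1
  obtain ⟨h2, h3⟩ := Y.BReg_quot_pow κ
  have h4 : Y.νO.sz ⊤ (sp fun i => Y.s i ^ κ) ≤
      (K (fun i => Y.s i ^ κ) (single Y.O (Y.Γ w 0))).H Y.νO 0 +
        (C₂ * (X.a₀ + 1 + 2) ^ X.a₀ * (κ + 1) ^ X.a₀ : ℕ) := by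
    rw [Y.νO.sz_tower_left (le_top : Y.Γ w 0 ≤ ⊤), K_H_zero_single, BReg_val_quot]
    refine add_le_add (Y.νO.sz_mono le_rfl Ideal.mul_le_left) ?_
    refine le_trans (le_trans (Y.νO.sz_mono le_rfl ?_) (hC₂ ((X.a₀ + 1) * κ + 1)))
      (Nat.cast_le.2 (BReg_arith _ _ _ _ _ le_rfl))
    rw [Ideal.mul_top]
    refine sup_le_sup ((Ideal.span_singleton_le_iff_mem _).2 hN) ?_
    simpa using sp_pow_le_sp_pow Y.s κ
  have h5 := ENNReal.toReal_mono (ENNReal.add_ne_top.2 ⟨h0, ENNReal.natCast_ne_top _⟩) h4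
  rw [ENNReal.toReal_add h0 (ENNReal.natCast_ne_top _), ENNReal.toReal_natCast, h3] at h5
  simp only [Finset.prod_const, Finset.card_univ, Fintype.card_fin] at h1
  push_cast at h1 h5 ⊢
  linarith

theorem BReg_H_cons (w : Fin (2 * X.m + 1) → ℕ) (z : Fin (X.a₀ + 1) → Y.O)
    (y : Fin (X.a₀ + 1 + 1) → Y.A) (h0 : y 0 = p) (h1 : ∀ i, y i.succ = teichmuller p (z i))
    (j : ℤ) : (K y (single Y.A (WI p (Y.Γ w 0)))).H Y.ν j =
      (K z (single Y.O (Y.Γ w 0))).H Y.νO j := by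
  rw [(K_succ_iso' y _).H_eq, h0, show Fin.tail y = fun i => teichmuller p (z i) from funext h1]
  exact BReg_H_cone (Y.pf.cvx w 0) z Y.ν j

theorem BReg_gen (w : Fin (2 * X.m + 1) → ℕ) (P : Ideal X.Λ) (hP : P.IsPrime) {δ : ℕ}
    (hd : ringKrullDim (X.Λ ⧸ P) ≤ (δ + 1 : ℕ)) (y : Fin (δ + 1) → Y.A)
    (hy : (maximalIdeal X.Λ).map Y.θ₀ ≤ sp y ⊔ P.map Y.θ₀) {x : X.Λ} (hx : x ∉ P) {ε : ℝ}
    (hε : 0 < ε) : ∀ᶠ κ : ℕ in atTop, Y.ν.val (WI p (Y.Γ w 0) ⧸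
      ((P.map Y.θ₀ ⊔ Ideal.span {Y.θ₀ x} ⊔ sp fun i => y i ^ κ) • ⊤ :
        Submodule Y.A (WI p (Y.Γ w 0)))) ≤ ENNReal.ofReal (ε * κ ^ (δ + 1)) := by
  obtain ⟨C, hC⟩ := BReg_cnt Y.θ₀ Y.ν (WI p (Y.Γ w 0))
    (by rw [Y.BReg_max_A]; exact Y.mbar_W w) _ _ (BReg_dim hP hx hd)
  filter_upwards [BReg_ev (C * (δ + 1 + 2) ^ δ) δ hε] with κ hκ
  rw [BReg_val_quot]
  refine le_trans (le_trans (Y.ν.sz_mono le_rfl (Submodule.smul_mono_left ?_))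
    (hC ((δ + 1) * κ + 1))) (le_trans (Nat.cast_le.2 (BReg_arith _ _ _ _ _ le_rfl)) hκ)
  rw [Ideal.map_sup, Ideal.map_span, Set.image_singleton]
  refine sup_le le_sup_left ((Ideal.pow_right_mono hy _).trans ?_)
  have h1 : (sp y ⊔ P.map Y.θ₀) ^ ((δ + 1) * κ + 1) ≤ sp y ^ ((δ + 1) * κ + 1) ⊔ P.map Y.θ₀ :=
    BReg_sup_pow _ _ _
  refine h1.trans (sup_le (le_trans ?_ le_sup_right) (le_sup_left.trans le_sup_left))
  simpa using sp_pow_le_sp_pow y κ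

theorem BReg_areg (w : Fin (2 * X.m + 1) → ℕ) {A' : Type} [CommRing A'] (φ : A' →+* Y.A)
    (ι : A' →+* X.Λ) (hφ : ∀ a, Y.θ₀ (ι a) = φ a) {r n : ℕ} (η : Fin r → A')
    (hη : ∀ j, η j = p) (hcase : (r = 0 ∧ n = X.a₀ + 2) ∨ (r = 1 ∧ n = X.a₀ + 1))
    (hι : ∀ x ∉ sp η, ι x ∉ sp fun j => ι (η j)) : ∃ y : Fin n → Y.A,
    (∀ i, y i = p ∨ ∃ j, y i = teichmuller p (Y.s j)) ∧
    ((sp y ⊔ sp fun j => φ (η j)) =
      Ideal.span {(p : Y.A)} ⊔ sp fun i => teichmuller p (Y.s i)) ∧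
    AReg φ η y Y.ν (WI p (Y.Γ w 0)) := by
  obtain ⟨C, hC⟩ := Y.K_high w
  have hmap : (sp fun j => ι (η j)).map Y.θ₀ = sp fun j => φ (η j) := by
    rw [Ideal.map_span, ← Set.range_comp]
    congr 2
    exact funext fun j => hφ _
  rcases hcase with ⟨rfl, rfl⟩ | ⟨rfl, rfl⟩
  · let y : Fin (X.a₀ + 1 + 1) → Y.A := Fin.cons p fun i => teichmuller p (Y.s i)
    have hsp : (sp y ⊔ sp fun j => φ (η j)) =
        Ideal.span {(p : Y.A)} ⊔ sp fun i => teichmuller p (Y.s i) := by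
      rw [HKos_sp_zero fun j => φ (η j), sup_bot_eq, HKos_sp_succ]
      rfl
    have hH : ∀ (z : Fin (X.a₀ + 1 + 1) → Y.A) j,
        (K z (K (fun j => φ (η j)) (single Y.A (WI p (Y.Γ w 0))))).H Y.ν j =
          (K z (single Y.A (WI p (Y.Γ w 0)))).H Y.ν j := fun z j =>
      ((kos z).app_iso (K_zero_iso _ _)).H_eq _ _
    have hH' : ∀ j, (K y (K (fun j => φ (η j)) (single Y.A (WI p (Y.Γ w 0))))).H Y.ν j =
        (K Y.s (single Y.O (Y.Γ w 0))).H Y.νO j := fun j =>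
      (hH y j).trans (Y.BReg_H_cons w Y.s y rfl (fun _ => rfl) j)
    refine ⟨y, fun i => ?_, hsp, fun j => (hH' j).trans_ne (Y.K_fin w j),
      (Y.K_pos w).trans_eq (ech_congr hH').symm, fun ε hε => ?_, fun x hx ε hε => ?_⟩
    · induction i using Fin.cases with
      | zero => exact Or.inl rfl
      | succ i => exact Or.inr ⟨i, rfl⟩
    · filter_upwards [BReg_ev C (X.a₀ + 1) hε] with κ hκ j hj
      let z : Fin (X.a₀ + 1 + 1) → Y.A := Fin.cons p fun i => teichmuller p (Y.s i ^ κ)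
      let e : Fin (X.a₀ + 1 + 1) → ℕ := Fin.cons κ fun _ => 1
      have e1 : (fun i => y i ^ κ) = fun i => z i ^ e i := by
        funext i
        induction i using Fin.cases with
        | zero => rfl
        | succ i => exact (map_pow _ _ _).symm.trans (pow_one _).symm
      have e2 : ∏ i, e i = κ := by simp [e, Fin.prod_univ_succ]
      rw [hH, e1]
      refine (K_H_pow_le z e _ _ _).trans (le_trans ?_ hκ)
      rw [e2, Y.BReg_H_cons w (fun i => Y.s i ^ κ) z rfl (fun _ => rfl) j]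
      refine (mul_le_mul_right (hC κ j hj) _).trans ?_
      rw [← Nat.cast_mul]
      refine Nat.cast_le.2 ?_
      rw [pow_succ, mul_comm, ← mul_assoc]
      exact Nat.mul_le_mul_left _ (Nat.le_succ _)
    · have := BReg_isDomain p k (X.a₀ + 1)
      have hb : (sp fun j => ι (η j)) = ⊥ := HKos_sp_zero _
      rw [← hmap, ← hφ]
      refine Y.BReg_gen w _ (by rw [hb]; exact Ideal.isPrime_bot)
        (by rw [hb]; exact BReg_dim_bot p k _) y ?_ (hι x hx) hε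
      rw [hmap, hsp, Y.BReg_max_A]
  · have hη' : (fun j => φ (η j)) = fun _ => (p : Y.A) := funext fun j => by
      rw [hη, map_natCast]
    have hsp : ((sp fun i => teichmuller p (Y.s i)) ⊔ sp fun j => φ (η j)) =
        Ideal.span {(p : Y.A)} ⊔ sp fun i => teichmuller p (Y.s i) := by
      rw [hη', sup_comm, sp, Set.range_const]
    have hH : ∀ (z : Fin (X.a₀ + 1) → Y.O) j, (K (fun i => teichmuller p (z i))
        (K (fun j => φ (η j)) (single Y.A (WI p (Y.Γ w 0))))).H Y.ν j =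
          (K z (single Y.O (Y.Γ w 0))).H Y.νO j := fun z j => by
      rw [hη', ((kos _).app_iso ((K_succ_iso' _ _).trans (K_zero_iso _ _))).H_eq]
      exact BReg_H_cone (Y.pf.cvx w 0) z Y.ν j
    refine ⟨fun i => teichmuller p (Y.s i), fun i => Or.inr ⟨i, rfl⟩, hsp,
      fun j => (hH Y.s j).trans_ne (Y.K_fin w j),
      (Y.K_pos w).trans_eq (ech_congr (hH Y.s)).symm, fun ε hε => ?_, fun x hx ε hε => ?_⟩
    · filter_upwards [BReg_ev C X.a₀ hε] with κ hκ j hj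
      rw [show (fun i => teichmuller p (Y.s i) ^ κ) = fun i => teichmuller p (Y.s i ^ κ) from
        funext fun i => (map_pow _ _ _).symm, hH]
      exact (hC κ j hj).trans hκ
    · have hb : (sp fun j => ι (η j)) = Ideal.span {(p : X.Λ)} := by
        rw [show (fun j => ι (η j)) = fun _ => (p : X.Λ) from funext fun j => by
          rw [hη, map_natCast], sp, Set.range_const]
      rw [← hmap, ← hφ]
      refine Y.BReg_gen w _ (by rw [hb]; exact BReg_prime_p p k _)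
        (by rw [hb]; exact BReg_dim_p p k _) _ ?_ (hι x hx) hε
      rw [hmap, hsp, Y.BReg_max_A]

theorem exists_areg (w : Fin (2 * X.m + 1) → ℕ) : ∃ y : Fin X.n → Y.A,
    (∀ i, y i = p ∨ ∃ j, y i = teichmuller p (Y.s j)) ∧
    ((sp y ⊔ sp fun j => Y.θ (MvPowerSeries.C (X.η j))) =
      Ideal.span {(p : Y.A)} ⊔ sp fun i => teichmuller p (Y.s i)) ∧
    AReg (Y.θ.comp MvPowerSeries.C) X.η y Y.ν (WI p (Y.Γ w 0)) :=
  Y.BReg_areg w (Y.θ.comp MvPowerSeries.C) X.ιΛ Y.hθι X.η X.hη X.hcase X.hι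

theorem chi_ΓB_pos (w : Fin (2 * X.m + 1) → ℕ) : 0 < (X.E.map Y.φ).chi Y.νB (Y.ΓB w) := by
  have hdT : IsDomain X.T := ((regL_witt_series p k X.b').mvPowerSeries X.n).isDomain
  obtain ⟨E', hE', hH⟩ := exists_change X.π X.hπ X.ξ X.hξ
    (fun x y h => mul_left_cancel₀ X.hξ0 h) X.E
  let g : WI p (Y.Γ w 0) →ₗ[Y.A] Y.ΓB w :=
    { toFun := fun x => ⟨Ideal.Quotient.mk _ x.1, Ideal.mem_map_of_mem _ x.2⟩
      map_add' := fun x y => Subtype.ext (map_add _ _ _)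
      map_smul' := fun a x => Subtype.ext rfl }
  have hg : Function.Surjective g := fun z => by
    obtain ⟨x, hx, e⟩ := (Ideal.mem_map_iff_of_surjective _ Ideal.Quotient.mk_surjective).1 z.2
    exact ⟨⟨x, hx⟩, Subtype.ext e⟩
  have hk : LinearMap.ker g = Ideal.span {Y.θ X.ξ} • (⊤ : Submodule Y.A (WI p (Y.Γ w 0))) := by
    ext x
    rw [LinearMap.mem_ker, Submodule.ideal_span_singleton_smul,
      Submodule.mem_smul_pointwise_iff_exists]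
    constructor
    · intro h
      obtain ⟨z, hz⟩ := Ideal.mem_span_singleton'.1
        (Ideal.Quotient.eq_zero_iff_mem.1 (congrArg Subtype.val h))
      rw [mul_comm] at hz
      exact ⟨⟨z, Y.dist.sat Y.reg (Y.pf.cvx w 0) (Y.pow_mem_Γ w 0) (hz ▸ x.2)⟩, trivial,
        Subtype.ext hz⟩
    · rintro ⟨z, -, rfl⟩
      exact Subtype.ext (Ideal.Quotient.eq_zero_iff_mem.2
        (Ideal.mul_mem_right _ _ (Ideal.mem_span_singleton_self _)))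
  have hchi : (E'.map Y.θ).chi Y.ν (WI p (Y.Γ w 0)) = (X.E.map Y.φ).chi Y.νB (Y.ΓB w) :=
    ech_congr (hH Y.A Y.B Y.θ Y.φ Y.φ_π _ _ g hg hk (BReg_reg_sub (Y.dist.reg Y.reg) _) Y.ν)
  rw [← hchi]
  obtain ⟨y, hy, hsp, hA⟩ := Y.exists_areg w
  obtain ⟨e₁, he₁⟩ := Y.max_pow_le
  obtain ⟨e₂, he₂, he₃⟩ := Y.max_pow_le_Q
  have := isAdicComplete_witt_series p k X.b'
  have := X.finQ
  refine pos_diag (regL_witt_series p k X.b') (X.Q.comap X.π) X.η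
    (BReg_reg_η p k X.b' X.η X.hη (by have := X.hcase; omega))
    (X.kerQ ▸ Ideal.comap_isPrime _ _) X.kerQ (hE' X.Q X.hE) Y.θ Y.ν _ y
    (fun t ht => ⟨e₁, hsp ▸ he₁ t ht⟩) (fun i => ⟨e₂, ?_⟩) hA
  rcases hy i with h | ⟨j, h⟩
  · rw [h, ← map_natCast Y.θ]
    exact he₂ _ (BReg_p_mem p k _ _)
  · rw [h]
    exact he₃ j

end Cov

end Crest.Agent.R188
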