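import Crest.Agent.R188.CDefs
import Crest.Agent.R188.HReg

/-!
# Local lemmas
-/

set_option autoImplicit false
set_option linter.unusedVariables false
set_option linter.style.haveILetI false

open scoped ENNReal NNReal TensorProduct

namespace Crest.Agent.R188

open Crest.Agent.R183 IsLocalRing WittVector

theorem exists_local_of_gen {Λ S V : Type} [CommRing Λ] [IsLocalRing Λ] [CommRing S] [Nontrivial S]
    [Algebra Λ S] [Module.Finite Λ S] (v : V → S) (hv : Algebra.adjoin Λ (Set.range v) = ⊤)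
    (hn : ∀ i, ∃ e : ℕ, v i ^ e ∈ (maximalIdeal Λ).map (algebraMap Λ S)) :
    ∃ _ : IsLocalRing S, (∀ t : S, ∃ r : Λ, t - algebraMap Λ S r ∈ maximalIdeal S) ∧
      ∃ e : ℕ, maximalIdeal S ^ e ≤ (maximalIdeal Λ).map (algebraMap Λ S) := by
  classical
  set J : Ideal S := (maximalIdeal Λ).map (algebraMap Λ S) with hJ
  set n₀ : Ideal S := J ⊔ Ideal.span (Set.range v) with hn₀
  have hgen : ∀ t : S, ∃ r : Λ, t - algebraMap Λ S r ∈ n₀ := by
    intro t
    have ht : t ∈ Algebra.adjoin Λ (Set.range v) := hv ▸ Algebra.mem_top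
    induction ht using Algebra.adjoin_induction with
    | mem x hx => exact ⟨0, by simpa using Ideal.mem_sup_right (Ideal.subset_span hx)⟩
    | algebraMap r => exact ⟨r, by simp⟩
    | add x y _ _ hx hy =>
      obtain ⟨a, ha⟩ := hx
      obtain ⟨b, hb⟩ := hy
      refine ⟨a + b, ?_⟩
      have : x + y - algebraMap Λ S (a + b) = (x - algebraMap Λ S a) + (y - algebraMap Λ S b) := by
        rw [map_add]; ring
      rw [this]
      exact add_mem ha hb
    | mul x y _ _ hx hy =>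
      obtain ⟨a, ha⟩ := hx
      obtain ⟨b, hb⟩ := hy
      refine ⟨a * b, ?_⟩
      have : x * y - algebraMap Λ S (a * b) =
          (x - algebraMap Λ S a) * y + algebraMap Λ S a * (y - algebraMap Λ S b) := by
        rw [map_mul]; ring
      rw [this]
      exact add_mem (Ideal.mul_mem_right _ _ ha) (Ideal.mul_mem_left _ _ hb)
  have hover : ∀ m : Ideal S, m.IsMaximal → m.comap (algebraMap Λ S) = maximalIdeal Λ := by
    intro m hm
    exact eq_maximalIdeal (Ideal.isMaximal_comap_of_isIntegral_of_isMaximal m)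
  have hle : ∀ m : Ideal S, m.IsMaximal → n₀ ≤ m := by
    intro m hm
    have h1 : J ≤ m := Ideal.map_le_iff_le_comap.2 (hover m hm).ge
    refine sup_le h1 (Ideal.span_le.2 ?_)
    rintro _ ⟨i, rfl⟩
    obtain ⟨e, he⟩ := hn i
    exact hm.isPrime.mem_of_pow_mem e (h1 he)
  have heq : ∀ m : Ideal S, m.IsMaximal → m = n₀ := by
    intro m hm
    refine le_antisymm (fun t ht => ?_) (hle m hm)
    obtain ⟨r, hr⟩ := hgen t
    have h1 : algebraMap Λ S r ∈ m := by
      have := m.sub_mem ht (hle m hm hr)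
      simpa using this
    have h2 : r ∈ maximalIdeal Λ := by
      rw [← hover m hm]
      exact h1
    have h3 : algebraMap Λ S r ∈ n₀ := Ideal.mem_sup_left (Ideal.mem_map_of_mem _ h2)
    simpa using n₀.add_mem hr h3
  obtain ⟨m₀, hm₀⟩ := Ideal.exists_maximal S
  have hloc : IsLocalRing S :=
    IsLocalRing.of_unique_max_ideal ⟨m₀, hm₀, fun m hm => (heq m hm).trans (heq m₀ hm₀).symm⟩
  have hmax : maximalIdeal S = n₀ := heq _ inferInstance
  refine ⟨hloc, fun t => hmax ▸ hgen t, ?_⟩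
  have hJm : J ≤ maximalIdeal S := hmax ▸ le_sup_left
  -- `S / J` is a finite algebra over the residue field
  letI : Field (Λ ⧸ maximalIdeal Λ) := Ideal.Quotient.field _
  haveI : Module.Finite Λ (S ⧸ J) := inferInstance
  letI : Algebra (Λ ⧸ maximalIdeal Λ) (S ⧸ J) := Ideal.Quotient.algebraQuotientMapQuotient
  haveI : IsScalarTower Λ (Λ ⧸ maximalIdeal Λ) (S ⧸ J) :=
    IsScalarTower.of_algebraMap_eq fun _ => rfl
  haveI : Module.Finite (Λ ⧸ maximalIdeal Λ) (S ⧸ J) :=
    Module.Finite.of_restrictScalars_finite Λ _ _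
  haveI : IsArtinianRing (S ⧸ J) := IsArtinianRing.of_finite (Λ ⧸ maximalIdeal Λ) _
  obtain ⟨e, he⟩ := IsArtinianRing.isNilpotent_jacobson_bot (R := S ⧸ J)
  refine ⟨e, ?_⟩
  have h1 : (maximalIdeal S).map (Ideal.Quotient.mk J) ≤ Ideal.jacobson ⊥ := by
    refine le_sInf fun m hm => ?_
    have hm' : m.IsMaximal := hm.2
    have := Ideal.comap_isMaximal_of_surjective (Ideal.Quotient.mk J)
      Ideal.Quotient.mk_surjective (K := m)
    rw [Ideal.map_le_iff_le_comap, eq_maximalIdeal this]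
  have h2 : ((maximalIdeal S) ^ e).map (Ideal.Quotient.mk J) = ⊥ := by
    rw [Ideal.map_pow, eq_bot_iff]
    exact (Ideal.pow_right_mono h1 e).trans he.le
  rwa [Ideal.map_eq_bot_iff_le_ker, Ideal.mk_ker] at h2

theorem map_maximalIdeal_le_of_finite {A S : Type} [CommRing A] [IsLocalRing A] [CommRing S]
    [IsLocalRing S] (f : A →+* S) (hf : f.Finite) : (maximalIdeal A).map f ≤ maximalIdeal S := by
  letI : Algebra A S := f.toAlgebra
  haveI : Module.Finite A S := hf
  refine Ideal.map_le_iff_le_comap.2 (le_of_eq ?_)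
  exact (eq_maximalIdeal
    (Ideal.isMaximal_comap_of_isIntegral_of_isMaximal (R := A) (maximalIdeal S))).symm

theorem exists_mul_pow_mem {B : Type} [CommRing B] [IsNoetherianRing B] {𝔞 P : Ideal B}
    (h : P ∈ 𝔞.minimalPrimes) : ∃ c ∉ P, ∃ m : ℕ, 1 ≤ m ∧ ∀ y ∈ P, c * y ^ m ∈ 𝔞 := by
  haveI hP : P.IsPrime := h.1.1
  have h1 : ∃ m : ℕ, (P.map (algebraMap B (Localization.AtPrime P))) ^ m ≤
      𝔞.map (algebraMap B (Localization.AtPrime P)) := by
    refine Ideal.exists_pow_le_of_le_radical_of_fg ?_ (IsNoetherian.noetherian _)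
    rw [Localization.AtPrime.map_eq_maximalIdeal,
      IsLocalization.AtPrime.radical_map_of_mem_minimalPrimes (Localization.AtPrime P) P 𝔞 h,
      Localization.AtPrime.map_eq_maximalIdeal]
  obtain ⟨m, hm⟩ := h1
  rw [← Ideal.map_pow] at hm
  obtain ⟨T, hT⟩ : (P ^ m).FG := IsNoetherian.noetherian _
  have h2 : ∀ t ∈ T, ∃ c ∉ P, c * t ∈ 𝔞 := by
    intro t ht
    have h3 : algebraMap B (Localization.AtPrime P) t ∈
        𝔞.map (algebraMap B (Localization.AtPrime P)) :=
      hm (Ideal.mem_map_of_mem _ (hT ▸ Ideal.subset_span ht))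
    obtain ⟨c, hc, hct⟩ :=
      (IsLocalization.algebraMap_mem_map_algebraMap_iff P.primeCompl _ 𝔞 t).1 h3
    exact ⟨c, hc, hct⟩
  classical
  choose! c hc hct using h2
  refine ⟨∏ t ∈ T, c t, ?_, m + 1, by omega, fun y hy => ?_⟩
  · intro hmem
    obtain ⟨t, ht, h4⟩ := (Ideal.IsPrime.prod_mem_iff).1 hmem
    exact hc t ht h4
  · have h5 : ∀ z ∈ P ^ m, (∏ t ∈ T, c t) * z ∈ 𝔞 := by
      intro z hz
      rw [← hT] at hz
      induction hz using Submodule.span_induction with
      | mem x hx =>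
        rw [← Finset.prod_erase_mul T c hx, mul_assoc]
        exact Ideal.mul_mem_left _ _ (hct x hx)
      | zero => simp
      | add x y _ _ hx hy => rw [mul_add]; exact add_mem hx hy
      | smul a x _ hx =>
        rw [smul_eq_mul, mul_left_comm]
        exact Ideal.mul_mem_left _ _ hx
    rw [pow_succ, ← mul_assoc]
    exact Ideal.mul_mem_right _ _ (h5 _ (Ideal.pow_mem_pow hy m))

theorem mem_minimalPrimes_of_finite {Λ B : Type} [CommRing Λ] [CommRing B] [Algebra Λ B]
    {𝔞 P : Ideal B} [Module.Finite Λ (B ⧸ 𝔞)] (hP : P.IsPrime) (hle : 𝔞 ≤ P)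
    (h : P.comap (algebraMap Λ B) ≤ 𝔞.comap (algebraMap Λ B)) : P ∈ 𝔞.minimalPrimes := by
  refine ⟨⟨hP, hle⟩, fun Q hQ hQP => ?_⟩
  by_contra hne
  obtain ⟨x, hxP, hxQ⟩ := Set.not_subset.1 hne
  haveI := hQ.1
  have hk : RingHom.ker (Ideal.Quotient.mk 𝔞) ≤ Q := by rw [Ideal.mk_ker]; exact hQ.2
  haveI : (Q.map (Ideal.Quotient.mk 𝔞)).IsPrime :=
    Ideal.map_isPrime_of_surjective Ideal.Quotient.mk_surjective hk
  have hcQ : (Q.map (Ideal.Quotient.mk 𝔞)).comap (Ideal.Quotient.mk 𝔞) = Q := by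
    rw [Ideal.comap_map_of_surjective _ Ideal.Quotient.mk_surjective, sup_eq_left]
    exact hk
  have hcP : (P.map (Ideal.Quotient.mk 𝔞)).comap (Ideal.Quotient.mk 𝔞) = P := by
    rw [Ideal.comap_map_of_surjective _ Ideal.Quotient.mk_surjective, sup_eq_left]
    exact hk.trans hQP
  have hlt := Ideal.comap_lt_comap_of_integral_mem_sdiff (R := Λ)
    (I := Q.map (Ideal.Quotient.mk 𝔞)) (J := P.map (Ideal.Quotient.mk 𝔞)) (Ideal.map_mono hQP)
    (x := Ideal.Quotient.mk 𝔞 x) ⟨Ideal.mem_map_of_mem _ hxP, fun hx => hxQ (by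
      rw [← hcQ]; exact hx)⟩ (Algebra.IsIntegral.isIntegral _)
  refine hlt.not_ge fun a ha => ?_
  have h1 : algebraMap Λ B a ∈ P := by
    rw [← hcP]
    exact ha
  exact Ideal.mem_map_of_mem _ (hQ.2 (h h1))

/-- an ideal that is killed by no geometric point over `𝔭` meets `Λ` outside `𝔭` -/
theorem exists_mem_of_points {Λ B F : Type} [CommRing Λ] [CommRing B] [Algebra Λ B] [Field F]
    [IsAlgClosed F] (ψ : Λ →+* F) (𝔟 : Ideal B) [Module.Finite Λ (B ⧸ 𝔟)]
    (h : ∀ φ : B →+* F, (∀ a, φ (algebraMap Λ B a) = ψ a) → ∃ y ∈ 𝔟, φ y ≠ 0) :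
    ∃ w, ψ w ≠ 0 ∧ algebraMap Λ B w ∈ 𝔟 := by
  by_contra hcon
  push Not at hcon
  haveI : (RingHom.ker ψ).IsPrime := RingHom.ker_isPrime ψ
  have hker : (⊥ : Ideal (B ⧸ 𝔟)).comap (algebraMap Λ (B ⧸ 𝔟)) ≤ RingHom.ker ψ := by
    intro w hw
    by_contra hw'
    refine hcon w hw' ?_
    rw [Ideal.mem_comap, Ideal.mem_bot] at hw
    exact Ideal.Quotient.eq_zero_iff_mem.1 hw
  obtain ⟨Q, -, hQ, hQc⟩ :=
    Ideal.exists_ideal_over_prime_of_isIntegral (S := B ⧸ 𝔟) (RingHom.ker ψ) ⊥ hker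
  haveI := hQ
  letI : Algebra (Λ ⧸ Q.comap (algebraMap Λ (B ⧸ 𝔟))) F :=
    (Ideal.Quotient.lift _ ψ fun a ha => by rwa [hQc] at ha).toAlgebra
  haveI : FaithfulSMul (Λ ⧸ Q.comap (algebraMap Λ (B ⧸ 𝔟))) F := by
    rw [faithfulSMul_iff_algebraMap_injective, injective_iff_map_eq_zero]
    intro a ha
    obtain ⟨a, rfl⟩ := Ideal.Quotient.mk_surjective a
    rw [Ideal.Quotient.eq_zero_iff_mem, hQc]
    exact ha
  haveI : Algebra.IsIntegral (Λ ⧸ Q.comap (algebraMap Λ (B ⧸ 𝔟))) ((B ⧸ 𝔟) ⧸ Q) :=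
    Algebra.IsIntegral.quotient
  let φ : ((B ⧸ 𝔟) ⧸ Q) →ₐ[Λ ⧸ Q.comap (algebraMap Λ (B ⧸ 𝔟))] F := IsAlgClosed.lift
  obtain ⟨y, hy, hy0⟩ := h (φ.toRingHom.comp ((Ideal.Quotient.mk Q).comp (Ideal.Quotient.mk 𝔟)))
    fun a => φ.commutes (Ideal.Quotient.mk _ a)
  refine hy0 ?_
  simp [Ideal.Quotient.eq_zero_iff_mem.2 hy]

theorem ak_of_reg {C : Type} [CommRing C] [IsNoetherianRing C] [IsLocalRing C] {n : ℕ}
    (s : Fin n → C) (hs : ∀ i, s i ∈ maximalIdeal C)
    (h : RingTheory.Sequence.IsWeaklyRegular C (List.ofFn s)) (q : ℕ) (j : ℤ) (hj : 0 < j)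
    (x : KI n → C) (hx : (K (fun i => s i ^ q) (DG.single C C)).π j x = x)
    (hD : (K (fun i => s i ^ q) (DG.single C C)).D x = 0) :
    ∃ y, (K (fun i => s i ^ q) (DG.single C C)).D y = x := by
  rcases Nat.eq_zero_or_pos q with rfl | hq
  · rcases Nat.eq_zero_or_pos n with rfl | hn
    · refine ⟨0, ?_⟩
      rw [map_zero, ← hx]
      funext i
      exact ((MC.ap_π (kos fun i => s i ^ 0) j x i).trans (if_neg hj.ne)).symm
    · have h1 : (K (fun i => s i ^ 0) (DG.single C C)).NullH 1 :=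
        K_nullH _ _ (Ideal.mem_sup_left (Ideal.subset_span ⟨⟨0, hn⟩, pow_zero _⟩))
      obtain ⟨w, -, hw⟩ := h1.smul_mem hx hD
      exact ⟨w, by rw [hw, one_smul]⟩
  · have h1 : RingTheory.Sequence.IsWeaklyRegular C (List.ofFn fun i => s i ^ q) :=
      reg_of_rad le_rfl s _ (fun i => Ideal.pow_mem_of_mem _ (hs i) q hq) C h fun i =>
        ⟨q, Ideal.mem_sup_left (Ideal.subset_span ⟨i, rfl⟩)⟩
    obtain ⟨ε, hε⟩ := K_qi_of_reg _ C h1
    have h2 : ε x = 0 := by
      have := hε.π j x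
      rw [hx] at this
      rw [this]
      simp [DG.single, hj.ne']
    obtain ⟨w, hw⟩ := hε.inj j x hx hD 0 (by rw [h2, map_zero])
    exact ⟨w, hw.symm⟩

theorem isSMulRegular_of_reg {C : Type} [CommRing C] {n : ℕ} (s : Fin (n + 1) → C)
    (h : RingTheory.Sequence.IsWeaklyRegular C (List.ofFn s)) : IsSMulRegular C (s 0) := by
  rw [List.ofFn_succ, RingTheory.Sequence.isWeaklyRegular_cons_iff] at h
  exact h.1

/-- coordinates on a finite module over a domain, up to a nonzero constant -/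
theorem CLoc_coord (A M : Type) [CommRing A] [IsDomain A] [AddCommGroup M] [Module A M]
    [Module.Finite A M] : ∃ (r : ℕ) (e : Fin r → M) (c₀ : A) (lam : Fin r → M →ₗ[A] A), c₀ ≠ 0 ∧
      ∀ x, c₀ • x = ∑ k, lam k x • e k := by
  classical
  obtain ⟨N, s, hs⟩ := Module.Finite.exists_fin (R := A) (M := M)
  obtain ⟨I, hI, hI'⟩ := exists_maximal_linearIndepOn A s
  have hI2 : LinearIndependent A (fun i : I => s i) := hI
  set P : Submodule A M := Submodule.span A (Set.range fun i : I => s i) with hP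
  have ha : ∀ i, ∃ a : A, a ≠ 0 ∧ a • s i ∈ P := by
    intro i
    by_cases hi : i ∈ I
    · exact ⟨1, one_ne_zero, by
        rw [one_smul]; exact Submodule.subset_span ⟨⟨i, hi⟩, rfl⟩⟩
    · obtain ⟨a, ha, ha'⟩ := hI' i hi
      refine ⟨a, ha, ?_⟩
      rwa [Set.image_eq_range] at ha'
  choose a ha ha' using ha
  have hc : ∀ x : M, (∏ i, a i) • x ∈ P := by
    intro x
    have hx : x ∈ Submodule.span A (Set.range s) := hs ▸ Submodule.mem_top
    induction hx using Submodule.span_induction with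
    | mem x hx =>
      obtain ⟨i, rfl⟩ := hx
      rw [← Finset.prod_erase_mul Finset.univ a (Finset.mem_univ i), mul_smul]
      exact P.smul_mem _ (ha' i)
    | zero => simp
    | add x y _ _ hx hy => rw [smul_add]; exact add_mem hx hy
    | smul b x _ hx => rw [smul_comm]; exact P.smul_mem _ hx
  let b := Module.Basis.span hI2
  let f : M →ₗ[A] P := (LinearMap.lsmul A M (∏ i, a i)).codRestrict P hc
  let eq := Fintype.equivFin I
  refine ⟨Fintype.card I, fun k => s (eq.symm k), ∏ i, a i,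
    fun k => b.coord (eq.symm k) ∘ₗ f, Finset.prod_ne_zero_iff.2 fun i _ => ha i, fun x => ?_⟩
  have h1 := congrArg P.subtype (b.sum_repr (f x))
  rw [map_sum] at h1
  rw [Equiv.sum_comp eq.symm fun i : I => (b.coord i ∘ₗ f) x • s i]
  refine Eq.trans ?_ (h1.symm.trans (Finset.sum_congr rfl fun i _ => ?_))
  · rfl
  · rw [map_smul]
    congr 1
    exact congrArg Subtype.val (Module.Basis.span_apply hI2 i)

theorem exists_ak {A C : Type} [CommRing A] [IsNoetherianRing A] [IsLocalRing A] {n : ℕ}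
    {s : Fin n → A} (hs : RegL A s) [CommRing C] [IsDomain C] [Algebra A C] [Module.Finite A C]
    (inj : Function.Injective (algebraMap A C)) :
    ∃ c₀ : A, c₀ ≠ 0 ∧ ∀ (q : ℕ) (j : ℤ), 0 < j → ∀ x,
      (K (fun i => algebraMap A C (s i) ^ q) (DG.single C C)).π j x = x →
      (K (fun i => algebraMap A C (s i) ^ q) (DG.single C C)).D x = 0 →
      ∃ y, (K (fun i => algebraMap A C (s i) ^ q) (DG.single C C)).D y =
        algebraMap A C c₀ • x := by
  classical
  haveI : IsDomain A := hs.isDomain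
  obtain ⟨r, e, c₀, lam, hc₀, hlam⟩ := CLoc_coord A C
  refine ⟨c₀, hc₀, fun q j hj x hx hD => ?_⟩
  have hmat : kmat n (fun i => algebraMap A C (s i) ^ q) =
      (kmat n fun i => s i ^ q).map (algebraMap A C) := by
    rw [HKos_kmat_map]
    simp only [map_pow]
  have hDC : ∀ (z : KI n → C) (i : KI n),
      (K (fun i => algebraMap A C (s i) ^ q) (DG.single C C)).D z i =
        ∑ l, kmat n (fun i => s i ^ q) i l • z l := by
    intro z i
    refine (congrFun (MC.ap_D (kos fun i => algebraMap A C (s i) ^ q) z) i).trans ?_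
    change ∑ l, kmat n (fun i => algebraMap A C (s i) ^ q) i l • z l = _
    rw [hmat]
    simp only [Matrix.map_apply, algebraMap_smul]
  have hDA : ∀ (z : KI n → A) (i : KI n),
      (K (fun i => s i ^ q) (DG.single A A)).D z i =
        ∑ l, kmat n (fun i => s i ^ q) i l • z l := fun z i =>
    congrFun (MC.ap_D (kos fun i => s i ^ q) z) i
  have h1 : ∀ k : Fin r, ∃ y : KI n → A,
      (K (fun i => s i ^ q) (DG.single A A)).D y = fun i => lam k (x i) := by
    intro k
    refine ak_of_reg s hs.mem_max hs.reg q j hj _ (funext fun i => ?_) (funext fun i => ?_)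
    · have h2 := (MC.ap_π (kos fun i => algebraMap A C (s i) ^ q) j x i).symm.trans
        (congrFun hx i)
      refine (MC.ap_π (kos fun i => s i ^ q) j _ i).trans ?_
      by_cases hd : KI.deg n i = j
      · exact if_pos hd
      · have h3 : (0 : C) = x i := (if_neg hd).symm.trans h2
        refine (if_neg hd).trans ?_
        rw [← h3, map_zero]
    · have h2 := (hDC x i).symm.trans (congrFun hD i)
      have h3 := (congrArg (lam k) h2).trans (map_zero _)
      rw [map_sum] at h3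
      rw [hDA]
      simpa using h3
  choose y hy using h1
  refine ⟨fun i => ∑ k, y k i • e k, funext fun i => ?_⟩
  rw [hDC]
  change _ = algebraMap A C c₀ • x i
  rw [algebraMap_smul, hlam]
  simp only [Finset.smul_sum]
  rw [Finset.sum_comm]
  refine Finset.sum_congr rfl fun k _ => ?_
  have h4 := (hDA (y k) i).symm.trans (congrFun (hy k) i)
  rw [← h4, Finset.sum_smul]
  simp only [smul_eq_mul, mul_smul]

end Crest.Agent.R188
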