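import Crest.Agent.R188.CCoord
import Crest.Agent.R188.CLoc

/-!
# General projections separate two subvarieties
-/

set_option autoImplicit false
set_option linter.unusedVariables false

open scoped ENNReal NNReal TensorProduct

namespace Crest.Agent.R188

open Crest.Agent.R183 IsLocalRing WittVector

/-- two points that agree on the constants and on the generators of the maximal ideal agree -/
theorem CAvoid_eq {W R Ω : Type} [CommRing W] [CommRing R] [IsNoetherianRing R] [IsLocalRing R]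
    [CommRing Ω] [Algebra R Ω] (ω : W →+* R) (hres : ∀ r : R, ∃ w, r - ω w ∈ maximalIdeal R)
    {n : ℕ} (u : Fin n → R) (hu : sp u = maximalIdeal R) (β : R →+* Ω) (C : Submodule R Ω)
    (hC : C.FG) (hβ : ∀ r, β r ∈ C) (h1 : ∀ w, β (ω w) = algebraMap R Ω (ω w))
    (h2 : ∀ i, β (u i) = algebraMap R Ω (u i)) (r : R) : β r = algebraMap R Ω r := by
  have hα : ∀ r, algebraMap R Ω r ∈ C := fun r => by
    have := C.smul_mem r (hβ 1)
    rwa [map_one, ← Algebra.algebraMap_eq_smul_one] at this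
  have key : ∀ (N : ℕ) (r : R), β r - algebraMap R Ω r ∈ (maximalIdeal R) ^ N • C := by
    intro N
    induction N with
    | zero =>
      intro r
      rw [pow_zero, Ideal.one_eq_top, Submodule.top_smul]
      exact C.sub_mem (hβ r) (hα r)
    | succ N ih =>
      intro r
      obtain ⟨w, hw⟩ := hres r
      rw [← hu] at hw
      obtain ⟨a, ha⟩ := Ideal.mem_span_range_iff_exists_fun.mp hw
      have hr : r = ω w + ∑ i, a i * u i := by rw [ha]; ring
      have e : β r - algebraMap R Ω r = ∑ i, u i • (β (a i) - algebraMap R Ω (a i)) := by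
        conv_lhs => rw [hr]
        simp only [map_add, map_sum, map_mul, h1, h2, Algebra.smul_def]
        rw [add_sub_add_left_eq_sub, ← Finset.sum_sub_distrib]
        exact Finset.sum_congr rfl fun i _ => by ring
      rw [e, pow_succ', mul_smul]
      refine Submodule.sum_mem _ fun i _ => Submodule.smul_mem_smul ?_ (ih _)
      rw [← hu]
      exact Ideal.subset_span ⟨i, rfl⟩
  haveI : Module.Finite R C := Module.Finite.iff_fg.mpr hC
  have hK := (maximalIdeal R).iInf_pow_smul_eq_bot_of_isLocalRing (M := C)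
    (maximalIdeal.isMaximal R).ne_top
  have hx : (⟨β r - algebraMap R Ω r, C.sub_mem (hβ r) (hα r)⟩ : C) ∈
      (⨅ i : ℕ, (maximalIdeal R) ^ i • ⊤ : Submodule R C) := by
    refine (Submodule.mem_iInf _).mpr fun N => ?_
    rw [Submodule.mem_smul_top_iff]
    exact key N r
  rw [hK, Submodule.mem_bot] at hx
  exact sub_eq_zero.mp (congrArg Subtype.val hx)

/-- there are finitely many points of a finite algebra over a given point -/
theorem CAvoid_points {Λ R Ω : Type} [CommRing Λ] [CommRing R] [Field Ω] (j : Λ →+* R)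
    (P : Ideal R) (hfin : ((Ideal.Quotient.mk P).comp j).Finite) (ψ : Λ →+* Ω) :
    {β : R →+* Ω | (∀ a, β (j a) = ψ a) ∧ ∀ y ∈ P, β y = 0}.Finite := by
  letI : Algebra Λ (R ⧸ P) := ((Ideal.Quotient.mk P).comp j).toAlgebra
  letI : Algebra Λ Ω := ψ.toAlgebra
  haveI : Module.Finite Λ (R ⧸ P) := hfin
  refine (Set.finite_range fun φ : (R ⧸ P) →ₐ[Λ] Ω =>
    (φ : (R ⧸ P) →+* Ω).comp (Ideal.Quotient.mk P)).subset ?_
  rintro β ⟨h1, h2⟩
  exact ⟨⟨Ideal.Quotient.lift P β h2, fun a => h1 a⟩, RingHom.ext fun r => rfl⟩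

/-- the image of a point lies in a finitely generated module -/
theorem CAvoid_fg {Λ R Ω : Type} [CommRing Λ] [CommRing R] [CommRing Ω] [Algebra R Ω]
    (j : Λ →+* R) (P : Ideal R) (hfin : ((Ideal.Quotient.mk P).comp j).Finite) (β : R →+* Ω)
    (h1 : ∀ a, β (j a) = algebraMap R Ω (j a)) (h2 : ∀ y ∈ P, β y = 0) :
    ∃ C : Submodule R Ω, C.FG ∧ ∀ r, β r ∈ C := by
  classical
  letI : Algebra Λ (R ⧸ P) := ((Ideal.Quotient.mk P).comp j).toAlgebra
  haveI : Module.Finite Λ (R ⧸ P) := hfin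
  obtain ⟨s, hs⟩ := Module.Finite.fg_top (R := Λ) (M := R ⧸ P)
  let β' : (R ⧸ P) →+* Ω := Ideal.Quotient.lift P β h2
  refine ⟨Submodule.span R (β' '' s), Submodule.fg_span (s.finite_toSet.image _), fun r => ?_⟩
  have hx : ∀ x ∈ Submodule.span Λ (s : Set (R ⧸ P)), β' x ∈ Submodule.span R (β' '' s) := by
    intro x hx
    induction hx using Submodule.span_induction with
    | mem x h => exact Submodule.subset_span ⟨x, h, rfl⟩
    | zero => rw [map_zero]; exact Submodule.zero_mem _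
    | add x y _ _ hx hy => rw [map_add]; exact Submodule.add_mem _ hx hy
    | smul a x _ hx =>
      have : β' (a • x) = j a • β' x := by
        rw [Algebra.smul_def, Algebra.smul_def, map_mul, ← h1]
        rfl
      rw [this]
      exact Submodule.smul_mem _ _ hx
  exact hx (Ideal.Quotient.mk P r) (hs ▸ Submodule.mem_top)

theorem CAvoid_field {W Λ R κ Ω : Type} [CommRing W] [CommRing Λ] [CommRing R]
    [IsNoetherianRing R] [IsLocalRing R] [Field Ω] [IsAlgClosed Ω] [Algebra R Ω]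
    (cw : W →+* Λ) (j : Λ →+* R)
    (hres : ∀ r : R, ∃ w, r - j (cw w) ∈ maximalIdeal R) (τ : κ → W)
    (hτ : ∀ c c', c ≠ c' → IsUnit (τ c - τ c')) {n : ℕ} (u : Fin n → R)
    (hu : sp u = maximalIdeal R) (P 𝔮 : Ideal R) (h𝔮 : ∀ r, algebraMap R Ω r = 0 ↔ r ∈ 𝔮)
    (hP : ¬ P ≤ 𝔮) (hfin : ((Ideal.Quotient.mk P).comp j).Finite) :
    {c | ∀ g : Polynomial Λ, g.eval₂ j (∑ i : Fin n, j (cw (τ c)) ^ i.val * u i) ∈ P →
      g.eval₂ j (∑ i : Fin n, j (cw (τ c)) ^ i.val * u i) ∈ 𝔮}.Finite := by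
  have hT := CAvoid_points j P hfin ((algebraMap R Ω).comp j)
  refine (hT.biUnion (t := fun β : R →+* Ω => {c | ∑ i : Fin n,
    ((algebraMap R Ω).comp (j.comp cw)) (τ c) ^ i.val * (β (u i) - algebraMap R Ω (u i)) ∈
      (⊥ : Ideal Ω)}) ?_).subset ?_
  · rintro β ⟨h1, h2⟩
    refine moment_finite _ τ hτ _ ⊥ fun hle => hP fun y hy => ?_
    obtain ⟨C, hC, hβ⟩ := CAvoid_fg j P hfin β h1 h2
    have h3 : ∀ i, β (u i) = algebraMap R Ω (u i) := fun i =>
      sub_eq_zero.mp (Ideal.mem_bot.mp (hle (Ideal.subset_span ⟨i, rfl⟩)))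
    rw [← h𝔮, ← CAvoid_eq (j.comp cw) hres u hu β C hC hβ (fun w => h1 _) h3 y]
    exact h2 y hy
  · intro c hc
    set y := ∑ i : Fin n, j (cw (τ c)) ^ i.val * u i with hy
    letI : Algebra (Polynomial Λ) R := (Polynomial.eval₂RingHom j y).toAlgebra
    have hev : ∀ g : Polynomial Λ, algebraMap (Polynomial Λ) R g = g.eval₂ j y := fun g => rfl
    haveI : Module.Finite (Polynomial Λ) (R ⧸ P) := by
      have h0 : ((algebraMap (Polynomial Λ) (R ⧸ P)).comp Polynomial.C).Finite := by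
        convert hfin using 1
        ext a
        change Ideal.Quotient.mk P (algebraMap (Polynomial Λ) R (Polynomial.C a)) = _
        rw [hev, Polynomial.eval₂_C]
        rfl
      exact RingHom.finite_algebraMap.mp (RingHom.Finite.of_comp_finite h0)
    have hex : ∃ β : R →+* Ω, (∀ g, β (algebraMap (Polynomial Λ) R g) =
        ((algebraMap R Ω).comp (algebraMap (Polynomial Λ) R)) g) ∧ ∀ y ∈ P, β y = 0 := by
      by_contra hne
      obtain ⟨w, hw, hwP⟩ := exists_mem_of_points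
        ((algebraMap R Ω).comp (algebraMap (Polynomial Λ) R)) P fun φ hφ => by
          by_contra hn
          exact hne ⟨φ, hφ, fun y hy => by
            by_contra h0
            exact hn ⟨y, hy, h0⟩⟩
      exact hw ((h𝔮 _).mpr (hc w hwP))
    obtain ⟨β, h1, h2⟩ := hex
    have h1' : ∀ a, β (j a) = algebraMap R Ω (j a) := fun a => by
      have := h1 (Polynomial.C a)
      rwa [RingHom.comp_apply, hev, Polynomial.eval₂_C] at this
    have h3 : β y = algebraMap R Ω y := by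
      have := h1 Polynomial.X
      rwa [RingHom.comp_apply, hev, Polynomial.eval₂_X] at this
    refine Set.mem_biUnion (x := β) ⟨h1', h2⟩ ?_
    rw [Set.mem_setOf_eq, Ideal.mem_bot]
    rw [hy] at h3
    simp only [map_sum, map_mul, map_pow, h1'] at h3
    simp only [RingHom.comp_apply, mul_sub, Finset.sum_sub_distrib, h3, sub_self]

theorem avoid_finite {W Λ R κ : Type} [CommRing W] [CommRing Λ] [CommRing R] [IsNoetherianRing R]
    [IsLocalRing R] (cw : W →+* Λ) (j : Λ →+* R)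
    (hres : ∀ r : R, ∃ w, r - j (cw w) ∈ maximalIdeal R) (τ : κ → W)
    (hτ : ∀ c c', c ≠ c' → IsUnit (τ c - τ c')) {n : ℕ} (u : Fin n → R)
    (hu : sp u = maximalIdeal R) (P 𝔮 : Ideal R) (h𝔮 : 𝔮.IsPrime) (hP : ¬ P ≤ 𝔮)
    (hfin : ((Ideal.Quotient.mk P).comp j).Finite) :
    {c | ∀ g : Polynomial Λ, g.eval₂ j (∑ i : Fin n, j (cw (τ c)) ^ i.val * u i) ∈ P →
      g.eval₂ j (∑ i : Fin n, j (cw (τ c)) ^ i.val * u i) ∈ 𝔮}.Finite := by
  let Ω := AlgebraicClosure (FractionRing (R ⧸ 𝔮))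
  let α : R →+* Ω := (algebraMap (FractionRing (R ⧸ 𝔮)) Ω).comp
    ((algebraMap (R ⧸ 𝔮) (FractionRing (R ⧸ 𝔮))).comp (Ideal.Quotient.mk 𝔮))
  have hα : ∀ r, α r = 0 ↔ r ∈ 𝔮 := fun r => by
    simp only [α, RingHom.comp_apply]
    rw [map_eq_zero_iff _ (algebraMap (FractionRing (R ⧸ 𝔮)) Ω).injective,
      map_eq_zero_iff _ (IsFractionRing.injective (R ⧸ 𝔮) (FractionRing (R ⧸ 𝔮))),
      Ideal.Quotient.eq_zero_iff_mem]
  exact @CAvoid_field W Λ R κ Ω _ _ _ _ _ _ _ α.toAlgebra cw j hres τ hτ n u hu P 𝔮 hα hP hfin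

theorem exists_distinguished {Λ R : Type} [CommRing Λ] [IsLocalRing Λ] [CommRing R]
    (j : Λ →+* R) (P : Ideal R) (hfin : ((Ideal.Quotient.mk P).comp j).Finite) (y : R)
    (hy : ∃ e : ℕ, y ^ e ∈ P ⊔ (maximalIdeal Λ).map j) :
    ∃ f : Polynomial Λ, f.IsDistinguishedAt (maximalIdeal Λ) ∧ f.eval₂ j y ∈ P := by
  letI : Algebra Λ (R ⧸ P) := ((Ideal.Quotient.mk P).comp j).toAlgebra
  haveI : Module.Finite Λ (R ⧸ P) := hfin
  obtain ⟨e, he⟩ := hy
  have h1 : Ideal.Quotient.mk P y ^ (e + 1) ∈ (maximalIdeal Λ).map (algebraMap Λ (R ⧸ P)) := by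
    have h := Ideal.mem_map_of_mem (Ideal.Quotient.mk P) he
    rw [Ideal.map_sup, Ideal.map_quotient_self, bot_sup_eq, Ideal.map_map, map_pow] at h
    rw [pow_succ]
    exact Ideal.mul_mem_right _ _ h
  obtain ⟨q, hq, hq0, hqc⟩ := Polynomial.exists_monic_aeval_eq_zero_forall_mem_of_mem_map h1
  refine ⟨Polynomial.expand Λ (e + 1) q, ⟨⟨fun {i} hi => ?_⟩, hq.expand e.succ_pos⟩, ?_⟩
  · rw [Polynomial.coeff_expand e.succ_pos]
    split_ifs with hd
    · refine hqc _ fun h => ?_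
      rw [Polynomial.natDegree_expand, ← h, Nat.div_mul_cancel hd] at hi
      exact lt_irrefl _ hi
    · exact Ideal.zero_mem _
  · rw [← Ideal.Quotient.eq_zero_iff_mem, Polynomial.hom_eval₂]
    have := Polynomial.expand_aeval (e + 1) q (Ideal.Quotient.mk P y)
    rw [hq0] at this
    exact this

theorem CAvoid_sub_pow {Λ R : Type} [CommRing Λ] [CommRing R] (j : Λ →+* R) {I : Ideal Λ}
    {f : Polynomial Λ} (hf : f.IsDistinguishedAt I) (y : R) :
    f.eval₂ j y - y ^ f.natDegree ∈ I.map j := by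
  rw [Polynomial.eval₂_eq_sum_range, Finset.sum_range_succ, hf.monic.coeff_natDegree, map_one,
    one_mul, add_sub_cancel_right]
  exact Ideal.sum_mem _ fun i hi => Ideal.mul_mem_right _ _
    (Ideal.mem_map_of_mem j (hf.mem (Finset.mem_range.mp hi)))

theorem CAvoid_pow {Λ : Type} [CommRing Λ] {I : Ideal Λ} {f : Polynomial Λ}
    (hf : f.IsDistinguishedAt I) (N : ℕ) : (f ^ N).IsDistinguishedAt I := by
  induction N with
  | zero => exact ⟨⟨fun {i} hi => by simp at hi⟩, by simpa using Polynomial.monic_one⟩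
  | succ N ih => rw [pow_succ]; exact ih.mul hf

/-- prime avoidance after a pull-back -/
theorem CAvoid_prime {A R : Type} [CommRing A] [CommRing R] (φ : A →+* R) (I : Ideal A)
    (L : Set (Ideal R)) (hL : L.Finite) (hp : ∀ 𝔮 ∈ L, 𝔮.IsPrime)
    (h : ∀ 𝔮 ∈ L, ∃ a ∈ I, φ a ∉ 𝔮) : ∃ a ∈ I, ∀ 𝔮 ∈ L, φ a ∉ 𝔮 := by
  by_contra hn
  have hsub : (I : Set A) ⊆ ⋃ 𝔮 ∈ L, ((𝔮.comap φ : Ideal A) : Set A) := by
    intro a ha
    by_contra ha'
    exact hn ⟨a, ha, fun 𝔮 h𝔮 hm => ha' (Set.mem_biUnion h𝔮 hm)⟩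
  obtain ⟨𝔮, h𝔮, hle⟩ := (Ideal.subset_union_prime_finite hL (f := fun 𝔮 => 𝔮.comap φ) ⊥ ⊥
    fun 𝔮 h𝔮 _ _ => by
      haveI := hp 𝔮 h𝔮
      exact Ideal.comap_isPrime φ 𝔮).mp hsub
  obtain ⟨a, ha, ha'⟩ := h 𝔮 h𝔮
  exact ha' (hle ha)

theorem exists_distinguished_avoid {W Λ R κ : Type} [CommRing W] [CommRing Λ] [IsLocalRing Λ]
    [CommRing R] [Infinite κ] (cw : W →+* Λ) (j : Λ →+* R) (τ : κ → W)
    (hτ : ∀ c c', c ≠ c' → IsUnit (τ c - τ c')) (P : Ideal R)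
    (hfin : ((Ideal.Quotient.mk P).comp j).Finite) (y : R)
    (hy : ∃ e : ℕ, y ^ e ∈ P ⊔ (maximalIdeal Λ).map j) (L : Set (Ideal R)) (hL : L.Finite)
    (hp : ∀ 𝔮 ∈ L, 𝔮.IsPrime) (hyL : ∀ 𝔮 ∈ L, y ∉ 𝔮)
    (hg : ∀ 𝔮 ∈ L, ∃ g : Polynomial Λ, g.eval₂ j y ∈ P ∧ g.eval₂ j y ∉ 𝔮) :
    ∃ f : Polynomial Λ, f.IsDistinguishedAt (maximalIdeal Λ) ∧ f.eval₂ j y ∈ P ∧
      ∀ 𝔮 ∈ L, f.eval₂ j y ∉ 𝔮 := by
  obtain ⟨f₀, hf₀, hf₀P⟩ := exists_distinguished j P hfin y hy
  by_cases hd : f₀.natDegree = 0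
  · refine ⟨f₀, hf₀, hf₀P, fun 𝔮 h𝔮 hm => ?_⟩
    rw [hf₀.monic.natDegree_eq_zero.mp hd, Polynomial.eval₂_one] at hm
    exact (hp 𝔮 h𝔮).ne_top ((Ideal.eq_top_iff_one _).mpr hm)
  obtain ⟨g, hgP, hgL⟩ := CAvoid_prime (Polynomial.eval₂RingHom j y)
    (P.comap (Polynomial.eval₂RingHom j y)) L hL hp hg
  obtain ⟨l, hl, hlL⟩ := CAvoid_prime j (maximalIdeal Λ)
    {𝔮 | 𝔮 ∈ L ∧ ¬ (maximalIdeal Λ).map j ≤ 𝔮} (hL.subset fun 𝔮 h => h.1) (fun 𝔮 h => hp 𝔮 h.1)
    fun 𝔮 h => by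
      by_contra hn
      refine h.2 (Ideal.map_le_iff_le_comap.mpr fun a ha => ?_)
      by_contra ha'
      exact hn ⟨a, ha, ha'⟩
  have hgP' : g.eval₂ j y ∈ P := hgP
  have hgL' : ∀ 𝔮 ∈ L, g.eval₂ j y ∉ 𝔮 := hgL
  set N := g.natDegree + 1 with hN
  have hfN := CAvoid_pow hf₀ N
  have hdeg : g.natDegree < (f₀ ^ N).natDegree := by
    rw [hf₀.monic.natDegree_pow]
    calc g.natDegree < N := Nat.lt_succ_self _
      _ ≤ N * f₀.natDegree := Nat.le_mul_of_pos_right _ (Nat.pos_of_ne_zero hd)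
  let F : κ → Polynomial Λ := fun c => f₀ ^ N + Polynomial.C (cw (τ c) * l) * g
  have hlt : ∀ c, (Polynomial.C (cw (τ c) * l) * g).natDegree < (f₀ ^ N).natDegree := fun c =>
    (Polynomial.natDegree_C_mul_le _ _).trans_lt hdeg
  have hF : ∀ c, (F c).IsDistinguishedAt (maximalIdeal Λ) := fun c => by
    refine ⟨⟨fun {i} hi => ?_⟩, hfN.monic.add_of_left (Polynomial.degree_lt_degree (hlt c))⟩
    rw [Polynomial.natDegree_add_eq_left_of_natDegree_lt (hlt c)] at hi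
    rw [Polynomial.coeff_add, Polynomial.coeff_C_mul]
    exact Ideal.add_mem _ (hfN.mem hi)
      (Ideal.mul_mem_right _ _ (Ideal.mul_mem_left _ _ hl))
  have hev : ∀ c, (F c).eval₂ j y =
      f₀.eval₂ j y ^ N + j (cw (τ c)) * j l * g.eval₂ j y := fun c => by
    rw [Polynomial.eval₂_add, Polynomial.eval₂_pow, Polynomial.eval₂_mul, Polynomial.eval₂_C,
      map_mul]
  have hbad : (⋃ 𝔮 ∈ L, {c | (F c).eval₂ j y ∈ 𝔮}).Finite := by
    refine hL.biUnion fun 𝔮 h𝔮 => Set.Subsingleton.finite fun c hc c' hc' => ?_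
    have hq := hp 𝔮 h𝔮
    by_cases hm : (maximalIdeal Λ).map j ≤ 𝔮
    · exfalso
      have h1 := hm (CAvoid_sub_pow j (hF c) y)
      have h2 : y ^ (F c).natDegree ∈ 𝔮 := by
        have := 𝔮.sub_mem hc h1
        rwa [sub_sub_cancel] at this
      exact hyL 𝔮 h𝔮 (hq.mem_of_pow_mem _ h2)
    · by_contra hne
      have h1 : j (cw (τ c - τ c')) * (j l * g.eval₂ j y) ∈ 𝔮 := by
        have := 𝔮.sub_mem hc hc'
        rw [hev, hev] at this
        convert this using 1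
        rw [map_sub, map_sub]
        ring
      rw [Ideal.unit_mul_mem_iff_mem _ (((hτ c c' hne).map cw).map j)] at h1
      rcases hq.mem_or_mem h1 with h | h
      · exact hlL 𝔮 ⟨h𝔮, hm⟩ h
      · exact hgL' 𝔮 h𝔮 h
  obtain ⟨c, hc⟩ := hbad.exists_notMem
  refine ⟨F c, hF c, ?_, fun 𝔮 h𝔮 hm => hc (Set.mem_biUnion h𝔮 hm)⟩
  rw [hev]
  exact P.add_mem (P.pow_mem_of_mem hf₀P _ (Nat.succ_pos _)) (P.mul_mem_left _ hgP')

end Crest.Agent.R188
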