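import Crest.Agent.R188.CEv
import Crest.Agent.R188.CLoc

/-!
# Perfect covers in the case `p ∈ P`
-/

set_option autoImplicit false
set_option linter.unusedVariables false
set_option linter.unusedSectionVars false

open scoped ENNReal NNReal TensorProduct

namespace Crest.Agent.R188

open Crest.Agent.R183 IsLocalRing WittVector

variable {p : ℕ} [Fact p.Prime] {k : Type} [Field k] [CharP k p] [PerfectRing k p]

theorem CChpP_xi0 {X : Base p k} (M : ChpD X) : xi0 p k X.a₀ X.mix = p := by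
  simp [xi0, M.hmix]

theorem CChpP_char {X : Base p k} (M : ChpD X) : CharP X.S p := by
  rw [CharP.charP_iff_prime_eq_zero Fact.out, ← map_natCast (algebraMap X.Λ X.S), ← RingHom.mem_ker,
    X.kerΛ, CChpP_xi0 M]
  exact Ideal.subset_span rfl

theorem CChpP_alg {X : Base p k} (M : ChpD X) :
    ∃ f : MvPowerSeries (Fin (X.a₀ + 1)) k →+* X.S,
      (∀ a, f (redW p k _ a) = algebraMap X.Λ X.S a) ∧ Function.Injective f ∧ f.Finite := by
  have hker : RingHom.ker (redW p k (X.a₀ + 1)) = RingHom.ker (algebraMap X.Λ X.S) := by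
    rw [ker_redW, X.kerΛ, CChpP_xi0 M]
  let f : MvPowerSeries (Fin (X.a₀ + 1)) k →+* X.S :=
    (redW p k _).liftOfRightInverse (Function.surjInv (redW_surjective _))
      (Function.rightInverse_surjInv (redW_surjective _)) ⟨algebraMap X.Λ X.S, hker.le⟩
  have hf : ∀ a, f (redW p k _ a) = algebraMap X.Λ X.S a := fun a =>
    RingHom.liftOfRightInverse_comp_apply _ _ _ _ _
  refine ⟨f, hf, ?_, ?_⟩
  · rw [injective_iff_map_eq_zero]
    intro x hx
    obtain ⟨a, rfl⟩ := redW_surjective (p := p) _ x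
    rw [hf, ← RingHom.mem_ker, ← hker] at hx
    exact hx
  · have h : f.comp (redW p k _) = algebraMap X.Λ X.S := RingHom.ext hf
    refine RingHom.Finite.of_comp_finite (f := redW p k _) ?_
    rw [h]
    exact RingHom.finite_algebraMap.2 inferInstance

theorem CChpP_redW_X (a : ℕ) (i : Fin a) :
    redW p k a (MvPowerSeries.X i) = MvPowerSeries.X i := by
  simp [redW]

theorem CChpP_redW_C (a : ℕ) (w : WittVector p k) :
    redW p k a (MvPowerSeries.C w) = MvPowerSeries.C (w.coeff 0) := by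
  simp [redW]

theorem CChpP_complete (k : Type) [Field k] (a : ℕ) :
    IsAdicComplete (maximalIdeal (MvPowerSeries (Fin a) k)) (MvPowerSeries (Fin a) k) := by
  have : IsAdicComplete (maximalIdeal k) k := by
    rw [IsLocalRing.maximalIdeal_eq_bot]
    infer_instance
  exact isAdicComplete_mvPowerSeries k (IsNoetherian.noetherian _) (Fin a)

theorem CChpP_mem {X : Base p k} (M : ChpD X) (i : ℕ) :
    algebraMap X.R X.S (X.π (tv _ _ _ i)) ∈ maximalIdeal X.S :=
  map_maximalIdeal_le_of_finite (algebraMap X.R X.S) (RingHom.finite_algebraMap.2 inferInstance)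
    (Ideal.mem_map_of_mem _ (M.hz i))

theorem CChpP_memΛ (X : Base p k) (i : Fin (X.a₀ + 1)) :
    algebraMap X.Λ X.S (MvPowerSeries.X i) ∈ maximalIdeal X.S := by
  refine map_maximalIdeal_le_of_finite (algebraMap X.Λ X.S)
    (RingHom.finite_algebraMap.2 inferInstance) (Ideal.mem_map_of_mem _ ?_)
  rw [maximalIdeal_mvPowerSeries]
  exact Ideal.mem_sup_right (Ideal.subset_span ⟨i, rfl⟩)

theorem CChpP_theta {X : Base p k} (M : ChpD X) [CharP X.S p] :
    ∃ (θ : X.T →+* WittVector p X.S) (θ₀ : X.Λ →+* WittVector p X.S),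
      (∀ i < X.b' + X.n, θ (tv _ _ _ i) = teichmuller p (algebraMap X.R X.S (X.π (tv _ _ _ i)))) ∧
      (∀ i, θ₀ (MvPowerSeries.X i) = teichmuller p (algebraMap X.Λ X.S (MvPowerSeries.X i))) ∧
      (∀ t, (θ t).coeff 0 = algebraMap X.R X.S (X.π t)) ∧
      (∀ a, (θ₀ a).coeff 0 = algebraMap X.Λ X.S a) ∧
      ∀ a, θ₀ (X.ιΛ a) = θ (MvPowerSeries.C a) := by
  obtain ⟨f, hf, -, hfin⟩ := CChpP_alg M
  have hS : IsAdicComplete (maximalIdeal X.S) X.S := by
    let _ := f.toAlgebra
    have : Module.Finite (MvPowerSeries (Fin (X.a₀ + 1)) k) X.S := hfin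
    have := CChpP_complete k (X.a₀ + 1)
    exact isAdicComplete_of_finite (Λ := MvPowerSeries (Fin (X.a₀ + 1)) k)
  obtain ⟨θA, hAC, hAX, hA0⟩ := exists_thetaA (p := p) (k := k) (X.a₀ + 1)
  let u : ℕ → WittVector p X.S := fun i => teichmuller p (algebraMap X.R X.S (X.π (tv _ _ _ i)))
  have hJ : IsAdicComplete (sp fun i : Fin (X.b' + X.n) => u i) (WittVector p X.S) :=
    isAdicComplete_witt _ fun i => by
      simpa only [u, teichmuller_coeff_zero] using CChpP_mem M i
  obtain ⟨θ, hθC, hθX⟩ := exists_eval_nested X.b' X.n (sp fun i : Fin (X.b' + X.n) => u i)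
    ((WittVector.map (f.comp MvPowerSeries.C)).comp (WittVector.map (iterateFrobenius k p M.e₀)))
    u fun i hi => Ideal.subset_span ⟨⟨i, hi⟩, rfl⟩
  have hθ₀X : ∀ i, (WittVector.map f).comp θA (MvPowerSeries.X i) =
      teichmuller p (algebraMap X.Λ X.S (MvPowerSeries.X i)) := fun i => by
    rw [RingHom.comp_apply, hAX, map_teichmuller, ← hf, CChpP_redW_X]
  refine ⟨θ, (WittVector.map f).comp θA, hθX, hθ₀X, fun t => ?_, fun a => ?_, fun a => ?_⟩
  · have h := hom_ext_nested ((constantCoeff : WittVector p X.S →+* X.S).comp θ)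
      ((algebraMap X.R X.S).comp X.π) (fun w => ?_) (fun i hi => ?_) (maximalIdeal X.S)
      (fun i hi => ?_)
    · exact RingHom.congr_fun h t
    · rw [RingHom.comp_apply, RingHom.comp_apply, hθC, M.πC, ← hf, CChpP_redW_C, M.hq, ← map_pow,
        ← map_pow]
      simp [iterateFrobenius_def]
    · rw [RingHom.comp_apply, RingHom.comp_apply, hθX i hi]
      simp [u]
    · rw [RingHom.comp_apply, hθX i hi]
      simpa [u] using CChpP_mem M i
  · rw [RingHom.comp_apply, WittVector.map_coeff, hA0, hf]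
  · have hX : ∀ i : Fin X.b', (((WittVector.map f).comp θA).comp X.ιΛ) (MvPowerSeries.X i) =
        u i := fun i => by
      obtain ⟨j, hj, hj'⟩ := M.ιΛX i
      have htv : tv (WittVector p k) X.b' X.n i = X.sT j := by
        rw [hj', tv, dif_pos i.2]
      rw [RingHom.comp_apply, hj, map_pow, hθ₀X, ← map_pow, ← X.hsS, ← htv]
    have h := mvPowerSeries_hom_ext (((WittVector.map f).comp θA).comp X.ιΛ)
      (θ.comp MvPowerSeries.C) (fun w => ?_) (fun i => ?_) ?_
    · exact RingHom.congr_fun h a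
    · have := hθC w
      rw [tc, RingHom.comp_apply] at this
      rw [RingHom.comp_apply, RingHom.comp_apply, RingHom.comp_apply, this, M.ιΛC, hAC]
      ext n
      simp
    · rw [hX, ← hθX i (by omega), tv, dif_pos i.2]
      rfl
    · have hI := isAdicComplete_witt (p := p) (C := X.S)
        (fun i : Fin X.b' => (((WittVector.map f).comp θA).comp X.ιΛ) (MvPowerSeries.X i))
        fun i => by
          rw [hX]
          simpa only [u, teichmuller_coeff_zero] using CChpP_mem M i
      exact iInf_pow_eq_bot _ le_rfl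

theorem CChpP_psi {O : Type} [CommRing O] [CharP O p] [PerfectRing O p]
    (I : Ideal (WittVector p O)) (hI : (p : WittVector p O) ∈ I) :
    ∃ ψ : O →+* WittVector p O ⧸ I, ∀ x, ψ (x.coeff 0) = Ideal.Quotient.mk I x := by
  have hle : RingHom.ker (constantCoeff : WittVector p O →+* O) ≤
      RingHom.ker (Ideal.Quotient.mk I) := by
    rw [ker_constantCoeff, Ideal.mk_ker, Ideal.span_le, Set.singleton_subset_iff]
    exact hI
  exact ⟨(constantCoeff : WittVector p O →+* O).liftOfRightInverse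
    (Function.surjInv (constantCoeff_surjective p))
    (Function.rightInverse_surjInv (constantCoeff_surjective p)) ⟨Ideal.Quotient.mk I, hle⟩,
    fun x => RingHom.liftOfRightInverse_comp_apply (constantCoeff : WittVector p O →+* O) _ _ _ x⟩

theorem CChpP_inv {A : Type} [CommRing A] (K : ℕ) (φ : A →+* A) {x : A}
    (hx : x ∈ Ideal.span {(p : A)} ⊔ Ideal.span {(p : A) ^ K}) :
    φ x ∈ Ideal.span {(p : A)} ⊔ Ideal.span {(p : A) ^ K} := by
  have := Ideal.mem_map_of_mem φ hx
  simpa [Ideal.map_sup, Ideal.map_span] using this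

theorem ChpD.pre {X : Base p k} (M : ChpD X) (K : ℕ) : Nonempty (Pre X K) := by
  have := CChpP_char M
  obtain ⟨f, hf, hinj, hfin⟩ := CChpP_alg M
  obtain ⟨θ, θ₀, hθX, hθ₀X, hθ, hθ₀, hι⟩ := CChpP_theta M
  let _ := f.toAlgebra
  have : Module.Finite (MvPowerSeries (Fin (X.a₀ + 1)) k) X.S := hfin
  let O := PerfectClosure X.S p
  let ω : WittVector p X.S →+* WittVector p O := WittVector.map (PerfectClosure.of X.S p)
  let J : Ideal (WittVector p O) :=
    Ideal.span {(p : WittVector p O)} ⊔ Ideal.span {(p : WittVector p O) ^ K}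
  have hpJ : (p : WittVector p O) ∈ J := Ideal.mem_sup_left (Ideal.subset_span rfl)
  obtain ⟨ψ, hψ⟩ := CChpP_psi J hpJ
  have hJ0 : ∀ x y : WittVector p O, x.coeff 0 = y.coeff 0 → x - y ∈ J := fun x y h => by
    rw [← Ideal.Quotient.eq, ← hψ, ← hψ, h]
  have hωθ : ∀ t, (ω (θ t)).coeff 0 = PerfectClosure.of X.S p (algebraMap X.R X.S (X.π t)) :=
    fun t => by rw [WittVector.map_coeff, hθ]
  have hωθ₀ : ∀ a, (ω (θ₀ a)).coeff 0 = PerfectClosure.of X.S p (algebraMap X.Λ X.S a) :=
    fun a => by rw [WittVector.map_coeff, hθ₀]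
  have hψt : ∀ y, ψ y = Ideal.Quotient.mk J (teichmuller p y) := fun y => by
    rw [← hψ, teichmuller_coeff_zero]
  choose g hg using fun γ : X.σ => exists_perf_equiv (p := p) (X.gal γ).toRingEquiv
  have hgΛ : ∀ γ a, g γ (PerfectClosure.of X.S p (algebraMap X.Λ X.S a)) =
      PerfectClosure.of X.S p (algebraMap X.Λ X.S a) := fun γ a => by
    rw [hg]
    exact congrArg _ ((X.gal γ).commutes a)
  have hs0 : algebraMap X.Λ X.S (MvPowerSeries.X 0) ≠ 0 := by
    rw [← hf, CChpP_redW_X, Ne, ← map_zero f, hinj.eq_iff]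
    intro h
    simpa [MvPowerSeries.coeff_X] using congrArg (MvPowerSeries.coeff (Finsupp.single 0 1)) h
  refine ⟨{
    C := X.S
    inj := hinj
    s := fun i => algebraMap X.Λ X.S (MvPowerSeries.X i)
    hs := fun i => by rw [← hf, CChpP_redW_X]; rfl
    smem := CChpP_memΛ X
    reg := IsSMulRegular.of_ne_zero hs0
    β := fun i j => algebraMap X.R X.S (X.β i j)
    c := algebraMap X.Λ X.S X.w₁
    hc := map_dvd _ M.dvd
    ak := fun e => M.ak (p ^ e)
    θ := ω.comp θ
    θ₀ := ω.comp θ₀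
    hθ₀ := fun i => by rw [RingHom.comp_apply, hθ₀X, map_teichmuller]
    hθι := fun a => by rw [RingHom.comp_apply, RingHom.comp_apply, hι]
    JK := J
    hJK := by rw [CChpP_xi0 M, map_natCast]
    hξ := ?_
    hH := fun t ht => ?_
    hβ := fun i j t ht => hJ0 _ _ ?_
    hsT := fun i => hJ0 _ _ ?_
    𝔍 := J
    le𝔍 := le_rfl
    h𝔍 := fun y hy => Ideal.subset_span
      (Ideal.mul_mem_left _ _ (Ideal.pow_mem_of_mem _ hy _ M.hmP))
    ψ := ψ.comp (PerfectClosure.of X.S p)
    hψ := fun t => by rw [RingHom.comp_apply, ← hωθ, hψ]; rfl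
    hψ₀ := fun a => by rw [RingHom.comp_apply, ← hωθ₀, hψ]; rfl
    g := g
    hg := fun γ x => ?_
    hgc := fun γ => hgΛ γ _
    hg𝔍 := fun γ x => ⟨fun h => ?_, fun h => CChpP_inv K _ h⟩
    hgψ := fun γ y x h => ?_
    g' := fun _ => RingEquiv.refl _
    hg' := fun _ _ => rfl
    mass := ?_ }⟩
  · have h := Ideal.mem_map_of_mem (ω.comp θ) M.hξp
    rw [map_sub, map_natCast] at h
    refine (Ideal.map_le_iff_le_comap.2 (Ideal.span_le.2 ?_)) h
    rintro _ ⟨i, hi, rfl⟩
    refine Ideal.subset_span ⟨_, CChpP_mem M i, ?_⟩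
    rw [RingHom.comp_apply, hθX i hi, map_teichmuller]
  · have h := hJ0 (ω (θ t)) 0 (by rw [hωθ, (RingHom.mem_ker).1 (X.hHS ht), map_zero, zero_coeff])
    rwa [sub_zero] at h
  · rw [RingHom.comp_apply, hωθ, ht, teichmuller_coeff_zero]
  · rw [RingHom.comp_apply, hωθ, X.hsS, ← map_pow (teichmuller p), teichmuller_coeff_zero,
      map_pow]
  · obtain ⟨a, rfl⟩ := redW_surjective (p := p) _ x
    have h : algebraMap (MvPowerSeries (Fin (X.a₀ + 1)) k) X.S (redW p k _ a) =
      algebraMap X.Λ X.S a := hf a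
    rw [h, hgΛ]
  · have h' := CChpP_inv K (WittVector.map (g γ).symm.toRingHom) h
    have e : WittVector.map (g γ).symm.toRingHom (WittVector.map (g γ).toRingHom x) = x := by
      ext n
      simp
    rwa [e] at h'
  · rw [RingHom.comp_apply, hψt, Ideal.Quotient.eq] at h ⊢
    have h' := CChpP_inv K (WittVector.map (g γ).toRingHom) h
    rw [map_sub, map_teichmuller] at h'
    have e : (g γ).toRingHom (PerfectClosure.of X.S p y) =
      PerfectClosure.of X.S p (X.gal γ y) := hg γ y
    rwa [e] at h'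
  · have h := hJ0 (ω (θ₀ X.w₁)) (tw p (algebraMap X.Λ X.S X.w₁))
      (by rw [hωθ₀, teichmuller_coeff_zero])
    have e : (ω.comp θ₀) X.w₁ = tw p (algebraMap X.Λ X.S X.w₁) +
        (ω (θ₀ X.w₁) - tw p (algebraMap X.Λ X.S X.w₁)) := by
      rw [add_sub_cancel]
      rfl
    rw [e]
    exact Ideal.add_mem _ (Ideal.mem_sup_left (Ideal.subset_span ⟨M.g₀, rfl⟩))
      (Ideal.mem_sup_right h)

end Crest.Agent.R188
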