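import Crest.Agent.R188.CGal
import Crest.Agent.R188.CLoc

/-!
# Galois closure after a Frobenius twist
-/

set_option autoImplicit false
set_option linter.unusedVariables false

open scoped ENNReal NNReal TensorProduct

namespace Crest.Agent.R188

open Crest.Agent.R183 IsLocalRing WittVector

/-- after a Frobenius twist finitely many integral elements generate a separable algebra -/
theorem gcl_sep (p : ℕ) [Fact p.Prime] {Λ F : Type} [CommRing Λ] [Field F] [CharP F p]
    [Algebra Λ F] {T : Set F} (hT : T.Finite) (hi : ∀ t ∈ T, IsIntegral Λ t) :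
    ∃ e₀ : ℕ, ∀ y ∈ Algebra.adjoin Λ ((fun t => t ^ p ^ e₀) '' T), ∃ f : Polynomial Λ,
      Polynomial.aeval y f = 0 ∧ Polynomial.aeval y (Polynomial.derivative f) ≠ 0 := by
  let R : Subring F := (algebraMap Λ F).range
  let K : Type := FractionRing R
  let _ : Algebra K F := FractionRing.liftAlgebra R F
  have _ : IsScalarTower R K F := FractionRing.isScalarTower_liftAlgebra R F
  have _ : CharP K p := (algebraMap K F).charP (algebraMap K F).injective p
  let ρ : Λ →+* R := (algebraMap Λ F).rangeRestrict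
  have hρ : (algebraMap R F).comp ρ = algebraMap Λ F := rfl
  have h1 : ∀ t ∈ T, ∃ e : ℕ, t ^ p ^ e ∈ separableClosure K F := by
    intro t ht
    have h2 : IsIntegral K t := by
      obtain ⟨P, hP, hP'⟩ := hi t ht
      refine IsIntegral.tower_top (R := R) ⟨P.map ρ, hP.map ρ, ?_⟩
      rw [Polynomial.eval₂_map, hρ, hP']
    obtain ⟨e, g, hg, hge⟩ := Polynomial.exists_separable_of_irreducible p
      (minpoly.irreducible h2) (Fact.out : p.Prime).ne_zero
    refine ⟨e, mem_separableClosure_iff.2 (hg.of_dvd (minpoly.dvd K _ ?_))⟩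
    rw [← Polynomial.expand_aeval, hge, minpoly.aeval]
  choose! e he using h1
  obtain ⟨e₀, he₀⟩ := (hT.image e).bddAbove
  refine ⟨e₀, fun y hy => ?_⟩
  have h3 : y ∈ separableClosure K F := by
    induction hy using Algebra.adjoin_induction with
    | mem x hx =>
      obtain ⟨t, ht, rfl⟩ := hx
      obtain ⟨d, hd⟩ := Nat.exists_eq_add_of_le (he₀ ⟨t, ht, rfl⟩)
      simp only [hd, pow_add, pow_mul]
      exact pow_mem (he t ht) _
    | algebraMap r =>
      have : algebraMap Λ F r = algebraMap K F (algebraMap R K (ρ r)) := by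
        rw [← IsScalarTower.algebraMap_apply]; rfl
      rw [this]
      exact IntermediateField.algebraMap_mem _ _
    | add x y _ _ hx hy => exact add_mem hx hy
    | mul x y _ _ hx hy => exact mul_mem hx hy
  have h4 : (minpoly K y).Separable := mem_separableClosure_iff.1 h3
  obtain ⟨b, hb, hb'⟩ := IsLocalization.integerNormalization_spec (nonZeroDivisors R) (minpoly K y)
  obtain ⟨f, hf⟩ := Polynomial.map_surjective ρ (algebraMap Λ F).rangeRestrict_surjective
    (IsLocalization.integerNormalization (nonZeroDivisors R) (minpoly K y))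
  have key : ∀ g : Polynomial Λ,
      Polynomial.aeval y g = Polynomial.aeval y ((g.map ρ).map (algebraMap R K)) := fun g => by
    rw [Polynomial.aeval_map_algebraMap, Polynomial.aeval_def, Polynomial.aeval_def,
      Polynomial.eval₂_map, hρ]
  refine ⟨f, ?_, ?_⟩
  · rw [key, hf, hb', ← algebraMap_smul K, map_smul, minpoly.aeval, smul_zero]
  · rw [key, ← Polynomial.derivative_map, ← Polynomial.derivative_map, hf, hb',
      ← algebraMap_smul K, Polynomial.derivative_smul, map_smul]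
    exact smul_ne_zero (IsFractionRing.to_map_ne_zero_of_mem_nonZeroDivisors hb)
      (h4.aeval_derivative_ne_zero (minpoly.aeval K y))

theorem gcl_inj {Λ S F : Type} [CommRing Λ] [CommRing S] [IsDomain S] [Algebra Λ S]
    [Module.Finite Λ S] [Field F] [Algebra Λ F] (ι : S →ₐ[Λ] F) (hι : Function.Injective ι)
    (f : S →ₐ[Λ] F) : Function.Injective f := by
  rw [injective_iff_map_eq_zero]
  intro x hx
  by_contra h0
  have := Ideal.comap_lt_comap_of_integral_mem_sdiff (R := Λ) (I := ⊥) (J := RingHom.ker f)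
    bot_le (x := x) ⟨hx, h0⟩ (Algebra.IsIntegral.isIntegral x)
  refine this.not_ge fun a ha => ?_
  rw [Ideal.mem_comap, RingHom.mem_ker, AlgHom.commutes] at ha
  rw [Ideal.mem_comap, Ideal.mem_bot]
  exact hι (by rw [AlgHom.commutes, ha, map_zero])

theorem gcl_aux (p : ℕ) [Fact p.Prime] {Λ S F : Type} [CommRing Λ]
    [IsLocalRing Λ] [CommRing S] [IsDomain S] [Algebra Λ S] [Module.Finite Λ S]
    [Field F] [IsAlgClosed F] [CharP F p] [Algebra Λ F] (ι : S →ₐ[Λ] F)
    (hι : Function.Injective ι)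
    {n : ℕ} (z : Fin n → S) (hz : Algebra.adjoin Λ (Set.range z) = ⊤)
    (hn : ∀ i, ∃ e : ℕ, z i ^ e ∈ (maximalIdeal Λ).map (algebraMap Λ S)) :
    ∃ (e₀ : ℕ) (S' : Type) (_ : CommRing S') (_ : IsDomain S') (_ : IsLocalRing S')
      (_ : Algebra Λ S') (_ : Module.Finite Λ S') (φ : S →+* S'), Function.Injective φ ∧
      (∀ a, φ (algebraMap Λ S a) = algebraMap Λ S' a ^ p ^ e₀) ∧
      RingHom.ker (algebraMap Λ S') = RingHom.ker (algebraMap Λ S) ∧
      (∀ t : S', ∃ r : Λ, t - algebraMap Λ S' r ∈ maximalIdeal S') ∧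
      (∃ e : ℕ, maximalIdeal S' ^ e ≤ (maximalIdeal Λ).map (algebraMap Λ S')) ∧
      ∃ (σ : Type) (_ : Fintype σ) (_ : DecidableEq σ) (gal : σ → S' ≃ₐ[Λ] S') (w : Λ)
        (ε : σ → S' ⊗[Λ] S'), algebraMap Λ S' w ≠ 0 ∧ GalD gal w ε := by
  let T : Set F := Set.range fun x : (S →ₐ[Λ] F) × Fin n => x.1 (z x.2)
  have hT : T.Finite := by
    choose P hP hP' using fun i => Algebra.IsIntegral.isIntegral (R := Λ) (z i)
    refine (Set.finite_iUnion fun i => (P i).rootSet_finite F).subset ?_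
    rintro _ ⟨⟨f, i⟩, rfl⟩
    refine Set.mem_iUnion.2 ⟨i, Polynomial.mem_rootSet'.2 ⟨((hP i).map _).ne_zero, ?_⟩⟩
    rw [Polynomial.aeval_algHom_apply, Polynomial.aeval_def, hP', map_zero]
  have hi : ∀ t ∈ T, IsIntegral Λ t := by
    rintro _ ⟨⟨f, i⟩, rfl⟩
    exact (Algebra.IsIntegral.isIntegral (z i)).map f
  obtain ⟨e₀, hsep⟩ := gcl_sep p hT hi
  set T' : Set F := (fun t => t ^ p ^ e₀) '' T with hT'
  let S' : Subalgebra Λ F := Algebra.adjoin Λ T'
  have fin : Module.Finite Λ S' := Algebra.finite_adjoin_of_finite_of_isIntegral (hT.image _) (by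
    rintro _ ⟨t, ht, rfl⟩
    exact (hi t ht).pow _)
  have hmem : ∀ (f : S →ₐ[Λ] F) (s : S), ((iterateFrobenius F p e₀).comp f.toRingHom) s ∈ S' := by
    intro f s
    have hs : s ∈ Algebra.adjoin Λ (Set.range z) := hz ▸ Algebra.mem_top
    induction hs using Algebra.adjoin_induction with
    | mem x hx =>
      obtain ⟨i, rfl⟩ := hx
      exact Algebra.subset_adjoin ⟨_, ⟨(f, i), rfl⟩, rfl⟩
    | algebraMap r =>
      change f (algebraMap Λ S r) ^ p ^ e₀ ∈ S'
      rw [AlgHom.commutes]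
      exact pow_mem (S'.algebraMap_mem r) _
    | add x y _ _ hx hy => rw [map_add]; exact add_mem hx hy
    | mul x y _ _ hx hy => rw [map_mul]; exact mul_mem hx hy
  let Φ : (S →ₐ[Λ] F) → S →+* S' := fun f => RingHom.codRestrict _ S' (hmem f)
  have hΦ : ∀ f s, (Φ f s : F) = f s ^ p ^ e₀ := fun _ _ => rfl
  have hΦa : ∀ f a, Φ f (algebraMap Λ S a) = algebraMap Λ S' a ^ p ^ e₀ := fun f a =>
    Subtype.ext (by rw [hΦ, AlgHom.commutes]; rfl)
  have hq : p ^ e₀ ≠ 0 := pow_ne_zero _ (Fact.out : p.Prime).ne_zero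
  let v : (S →ₐ[Λ] F) × Fin n → S' := fun x => Φ x.1 (z x.2)
  have hv : Set.range v = ((↑) : S' → F) ⁻¹' T' := by
    ext y
    constructor
    · rintro ⟨x, rfl⟩
      exact ⟨_, ⟨x, rfl⟩, rfl⟩
    · rintro ⟨_, ⟨x, rfl⟩, h⟩
      exact ⟨x, Subtype.ext h⟩
  have hv' : Algebra.adjoin Λ (Set.range v) = ⊤ := by
    rw [hv]; exact Algebra.adjoin_adjoin_coe_preimage
  obtain ⟨loc, hres, hnil⟩ := exists_local_of_gen v hv' (by
    rintro ⟨f, i⟩
    obtain ⟨e, he⟩ := hn i
    refine ⟨e, ?_⟩
    have h1 := Ideal.mem_map_of_mem (Φ f) he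
    rw [map_pow, Ideal.map_map] at h1
    refine (Ideal.map_le_iff_le_comap.2 fun a ha => ?_) h1
    rw [Ideal.mem_comap, RingHom.comp_apply, hΦa]
    exact Ideal.pow_mem_of_mem _ (Ideal.mem_map_of_mem _ ha) _ (Nat.pos_of_ne_zero hq))
  have ha : ∀ g : S' →ₐ[Λ] F, ∃ γ : S' ≃ₐ[Λ] S', ∀ y, g y = S'.val (id γ y) := by
    intro g
    have h1 : ∀ x, ∃ x', g (v x) = v x' := by
      rintro ⟨f, i⟩
      let f' : S →ₐ[Λ] F :=
        { ((iterateFrobeniusEquiv F p e₀).symm.toRingHom.comp g.toRingHom).comp (Φ f) with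
          commutes' := fun a => by
            change (iterateFrobeniusEquiv F p e₀).symm (g (Φ f (algebraMap Λ S a))) = _
            rw [RingEquiv.symm_apply_eq, hΦa, map_pow, AlgHom.commutes]
            rfl }
      exact ⟨(f', i), ((iterateFrobeniusEquiv F p e₀).apply_symm_apply _).symm⟩
    have h2 : ∀ y, g y ∈ S' := by
      intro y
      have hy : y ∈ Algebra.adjoin Λ (Set.range v) := hv' ▸ Algebra.mem_top
      refine (Algebra.adjoin_le (S := S'.comap g) ?_) hy
      rintro _ ⟨x, rfl⟩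
      obtain ⟨x', hx'⟩ := h1 x
      change g (v x) ∈ S'
      rw [hx']
      exact (v x').2
    let g' : S' →ₐ[Λ] S' := g.codRestrict S' h2
    have h3 : Function.Injective g' := fun a b h =>
      gcl_inj S'.val Subtype.val_injective g (congrArg Subtype.val h)
    have h4 : (Set.range v).Finite := by
      rw [hv]; exact (hT.image _).preimage Subtype.val_injective.injOn
    have h5 : Set.BijOn g' (Set.range v) (Set.range v) :=
      (h4.injOn_iff_bijOn_of_mapsTo (by
        rintro _ ⟨x, rfl⟩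
        obtain ⟨x', hx'⟩ := h1 x
        exact ⟨x', Subtype.ext hx'.symm⟩)).1 h3.injOn
    have h6 : Function.Surjective g' := by
      intro y
      have hy : y ∈ Algebra.adjoin Λ (Set.range v) := hv' ▸ Algebra.mem_top
      refine (Algebra.adjoin_le (S := g'.range) fun t ht => ?_) hy
      obtain ⟨u, -, hu⟩ := h5.surjOn ht
      exact ⟨u, hu⟩
    exact ⟨AlgEquiv.ofBijective g' ⟨h3, h6⟩, fun y => rfl⟩
  obtain ⟨σ, i1, i2, sel, w, ε, hw, hg⟩ := exists_galD S'.val Subtype.val_injective id ha (by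
    intro y
    obtain ⟨f, h1, h2⟩ := hsep y y.2
    refine ⟨f, Subtype.val_injective ?_, fun h => h2 ?_⟩
    · exact (Polynomial.aeval_algHom_apply S'.val y f).symm.trans h1
    · exact (Polynomial.aeval_algHom_apply S'.val y _).trans (by rw [h, map_zero]))
  refine ⟨e₀, S', inferInstance, inferInstance, loc, inferInstance, fin, Φ ι, ?_, hΦa ι, ?_, hres,
    hnil, σ, i1, i2, _, w, ε, hw, hg⟩
  · rw [injective_iff_map_eq_zero]
    intro s hs
    have := congrArg Subtype.val hs
    rw [hΦ] at this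
    exact hι (by rw [map_zero]; exact pow_eq_zero_iff hq |>.1 this)
  · ext a
    rw [RingHom.mem_ker, RingHom.mem_ker, ← hι.eq_iff, AlgHom.commutes, map_zero,
      ← Subtype.val_injective.eq_iff]
    rfl

theorem exists_gcl (p : ℕ) [Fact p.Prime] {Λ S : Type} [CommRing Λ] [IsNoetherianRing Λ]
    [IsLocalRing Λ] [CommRing S] [IsDomain S] [CharP S p] [Algebra Λ S] [Module.Finite Λ S]
    {n : ℕ} (z : Fin n → S) (hz : Algebra.adjoin Λ (Set.range z) = ⊤)
    (hn : ∀ i, ∃ e : ℕ, z i ^ e ∈ (maximalIdeal Λ).map (algebraMap Λ S)) :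
    ∃ (e₀ : ℕ) (S' : Type) (_ : CommRing S') (_ : IsDomain S') (_ : IsLocalRing S')
      (_ : Algebra Λ S') (_ : Module.Finite Λ S') (φ : S →+* S'), Function.Injective φ ∧
      (∀ a, φ (algebraMap Λ S a) = algebraMap Λ S' a ^ p ^ e₀) ∧
      RingHom.ker (algebraMap Λ S') = RingHom.ker (algebraMap Λ S) ∧
      (∀ t : S', ∃ r : Λ, t - algebraMap Λ S' r ∈ maximalIdeal S') ∧
      (∃ e : ℕ, maximalIdeal S' ^ e ≤ (maximalIdeal Λ).map (algebraMap Λ S')) ∧
      ∃ (σ : Type) (_ : Fintype σ) (_ : DecidableEq σ) (gal : σ → S' ≃ₐ[Λ] S') (w : Λ)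
        (ε : σ → S' ⊗[Λ] S'), algebraMap Λ S' w ≠ 0 ∧ GalD gal w ε := by
  have inj : Function.Injective (algebraMap S (AlgebraicClosure (FractionRing S))) :=
    (algebraMap (FractionRing S) (AlgebraicClosure (FractionRing S))).injective.comp
      (IsFractionRing.injective S (FractionRing S))
  have : CharP (AlgebraicClosure (FractionRing S)) p := charP_of_injective_ringHom inj p
  exact gcl_aux p (IsScalarTower.toAlgHom Λ S (AlgebraicClosure (FractionRing S))) inj z hz hn

end Crest.Agent.R188
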