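import Crest.Agent.R188.FDefs

/-!
# The vanishing statement
-/

set_option autoImplicit false

namespace Crest.Agent.R188

open Crest.Agent.R183 IsLocalRing

/-- vanishing of the intersection multiplicity when the sum of the dimensions is `< n` -/
def Van (R : Type) [CommRing R] [IsLocalRing R] (n : ℕ) : Prop :=
  ∀ (a b : ℕ) (Q : Ideal R) (M : Type) [AddCommGroup M] [Module R M] [Module.Finite R M]
    (F : MC R), a + b < n → Q.IsPrime → ringKrullDim (R ⧸ Q) ≤ b →
    ringKrullDim (R ⧸ Module.annihilator R M) ≤ a →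
    (∃ c : ℕ, maximalIdeal R ^ c ≤ Q ⊔ Module.annihilator R M) → F.IsRes (R ⧸ Q) →
    F.chi (LF.length R) M = 0

/-- there are roots of unity of arbitrarily large odd order -/
def HasRoots (R : Type) [CommRing R] : Prop :=
  ∀ N : ℕ, ∃ k : ℕ, N ≤ k ∧ Odd k ∧ ∃ ζ : R, RootU k ζ

/-- the multi-index `C 𝟙 + a(t)` -/
def uvec (n C t : ℕ) : Fin (n + 1) → ℕ := fun s => C + avec n t s

end Crest.Agent.R188
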