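import Crest.Agent.R188.HReg
import Crest.Agent.R188.VDefs
import Crest.Agent.R183.MainP

/-!
# Regular local rings, base change to a complete ring with algebraically closed residue field
-/

set_option autoImplicit false
set_option linter.unusedVariables false
set_option linter.style.haveILetI false

open scoped ENNReal NNReal TensorProduct

namespace Crest.Agent.R188

open Crest.Agent.R183 IsLocalRing RingTheory.Sequence

/-- Davis' form of prime avoidance, for the minimal primes -/
theorem RReg_avoid {R : Type} [CommRing R] [IsNoetherianRing R] (a : R) (I : Ideal R)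
    (h : ∀ P ∈ minimalPrimes R, a ∈ P → ¬ I ≤ P) :
    ∃ c ∈ I, ∀ P ∈ minimalPrimes R, a + c ∉ P := by
  classical
  have hfin := minimalPrimes.finite_of_isNoetherianRing R
  let T : Finset (Ideal R) := hfin.toFinset.filter fun P => a ∉ P
  let S : Set (Ideal R) := {P | P ∈ minimalPrimes R ∧ a ∈ P}
  have hS : S.Finite := hfin.subset fun P hP => hP.1
  have hn : ¬ ((I ⊓ T.inf id : Ideal R) : Set R) ⊆ ⋃ P ∈ S, ((id P : Ideal R) : Set R) := by
    rw [Ideal.subset_union_prime_finite hS (f := id) ⊥ ⊥ fun P hP _ _ => hP.1.1.1]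
    rintro ⟨P, hP, hle⟩
    have hPp : P.IsPrime := hP.1.1.1
    rcases hPp.inf_le.1 hle with h1 | h1
    · exact h P hP.1 hP.2 h1
    · obtain ⟨Q, hQ, hQP⟩ := hPp.inf_le'.1 h1
      obtain ⟨hQ1, hQ2⟩ := Finset.mem_filter.1 hQ
      have hQm : Q ∈ minimalPrimes R := hfin.mem_toFinset.1 hQ1
      exact hQ2 (hP.1.2 hQm.1 hQP hP.2)
  obtain ⟨c, hc, hc'⟩ := Set.not_subset.1 hn
  refine ⟨c, hc.1, fun P hP hac => ?_⟩
  by_cases ha : a ∈ P
  · refine hc' (Set.mem_iUnion₂.2 ⟨P, ⟨hP, ha⟩, ?_⟩)
    simpa using P.sub_mem hac ha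
  · have hcP : c ∈ P := (Finset.inf_le (f := id)
      (Finset.mem_filter.2 ⟨hfin.mem_toFinset.2 hP, ha⟩ : P ∈ T)) hc.2
    exact ha (by simpa using P.sub_mem hac hcP)

/-- a prime element outside the minimal primes is regular -/
theorem RReg_regular {R : Type} [CommRing R] [IsNoetherianRing R] [IsLocalRing R] {y : R}
    (hp : (Ideal.span {y}).IsPrime) (hy : ∀ P ∈ minimalPrimes R, y ∉ P) : IsSMulRegular R y := by
  obtain ⟨P, hP, hle⟩ := Ideal.exists_minimalPrimes_le (I := ⊥) (J := Ideal.span {y}) bot_le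
  have hPp : P.IsPrime := hP.1.1
  have hym : y ∈ maximalIdeal R := le_maximalIdeal hp.ne_top (Ideal.mem_span_singleton_self y)
  have h0 : P ≤ ⊥ := by
    refine Submodule.le_of_le_smul_of_le_jacobson_bot (I := maximalIdeal R)
      (IsNoetherian.noetherian _) (maximalIdeal_le_jacobson _) fun z hz => ?_
    obtain ⟨z', rfl⟩ := Ideal.mem_span_singleton.1 (hle hz)
    exact Submodule.mem_sup_right
      (Submodule.smul_mem_smul hym ((hPp.mem_or_mem hz).resolve_left (hy P hP)))
  intro a b hab
  have h1 : y * (a - b) ∈ P := by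
    have : y * a = y * b := hab
    rw [mul_sub, this, sub_self]
    exact P.zero_mem
  exact sub_eq_zero.1 (h0 ((hPp.mem_or_mem h1).resolve_left (hy P hP)))

/-- if the maximal ideal is generated by `dim R` elements, they form a regular sequence -/
theorem regL_of_dim {R : Type} [CommRing R] [IsNoetherianRing R] [IsLocalRing R] {d : ℕ}
    (x : Fin d → R) (hx : sp x = maximalIdeal R) (hd : (d : WithBot ℕ∞) ≤ ringKrullDim R) :
    RegL R x := by
  induction d generalizing R with
  | zero => exact ⟨by simp, hx⟩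
  | succ d ih =>
    have hsplit : ∀ y : R, sp (Fin.cons y (Fin.tail x) : Fin (d + 1) → R) =
        Ideal.span {y} ⊔ sp (Fin.tail x) := fun y => by
      rw [sp, Fin.range_cons, Ideal.span_insert]
    have hx' : Ideal.span {x 0} ⊔ sp (Fin.tail x) = maximalIdeal R := by
      rw [← hsplit, Fin.cons_self_tail, hx]
    obtain ⟨c, hc, hy⟩ := RReg_avoid (x 0) (sp (Fin.tail x)) fun P hP h0 h1 => by
      have hPp : P.IsPrime := hP.1.1
      have hm : maximalIdeal R = P := (maximalIdeal.isMaximal R).eq_of_le hPp.ne_top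
        (hx' ▸ sup_le ((Ideal.span_singleton_le_iff_mem _).2 h0) h1)
      have h2 : (maximalIdeal R).height = 0 := Ideal.height_eq_zero_iff.2 (hm ▸ hP)
      rw [← maximalIdeal_height_eq_ringKrullDim, h2] at hd
      exact absurd hd (by norm_cast)
    set y := x 0 + c with hydef
    have hz : sp (Fin.cons y (Fin.tail x) : Fin (d + 1) → R) = maximalIdeal R := by
      rw [hsplit, ← hx']
      refine le_antisymm (sup_le ?_ le_sup_right) (sup_le ?_ le_sup_right)
      · rw [Ideal.span_singleton_le_iff_mem]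
        exact Ideal.add_mem _ (Ideal.mem_sup_left (Ideal.mem_span_singleton_self _))
          (Ideal.mem_sup_right hc)
      · rw [Ideal.span_singleton_le_iff_mem]
        have : x 0 = y - c := by rw [hydef]; ring
        rw [this]
        exact Ideal.sub_mem _ (Ideal.mem_sup_left (Ideal.mem_span_singleton_self _))
          (Ideal.mem_sup_right hc)
    have hym : y ∈ maximalIdeal R := hz ▸ Ideal.subset_span ⟨0, rfl⟩
    have hne : Ideal.span {y} ≠ ⊤ := fun h =>
      (mem_maximalIdeal _).1 hym (Ideal.span_singleton_eq_top.1 h)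
    haveI := Ideal.Quotient.nontrivial_iff.2 hne
    haveI hl : IsLocalRing (R ⧸ Ideal.span {y}) :=
      IsLocalRing.of_surjective' (Ideal.Quotient.mk _) Ideal.Quotient.mk_surjective
    have hq : RegL (R ⧸ Ideal.span {y}) fun i => Ideal.Quotient.mk _ (Fin.tail x i) := by
      refine ih _ ?_ ?_
      · rw [← map_maximalIdeal_of_surjective (Ideal.Quotient.mk (Ideal.span {y}))
          Ideal.Quotient.mk_surjective, ← hz, hsplit, Ideal.map_sup, sp_map,
          Ideal.map_quotient_self, bot_sup_eq]
      · have h1 := ringKrullDim_le_ringKrullDim_quotient_add_encard ({y} : Set R)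
          (by rw [ringJacobson_eq_maximalIdeal]; simpa using hym)
        have h2 := hd.trans h1
        rw [Set.encard_singleton] at h2
        obtain ⟨n, hn⟩ : ∃ n : ℕ, ringKrullDim (R ⧸ Ideal.span {y}) = n := by
          obtain ⟨m, hm⟩ := WithBot.ne_bot_iff_exists.1
            (ringKrullDim_ne_bot (R := R ⧸ Ideal.span {y}))
          have h3 := ringKrullDim_ne_top (R := R ⧸ Ideal.span {y})
          rw [← hm] at h3
          obtain ⟨n, rfl⟩ := ENat.ne_top_iff_exists.1 fun h : m = ⊤ => h3 (by rw [h]; rfl)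
          exact ⟨n, hm.symm⟩
        rw [hn] at h2 ⊢
        norm_cast at h2 ⊢
        omega
    have hp : (Ideal.span {y}).IsPrime := (Ideal.Quotient.isDomain_iff_prime _).1 hq.isDomain
    have hz' : RegL R (Fin.cons y (Fin.tail x) : Fin (d + 1) → R) := by
      refine ⟨?_, hz⟩
      rw [List.ofFn_succ, isWeaklyRegular_cons_iff]
      refine ⟨RReg_regular hp hy, ?_⟩
      have e : QuotSMulTop y R ≃ₗ[R] R ⧸ Ideal.span {y} :=
        Submodule.quotEquivOfEq _ _ (by
          rw [← Submodule.ideal_span_singleton_smul, smul_eq_mul, Ideal.mul_top])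
      refine (e.isWeaklyRegular_congr _).2 ?_
      rw [← isWeaklyRegular_map_algebraMap_iff (R ⧸ Ideal.span {y}), List.map_ofFn]
      exact hq.reg
    exact hz'.of_span x hx

theorem exists_regL (R : Type) [CommRing R] [IsRegularLocalRing R] (d : ℕ)
    (hd : ringKrullDim R = d) : ∃ x : Fin d → R, RegL R x := by
  have h1 : (maximalIdeal R).spanFinrank = d := by
    have := IsRegularLocalRing.spanFinrank_maximalIdeal (R := R)
    rw [hd] at this
    exact_mod_cast this
  obtain ⟨s, hs, hs'⟩ := Submodule.FG.exists_span_finset_card_eq_spanFinrank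
    (Ideal.fg_of_isNoetherianRing (maximalIdeal R))
  let e : s ≃ Fin d := s.equivFinOfCardEq (hs.trans h1)
  refine ⟨fun i => (e.symm i : R), regL_of_dim _ ?_ hd.ge⟩
  rw [← hs']
  have : Set.range (fun i => (e.symm i : R)) = s := by
    ext a
    constructor
    · rintro ⟨i, rfl⟩
      exact (e.symm i).2
    · intro ha
      exact ⟨e ⟨a, ha⟩, by simp⟩
  rw [sp, this]

/-- a form of the local criterion of flatness -/
theorem RReg_flat {R R₁ R' : Type} [CommRing R] [IsNoetherianRing R] [CommRing R₁] [CommRing R']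
    [IsNoetherianRing R'] [IsLocalRing R'] [Algebra R R₁] [Algebra R₁ R'] [Algebra R R']
    [IsScalarTower R R₁ R'] [Module.Flat R R₁] (m : Ideal R) (M : Ideal R') (hM : M ≠ ⊤)
    (hm : m.map (algebraMap R R') ≤ M)
    (hs : ∀ (N : ℕ) (b : R'), ∃ a : R₁, b - algebraMap R₁ R' a ∈ M ^ N)
    (hi : ∀ (N : ℕ) (a : R₁), algebraMap R₁ R' a ∈ M ^ N → a ∈ (m ^ N).map (algebraMap R R₁)) :
    Module.Flat R R' := by
  refine Module.Flat.of_forall_isTrivialRelation fun {l f x} hx => ?_
  let K : Submodule R' (Fin l → R') :=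
    Submodule.span R' {v | ∃ c : Fin l → R, ∑ i, f i * c i = 0 ∧ v = fun i => algebraMap R R' (c i)}
  have hK : x ∈ K := by
    obtain ⟨k, hk⟩ := Ideal.exists_pow_inf_eq_pow_smul m (M := R) (Ideal.span (Set.range f))
    rw [← Submodule.Quotient.mk_eq_zero, ← Submodule.mem_bot R',
      ← Ideal.iInf_pow_smul_eq_bot_of_isLocalRing M hM, Submodule.mem_iInf]
    intro n
    choose a ha using fun i => hs (n + k) (x i)
    have h1 : ∑ i, f i • a i ∈ (m ^ (n + k)).map (algebraMap R R₁) := by
      refine hi _ _ ?_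
      have : algebraMap R₁ R' (∑ i, f i • a i) =
          ∑ i, f i • x i - ∑ i, algebraMap R R' (f i) * (x i - algebraMap R₁ R' (a i)) := by
        rw [← Finset.sum_sub_distrib, map_sum]
        refine Finset.sum_congr rfl fun i _ => ?_
        rw [Algebra.smul_def, Algebra.smul_def, map_mul, ← IsScalarTower.algebraMap_apply]
        ring
      rw [this, hx, zero_sub]
      exact neg_mem (Ideal.sum_mem _ fun i _ => Ideal.mul_mem_left _ _ (ha i))
    obtain ⟨t, r, g, hg⟩ := Submodule.mem_span_set'.1 h1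
    choose g' hg' hg'' using fun j => (g j).2
    obtain ⟨k', c, y, hc, hc'⟩ := Module.Flat.isTrivialRelation_of_sum_smul_eq_zero (R := R)
      (f := Sum.elim f g') (x := Sum.elim a fun j => -r j) (by
        rw [Fintype.sum_sum_type]
        simp only [Sum.elim_inl, Sum.elim_inr]
        rw [← hg, ← Finset.sum_add_distrib]
        refine Finset.sum_eq_zero fun j _ => ?_
        rw [smul_eq_mul, Algebra.smul_def, hg'']
        ring)
    have h2 : ∀ j, ∃ e : Fin l → R, (∀ i, e i ∈ m ^ n) ∧
        ∑ i, f i * (c (Sum.inl i) j - e i) = 0 := by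
      intro j
      have h3 := hc' j
      rw [Fintype.sum_sum_type] at h3
      simp only [Sum.elim_inl, Sum.elim_inr] at h3
      have h4 : ∑ i, f i * c (Sum.inl i) j ∈
          (m ^ (n + k) • ⊤ ⊓ Ideal.span (Set.range f) : Submodule R R) := by
        constructor
        · rw [smul_eq_mul, Ideal.mul_top, eq_neg_of_add_eq_zero_left h3]
          exact neg_mem (Ideal.sum_mem _ fun i _ => Ideal.mul_mem_right _ _ (hg' i))
        · exact Ideal.sum_mem _ fun i _ => Ideal.mul_mem_right _ _ (Ideal.subset_span ⟨i, rfl⟩)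
      rw [hk _ (Nat.le_add_left k n), Nat.add_sub_cancel] at h4
      obtain ⟨e, he, he'⟩ := (Submodule.mem_ideal_smul_span_iff_exists_sum _ f _).1
        (Submodule.smul_mono le_rfl inf_le_right h4)
      refine ⟨e, he, ?_⟩
      rw [Finsupp.sum_fintype _ _ (by simp)] at he'
      simp only [mul_sub, Finset.sum_sub_distrib, ← he', smul_eq_mul, mul_comm, sub_self]
    choose e he he' using h2
    have h5 : (∑ j, algebraMap R₁ R' (y j) • fun i => algebraMap R R' (c (Sum.inl i) j - e j i)) ∈
        K := Submodule.sum_mem _ fun j _ => Submodule.smul_mem _ _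
      (Submodule.subset_span ⟨_, he' j, rfl⟩)
    have h6 : (x - ∑ j, algebraMap R₁ R' (y j) •
        fun i => algebraMap R R' (c (Sum.inl i) j - e j i)) ∈
        (M ^ n • ⊤ : Submodule R' (Fin l → R')) := by
      refine (Complete_mem_smul_pi _).2 fun i => ?_
      have h7 : a i = ∑ j, c (Sum.inl i) j • y j := hc (Sum.inl i)
      have : (x - ∑ j, algebraMap R₁ R' (y j) •
          fun i => algebraMap R R' (c (Sum.inl i) j - e j i)) i = (x i - algebraMap R₁ R' (a i)) +
          ∑ j, algebraMap R₁ R' (y j) * algebraMap R R' (e j i) := by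
        rw [h7, map_sum, Pi.sub_apply, Finset.sum_apply, sub_add, ← Finset.sum_sub_distrib]
        congr 1
        refine Finset.sum_congr rfl fun j _ => ?_
        rw [Pi.smul_apply, smul_eq_mul, Algebra.smul_def, map_mul, map_sub,
          ← IsScalarTower.algebraMap_apply]
        ring
      rw [this]
      refine Ideal.add_mem _ (Ideal.pow_le_pow_right (Nat.le_add_right n k) (ha i))
        (Ideal.sum_mem _ fun j _ => Ideal.mul_mem_left _ _ ?_)
      refine Ideal.pow_right_mono hm n ?_
      rw [← Ideal.map_pow]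
      exact Ideal.mem_map_of_mem _ (he j i)
    have h8 := Submodule.mem_map_of_mem (f := K.mkQ) h6
    rw [Submodule.map_smul'', map_sub, Submodule.mkQ_apply, Submodule.mkQ_apply,
      (Submodule.Quotient.mk_eq_zero K).2 h5, sub_zero] at h8
    exact Submodule.smul_mono le_rfl le_top h8
  obtain ⟨k, y, v, hv⟩ := Submodule.mem_span_set'.1 hK
  choose c hc hc' using fun j => (v j).2
  refine ⟨k, fun i j => c j i, y, fun i => ?_, hc⟩
  rw [← hv, Finset.sum_apply]
  refine Finset.sum_congr rfl fun j _ => ?_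
  rw [hc', Pi.smul_apply, smul_eq_mul, Algebra.smul_def, mul_comm]

theorem RReg_ker (B : Type) [CommRing B] (I : Ideal B) (hfg : I.FG) (N : ℕ)
    (x : AdicCompletion I B) : AdicCompletion.evalₐ I N x = 0 ↔
      x ∈ (I.map (algebraMap B (AdicCompletion I B))) ^ N := by
  rw [← Ideal.map_pow, ← Submodule.restrictScalars_mem B,
    ← Ideal.smul_top_eq_map, AdicCompletion.pow_smul_top_eq_ker_eval hfg, LinearMap.mem_ker]
  have e1 : I ^ N ≤ I ^ N • ⊤ := by simp
  have e2 : I ^ N • ⊤ ≤ I ^ N := by simp
  constructor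
  · intro hx
    rw [← AdicCompletion.factor_evalₐ_eq_eval _ x e1, hx, map_zero]
  · intro hx
    rw [← AdicCompletion.factor_eval_eq_evalₐ _ x e2, hx]
    exact map_zero _

theorem RReg_completion (B : Type) [CommRing B] [IsLocalRing B] (hfg : (maximalIdeal B).FG) :
    ∃ (B' : Type) (_ : CommRing B') (_ : IsLocalRing B')
      (_ : IsAdicComplete (maximalIdeal B') B') (_ : Algebra B B')
      (_ : IsLocalHom (algebraMap B B')),
      (maximalIdeal B).map (algebraMap B B') = maximalIdeal B' ∧
      Function.Bijective (ResidueField.map (algebraMap B B')) ∧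
      (∀ (N : ℕ) (b : B'), ∃ a : B, b - algebraMap B B' a ∈ maximalIdeal B' ^ N) ∧
      ∀ (N : ℕ) (a : B), algebraMap B B' a ∈ maximalIdeal B' ^ N → a ∈ maximalIdeal B ^ N := by
  haveI := AdicCompletion.isLocalRing_of_fg hfg
  haveI := AdicCompletion.algebraMap_isLocalHom_of_fg hfg
  have hm := AdicCompletion.maximalIdeal_eq_map_of_fg hfg
  refine ⟨AdicCompletion (maximalIdeal B) B, inferInstance, inferInstance,
    AdicCompletion.isAdicComplete_of_fg hfg, inferInstance, inferInstance, hm.symm,
    AdicCompletion.residueField_map_bijective_of_fg hfg, fun N b => ?_, fun N a ha => ?_⟩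
  · obtain ⟨a, ha⟩ := Ideal.Quotient.mk_surjective (AdicCompletion.evalₐ (maximalIdeal B) N b)
    refine ⟨a, ?_⟩
    rw [hm, ← RReg_ker B _ hfg, map_sub, ← ha, AlgHom.commutes]
    exact sub_self _
  · rw [hm, ← RReg_ker B _ hfg, AlgHom.commutes] at ha
    exact Ideal.Quotient.eq_zero_iff_mem.1 ha

/-- Cohen: a complete local ring with finitely generated maximal ideal and algebraically closed
residue field is noetherian -/
theorem RReg_noeth (B : Type) [CommRing B] [IsLocalRing B] [IsAdicComplete (maximalIdeal B) B]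
    [IsAlgClosed (ResidueField B)] (hfg : (maximalIdeal B).FG) : IsNoetherianRing B := by
  obtain ⟨p, hp⟩ := CharP.exists (ResidueField B)
  rcases CharP.char_is_prime_or_zero (ResidueField B) p with h | rfl
  · haveI : Fact p.Prime := ⟨h⟩
    haveI : ExpChar (ResidueField B) p := ExpChar.prime Fact.out
    haveI : PerfectRing (ResidueField B) p := PerfectField.toPerfectRing p
    obtain ⟨φ, hφ⟩ := exists_witt_hom B p
    refine isNoetherianRing_of_complete (maximalIdeal B) hfg φ fun b => ?_
    refine ⟨WittVector.teichmuller p (residue B b), ?_⟩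
    rw [← residue_eq_zero_iff, map_sub, hφ, WittVector.teichmuller_coeff_zero, sub_self]
  · haveI := CharP.charP_to_charZero (ResidueField B)
    obtain ⟨s, hs⟩ := exists_coeffField_charZero B
    refine isNoetherianRing_of_complete (maximalIdeal B) hfg s fun b => ⟨residue B b, ?_⟩
    rw [← residue_eq_zero_iff, map_sub, hs, sub_self]

theorem exists_baseChange {R : Type} [CommRing R] [IsNoetherianRing R] [IsLocalRing R] {d : ℕ}
    {x : Fin d → R} (hx : RegL R x) :
    ∃ (R' : Type) (_ : CommRing R') (_ : IsLocalRing R') (_ : IsNoetherianRing R')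
      (_ : IsAdicComplete (maximalIdeal R') R') (_ : Algebra R R') (_ : Module.Flat R R'),
      (maximalIdeal R).map (algebraMap R R') = maximalIdeal R' ∧ IsAlgClosed (ResidueField R') ∧
      RegL R' fun i => algebraMap R R' (x i) := by
  obtain ⟨R₁, _, _, _, _, hfree, hm₁, hac, -⟩ := exists_gonflement R
  have hfg₁ : (maximalIdeal R₁).FG := hm₁ ▸ (Ideal.fg_of_isNoetherianRing _).map _
  obtain ⟨R', _, _, _, _, _, hm', hbij, hs, hi⟩ := RReg_completion R₁ hfg₁
  letI : Algebra R R' := ((algebraMap R₁ R').comp (algebraMap R R₁)).toAlgebra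
  haveI : IsScalarTower R R₁ R' := IsScalarTower.of_algebraMap_eq fun _ => rfl
  have hm : (maximalIdeal R).map (algebraMap R R') = maximalIdeal R' := by
    rw [IsScalarTower.algebraMap_eq R R₁ R', ← Ideal.map_map, hm₁, hm']
  have hfg' : (maximalIdeal R').FG := hm' ▸ hfg₁.map _
  haveI hac' : IsAlgClosed (ResidueField R') :=
    IsAlgClosed.of_ringEquiv _ _ (RingEquiv.ofBijective _ hbij)
  haveI := RReg_noeth R' hfg'
  haveI : Module.Flat R R' := RReg_flat (R₁ := R₁) (maximalIdeal R) (maximalIdeal R')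
    (maximalIdeal.isMaximal R').ne_top hm.le hs fun N a ha => by
      rw [Ideal.map_pow, hm₁]
      exact hi N a ha
  refine ⟨R', inferInstance, inferInstance, inferInstance, inferInstance, inferInstance,
    inferInstance, hm, hac', ?_, ?_⟩
  · have := hx.reg.of_flat (S := R')
    rwa [List.map_ofFn] at this
  · rw [← sp_map, hx.max, hm]

theorem exists_rootU (R : Type) [CommRing R] [IsLocalRing R] [IsAdicComplete (maximalIdeal R) R]
    [IsAlgClosed (ResidueField R)] (j : ℕ) (hj : (j : ResidueField R) ≠ 0) :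
    ∃ ζ : R, RootU j ζ := by
  haveI : NeZero (j : ResidueField R) := ⟨hj⟩
  have hj0 : j ≠ 0 := by
    rintro rfl
    exact hj Nat.cast_zero
  haveI : NeZero j := ⟨hj0⟩
  obtain ⟨ζ₀, hζ₀⟩ := HasEnoughRootsOfUnity.exists_primitiveRoot (ResidueField R) j
  obtain ⟨a₀, rfl⟩ := residue_surjective ζ₀
  have hu : ∀ b : R, residue R b ≠ 0 → IsUnit b := fun b hb => (residue_ne_zero_iff_isUnit b).1 hb
  obtain ⟨a, ha, ha'⟩ := HenselianRing.is_henselian (I := maximalIdeal R)
    (Polynomial.X ^ j - Polynomial.C 1) (Polynomial.monic_X_pow_sub_C 1 hj0) a₀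
    (by
      rw [← residue_eq_zero_iff]
      simp [hζ₀.pow_eq_one])
    (by
      refine IsUnit.map _ (hu _ ?_)
      rw [Polynomial.derivative_sub, Polynomial.derivative_X_pow, Polynomial.derivative_C, sub_zero,
        Polynomial.eval_mul, Polynomial.eval_C, Polynomial.eval_pow, Polynomial.eval_X, map_mul,
        map_pow, map_natCast]
      exact mul_ne_zero hj (pow_ne_zero _ (hζ₀.ne_zero hj0)))
  have h1 : residue R a = residue R a₀ := by
    rw [← sub_eq_zero, ← map_sub, residue_eq_zero_iff]
    exact ha'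
  refine ⟨a, ?_, hu _ (by simpa using hj), fun i hi hij => hu _ ?_⟩
  · simpa [sub_eq_zero] using ha
  · rw [map_sub, map_pow, map_one, h1, sub_ne_zero]
    exact hζ₀.pow_ne_one_of_pos_of_lt hi.ne' hij

theorem hasRoots (R : Type) [CommRing R] [IsLocalRing R] [IsAdicComplete (maximalIdeal R) R]
    [IsAlgClosed (ResidueField R)] : HasRoots R := by
  intro N
  obtain ⟨p, hp⟩ := CharP.exists (ResidueField R)
  obtain ⟨k, hk, hk'⟩ := Nat.exists_infinite_primes (N + p + 3)
  refine ⟨k, by omega, hk'.odd_of_ne_two (by omega), exists_rootU R k fun h => ?_⟩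
  rw [CharP.cast_eq_zero_iff (ResidueField R) p] at h
  rcases (Nat.dvd_prime hk').1 h with h1 | h1
  · exact CharP.char_ne_one (ResidueField R) p h1
  · omega

end Crest.Agent.R188
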