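import Crest.Agent.R188.VAN
import Crest.Agent.R188.RReg

/-!
# From primes to modules; base change of the intersection multiplicity
-/

set_option autoImplicit false
set_option linter.unusedVariables false

open scoped ENNReal NNReal TensorProduct

namespace Crest.Agent.R188

open Crest.Agent.R183 IsLocalRing

/-- positivity for pairs of primes of complementary dimension -/
def PosP (R : Type) [CommRing R] [IsLocalRing R] (d : ℕ) : Prop :=
  ∀ (a b : ℕ) (P Q : Ideal R) (F : MC R), a + b = d → P.IsPrime → Q.IsPrime →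
    ringKrullDim (R ⧸ P) = a → ringKrullDim (R ⧸ Q) = b →
    (∃ c : ℕ, maximalIdeal R ^ c ≤ P ⊔ Q) → F.IsRes (R ⧸ Q) → 0 < F.chi (LF.length R) (R ⧸ P)

theorem RMod_mul_le {R : Type} [CommRing R] {N₁ N₂ N₃ : Type} [AddCommGroup N₁] [Module R N₁]
    [AddCommGroup N₂] [Module R N₂] [AddCommGroup N₃] [Module R N₃] {f : N₁ →ₗ[R] N₂}
    {g : N₂ →ₗ[R] N₃} (hfg : Function.Exact f g) :
    Module.annihilator R N₁ * Module.annihilator R N₃ ≤ Module.annihilator R N₂ := by
  refine Ideal.mul_le.2 fun a ha b hb => Module.mem_annihilator.2 fun x => ?_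
  obtain ⟨y, hy⟩ := (hfg (b • x)).1 (by rw [map_smul, Module.mem_annihilator.1 hb])
  rw [mul_smul, ← hy, ← map_smul, Module.mem_annihilator.1 ha, map_zero]

theorem RMod_filt {R : Type} [CommRing R] [IsNoetherianRing R] [IsLocalRing R] {F : MC R}
    {Q J P₀ : Ideal R} (hF : F.Supp Q) (hQ : ∃ c : ℕ, maximalIdeal R ^ c ≤ Q ⊔ J)
    (hP₀ : P₀.IsPrime)
    (hp : ∀ P : Ideal R, P.IsPrime → J ≤ P → 0 ≤ F.chi (LF.length R) (R ⧸ P) ∧
      (P ≤ P₀ → 0 < F.chi (LF.length R) (R ⧸ P))) :
    ∀ (N : Type) [AddCommGroup N] [Module R N] [hN : Module.Finite R N],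
      (∀ a ∈ J, ∀ x : N, a • x = 0) → 0 ≤ F.chi (LF.length R) N ∧
        (Module.annihilator R N ≤ P₀ → 0 < F.chi (LF.length R) N) := by
  obtain ⟨c, hc⟩ := hQ
  intro N _ _ hN
  induction hN using IsNoetherianRing.induction_on_isQuotientEquivQuotientPrime R with
  | subsingleton N =>
    intro _
    rw [F.chi_of_val (by rw [LF.zero]; exact ENNReal.zero_ne_top), LF.zero]
    refine ⟨by simp, fun h => absurd ((Ideal.eq_top_iff_one _).2 (h ?_)) hP₀.ne_top⟩
    exact Module.mem_annihilator.2 fun x => Subsingleton.elim _ _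
  | quotient N P f =>
    intro h
    have hle : J ≤ P.1 := fun a ha => by
      have h2 := congrArg f (h a ha (f.symm 1))
      rw [map_smul, map_zero, f.apply_symm_apply, Algebra.smul_def, mul_one] at h2
      exact Ideal.Quotient.eq_zero_iff_mem.1 h2
    rw [MC.chi, (F.ap_iso f).ech_eq, f.annihilator_eq, Ideal.annihilator_quotient]
    exact hp P.1 P.2 hle
  | exact N₁ N₂ N₃ f g hf hg hfg h₁ h₃ =>
    intro h
    have k1 : ∀ a ∈ J, ∀ x : N₁, a • x = 0 := fun a ha x => hf (by rw [map_smul, h a ha, map_zero])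
    have k3 : ∀ a ∈ J, ∀ x : N₃, a • x = 0 := fun a ha x => by
      obtain ⟨y, rfl⟩ := hg x
      rw [← map_smul, h a ha, map_zero]
    rw [F.chi_ses hf hg hfg
      (hF.fin'_length ⟨c, hc.trans (sup_le_sup_left
        (fun a ha => Module.mem_annihilator.2 (k1 a ha)) _)⟩)
      (hF.fin'_length ⟨c, hc.trans (sup_le_sup_left
        (fun a ha => Module.mem_annihilator.2 (k3 a ha)) _)⟩)]
    obtain ⟨a1, a2⟩ := h₁ k1
    obtain ⟨a3, a4⟩ := h₃ k3
    refine ⟨add_nonneg a1 a3, fun hle => ?_⟩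
    rcases hP₀.mul_le.1 ((RMod_mul_le hfg).trans hle) with e | e
    · exact add_pos_of_pos_of_nonneg (a2 e) a3
    · exact add_pos_of_nonneg_of_pos a1 (a4 e)

theorem RMod_dim_anti {R : Type} [CommRing R] {I J : Ideal R} (h : I ≤ J) :
    ringKrullDim (R ⧸ J) ≤ ringKrullDim (R ⧸ I) :=
  ringKrullDim_le_of_surjective (Ideal.Quotient.factor h) (Ideal.Quotient.factor_surjective h)

theorem RMod_exists_prime {R : Type} [CommRing R] {I : Ideal R} {a : ℕ}
    (h : ringKrullDim (R ⧸ I) = a) :
    ∃ P : Ideal R, P.IsPrime ∧ (a : WithBot ℕ∞) ≤ ringKrullDim (R ⧸ P) ∧ I ≤ P := by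
  rw [ringKrullDim_quotient] at h
  obtain ⟨l, hl⟩ := Order.le_krullDim_iff.1 h.ge
  refine ⟨l.head.1.asIdeal, l.head.1.2, ?_, l.head.2⟩
  rw [ringKrullDim_quotient]
  exact Order.le_krullDim_iff.2
    ⟨⟨l.length, fun i => ⟨(l i).1, l.head_le i⟩, fun i => l.step i⟩, hl⟩

theorem RMod_prime {R : Type} [CommRing R] [IsNoetherianRing R] [IsLocalRing R] {d : ℕ}
    (hv : Van R d) (hp : PosP R d) {a b : ℕ} (hab : a + b = d) (M : Type)
    [AddCommGroup M] [Module R M] [Module.Finite R M] {Q : Ideal R} (hQ : Q.IsPrime)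
    (ha : ringKrullDim (R ⧸ Module.annihilator R M) = a) (hb : ringKrullDim (R ⧸ Q) = b)
    (hMQ : ∃ c : ℕ, maximalIdeal R ^ c ≤ Q ⊔ Module.annihilator R M)
    {G : MC R} (hG : G.IsRes (R ⧸ Q)) : 0 < G.chi (LF.length R) M := by
  obtain ⟨P₀, hP₀, h1, h2⟩ := RMod_exists_prime ha
  refine (RMod_filt hG.supp_quot hMQ hP₀ (fun P hP hle => ?_) M
    fun r hr => Module.mem_annihilator.1 hr).2 h2
  obtain ⟨a₀, ha₀, e⟩ := VAN_exact_dim hP.ne_top ((RMod_dim_anti hle).trans ha.le)
  obtain ⟨c, hc⟩ := hMQ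
  have hc' : maximalIdeal R ^ c ≤ Q ⊔ P := hc.trans (sup_le_sup_left hle _)
  rcases ha₀.eq_or_lt with rfl | hlt
  · have := hp a₀ b P Q G hab hP hQ e hb ⟨c, by rwa [sup_comm]⟩ hG
    exact ⟨this.le, fun _ => this⟩
  · refine ⟨(hv a₀ b Q _ G (by omega) hQ hb.le ?_ ⟨c, ?_⟩ hG).ge, fun h => ?_⟩
    · rw [Ideal.annihilator_quotient, e]
    · rwa [Ideal.annihilator_quotient]
    · have h3 := h1.trans ((RMod_dim_anti h).trans e.le)
      have : a ≤ a₀ := by exact_mod_cast h3
      omega

theorem chi_pos_of_posP {R : Type} [CommRing R] [IsNoetherianRing R] [IsLocalRing R] {d : ℕ}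
    (hR : HasRes R d) (hv : Van R d) (hp : PosP R d) {a b : ℕ} (hab : a + b = d) (M N : Type)
    [AddCommGroup M] [Module R M] [Module.Finite R M] [AddCommGroup N] [Module R N]
    [Module.Finite R N] (ha : ringKrullDim (R ⧸ Module.annihilator R M) = a)
    (hb : ringKrullDim (R ⧸ Module.annihilator R N) = b)
    (hMN : ∃ c : ℕ, maximalIdeal R ^ c ≤ Module.annihilator R M ⊔ Module.annihilator R N)
    {F : MC R} (hF : F.IsRes N) : 0 < F.chi (LF.length R) M := by
  obtain ⟨E, hE, -⟩ := hR M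
  obtain ⟨Q₀, hQ₀, h1, h2⟩ := RMod_exists_prime hb
  rw [hF.chi_symm hE]
  refine (RMod_filt hE.supp hMN hQ₀ (fun Q hQ hle => ?_) N
    fun r hr => Module.mem_annihilator.1 hr).2 h2
  obtain ⟨G, hG, -⟩ := hR (R ⧸ Q)
  rw [hE.chi_symm hG]
  obtain ⟨b₀, hb₀, e⟩ := VAN_exact_dim hQ.ne_top ((RMod_dim_anti hle).trans hb.le)
  obtain ⟨c, hc⟩ := hMN
  have hc' : maximalIdeal R ^ c ≤ Q ⊔ Module.annihilator R M := by
    rw [sup_comm]
    exact hc.trans (sup_le_sup_left hle _)
  rcases hb₀.eq_or_lt with rfl | hlt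
  · have := RMod_prime hv hp hab M hQ ha e ⟨c, hc'⟩ hG
    exact ⟨this.le, fun _ => this⟩
  · refine ⟨(hv a b₀ Q M G (by omega) hQ e.le ha.le ⟨c, hc'⟩ hG).ge, fun h => ?_⟩
    have h3 := h1.trans ((RMod_dim_anti h).trans e.le)
    have : b ≤ b₀ := by exact_mod_cast h3
    omega

section baseChange

variable {R R' : Type} [CommRing R] [IsNoetherianRing R] [IsLocalRing R] [CommRing R']
  [IsNoetherianRing R'] [IsLocalRing R'] [Algebra R R'] [Module.Flat R R']

omit [IsNoetherianRing R] [IsLocalRing R] [IsNoetherianRing R'] [IsLocalRing R'] in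
theorem RMod_ann (M : Type) [AddCommGroup M] [Module R M] [Module.Finite R M] :
    Module.annihilator R' (R' ⊗[R] M) = (Module.annihilator R M).map (algebraMap R R') := by
  refine le_antisymm (fun a ha => ?_) (Ideal.map_le_iff_le_comap.2 fun a ha => ?_)
  · obtain ⟨n, v, hv⟩ := Module.Finite.exists_fin (R := R) (M := M)
    let f : (R ⧸ Module.annihilator R M) →ₗ[R] (Fin n → M) :=
      Submodule.liftQ _ (LinearMap.toSpanSingleton R _ v) fun r hr => by
        funext i
        exact Module.mem_annihilator.1 hr (v i)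
    have hf : Function.Injective f := by
      refine LinearMap.ker_eq_bot.1 (Submodule.ker_liftQ_eq_bot _ _ _ fun r hr => ?_)
      rw [← Submodule.annihilator_top, ← hv, Submodule.mem_annihilator_span]
      rintro ⟨_, i, rfl⟩
      exact congrFun hr i
    have hf' : Function.Injective (f.baseChange R') :=
      Module.Flat.lTensor_preserves_injective_linearMap f hf
    let e := Ideal.qoutMapEquivTensorQout R' (I := Module.annihilator R M)
    have h1 : a • e 1 = 0 := hf' <| (TensorProduct.piRight R R' R' fun _ : Fin n => M).injective <| by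
      rw [map_smul, map_smul, map_zero, map_zero]
      funext i
      exact Module.mem_annihilator.1 ha _
    rw [← map_smul, e.map_eq_zero_iff, Algebra.smul_def, mul_one] at h1
    exact Ideal.Quotient.eq_zero_iff_mem.1 h1
  · refine Module.mem_annihilator.2 fun z => ?_
    induction z with
    | zero => exact smul_zero _
    | add x y hx hy => rw [smul_add, hx, hy, add_zero]
    | tmul r m =>
      rw [algebraMap_smul, ← TensorProduct.tmul_smul, Module.mem_annihilator.1 ha,
        TensorProduct.tmul_zero]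

theorem RMod_dim (hm : (maximalIdeal R).map (algebraMap R R') = maximalIdeal R') :
    ringKrullDim R' = ringKrullDim R := by
  have : (maximalIdeal R').LiesOver (maximalIdeal R) :=
    ⟨(maximalIdeal.isMaximal R).eq_of_le (Ideal.comap_ne_top _ Ideal.IsPrime.ne_top')
      (Ideal.map_le_iff_le_comap.1 hm.le)⟩
  have h1 := Ideal.height_eq_height_add_of_liesOver_of_hasGoingDown (maximalIdeal R)
    (maximalIdeal R')
  have h2 : (maximalIdeal R').map (Ideal.Quotient.mk ((maximalIdeal R).map (algebraMap R R'))) =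
      ⊥ := by
    rw [hm]
    exact Ideal.map_quotient_self _
  have : Nontrivial (R' ⧸ (maximalIdeal R).map (algebraMap R R')) :=
    Ideal.Quotient.nontrivial_iff.2 (hm ▸ (maximalIdeal.isMaximal R').ne_top)
  rw [h2, Ideal.height_bot, add_zero] at h1
  rw [← maximalIdeal_height_eq_ringKrullDim, ← maximalIdeal_height_eq_ringKrullDim, h1]

theorem dim_baseChange (hm : (maximalIdeal R).map (algebraMap R R') = maximalIdeal R') (M : Type)
    [AddCommGroup M] [Module R M] [Module.Finite R M] :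
    ringKrullDim (R' ⧸ Module.annihilator R' (R' ⊗[R] M)) =
      ringKrullDim (R ⧸ Module.annihilator R M) := by
  rw [RMod_ann]
  generalize Module.annihilator R M = I
  by_cases hI : I = ⊤
  · subst hI
    have : Subsingleton (R' ⧸ (⊤ : Ideal R).map (algebraMap R R')) :=
      Ideal.Quotient.subsingleton_iff.2 (Ideal.map_top _)
    rw [ringKrullDim_eq_bot_of_subsingleton, ringKrullDim_eq_bot_of_subsingleton]
  have : Nontrivial (R ⧸ I) := Ideal.Quotient.nontrivial_iff.2 hI
  have : Nontrivial (R' ⧸ I.map (algebraMap R R')) := Ideal.Quotient.nontrivial_iff.2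
    fun h => (maximalIdeal.isMaximal R').ne_top (top_le_iff.1
      (h.ge.trans ((Ideal.map_mono (le_maximalIdeal hI)).trans hm.le)))
  have : IsLocalRing (R ⧸ I) :=
    IsLocalRing.of_surjective' (Ideal.Quotient.mk _) Ideal.Quotient.mk_surjective
  have : IsLocalRing (R' ⧸ I.map (algebraMap R R')) :=
    IsLocalRing.of_surjective' (Ideal.Quotient.mk _) Ideal.Quotient.mk_surjective
  have : Module.Flat (R ⧸ I) (R' ⧸ I.map (algebraMap R R')) :=
    Module.Flat.of_linearEquiv
      (Algebra.TensorProduct.quotIdealMapEquivQuotTensor R' I).toLinearEquiv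
  refine RMod_dim ?_
  rw [← map_maximalIdeal_of_surjective (Ideal.Quotient.mk I) Ideal.Quotient.mk_surjective,
    ← map_maximalIdeal_of_surjective (Ideal.Quotient.mk (I.map (algebraMap R R')))
      Ideal.Quotient.mk_surjective, ← hm, Ideal.map_map, Ideal.map_map]
  rfl

omit [IsNoetherianRing R] [IsLocalRing R] [IsNoetherianRing R'] [IsLocalRing R'] in
theorem RMod_H {X X' : Type} [AddCommGroup X] [Module R X] [AddCommGroup X'] [Module R' X']
    (C : DG R X) (C' : DG R' X') (e : R' ⊗[R] X ≃ₗ[R'] X')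
    (hD : ∀ z, e (C.D.lTensor R' z) = C'.D (e z))
    (hπ : ∀ k z, e ((C.π k).lTensor R' z) = C'.π k (e z)) (μ : LF R') (k : ℤ) :
    C'.H μ k = μ.val (R' ⊗[R] ((C.Z k ⊤ ⊥).map (C.Bd ⊤ ⊥).mkQ)) := by
  let Z := C.Z k ⊤ ⊥
  let B := C.Bd ⊤ ⊥
  let J : R' ⊗[R] Z →ₗ[R'] X' := e.toLinearMap ∘ₗ Z.subtype.baseChange R'
  have hJ : ∀ z, J z = e (Z.subtype.lTensor R' z) := fun z => rfl
  let φ : X →ₗ[R] X × X :=
    LinearMap.inl R X X ∘ₗ (LinearMap.id - C.π k) + LinearMap.inr R X X ∘ₗ C.D
  have hφ : Function.Exact Z.subtype φ := by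
    rw [LinearMap.exact_iff, Submodule.range_subtype]
    ext x
    simp [φ, Z, DG.mem_Z, sub_eq_zero, @eq_comm _ x]
  have h1 : (⊤ : Submodule R' (R' ⊗[R] Z)).map J = C'.Z k ⊤ ⊥ := by
    ext x
    rw [C'.mem_Z]
    constructor
    · rintro ⟨z, -, rfl⟩
      rw [hJ, ← hπ, ← hD, ← LinearMap.lTensor_comp_apply, ← LinearMap.lTensor_comp_apply,
        show C.π k ∘ₗ Z.subtype = Z.subtype from LinearMap.ext fun y => (C.mem_Z.1 y.2).1.2,
        show C.D ∘ₗ Z.subtype = 0 from LinearMap.ext fun y => (C.mem_Z.1 y.2).2]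
      simp
    · rintro ⟨⟨-, a1⟩, a2⟩
      obtain ⟨y, rfl⟩ := e.surjective x
      rw [← hπ, e.injective.eq_iff] at a1
      rw [← hD, Submodule.mem_bot, e.map_eq_zero_iff] at a2
      obtain ⟨z, hz⟩ := (Module.Flat.lTensor_exact R' hφ y).1 (by
        simp only [φ, LinearMap.lTensor_add, LinearMap.lTensor_comp, LinearMap.lTensor_sub,
          LinearMap.add_apply, LinearMap.comp_apply, LinearMap.sub_apply, a1, a2,
          LinearMap.lTensor_id, LinearMap.id_apply, sub_self, map_zero, add_zero])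
      exact ⟨z, trivial, by rw [hJ, hz]⟩
  have hB : Function.Exact C.D B.mkQ := by
    rw [LinearMap.exact_iff, Submodule.ker_mkQ]
    simp [B, DG.Bd]
  let g : Z →ₗ[R] Z.map B.mkQ := B.mkQ.submoduleMap Z
  have hg : Function.Surjective (g.baseChange R') :=
    LinearMap.lTensor_surjective R' (LinearMap.submoduleMap_surjective B.mkQ Z)
  have h2 : (C'.Bd ⊤ ⊥).comap J = LinearMap.ker (g.baseChange R') := by
    ext z
    have a1 : (Z.map B.mkQ).subtype.lTensor R' (g.lTensor R' z) =
        B.mkQ.lTensor R' (Z.subtype.lTensor R' z) := by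
      rw [← LinearMap.lTensor_comp_apply, ← LinearMap.lTensor_comp_apply]
      rfl
    have a2 : g.baseChange R' z = 0 ↔ B.mkQ.lTensor R' (Z.subtype.lTensor R' z) = 0 := by
      rw [← a1]
      exact (map_eq_zero_iff _ (Module.Flat.lTensor_preserves_injective_linearMap _
        (Submodule.subtype_injective _))).symm
    rw [LinearMap.mem_ker, a2, lTensor_exact R' hB B.mkQ_surjective, Submodule.mem_comap, hJ,
      C'.mem_Bd]
    constructor
    · rintro ⟨a, -, b, hb, h⟩
      obtain ⟨y, rfl⟩ := e.surjective a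
      rw [(Submodule.mem_bot _).1 hb, add_zero, ← hD, e.injective.eq_iff] at h
      exact ⟨y, h⟩
    · rintro ⟨y, h⟩
      exact ⟨e y, trivial, 0, zero_mem _, by rw [add_zero, ← hD, h]⟩
  rw [DG.H, DG.h, ← h1, μ.sz_map_eq, μ.sz_top, μ.congr (Submodule.quotEquivOfEq _ _ h2)]
  exact μ.congr ((g.baseChange R').quotKerEquivOfSurjective hg)

theorem chi_baseChange (hm : (maximalIdeal R).map (algebraMap R R') = maximalIdeal R') (F : MC R)
    (M : Type) [AddCommGroup M] [Module R M] [Module.Finite R M] (hf : F.Fin' (LF.length R) M) :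
    (F.map (algebraMap R R')).chi (LF.length R') (R' ⊗[R] M) = F.chi (LF.length R) M := by
  have : IsLocalHom (algebraMap R R') :=
    ((local_hom_TFAE (algebraMap R R')).out 2 0).1 hm.le
  refine DG.ech_congr fun k => ?_
  refine (RMod_H (F.ap M) ((F.map (algebraMap R R')).ap (R' ⊗[R] M))
    (TensorProduct.piRight R R' R' fun _ : F.ι => M) (fun z => ?_) (fun k z => ?_) _ k).trans ?_
  · induction z with
    | zero => simp
    | add x y hx hy => simp only [map_add, hx, hy]
    | tmul r x =>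
      funext j
      rw [MC.ap_D, matApp_apply]
      change r ⊗ₜ[R] (F.ap M).D x j = ∑ i : F.ι, algebraMap R R' (F.d j i) • r ⊗ₜ[R] x i
      rw [MC.ap_D, matApp_apply, TensorProduct.tmul_sum]
      simp only [algebraMap_smul, TensorProduct.tmul_smul]
  · induction z with
    | zero => simp
    | add x y hx hy => simp only [map_add, hx, hy]
    | tmul r x =>
      funext j
      rw [MC.ap_π]
      change r ⊗ₜ[R] (F.ap M).π k x j = if F.deg j = k then r ⊗ₜ[R] x j else 0
      rw [MC.ap_π, TensorProduct.tmul_ite]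
  · rw [LF.length_val, IsLocalRing.length_baseChange, hm, LFlength_quot_max, mul_one]
    rfl

end baseChange

theorem RMod_kill {R : Type} [CommRing R] [IsLocalRing R] {L : Type} [AddCommGroup L] [Module R L]
    (h : IsFiniteLength R L) : ∃ c : ℕ, maximalIdeal R ^ c ≤ Module.annihilator R L := by
  induction h with
  | of_subsingleton => exact ⟨0, fun a _ => Module.mem_annihilator.2 fun _ => Subsingleton.elim _ _⟩
  | @of_simple_quotient M _ _ N hs _ ih =>
    obtain ⟨c, hc⟩ := ih
    obtain ⟨I, hI, ⟨e⟩⟩ := isSimpleModule_iff_quot_maximal.1 hs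
    refine ⟨c + 1, le_trans ?_ (RMod_mul_le (LinearMap.exact_subtype_mkQ N))⟩
    rw [pow_succ, e.annihilator_eq, Ideal.annihilator_quotient, eq_maximalIdeal hI]
    exact Ideal.mul_mono_left hc

theorem pow_le_of_finiteLength {R : Type} [CommRing R] [IsNoetherianRing R] [IsLocalRing R]
    (M N : Type) [AddCommGroup M] [Module R M] [Module.Finite R M] [AddCommGroup N] [Module R N]
    [Module.Finite R N] (h : IsFiniteLength R (M ⊗[R] N)) :
    ∃ c : ℕ, maximalIdeal R ^ c ≤ Module.annihilator R M ⊔ Module.annihilator R N := by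
  obtain ⟨c, hc⟩ := RMod_kill h
  refine Ideal.exists_pow_le_of_le_radical_of_fg ?_ (IsNoetherian.noetherian _)
  rw [Ideal.radical_eq_sInf]
  refine le_sInf fun P ⟨hle, hP⟩ => hP.le_of_pow_le (hc.trans ?_)
  have h1 : (⟨P, hP⟩ : PrimeSpectrum R) ∈ Module.support R M :=
    Module.mem_support_iff_of_finite.2 (le_sup_left.trans hle)
  have h2 : (⟨P, hP⟩ : PrimeSpectrum R) ∈ Module.support R N :=
    Module.mem_support_iff_of_finite.2 (le_sup_right.trans hle)
  rw [Module.mem_support_iff_nontrivial_residueField_tensorProduct] at h1 h2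
  refine Module.annihilator_le_of_mem_support (p := ⟨P, hP⟩) ?_
  rw [Module.mem_support_iff_nontrivial_residueField_tensorProduct,
    (TensorProduct.AlgebraTensorModule.distribBaseChange R _ M N).nontrivial_congr]
  infer_instance

theorem chi_quot {R : Type} [CommRing R] (P : Ideal R) (F : MC R) :
    (F.map (Ideal.Quotient.mk P)).chi (LF.length (R ⧸ P)) (R ⧸ P) =
      F.chi (LF.length R) (R ⧸ P) := by
  rw [← F.chi_map (B := R ⧸ P) (X := R ⧸ P) (LF.length R)]
  refine DG.ech_congr fun k => ?_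
  unfold DG.h LF.sz
  rw [LF.comap_algebraMap_val, LF.length_val, LF.length_val,
    Module.length_eq_of_surjective (R := R ⧸ P) (S := R) Ideal.Quotient.mk_surjective]
  rfl

end Crest.Agent.R188
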