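import Crest.Agent.R188.HReg

/-!
# Finite free resolutions
-/

set_option autoImplicit false
set_option linter.unusedVariables false

open scoped ENNReal NNReal TensorProduct

namespace Crest.Agent.R188

open Crest.Agent.R183 Crest.Agent.R183.DG IsLocalRing

namespace MC

variable {B : Type} [CommRing B] {X : Type} [AddCommGroup X] [Module B X]
  {N : Type} [AddCommGroup N] [Module B N] {N' : Type} [AddCommGroup N'] [Module B N']
  {N'' : Type} [AddCommGroup N''] [Module B N'']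

/-- recursion on the degree -/
theorem HRes_rec (G : MC B) (Q : G.ι → X → X → Prop)
    (h : ∀ (z : G.ι → X) (j : G.ι), (∀ i, G.deg i < G.deg j → Q i (z i) (∑ l, G.d l i • z l)) →
      ∃ y, Q j y (∑ i, G.d i j • z i)) :
    ∃ z : G.ι → X, ∀ j, Q j (z j) (∑ i, G.d i j • z i) := by
  obtain ⟨n, hn⟩ := Finite.bddBelow_range G.deg
  obtain ⟨n', hn'⟩ := Finite.bddAbove_range G.deg
  have key : ∀ m : ℕ, ∃ z : G.ι → X, ∀ j, G.deg j < n + m → Q j (z j) (∑ i, G.d i j • z i) := by
    intro m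
    induction m with
    | zero => exact ⟨0, fun j hj => absurd (hn ⟨j, rfl⟩) (by omega)⟩
    | succ m ih =>
      obtain ⟨z, hz⟩ := ih
      have h1 : ∀ j, ∃ y, G.deg j = n + m → Q j y (∑ i, G.d i j • z i) := fun j => by
        by_cases hj : G.deg j = n + m
        · exact (h z j fun i hi => hz i (by omega)).imp fun y hy _ => hy
        · exact ⟨0, fun h' => absurd h' hj⟩
      choose y hy using h1
      refine ⟨fun j => if G.deg j = n + m then y j else z j, fun j hj => ?_⟩
      have e : ∑ i, G.d i j • (if G.deg i = n + m then y i else z i) = ∑ i, G.d i j • z i := by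
        refine Finset.sum_congr rfl fun i _ => ?_
        by_cases hd : G.d i j = 0
        · rw [hd, zero_smul, zero_smul]
        · rw [if_neg (by have := G.hdeg i j hd; omega)]
      simp only [e]
      split_ifs with hj'
      · exact hy j hj'
      · exact hz j (by omega)
  obtain ⟨z, hz⟩ := key (n' - n + 1).toNat
  exact ⟨z, fun j => hz j (by have : G.deg j ≤ n' := hn' ⟨j, rfl⟩; omega)⟩

theorem HRes_congr (G : MC B) {z z' : G.ι → X} {j : G.ι}
    (h : ∀ i, G.deg j = G.deg i + 1 → z i = z' i) :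
    ∑ i, G.d i j • z i = ∑ i, G.d i j • z' i := by
  refine Finset.sum_congr rfl fun i _ => ?_
  by_cases hd : G.d i j = 0
  · rw [hd, zero_smul, zero_smul]
  · rw [h i (G.hdeg i j hd)]

theorem HRes_dd (G : MC B) (z : G.ι → X) (j : G.ι) :
    ∑ i, G.d i j • ∑ l, G.d l i • z l = 0 := by
  simp only [Finset.smul_sum, smul_smul]
  rw [Finset.sum_comm]
  refine Finset.sum_eq_zero fun l _ => ?_
  have := congrFun (congrFun G.dd l) j
  rw [Matrix.mul_apply, Matrix.zero_apply] at this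
  simp only [← Finset.sum_smul, mul_comm (G.d _ j), this, zero_smul]

theorem HRes_map (G : MC B) {Y : Type} [AddCommGroup Y] [Module B Y] (f : X →ₗ[B] Y)
    (z : G.ι → X) (j : G.ι) : f (∑ i, G.d i j • z i) = ∑ i, G.d i j • f (z i) := by
  simp only [map_sum, map_smul]

theorem HRes_D_single (G : MC B) (j : G.ι) :
    (G.ap B).D (Pi.single j 1) = ∑ i, G.d i j • (Pi.single i 1 : G.ι → B) := by
  funext l
  simp [ap_D, matApp_apply, Pi.single_apply, Finset.sum_apply]

theorem HRes_π_single (G : MC B) (k : ℤ) (j : G.ι) :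
    (G.ap B).π k (Pi.single j 1) = if G.deg j = k then Pi.single j 1 else 0 := by
  funext l
  rw [ap_π]
  by_cases h : l = j
  · subst h
    split_ifs <;> rfl
  · split_ifs <;> simp [h]

theorem HRes_ext {ι : Type} [Fintype ι] [DecidableEq ι] {f g : (ι → B) →ₗ[B] X}
    (h : ∀ i, f (Pi.single i 1) = g (Pi.single i 1)) (x : ι → B) : f x = g x :=
  LinearMap.congr_fun ((Pi.basisFun B ι).ext fun i => by simpa using h i) x

theorem HRes_π_of (C : DG B X) {j k : ℤ} {x : X} (h : C.π j x = x) :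
    C.π k x = if j = k then x else 0 := by
  split_ifs with hk
  · rw [← hk, h]
  · rw [← h, C.ππ' k j (Ne.symm hk)]

/-- lifting of chain maps into a complex that is exact above degree `n` -/
theorem exists_lift (G : MC B) (n : ℤ) (hG : ∀ i, n ≤ G.deg i) (C : DG B X)
    (hC : ∀ k, n < k → ∀ x, C.π k x = x → C.D x = 0 → ∃ y, C.D y = x) (z : G.ι → X)
    (hz : ∀ i, G.deg i = n → C.π n (z i) = z i ∧ C.D (z i) = 0)
    (hrel : ∀ j, G.deg j = n + 1 → ∃ y, C.D y = ∑ i, G.d i j • z i) :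
    ∃ f : (G.ι → B) →ₗ[B] X, IsMap (G.ap B) C f ∧
      ∀ i, G.deg i = n → f (Pi.single i 1) = z i := by
  obtain ⟨w, hw⟩ := G.HRes_rec (X := X)
    (fun j y w => C.π (G.deg j) y = y ∧ C.D y = w ∧ (G.deg j = n → y = z j)) fun w j h => by
      by_cases hj : G.deg j = n
      · refine ⟨z j, by rw [hj, (hz j hj).1], ?_, fun _ => rfl⟩
        rw [(hz j hj).2, G.HRes_congr (z' := 0) fun i hi => by have := hG i; omega]
        simp
      have h1 : C.π (G.deg j - 1) (∑ i, G.d i j • w i) = ∑ i, G.d i j • w i := by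
        rw [HRes_map]
        exact G.HRes_congr fun i hi => by rw [hi, add_sub_cancel_right, (h i (by omega)).1]
      obtain ⟨y, hy⟩ : ∃ y, C.D y = ∑ i, G.d i j • w i := by
        by_cases hj' : G.deg j = n + 1
        · rw [G.HRes_congr (z' := z) fun i hi => (h i (by omega)).2.2 (by omega)]
          exact hrel j hj'
        · refine hC _ (by have := hG j; omega) _ h1 ?_
          rw [HRes_map, G.HRes_congr fun i hi => (h i (by omega)).2.1, HRes_dd]
      obtain ⟨y', h2, h3⟩ := C.HCone_hom (sub_add_cancel _ 1) h1 hy.symm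
      exact ⟨y', h2, h3.symm, fun h' => absurd h' hj⟩
  obtain ⟨f, e⟩ : ∃ f : (G.ι → B) →ₗ[B] X, ∀ i, f (Pi.single i 1) = w i :=
    ⟨Fintype.linearCombination B w, fun i => by simp⟩
  refine ⟨f, ⟨fun x => ?_, fun k x => ?_⟩, fun i hi => (e i).trans ((hw i).2.2 hi)⟩
  · refine HRes_ext (f := f ∘ₗ (G.ap B).D) (g := C.D ∘ₗ f) (fun i => ?_) x
    simp only [LinearMap.comp_apply, HRes_D_single, HRes_map, e, (hw i).2.1]
  · refine HRes_ext (f := f ∘ₗ (G.ap B).π k) (g := C.π k ∘ₗ f) (fun i => ?_) x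
    simp only [LinearMap.comp_apply, HRes_π_single, e, HRes_π_of C (hw i).1]
    split_ifs
    · exact e i
    · exact map_zero _

theorem isHom_of_isMap {E E' : MC B} {f : (E.ι → B) →ₗ[B] (E'.ι → B)}
    (hf : IsMap (E.ap B) (E'.ap B) f) :
    IsHom E E' (LinearMap.toMatrix' f) ∧ matApp (LinearMap.toMatrix' f) B = f := by
  have h : matApp (LinearMap.toMatrix' f) B = f := Matrix.toLin'_toMatrix' f
  refine ⟨⟨fun i j hij => ?_, ?_⟩, h⟩
  · by_contra hn
    have := congrFun (hf.π (E.deg j) (Pi.single j 1)) i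
    rw [HRes_π_single, if_pos rfl, ap_π, if_neg hn] at this
    exact hij this
  · refine Matrix.toLin'.injective (LinearMap.ext fun x => ?_)
    change matApp _ B x = matApp _ B x
    rw [matApp_mul, matApp_mul, h, ← ap_D, ← ap_D, hf.D]

theorem HRes_eps_D {C : DG B X} {ε : X →ₗ[B] N} (hε : IsMap C (single B N) ε) (x : X) :
    ε (C.D x) = 0 := hε.D x

theorem HRes_eps_π {C : DG B X} {ε : X →ₗ[B] N} (hε : IsMap C (single B N) ε) (k : ℤ) (x : X) :
    ε (C.π k x) = if k = 0 then ε x else 0 := by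
  rw [hε.π]
  simp only [single]
  split_ifs <;> rfl

theorem HRes_eps_ne {C : DG B X} {ε : X →ₗ[B] N} (hε : IsMap C (single B N) ε) {k : ℤ}
    (hk : k ≠ 0) {x : X} (hx : C.π k x = x) : ε x = 0 := by
  rw [← hx, HRes_eps_π hε, if_neg hk]

theorem HRes_surj {C : DG B X} {ε : X →ₗ[B] N} (hε : QI C (single B N) ε) (y : N) :
    ∃ x, C.π 0 x = x ∧ C.D x = 0 ∧ ε x = y := by
  obtain ⟨x, z, h1, h2, h3⟩ := hε.surj 0 y (by simp [single]) rfl
  exact ⟨x, h1, h2, (h3.trans (add_zero _)).symm⟩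

theorem lift_res {E E' : MC B} (hE : ∀ i, 0 ≤ E.deg i) {ε : (E.ι → B) →ₗ[B] N}
    (hε : IsMap (E.ap B) (single B N) ε) {ε' : (E'.ι → B) →ₗ[B] N'}
    (hε' : QI (E'.ap B) (single B N') ε') (g : N →ₗ[B] N') :
    ∃ f, IsHom E E' f ∧ ∀ x, ε' (matApp f B x) = g (ε x) := by
  choose z hz using fun i : E.ι => HRes_surj hε' (g (ε (Pi.single i 1)))
  obtain ⟨f, hf, h⟩ := E.exists_lift 0 hE (E'.ap B)
    (fun k hk x hx hD => (hε'.inj k x hx hD 0 (HRes_eps_ne hε'.toIsMap hk.ne' hx)).imp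
      fun _ => Eq.symm) z (fun i _ => ⟨(hz i).1, (hz i).2.1⟩) fun j _ => by
      refine (hε'.inj 0 _ ?_ ?_ 0 ?_).imp fun _ => Eq.symm
      · simp only [HRes_map, (hz _).1]
      · simp only [HRes_map, (hz _).2.1, smul_zero, Finset.sum_const_zero]
      · simp only [HRes_map, (hz _).2.2]
        rw [← E.HRes_map g, ← E.HRes_map ε, ← HRes_D_single, HRes_eps_D hε, map_zero, map_zero]
  refine ⟨_, (isHom_of_isMap hf).1, fun x => ?_⟩
  rw [(isHom_of_isMap hf).2]
  refine HRes_ext (f := ε' ∘ₗ f) (g := g ∘ₗ ε) (fun i => ?_) x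
  simp only [LinearMap.comp_apply]
  by_cases hi : E.deg i = 0
  · rw [h i hi, (hz i).2.2]
  · have e : (E.ap B).π (E.deg i) (Pi.single i 1) = Pi.single i 1 := by
      rw [HRes_π_single, if_pos rfl]
    rw [HRes_eps_ne hε hi e, HRes_eps_ne hε'.toIsMap hi (by rw [← hf.π, e]), map_zero]

theorem IsRes.congr {E : MC B} (h : E.IsRes N) (e : N ≃ₗ[B] N') : E.IsRes N' := by
  obtain ⟨h, ε, hε⟩ := h
  exact ⟨h, _, hε.comp (QI.of_bijective (single_isMap e.toLinearMap) e.bijective)⟩

theorem IsRes.finite {E : MC B} (h : E.IsRes N) : Module.Finite B N := by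
  obtain ⟨-, ε, hε⟩ := h
  exact Module.Finite.of_surjective ε fun y => (HRes_surj hε y).imp fun _ h => h.2.2

theorem IsRes.exists_hom {E E' : MC B} (h : E.IsRes N) (h' : E'.IsRes N) :
    ∃ f, IsHom E E' f ∧ QI (E.ap B) (E'.ap B) (matApp f B) := by
  obtain ⟨h, ε, hε⟩ := h
  obtain ⟨-, ε', hε'⟩ := h'
  obtain ⟨f, hf, e⟩ := lift_res h hε.toIsMap hε' LinearMap.id
  refine ⟨f, hf, QI.of_comp_left (hf.isMap _) hε' ?_⟩
  rwa [show ε' ∘ₗ matApp f B = ε from LinearMap.ext e]

theorem IsRes.app_H_eq {E E' : MC B} (h : E.IsRes N) (h' : E'.IsRes N) (C : DG B X) (μ : LF B)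
    (k : ℤ) : (E.app C).H μ k = (E'.app C).H μ k := by
  obtain ⟨f, hf, hq⟩ := h.exists_hom h'
  exact (hf.qi_app hq C).H_eq μ k

theorem IsRes.chi_eq {E E' : MC B} (h : E.IsRes N) (h' : E'.IsRes N) (μ : LF B) (M : Type)
    [AddCommGroup M] [Module B M] : E.chi μ M = E'.chi μ M :=
  ech_congr fun k => h.app_H_eq h' _ μ k

theorem IsRes.null {E : MC B} (h : E.IsRes N) {a : B} (ha : ∀ x : N, a • x = 0) : E.Null a := by
  obtain ⟨hE, ε, hε⟩ := h
  obtain ⟨w, hw⟩ := E.HRes_rec (X := E.ι → B)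
    (fun j y w => (E.ap B).π (E.deg j + 1) y = y ∧ a • Pi.single j 1 - w = (E.ap B).D y)
    fun w j h => by
      have h1 : (E.ap B).π (E.deg j) (∑ i, E.d i j • w i) = ∑ i, E.d i j • w i := by
        rw [HRes_map]
        exact E.HRes_congr fun i hi => by rw [hi, (h i (by omega)).1]
      refine hε.HCone_inj rfl ?_ ?_ (z := 0) ?_
      · rw [map_sub, map_smul, h1, HRes_π_single, if_pos rfl]
      · rw [map_sub, map_smul, HRes_map, HRes_D_single,
          ← E.HRes_congr fun i hi => (h i (by omega)).2]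
        simp only [smul_sub, Finset.sum_sub_distrib, HRes_dd, sub_zero, Finset.smul_sum (s := _)
          (r := a), smul_comm a, sub_self]
      · rw [map_sub, map_smul, ha, map_zero, zero_sub, neg_eq_zero]
        by_cases hj : E.deg j = 0
        · rw [E.HRes_congr (z' := 0) fun i hi => by have := hE i; omega]
          simp
        · exact HRes_eps_ne hε.toIsMap hj h1
  obtain ⟨f, e⟩ : ∃ f : (E.ι → B) →ₗ[B] (E.ι → B), ∀ i, f (Pi.single i 1) = w i :=
    ⟨Fintype.linearCombination B w, fun i => by simp⟩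
  refine null_iff.2 ⟨f, fun k x => ?_, fun x => ?_⟩
  · refine HRes_ext (f := f ∘ₗ (E.ap B).π k) (g := (E.ap B).π (k + 1) ∘ₗ f) (fun i => ?_) x
    simp only [LinearMap.comp_apply, HRes_π_single, e, HRes_π_of _ (hw i).1, add_left_inj]
    split_ifs
    · exact e i
    · exact map_zero _
  · refine HRes_ext (f := (E.ap B).D ∘ₗ f + f ∘ₗ (E.ap B).D) (g := LinearMap.lsmul B _ a)
      (fun i => ?_) x
    simp only [LinearMap.add_apply, LinearMap.comp_apply, HRes_D_single, HRes_map, e, ← (hw i).2,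
      sub_add_cancel, LinearMap.lsmul_apply]

theorem IsRes.supp {E : MC B} (h : E.IsRes N) : E.Supp (Module.annihilator B N) :=
  fun a ha => ⟨1, by rw [pow_one]; exact h.null (Module.mem_annihilator.1 ha)⟩

theorem IsRes.supp_quot {I : Ideal B} {E : MC B} (h : E.IsRes (B ⧸ I)) : E.Supp I := by
  have := h.supp
  rwa [Ideal.annihilator_quotient] at this

theorem IsRes.null_one [Subsingleton N] {E : MC B} (h : E.IsRes N) : E.Null 1 :=
  h.null fun _ => Subsingleton.elim _ _

/-- the cone of a lift of an injection resolves the cokernel -/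
theorem IsRes.cone {E E' : MC B} (h : E.IsRes N) (h' : E'.IsRes N') {g : N →ₗ[B] N'}
    {q : N' →ₗ[B] N''} (hi : Function.Injective g) (hs : Function.Surjective q)
    (he : Function.Exact g q) : ∃ (f : Matrix E'.ι E.ι B) (hf : IsHom E E' f),
      (cone hf).IsRes N'' := by
  obtain ⟨h, ε, hε⟩ := h
  obtain ⟨h', ε', hε'⟩ := h'
  obtain ⟨f, hf, e⟩ := lift_res h hε.toIsMap hε' g
  obtain ⟨u, hu⟩ := (app_cone_iso hf (single B B)).qi
  refine ⟨f, hf, ?_, _, (hu.comp (cone_qi (hf.isMap _) (single_isMap g) hε hε' e)).comp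
    (cone_qi_of_exact (single_isMap g) (single_isMap q) hi hs he)⟩
  rintro (i | i)
  · exact h' i
  · exact add_nonneg (h i) zero_le_one

section tensor

variable (E : MC B) (M : Type) [AddCommGroup M] [Module B M]

theorem HRes_tD (t : M ⊗[B] (E.ι → B)) :
    TensorProduct.piScalarRight B B M E.ι ((E.ap B).D.lTensor M t) =
      (E.ap M).D (TensorProduct.piScalarRight B B M E.ι t) := by
  induction t using TensorProduct.induction_on with
  | zero => simp
  | add x y hx hy => simp only [map_add, hx, hy]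
  | tmul m x =>
    funext i
    simp [ap_D, matApp_apply, Finset.sum_smul, smul_smul]

theorem HRes_tπ (k : ℤ) (t : M ⊗[B] (E.ι → B)) :
    TensorProduct.piScalarRight B B M E.ι (((E.ap B).π k).lTensor M t) =
      (E.ap M).π k (TensorProduct.piScalarRight B B M E.ι t) := by
  induction t using TensorProduct.induction_on with
  | zero => simp
  | add x y hx hy => simp only [map_add, hx, hy]
  | tmul m x =>
    funext i
    simp only [LinearMap.lTensor_tmul, TensorProduct.piScalarRight_apply,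
      TensorProduct.piScalarRightHom_tmul, ap_π]
    split_ifs <;> simp

theorem HRes_bd {k : ℤ} {t : M ⊗[B] (E.ι → B)}
    (ht : t ∈ Set.range (((E.ap B).D.coprod (1 - (E.ap B).π k)).lTensor M))
    (hπ : (E.ap M).π k (TensorProduct.piScalarRight B B M E.ι t) =
      TensorProduct.piScalarRight B B M E.ι t) :
    ∃ w, TensorProduct.piScalarRight B B M E.ι t = (E.ap M).D w := by
  obtain ⟨u, hu⟩ := ht
  have e : (E.ap B).π k ∘ₗ (E.ap B).D.coprod (1 - (E.ap B).π k) =
      (E.ap B).D ∘ₗ (E.ap B).π (k + 1) ∘ₗ LinearMap.fst B _ _ :=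
    LinearMap.ext fun x => by simp [(E.ap B).πD, (E.ap B).ππ]
  rw [← hπ, ← HRes_tπ, ← hu, ← LinearMap.lTensor_comp_apply, e, LinearMap.lTensor_comp_apply,
    HRes_tD]
  exact ⟨_, rfl⟩

variable {E}

theorem HRes_tmap {ε : (E.ι → B) →ₗ[B] N} (hε : IsMap (E.ap B) (single B N) ε) :
    IsMap (E.ap M) (single B (M ⊗[B] N))
      (ε.lTensor M ∘ₗ (TensorProduct.piScalarRight B B M E.ι).symm.toLinearMap) := by
  refine ⟨fun x => ?_, fun k x => ?_⟩ <;>
    obtain ⟨t, rfl⟩ := (TensorProduct.piScalarRight B B M E.ι).surjective x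
  · rw [← HRes_tD]
    simp only [LinearMap.comp_apply, LinearEquiv.coe_coe, LinearEquiv.symm_apply_apply]
    rw [← LinearMap.lTensor_comp_apply,
      show ε ∘ₗ (E.ap B).D = 0 from LinearMap.ext (HRes_eps_D hε), LinearMap.lTensor_zero]
    rfl
  · rw [← HRes_tπ]
    simp only [LinearMap.comp_apply, LinearEquiv.coe_coe, LinearEquiv.symm_apply_apply]
    rw [← LinearMap.lTensor_comp_apply]
    by_cases hk : k = 0
    · rw [show ε ∘ₗ (E.ap B).π k = ε from
        LinearMap.ext fun x => (HRes_eps_π hε k x).trans (if_pos hk)]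
      simp [single, hk]
    · rw [show ε ∘ₗ (E.ap B).π k = 0 from
        LinearMap.ext fun x => (HRes_eps_π hε k x).trans (if_neg hk)]
      simp [single, hk]

theorem HRes_Dπ0 (hE : ∀ i, 0 ≤ E.deg i) (x : E.ι → M) : (E.ap M).D ((E.ap M).π 0 x) = 0 := by
  rw [← neg_add_cancel (1 : ℤ), ← (E.ap M).πD]
  funext i
  rw [ap_π, if_neg (by have := hE i; omega), Pi.zero_apply]

theorem HRes_tsurj (hE : ∀ i, 0 ≤ E.deg i) {ε : (E.ι → B) →ₗ[B] N}
    (hε : QI (E.ap B) (single B N) ε) (y : M ⊗[B] N) :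
    ∃ x, (E.ap M).π 0 x = x ∧ (E.ap M).D x = 0 ∧
      (ε.lTensor M ∘ₗ (TensorProduct.piScalarRight B B M E.ι).symm.toLinearMap) x = y := by
  obtain ⟨t, rfl⟩ := LinearMap.lTensor_surjective M
    (fun y => (HRes_surj hε y).imp fun _ h => h.2.2 : Function.Surjective ε) y
  refine ⟨(E.ap M).π 0 (TensorProduct.piScalarRight B B M E.ι t), (E.ap M).ππ _ _,
    HRes_Dπ0 M hE _, ?_⟩
  rw [HRes_eps_π (HRes_tmap M hε.toIsMap), if_pos rfl]
  simp only [LinearMap.comp_apply, LinearEquiv.coe_coe, LinearEquiv.symm_apply_apply]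

theorem HRes_flat [Module.Flat B M] (hE : ∀ i, 0 ≤ E.deg i) {ε : (E.ι → B) →ₗ[B] N}
    (hε : QI (E.ap B) (single B N) ε) : QI (E.ap M) (single B (M ⊗[B] N))
      (ε.lTensor M ∘ₗ (TensorProduct.piScalarRight B B M E.ι).symm.toLinearMap) := by
  refine ⟨HRes_tmap M hε.toIsMap, fun k y hy _ => ?_, fun k x hx hD z hz => ?_⟩
  · by_cases hk : k = 0
    · obtain ⟨x, h1, h2, h3⟩ := HRes_tsurj M hE hε y
      exact ⟨x, 0, hk ▸ h1, h2, by rw [h3, map_zero, add_zero]⟩
    · exact ⟨0, 0, map_zero _, map_zero _, by simpa [single, hk] using hy.symm⟩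
  obtain ⟨t, rfl⟩ := (TensorProduct.piScalarRight B B M E.ι).surjective x
  have he : Function.Exact ((E.ap B).D.coprod (1 - (E.ap B).π k))
      ((LinearMap.inl B _ N ∘ₗ (E.ap B).D + LinearMap.inr B _ N ∘ₗ ε) ∘ₗ (E.ap B).π k) := by
    intro x
    simp only [LinearMap.comp_apply, LinearMap.add_apply, LinearMap.inl_apply, LinearMap.inr_apply,
      Prod.mk_add_mk, add_zero, zero_add, Prod.mk_eq_zero]
    constructor
    · rintro ⟨h1, h2⟩
      obtain ⟨w, hw⟩ := hε.inj k _ ((E.ap B).ππ k x) h1 0 h2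
      exact ⟨(w, x), by simp [← hw]⟩
    · rintro ⟨u, rfl⟩
      simp [(E.ap B).πD, (E.ap B).ππ, (E.ap B).DD, HRes_eps_D hε.toIsMap]
  refine E.HRes_bd M ((Module.Flat.lTensor_exact M he t).1 ?_) hx
  rw [← HRes_tπ] at hx
  rw [← HRes_tD, LinearEquiv.map_eq_zero_iff] at hD
  simp only [LinearMap.comp_apply, LinearEquiv.coe_coe, LinearEquiv.symm_apply_apply] at hz
  rw [LinearMap.lTensor_comp_apply, (TensorProduct.piScalarRight B B M E.ι).injective hx,
    LinearMap.lTensor_add, LinearMap.add_apply, LinearMap.lTensor_comp_apply,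
    LinearMap.lTensor_comp_apply, hD, hz, map_zero, zero_add]
  exact map_zero _

end tensor

theorem IsRes.map {B' : Type} [CommRing B'] [Algebra B B'] [Module.Flat B B'] {E : MC B}
    (h : E.IsRes N) : (E.map (algebraMap B B')).IsRes (B' ⊗[B] N) := by
  obtain ⟨hE, ε, hε⟩ := h
  refine ⟨hE, ε.baseChange B' ∘ₗ (TensorProduct.piScalarRight B B' B' E.ι).symm.toLinearMap,
    QI.of_res B ?_⟩
  rw [map_app_res, res_single, res_single]
  have e : ∀ x, (TensorProduct.piScalarRight B B' B' E.ι).symm x =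
      (TensorProduct.piScalarRight B B B' E.ι).symm x := fun x => by
    obtain ⟨t, rfl⟩ := (TensorProduct.piScalarRight B B B' E.ι).surjective x
    rw [LinearEquiv.symm_apply_apply, LinearEquiv.symm_apply_eq]
    induction t using TensorProduct.induction_on with
    | zero => simp
    | add x y hx hy => simp only [map_add, hx, hy]
    | tmul m x => simp
  have e' : (ε.baseChange B' ∘ₗ
      (TensorProduct.piScalarRight B B' B' E.ι).symm.toLinearMap).restrictScalars B =
      ε.lTensor B' ∘ₗ (TensorProduct.piScalarRight B B B' E.ι).symm.toLinearMap :=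
    LinearMap.ext fun x => congrArg (ε.lTensor B') (e x)
  exact e' ▸ HRes_flat B' hE hε

theorem IsRes.H_zero {E : MC B} (h : E.IsRes N) (μ : LF B) (M : Type) [AddCommGroup M]
    [Module B M] : (E.ap M).H μ 0 = μ.val (M ⊗[B] N) := by
  obtain ⟨hE, ε, hε⟩ := h
  have h1 : ((E.ap M).Z 0 ⊤ ⊥).map
      (ε.lTensor M ∘ₗ (TensorProduct.piScalarRight B B M E.ι).symm.toLinearMap) = ⊤ :=
    eq_top_iff.2 fun y _ => by
      obtain ⟨x, h1, h2, h3⟩ := HRes_tsurj M hE hε y
      exact ⟨x, ⟨⟨trivial, h1⟩, h2⟩, h3⟩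
  rw [← μ.val_top, ← μ.sz_bot, ← h1, μ.sz_map_eq]
  refine μ.LFsz_congr (le_antisymm ?_ ?_)
  · rintro x ⟨hx, hb⟩
    obtain ⟨a, -, b, rfl, rfl⟩ := (E.ap M).mem_Bd.1 hb
    refine ⟨hx, ?_⟩
    rw [add_zero]
    exact HRes_eps_D (HRes_tmap M hε.toIsMap) a
  · rintro x ⟨hx, hb⟩
    obtain ⟨t, rfl⟩ := (TensorProduct.piScalarRight B B M E.ι).surjective x
    have he : Function.Exact ((E.ap B).D.coprod (1 - (E.ap B).π 0)) ε := by
      intro x
      constructor
      · intro h1
        obtain ⟨w, hw⟩ := hε.inj 0 _ ((E.ap B).ππ 0 x) (HRes_Dπ0 B hE x) 0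
          (by rw [HRes_eps_π hε.toIsMap, if_pos rfl, h1, map_zero])
        exact ⟨(w, x), by simp [← hw]⟩
      · rintro ⟨u, rfl⟩
        simp [HRes_eps_D hε.toIsMap, HRes_eps_π hε.toIsMap]
    obtain ⟨w, hw⟩ := E.HRes_bd M ((lTensor_exact M he
      (fun y => (HRes_surj hε y).imp fun _ h => h.2.2) t).1 (by
        simpa only [SetLike.mem_coe, Submodule.mem_comap, Submodule.mem_bot, LinearMap.comp_apply,
          LinearEquiv.coe_coe, LinearEquiv.symm_apply_apply] using hb)) hx.1.2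
    exact ⟨hx, hw ▸ (E.ap M).D_mem_Bd _ trivial⟩

/-- symmetry of `Tor` -/
theorem IsRes.H_symm {E E' : MC B} (h : E.IsRes N) (h' : E'.IsRes N') (μ : LF B) (k : ℤ) :
    (E.ap N').H μ k = (E'.ap N).H μ k := by
  obtain ⟨-, ε, hε⟩ := h
  obtain ⟨-, ε', hε'⟩ := h'
  rw [← (E.app_qi hε').H_eq μ k, (E.swap_iso E' _).H_eq μ k, (E'.app_qi hε).H_eq μ k]

theorem IsRes.chi_symm {E E' : MC B} (h : E.IsRes N) (h' : E'.IsRes N') (μ : LF B) :
    E.chi μ N' = E'.chi μ N :=
  ech_congr fun k => h.H_symm h' μ k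

/-- the rank of a resolution of a torsion module vanishes -/
theorem sum_sg_eq_zero [IsDomain B] (E : MC B) {a : B} (ha : a ≠ 0) (h : E.Null a) :
    ∑ i, sg (E.deg i) = 0 := by
  have h1 := (h.map (algebraMap B (FractionRing B))).mul (algebraMap B (FractionRing B) a)⁻¹
  rw [inv_mul_cancel₀ ((map_ne_zero_iff _ (IsFractionRing.injective B _)).2 ha)] at h1
  have h2 : (LF.length (FractionRing B)).val (FractionRing B) = 1 := by
    rw [LF.length_val, Module.length_eq_one, ENat.toENNReal_one]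
  have h3 := (E.map (algebraMap B (FractionRing B))).chi_of_val (h2 ▸ ENNReal.one_ne_top)
  rw [h2, ENNReal.toReal_one, mul_one] at h3
  have h4 := h3.symm.trans (ech_eq_zero fun k => (h1.nullH _).acyc.h_eq_zero _ k)
  exact_mod_cast h4

/-- additivity of the Euler characteristic on cones -/
theorem chi_cone {E E' : MC B} {f : Matrix E'.ι E.ι B} (hf : IsHom E E' f) (μ : LF B) (M : Type)
    [AddCommGroup M] [Module B M] (h : E.Fin' μ M) (h' : E'.Fin' μ M) :
    (cone hf).chi μ M = E'.chi μ M - E.chi μ M :=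
  ((app_cone_iso hf _).ech_eq μ).trans (ech_cone _ (E.ap_bdd M) (E'.ap_bdd M) h h')

theorem chi_of_null_one {E : MC B} (h : E.Null 1) (μ : LF B) (M : Type) [AddCommGroup M]
    [Module B M] : E.chi μ M = 0 :=
  ech_eq_zero fun k => (h.nullH _).acyc.h_eq_zero μ k

end MC

end Crest.Agent.R188
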