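import Crest.Agent.R188.FDefs
import Crest.Agent.R188.HRes

/-!
# Splitting a resolution away from `ϖ`
-/

set_option autoImplicit false
set_option linter.unusedVariables false

open scoped ENNReal NNReal TensorProduct

namespace Crest.Agent.R188

open Crest.Agent.R183 Crest.Agent.R183.DG

section
open Matrix

variable {R : Type} [CommRing R]

/-- even and odd indices -/
def FSpl_par (m : ℕ) : Fin m ⊕ Fin m ≃ Fin (2 * m) where
  toFun := Sum.elim (fun j => ⟨2 * j.val, by omega⟩) fun j => ⟨2 * j.val + 1, by omega⟩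
  invFun t := if t.val % 2 = 0 then .inl ⟨t.val / 2, by omega⟩ else .inr ⟨t.val / 2, by omega⟩
  left_inv := by
    rintro (j | j)
    · simp
    · have : (2 * j.val + 1) / 2 = j.val := by omega
      simp [this]
  right_inv t := by
    dsimp only
    split_ifs <;> (ext; simp; omega)

variable (R) in
/-- the split complex on an arbitrary index type -/
abbrev FSpl_triv {σ : Type} [Fintype σ] [DecidableEq σ] (δ : σ → ℤ) : MC R where
  ι := σ ⊕ σ
  deg := Sum.elim δ fun s => δ s + 1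
  d := fromBlocks 0 1 0 0
  hdeg := by
    rintro (i | i) (j | j) h
    · simp at h
    · obtain rfl : i = j := by_contra fun hij => h (by simp [one_apply_ne hij])
      rfl
    · simp at h
    · simp at h
  dd := by simp [fromBlocks_multiply]

theorem FSpl_reindex (E : MC R) {σ : Type} [Fintype σ] [DecidableEq σ] (δ : σ → ℤ)
    {V : Matrix E.ι (σ ⊕ σ) R} {V' : Matrix (σ ⊕ σ) E.ι R} {γ γ' : R} {H : Ideal R}
    (hγ : γ - γ' ∈ H) (hV : MC.IsHom (FSpl_triv R δ) E V)
    (hV' : ∀ s i, V' s i ≠ 0 → (FSpl_triv R δ).deg s = E.deg i) (h1 : V' * V = γ • 1)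
    (h2 : V * V' = γ • 1) : ∃ (m : ℕ) (δ : ℕ → ℤ) (U : Matrix E.ι (Fin (2 * m)) R)
      (U' : Matrix (Fin (2 * m)) E.ι R), Antitone δ ∧ ASpl E m δ U U' γ' H := by
  obtain ⟨m, e, he⟩ : ∃ (m : ℕ) (e : Fin m ≃ σ), Antitone (δ ∘ e) :=
    ⟨_, (Tuple.sort fun j => -δ ((Fintype.equivFin σ).symm j)).trans (Fintype.equivFin σ).symm,
      fun a b h => neg_le_neg_iff.1
        (Tuple.monotone_sort (fun j => -δ ((Fintype.equivFin σ).symm j)) h)⟩
  obtain ⟨L, hL⟩ := (Set.finite_range δ).bddBelow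
  set δ' : ℕ → ℤ := fun n => if h : n < m then δ (e ⟨n, h⟩) else L with hδ'
  set ε : Fin (2 * m) ≃ σ ⊕ σ := (FSpl_par m).symm.trans (e.sumCongr e) with hε
  have hd : ∀ t, (Sp R m δ').deg t = (FSpl_triv R δ).deg (ε t) := fun t => by
    obtain ⟨j | j, rfl⟩ := (FSpl_par m).surjective t
    · rw [hε, Equiv.trans_apply, Equiv.symm_apply_apply]
      simp [Sp, FSpl_par, hδ']
    · have : (2 * j.val + 1) / 2 = j.val := by omega
      rw [hε, Equiv.trans_apply, Equiv.symm_apply_apply]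
      simp [Sp, FSpl_par, hδ', this]
  have hD : (Sp R m δ').d = (fromBlocks 0 1 0 0 : Matrix (σ ⊕ σ) (σ ⊕ σ) R).submatrix ε ε := by
    ext s t
    obtain ⟨i, rfl⟩ := (FSpl_par m).surjective s
    obtain ⟨j, rfl⟩ := (FSpl_par m).surjective t
    rw [submatrix_apply, hε, Equiv.trans_apply, Equiv.symm_apply_apply, Equiv.trans_apply,
      Equiv.symm_apply_apply]
    rcases i with i | i <;> rcases j with j | j <;> simp [Sp, FSpl_par, one_apply, Fin.ext_iff]
    · omega
    · simp [eq_comm]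
  have key : ∀ {ι : Type} [DecidableEq ι] (i j : ι),
      (γ • (1 : Matrix ι ι R)) i j - (if i = j then γ' else 0) ∈ H := fun i j => by
    by_cases h : i = j <;> simp [h, hγ]
  refine ⟨m, δ', V.submatrix id ε, V'.submatrix ε id, fun a b hab => ?_,
    ⟨fun i j h => (hV.deg i _ h).trans (hd j).symm, ?_⟩, fun i j h => (hd i).trans (hV' _ _ h),
    fun i j => ?_, fun i j => ?_⟩
  · simp only [hδ']
    split_ifs with h1 h2 h2
    · exact he (show (⟨a, h2⟩ : Fin m) ≤ ⟨b, h1⟩ from hab)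
    · omega
    · exact hL ⟨_, rfl⟩
    · exact le_rfl
  · rw [hD]
    exact (submatrix_mul_equiv V _ id ε ε).trans (congrArg (·.submatrix id ε) hV.comm)
  · have : V'.submatrix ε id * V.submatrix id ε = γ • 1 := by
      rw [← submatrix_mul _ _ _ _ _ Function.bijective_id, h1, submatrix_smul, Pi.smul_apply,
        Pi.smul_apply, submatrix_one_equiv]
    rw [this]
    exact key i j
  · rw [submatrix_mul_equiv, h2]
    exact key i j

/-- direct sums -/
abbrev FSpl_sum (F G : MC R) : MC R where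
  ι := F.ι ⊕ G.ι
  deg := Sum.elim F.deg G.deg
  d := fromBlocks F.d 0 0 G.d
  hdeg := by
    rintro (i | i) (j | j) h
    · exact F.hdeg i j h
    · simp at h
    · simp at h
    · exact G.hdeg i j h
  dd := by simp [fromBlocks_multiply, F.dd, G.dd]

theorem FSpl_isRes {N : Type} [AddCommGroup N] [Module R N] {F : MC R} (h : F.IsRes N)
    {σ : Type} [Fintype σ] [DecidableEq σ] {δ : σ → ℤ} (hδ : ∀ s, 0 ≤ δ s) :
    (FSpl_sum F (FSpl_triv R δ)).IsRes N := by
  obtain ⟨h0, ε, hε⟩ := h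
  refine ⟨?_, _, QI.comp (QI.of_surjective (f := LinearMap.funLeft R R Sum.inl)
    ⟨fun x => ?_, fun k x => ?_⟩
    (LinearMap.funLeft_surjective_of_injective _ _ _ Sum.inl_injective) fun k x hx _ hD => ?_) hε⟩
  · rintro (i | i | i)
    · exact h0 i
    · exact hδ i
    · exact (hδ i).trans (Int.le_add_one le_rfl)
  · funext i
    rw [LinearMap.funLeft_apply, MC.ap_D, MC.ap_D, matApp_apply, matApp_apply]
    exact (Fintype.sum_sum_type _).trans (by simp)
  · funext i
    rw [LinearMap.funLeft_apply, MC.ap_π, MC.ap_π]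
    rfl
  · refine ⟨Sum.elim 0 (Sum.elim 0 fun s => x (.inr (.inl s))), funext fun _ => rfl, ?_⟩
    rw [MC.ap_D] at hD ⊢
    funext i
    have h1 := fun s => (Fintype.sum_sum_type _).symm.trans (congrFun hD (.inr (.inl s)))
    refine (Fintype.sum_sum_type _).trans ?_
    rcases i with i | i | i
    · simpa [FSpl_sum] using (congrFun hx i).symm
    · simp [one_apply]
    · simpa [FSpl_sum, FSpl_triv, one_apply, eq_comm] using h1 i

theorem FSpl_fib {I ι : Type} [DecidableEq I] [Fintype ι] (P : I × ι → Prop) [DecidablePred P]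
    [Fintype {p // P p}] (j : I) (g : ι → R) :
    ∑ s : {p // P p}, (if j = s.1.1 then g s.1.2 else 0) = ∑ x, if P (j, x) then g x else 0 := by
  rw [← Finset.sum_filter, ← Finset.sum_filter]
  refine Finset.sum_bij (fun s _ => s.1.2) (fun s hs => ?_) (fun s hs t ht h => ?_)
    (fun x hx => ⟨⟨(j, x), (Finset.mem_filter.1 hx).2⟩, by simp, rfl⟩) fun _ _ => rfl
  · rw [(Finset.mem_filter.1 hs).2]
    simpa using s.2
  · exact Subtype.ext (Prod.ext
      ((Finset.mem_filter.1 hs).2.symm.trans (Finset.mem_filter.1 ht).2) h)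

/-- a homotopy of square zero -/
theorem FSpl_sq {F : MC R} {q : R} (h : F.Null q) : ∃ h : Matrix F.ι F.ι R,
    (∀ i j, h i j = 0 ∨ F.deg i = F.deg j + 1) ∧ F.d * h + h * F.d = (q ^ 2) • 1 ∧ h * h = 0 := by
  obtain ⟨h, h1, h2⟩ := h
  rw [scalar_apply, ← smul_one_eq_diagonal] at h2
  have e1 : h * F.d = q • 1 - F.d * h := eq_sub_of_add_eq' h2
  have e2 : F.d * h = q • 1 - h * F.d := eq_sub_of_add_eq h2
  have e3 : F.d * h * h = h * h * F.d := by
    rw [mul_assoc h h, e1, mul_sub, ← mul_assoc h, e2, sub_mul]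
    simp [e1, sub_mul]
  refine ⟨h * F.d * h, fun i j => or_iff_not_imp_left.2 fun hij => ?_, ?_, ?_⟩
  · obtain ⟨k, -, hk⟩ := Finset.exists_ne_zero_of_sum_ne_zero hij
    obtain ⟨l, -, hl⟩ := Finset.exists_ne_zero_of_sum_ne_zero (left_ne_zero_of_mul hk)
    have := h1 _ _ (right_ne_zero_of_mul hk)
    have := h1 _ _ (left_ne_zero_of_mul hl)
    have := F.hdeg _ _ (right_ne_zero_of_mul hl)
    omega
  · have e4 : F.d * (h * F.d * h) = q • (F.d * h) := by
      rw [e1, sub_mul, mul_sub, ← mul_assoc, ← mul_assoc, ← mul_assoc, F.dd]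
      simp
    have e5 : h * F.d * h * F.d = q • (h * F.d) := by
      rw [mul_assoc h F.d h, e2, mul_sub, sub_mul, mul_assoc h (h * F.d), mul_assoc h F.d, F.dd]
      simp
    rw [e4, e5, ← smul_add, h2, smul_smul, sq]
  · calc _ = h * (F.d * h * h * F.d) * h := by simp only [mul_assoc]
      _ = 0 := by rw [e3, mul_assoc (h * h), F.dd]; simp

theorem FSpl_split {F : MC R} {n : ℤ} (h0 : ∀ i, 0 ≤ F.deg i) (hn : ∀ i, F.deg i ≤ n)
    {h : Matrix F.ι F.ι R} {a : R} (hh : ∀ i j, h i j = 0 ∨ F.deg i = F.deg j + 1)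
    (h1 : F.d * h + h * F.d = a • 1) (h2 : h * h = 0) :
    ∃ (σ τ : Type) (_ : Fintype σ) (_ : Fintype τ) (_ : DecidableEq σ) (_ : DecidableEq τ)
      (δ : σ → ℤ) (δ' : τ → ℤ) (J : Matrix σ F.ι R) (M : Matrix τ σ R) (M' : Matrix σ τ R),
      (∀ t, 0 ≤ δ' t) ∧ (∀ s y, J s y ≠ 0 → δ s = F.deg y) ∧ (∀ t s, M t s ≠ 0 → δ' t = δ s) ∧
      (∀ s t, M' s t ≠ 0 → δ s = δ' t) ∧ M' * M + J * (F.d * (h * Jᵀ)) = a • 1 ∧ Jᵀ * J = 1 ∧
      h * (Jᵀ * M') = 0 ∧ M * J * F.d = 0 ∧ M * M' = a • 1 := by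
  classical
  have hd : ∀ i j, F.d i j = 0 ∨ F.deg j = F.deg i + 1 := fun i j =>
    or_iff_not_imp_left.2 (F.hdeg i j)
  have hM : (F.d + h) * (F.d + h) = a • 1 := by
    rw [add_mul, mul_add, mul_add, F.dd, h2, zero_add, add_zero, h1]
  let P : ℤ → ℤ × F.ι → Prop := fun r p =>
    p.1 ≤ n ∧ F.deg p.2 ≤ p.1 ∧ (p.1 - F.deg p.2) % 2 = r
  have hfin : ∀ r, Finite {p // P r p} := fun r =>
    (((Set.finite_Icc 0 n).prod Set.finite_univ).subset (t := {p | P r p})
      fun p hp => ⟨⟨(h0 _).trans hp.2.1, hp.1⟩, trivial⟩).to_subtype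
  let _ := fun r => Fintype.ofFinite {p // P r p}
  let J : Matrix {p // P 0 p} F.ι R := of fun s y => if s.1 = (F.deg y, y) then 1 else 0
  let top : F.ι → {p // P 0 p} := fun y => ⟨(F.deg y, y), hn y, le_rfl, by simp⟩
  have hJ : ∀ s y, J s y = if s = top y then 1 else 0 := fun s y => by
    simp only [J, top, of_apply, Subtype.ext_iff]
  have hJ' : ∀ s y, J s y = if s.1.2 = y then if s.1.1 = F.deg s.1.2 then 1 else 0 else 0 :=
    fun s y => by
      by_cases h : s.1.2 = y
      · simp only [J, of_apply, Prod.ext_iff, ← h, and_true, if_true]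
      · simp [J, Prod.ext_iff, h]
  refine ⟨{p // P 0 p}, {p // P 1 p}, inferInstance, inferInstance, inferInstance, inferInstance,
    fun s => s.1.1, fun s => s.1.1, J,
    of fun t s => if t.1.1 = s.1.1 then (F.d + h) t.1.2 s.1.2 else 0,
    of fun t s => if t.1.1 = s.1.1 then (F.d + h) t.1.2 s.1.2 else 0,
    fun t => (h0 _).trans t.2.2.1, fun s y hs => ?_, fun t s hs => ?_, fun t s hs => ?_,
    ?_, ?_, ?_, ?_, ?_⟩
  · exact congrArg Prod.fst (by_contra fun h => hs (if_neg h) : s.1 = (F.deg y, y))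
  · exact by_contra fun h => hs (if_neg h)
  · exact by_contra fun h => hs (if_neg h)
  · ext ⟨⟨i, x⟩, -, a1, a2⟩ ⟨⟨j, z⟩, b0, b1, b2⟩
    have e : ∀ s s' : {p // P 0 p}, (J * (F.d * (h * Jᵀ))) s s' = ∑ y,
        if s.1.1 = F.deg s.1.2 then if s'.1.1 = F.deg s'.1.2 then F.d s.1.2 y * h y s'.1.2
          else 0 else 0 := fun s s' => by
      by_cases c1 : s.1.1 = F.deg s.1.2 <;> by_cases c2 : s'.1.1 = F.deg s'.1.2 <;>
        simp [mul_apply, hJ', c1, c2]
    rw [Matrix.add_apply, e, mul_apply]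
    dsimp only at a1 a2 b0 b1 b2 ⊢
    by_cases hij : i = j
    · subst hij
      have := congrFun₂ hM x z
      simp only [mul_apply, Matrix.smul_apply, one_apply] at this
      simp only [of_apply, ite_mul, zero_mul, Matrix.smul_apply, one_apply, Subtype.mk.injEq,
        Prod.mk.injEq, true_and, ← this]
      rw [Finset.sum_congr rfl (g := fun t : {p // P 1 p} => if i = t.1.1 then
        (F.d + h) x t.1.2 * (F.d + h) t.1.2 z else 0)
        fun t _ => ite_congr rfl (fun c => by rw [if_pos c.symm]) fun _ => rfl, FSpl_fib (P 1) i fun y =>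
          (F.d + h) x y * (F.d + h) y z, ← Finset.sum_add_distrib]
      refine Finset.sum_congr rfl fun y _ => ?_
      simp only [P, Matrix.add_apply]
      rcases hd x y with c1 | c1 <;> rcases hh x y with c2 | c2 <;> rcases hd y z with c3 | c3 <;>
        rcases hh y z with c4 | c4 <;> split_ifs <;> first | omega | simp [*]
    · rw [Finset.sum_eq_zero, Finset.sum_eq_zero, Matrix.smul_apply, one_apply_ne (by simp [hij])]
      · simp
      · intro y _
        rcases hd x y with c1 | c1 <;> rcases hh y z with c4 | c4 <;> split_ifs <;>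
          first | omega | simp [*]
      · intro t _
        simp only [of_apply]
        split_ifs <;> first | omega | simp
  · ext y z
    simp only [mul_apply, transpose_apply, hJ, ite_mul, one_mul, zero_mul, Finset.sum_ite_eq',
      Finset.mem_univ, if_true, one_apply]
    exact if_congr ⟨fun h => congrArg (·.1.2) h, congrArg top⟩ rfl rfl
  · ext w ⟨⟨i, x⟩, -, a1, a2⟩
    have := congrFun₂ h2 w x
    rw [mul_apply] at this ⊢
    dsimp only at a1 a2
    refine (Finset.sum_congr rfl (g := fun y => if i = F.deg x + 1 then h w y * h y x else 0)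
      fun y _ => ?_).trans (by simp [this])
    simp only [mul_apply, transpose_apply, hJ, ite_mul, one_mul, zero_mul, Finset.sum_ite_eq',
      Finset.mem_univ, if_true, of_apply, top, Matrix.add_apply]
    rcases hd y x with c1 | c1 <;> rcases hh y x with c2 | c2 <;> split_ifs <;>
      first | omega | simp [*]
  · ext ⟨⟨i, x⟩, -, a1, a2⟩ w
    have := congrFun₂ F.dd x w
    rw [mul_apply] at this ⊢
    dsimp only at a1 a2
    refine (Finset.sum_congr rfl (g := fun y => if i = F.deg x + 1 then F.d x y * F.d y w else 0)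
      fun y _ => ?_).trans (by simp [this])
    simp only [mul_apply, hJ, mul_ite, mul_one, mul_zero, Finset.sum_ite_eq',
      Finset.mem_univ, if_true, of_apply, top, Matrix.add_apply]
    rcases hd x y with c1 | c1 <;> rcases hh x y with c2 | c2 <;> split_ifs <;>
      first | omega | simp [*]
  · ext ⟨⟨i, x⟩, -, a1, a2⟩ ⟨⟨j, z⟩, b0, b1, b2⟩
    rw [mul_apply]
    dsimp only at a1 a2 b0 b1 b2
    by_cases hij : i = j
    · subst hij
      have := congrFun₂ hM x z
      simp only [mul_apply, Matrix.smul_apply, one_apply] at this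
      simp only [of_apply, ite_mul, zero_mul, Matrix.smul_apply, one_apply, Subtype.mk.injEq,
        Prod.mk.injEq, true_and, ← this]
      rw [Finset.sum_congr rfl (g := fun t : {p // P 0 p} => if i = t.1.1 then
        (F.d + h) x t.1.2 * (F.d + h) t.1.2 z else 0)
        fun t _ => ite_congr rfl (fun c => by rw [if_pos c.symm]) fun _ => rfl, FSpl_fib (P 0) i fun y =>
          (F.d + h) x y * (F.d + h) y z]
      refine Finset.sum_congr rfl fun y _ => ?_
      simp only [P, Matrix.add_apply]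
      rcases hd y z with c3 | c3 <;> rcases hh y z with c4 | c4 <;> split_ifs <;>
        first | omega | simp [*]
    · rw [Finset.sum_eq_zero, Matrix.smul_apply, one_apply_ne (by simp [hij])]
      · simp
      · intro t _
        simp only [of_apply]
        split_ifs <;> first | omega | simp

theorem FSpl_deg {α β γ : Type} [Fintype β] {A : Matrix α β R} {B : Matrix β γ R} {i : α} {k : γ}
    (h : (A * B) i k ≠ 0) : ∃ j, A i j ≠ 0 ∧ B j k ≠ 0 := by
  obtain ⟨j, -, hj⟩ := Finset.exists_ne_zero_of_sum_ne_zero h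
  exact ⟨j, left_ne_zero_of_mul hj, right_ne_zero_of_mul hj⟩

end

theorem exists_spl {R : Type} [CommRing R] {d : ℕ} (hR : HasRes R d) (Q H : Ideal R) (ϖ : R)
    {c₀ : ℕ} (h : ϖ ^ c₀ ∈ H ⊔ Q) :
    ∃ (E : MC R) (m : ℕ) (δ : ℕ → ℤ) (U : Matrix E.ι (Fin (2 * m)) R)
      (U' : Matrix (Fin (2 * m)) E.ι R) (c : ℕ), E.IsRes (R ⧸ Q) ∧ Antitone δ ∧
      ASpl E m δ U U' (ϖ ^ c) H := by
  obtain ⟨F, hF, hn⟩ := hR (R ⧸ Q)
  obtain ⟨y, hy, q, hq, e⟩ := Submodule.mem_sup.1 h
  obtain ⟨k, hk, h1, h2⟩ := FSpl_sq (hF.null (a := q) fun x => by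
    rw [Algebra.smul_def, Ideal.Quotient.algebraMap_eq, Ideal.Quotient.eq_zero_iff_mem.2 hq,
      zero_mul])
  obtain ⟨σ, τ, _, _, _, _, δ, δ', J, M, M', e0, e1, e2, e3, k1, k2, k3, k4, k5⟩ :=
    FSpl_split hF.1 hn hk h1 h2
  have hγ : q ^ 2 * q ^ 2 - ϖ ^ (c₀ * 4) ∈ H := by
    rw [pow_mul, ← e, show q ^ 2 * q ^ 2 - (y + q) ^ 4 =
      -(y ^ 3 + 4 * y ^ 2 * q + 6 * y * q ^ 2 + 4 * q ^ 3) * y by ring]
    exact H.mul_mem_left _ hy
  generalize q ^ 2 = a at h1 k1 k5 hγ
  have hk' : ∀ i j, k i j ≠ 0 → F.deg i = F.deg j + 1 := fun i j => (hk i j).resolve_left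
  have d1 : ∀ i s, (k * J.transpose) i s ≠ 0 → F.deg i = δ s + 1 := fun i s h => by
    obtain ⟨j, a1, a2⟩ := FSpl_deg h
    rw [hk' _ _ a1, e1 _ _ a2]
  have d2 : ∀ s i, (J * F.d) s i ≠ 0 → δ s + 1 = F.deg i := fun s i h => by
    obtain ⟨j, a1, a2⟩ := FSpl_deg h
    rw [F.hdeg _ _ a2, e1 _ _ a1]
  have dd : ∀ {β : Type} (X : Matrix F.ι β R), F.d * (F.d * X) = 0 := fun X => by
    rw [← Matrix.mul_assoc, F.dd, Matrix.zero_mul]
  have kk : ∀ {β : Type} (X : Matrix F.ι β R), k * (k * X) = 0 := fun X => by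
    rw [← Matrix.mul_assoc, h2, Matrix.zero_mul]
  have JJ : ∀ {β : Type} (X : Matrix F.ι β R), J.transpose * (J * X) = X := fun X => by
    rw [← Matrix.mul_assoc, k2, Matrix.one_mul]
  have MJ : ∀ {β : Type} (X : Matrix F.ι β R), M * (J * (F.d * X)) = 0 := fun X => by
    rw [← Matrix.mul_assoc, ← Matrix.mul_assoc, k4, Matrix.zero_mul]
  have dk : ∀ {β : Type} (X : Matrix F.ι β R), F.d * (k * (F.d * X)) = a • (F.d * X) := fun X => by
    rw [← Matrix.mul_assoc k, eq_sub_of_add_eq' h1, Matrix.sub_mul, Matrix.mul_sub,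
      Matrix.mul_assoc, dd, sub_zero, Matrix.smul_mul, Matrix.one_mul, Matrix.mul_smul]
  have k1' : a • (J * (F.d * (k * J.transpose))) + a • (M' * M) = (a * a) • 1 := by
    rw [← smul_add, add_comm, k1, smul_smul]
  refine (FSpl_reindex (FSpl_sum F (FSpl_triv R δ')) δ
    (V := Matrix.fromBlocks (F.d * (k * J.transpose)) (k * J.transpose) (Matrix.fromRows M 0)
      (Matrix.fromRows 0 M))
    (V' := Matrix.fromBlocks (J * (F.d * k)) (Matrix.fromCols (a • M') 0) (a • (J * F.d))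
      (Matrix.fromCols 0 (a • M'))) hγ ⟨?_, ?_⟩ ?_ ?_ ?_).elim
    fun m ⟨δ₁, U, U', h3, h4⟩ => ⟨_, m, δ₁, U, U', _, FSpl_isRes hF e0, h3, h4⟩
  · rintro (i | i | i) (s | s) h
    · obtain ⟨j, a1, a2⟩ := FSpl_deg h
      exact add_right_cancel ((F.hdeg _ _ a1).symm.trans (d1 _ _ a2))
    · exact d1 _ _ h
    · exact e2 _ _ h
    · exact absurd rfl h
    · exact absurd rfl h
    · exact congrArg (· + 1) (e2 _ _ h)
  · refine (Matrix.fromBlocks_multiply ..).trans (Eq.trans ?_ (Matrix.fromBlocks_multiply ..).symm)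
    simp [dd, FSpl_triv, Matrix.fromBlocks_mul_fromRows]
  · rintro (s | s) (i | i | i) h
    · obtain ⟨j, a1, a2⟩ := FSpl_deg (Matrix.mul_assoc J F.d k ▸ h : (J * F.d * k) s i ≠ 0)
      exact add_right_cancel ((d2 _ _ a1).trans (hk' _ _ a2))
    · exact e3 _ _ (right_ne_zero_of_mul h)
    · exact absurd rfl h
    · exact d2 _ _ (right_ne_zero_of_mul h)
    · exact absurd rfl h
    · exact congrArg (· + 1) (e3 _ _ (right_ne_zero_of_mul h))
  · refine (Matrix.fromBlocks_multiply ..).trans ?_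
    rw [← Matrix.fromBlocks_one, Matrix.fromBlocks_smul]
    simp [Matrix.fromCols_mul_fromRows, Matrix.mul_assoc, dd, kk, dk, k1']
  · refine (Matrix.fromBlocks_multiply ..).trans ?_
    have k6 : a • (F.d * k) + a • (k * F.d) = (a * a) • 1 := by rw [← smul_add, h1, smul_smul]
    rw [Matrix.mul_assoc] at k4
    change _ = (a * a) • (1 : Matrix (F.ι ⊕ τ ⊕ τ) (F.ι ⊕ τ ⊕ τ) R)
    rw [← Matrix.fromBlocks_one, Matrix.fromBlocks_smul, ← Matrix.fromBlocks_one (l := τ),
      Matrix.fromBlocks_smul, Matrix.fromRows_mul_fromCols, Matrix.fromRows_mul_fromCols]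
    simp [Matrix.mul_fromCols, Matrix.fromRows_mul,
      Matrix.mul_assoc, JJ, MJ, dk, k3, k4, k5, k6, smul_smul, Matrix.fromBlocks_add]

end Crest.Agent.R188
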