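import Crest.Agent.R188.VSS
import Crest.Agent.R188.FSpl

/-!
# Vanishing
-/

set_option autoImplicit false
set_option linter.unusedVariables false

open scoped ENNReal NNReal TensorProduct

namespace Crest.Agent.R188

open Crest.Agent.R183 Crest.Agent.R183.DG IsLocalRing

variable {R : Type} [CommRing R] [IsNoetherianRing R] [IsLocalRing R]

theorem VAN_filt {F : MC R} {Q J : Ideal R} (hF : F.Supp Q)
    (hQ : ∃ c : ℕ, maximalIdeal R ^ c ≤ Q ⊔ J) (p : ℝ → Prop) (p0 : p 0)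
    (padd : ∀ s t, p s → p t → p (s + t))
    (hp : ∀ P : Ideal R, P.IsPrime → J ≤ P → p (F.chi (LF.length R) (R ⧸ P))) :
    ∀ (N : Type) [AddCommGroup N] [Module R N] [hN : Module.Finite R N],
      (∀ a ∈ J, ∀ x : N, a • x = 0) → p (F.chi (LF.length R) N) := by
  obtain ⟨c, hc⟩ := hQ
  intro N _ _ hN
  induction hN using IsNoetherianRing.induction_on_isQuotientEquivQuotientPrime R with
  | subsingleton N =>
    intro _
    rw [F.chi_of_val (by rw [LF.zero]; exact ENNReal.zero_ne_top), LF.zero]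
    simpa using p0
  | quotient N P f =>
    intro h
    have hle : J ≤ P.1 := fun a ha => by
      have h2 := congrArg f (h a ha (f.symm 1))
      rw [map_smul, map_zero, f.apply_symm_apply, Algebra.smul_def, mul_one] at h2
      exact Ideal.Quotient.eq_zero_iff_mem.1 h2
    rw [MC.chi, (F.ap_iso f).ech_eq]
    exact hp P.1 P.2 hle
  | exact N₁ N₂ N₃ f g hf hg hfg h₁ h₃ =>
    intro h
    have k1 : ∀ a ∈ J, ∀ x : N₁, a • x = 0 := fun a ha x => hf (by rw [map_smul, h a ha, map_zero])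
    have k3 : ∀ a ∈ J, ∀ x : N₃, a • x = 0 := fun a ha x => by
      obtain ⟨y, rfl⟩ := hg x
      rw [← map_smul, h a ha, map_zero]
    rw [F.chi_ses hf hg hfg
      (hF.fin'_length ⟨c, hc.trans (sup_le_sup_left
        (fun a ha => Module.mem_annihilator.2 (k1 a ha)) _)⟩)
      (hF.fin'_length ⟨c, hc.trans (sup_le_sup_left
        (fun a ha => Module.mem_annihilator.2 (k3 a ha)) _)⟩)]
    exact padd _ _ (h₁ k1) (h₃ k3)

omit [IsNoetherianRing R] in
theorem VAN_mono {n n' : ℕ} (h : Van R n) (hn : n' ≤ n) : Van R n' :=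
  fun a b Q M _ _ _ F hab => h a b Q M F (hab.trans_le hn)

omit [IsNoetherianRing R] [IsLocalRing R] in
theorem VAN_exact_dim {Q : Ideal R} (hQ : Q ≠ ⊤) {b : ℕ} (h : ringKrullDim (R ⧸ Q) ≤ b) :
    ∃ b₀ : ℕ, b₀ ≤ b ∧ ringKrullDim (R ⧸ Q) = b₀ := by
  have : Nontrivial (R ⧸ Q) := Ideal.Quotient.nontrivial_iff.2 hQ
  have h0 : 0 ≤ ringKrullDim (R ⧸ Q) := ringKrullDim_nonneg_of_nontrivial
  generalize ringKrullDim (R ⧸ Q) = z at h h0
  induction z using WithBot.recBotCoe with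
  | bot => simp at h0
  | coe z =>
    have h2 : z ≤ (b : ℕ∞) := WithBot.coe_le_coe.1 h
    induction z using ENat.recTopCoe with
    | top => simp at h2
    | coe z => exact ⟨z, ENat.natCast_le_natCast.1 h2, rfl⟩

theorem VAN_eq_zero {χ C : ℝ} {a a' : ℕ} (ha : a < a')
    (h : ∀ N : ℕ, ∃ k : ℕ, N ≤ k ∧ (k : ℝ) ^ a' * |χ| ≤ C * (k + 1) ^ a) : χ = 0 := by
  by_contra h0
  have h1 : 0 < |χ| := abs_pos.2 h0
  obtain ⟨N, hN⟩ := exists_nat_gt (|C| * 2 ^ a / |χ|)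
  obtain ⟨k, hk, h2⟩ := h (N + 1)
  have k1 : (N : ℝ) + 1 ≤ k := by exact_mod_cast hk
  have N0 : (0 : ℝ) ≤ N := Nat.cast_nonneg N
  have k2 : (1 : ℝ) ≤ k := by linarith
  have h3 : (k : ℝ) ^ a * (k * |χ|) ≤ (k : ℝ) ^ a * (|C| * 2 ^ a) := by
    calc (k : ℝ) ^ a * (k * |χ|) = (k : ℝ) ^ (a + 1) * |χ| := by ring
      _ ≤ (k : ℝ) ^ a' * |χ| := mul_le_mul_of_nonneg_right (pow_le_pow_right₀ k2 ha) h1.le
      _ ≤ C * (k + 1) ^ a := h2
      _ ≤ |C| * (2 * k) ^ a := mul_le_mul (le_abs_self C)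
          (pow_le_pow_left₀ (by linarith) (by linarith) a) (by positivity) (abs_nonneg C)
      _ = _ := by rw [mul_pow]; ring
  have h4 := le_of_mul_le_mul_left h3 (by positivity)
  rw [div_lt_iff₀ h1] at hN
  nlinarith

theorem VAN_prime {d : ℕ} {x : Fin d → R} (hx : RegL R x) (hζ : HasRoots R) {a b : ℕ}
    (hab : a + b < d) (hvan : Van R (a + b)) {P Q : Ideal R} (hP : P.IsPrime) (hQ : Q.IsPrime)
    (ha : ringKrullDim (R ⧸ P) ≤ a) (hb : ringKrullDim (R ⧸ Q) ≤ b)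
    (hPQ : ∃ c : ℕ, maximalIdeal R ^ c ≤ Q ⊔ P) {F : MC R} (hF : F.IsRes (R ⧸ Q)) :
    F.chi (LF.length R) (R ⧸ P) = 0 := by
  have := hx.isDomain
  by_cases hle : Q ≤ P
  · obtain ⟨c, hc⟩ := hPQ
    rw [sup_eq_right.2 hle] at hc
    have hQ0 : Q ≠ ⊥ := by
      rintro rfl
      rw [ringKrullDim_eq_of_ringEquiv (RingEquiv.quotientBot R), hx.dim] at hb
      have : d ≤ b := by exact_mod_cast hb
      omega
    obtain ⟨y, hy, hy0⟩ := Submodule.exists_mem_ne_zero_of_ne_bot hQ0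
    have h1 := F.sum_sg_eq_zero hy0 (hF.null (LF.LFkill_quot_ideal le_rfl y hy))
    have h2 : (∑ i, (sg (F.deg i) : ℝ)) = 0 := by exact_mod_cast h1
    rw [F.chi_of_val, h2, zero_mul]
    rw [LF.length_val]
    exact fun h => length_ne_top_of_pow (maximalIdeal R) (IsNoetherian.noetherian _) (R ⧸ P)
      ⟨c, LF.LFkill_quot_ideal hc⟩ (by simpa using h)
  obtain ⟨ϖ, hϖQ, hϖP⟩ := SetLike.not_le_iff_exists.1 hle
  obtain ⟨E, m, δ, U, U', c, hE, hδ, hA⟩ := exists_spl hx.hasRes Q P ϖ (c₀ := 1)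
    (by rw [pow_one]; exact Ideal.mem_sup_right hϖQ)
  have : Nontrivial (R ⧸ P) := Ideal.Quotient.nontrivial_iff.2 hP.ne_top
  have : IsLocalRing (R ⧸ P) :=
    IsLocalRing.of_surjective' (Ideal.Quotient.mk P) Ideal.Quotient.mk_surjective
  have hγ0 : algebraMap R (R ⧸ P) (ϖ ^ c) ≠ 0 := fun h0 =>
    hϖP (hP.mem_of_pow_mem c (Ideal.Quotient.eq_zero_iff_mem.1 h0))
  have hγ : IsSMulRegular (R ⧸ P) (algebraMap R (R ⧸ P) (ϖ ^ c)) := mul_right_injective₀ hγ0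
  obtain ⟨U'', hS⟩ := (hA.map (algebraMap R (R ⧸ P))
    (𝔞' := Ideal.span {algebraMap R (R ⧸ P) (ϖ ^ c)} * ⊥) fun y hy => by
      rw [show algebraMap R (R ⧸ P) y = 0 from Ideal.Quotient.eq_zero_iff_mem.2 hy]
      exact zero_mem _).exists_spl hγ bot_le
  obtain ⟨C, hΓ⟩ := fam_Iw (plI (U.map (algebraMap R (R ⧸ P))) 1) hγ fun t =>
    ⟨2 * m, by
      have h1 := VSS_mem_plI (U.map (algebraMap R (R ⧸ P))) U'' hS.left 1 t
      rwa [one_mul] at h1⟩
  obtain ⟨b₀, hb₀, hb₁⟩ := VAN_exact_dim hQ.ne_top hb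
  have hker : RingHom.ker (algebraMap R (R ⧸ P)) = P := Ideal.mk_ker
  have hQ' : ∃ c : ℕ, maximalIdeal R ^ c ≤ Q ⊔ RingHom.ker (algebraMap R (R ⧸ P)) := by
    rwa [hker]
  have hS' : ∃ c : ℕ, maximalIdeal (R ⧸ P) ^ c ≤ (maximalIdeal R).map (algebraMap R (R ⧸ P)) :=
    ⟨1, by
      rw [pow_one]
      exact (IsLocalRing.map_maximalIdeal_of_surjective _ Ideal.Quotient.mk_surjective).ge⟩
  obtain ⟨N, hN⟩ := VSS_pow_le_map _ hQ' hS'
  have hgr : ∀ j : ℕ, ∃ C' : ℕ, j < m → ∀ q : ℕ, (LF.length (R ⧸ P)).sz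
      (Iw (plI (U.map (algebraMap R (R ⧸ P))) 1) (uvec (2 * m) C (2 * j)) ^ q)
      (Iw (plI (U.map (algebraMap R (R ⧸ P))) 1) (uvec (2 * m) C (2 * j + 1)) ^ q) ≤
      (C' * (q + 1) ^ a : ℕ) := fun j => by
    by_cases hj : j < m
    · have h1 := (flag_pow_le hS hδ hΓ (VSS_null_map _ hE) hj (w := fun _ => C)
        (fun _ => le_rfl) 1).1
      rw [pow_one, one_smul, one_smul] at h1
      obtain ⟨C', hC'⟩ := growth_pair a ha ((Ideal.mul_mono_left hN).trans h1)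
      exact ⟨C', fun _ => hC'⟩
    · exact ⟨0, fun h => absurd h hj⟩
  choose C' hC' using hgr
  rw [hF.chi_eq hE]
  refine VAN_eq_zero (C := ∑ j ∈ Finset.range m, (C' j : ℝ)) (a := a) (a' := d - b₀) (by omega)
    fun N => ?_
  obtain ⟨k, hk, hodd, ζ, hζ'⟩ := hζ N
  refine ⟨k, hk, ?_⟩
  have h1 := chi_eq_sum hx Q (a := a) (a' := d - b₀) (b := b₀) (by omega) hb₁
    (VAN_mono hvan (by omega)) (R ⧸ P)
    (fun t => by
      obtain ⟨r, rfl⟩ := Ideal.Quotient.mk_surjective t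
      exact ⟨r, by simp⟩)
    (by rwa [hker]) hQ' hS' hE hδ hS one_ne_zero hΓ hodd hζ'
  rw [← abs_of_nonneg (by positivity : (0 : ℝ) ≤ (k : ℝ) ^ (d - b₀)), ← abs_mul, h1,
    Finset.sum_mul]
  refine (Finset.abs_sum_le_sum_abs _ _).trans (Finset.sum_le_sum fun j hj => ?_)
  have h2 := ENNReal.toReal_mono (ENNReal.natCast_ne_top _) (hC' j (Finset.mem_range.1 hj) k)
  rw [ENNReal.toReal_natCast] at h2
  have h3 : |((sg (δ j) : ℤ) : ℝ)| = 1 := by
    rw [← Int.cast_abs, sg, Int.abs_negOnePow, Int.cast_one]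
  rw [abs_mul, h3, one_mul, abs_of_nonneg ENNReal.toReal_nonneg]
  exact_mod_cast h2

theorem RegL.van {d : ℕ} {x : Fin d → R} (hx : RegL R x) (hζ : HasRoots R) : Van R d := by
  have key : ∀ n ≤ d, Van R n := by
    intro n
    induction n with
    | zero => exact fun _ a b Q M _ _ _ F hab => absurd hab (Nat.not_lt_zero _)
    | succ n ih =>
      intro hn a b Q M _ _ _ F hab hQ hb ha hc hF
      refine VAN_filt hF.supp_quot hc (fun s => s = 0) rfl
        (fun s t hs ht => by rw [hs, ht, add_zero]) (fun P hP hle => ?_) M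
        fun r hr => Module.mem_annihilator.1 hr
      obtain ⟨c, hc⟩ := hc
      exact VAN_prime hx hζ (by omega) (VAN_mono (ih (by omega)) (by omega)) hP hQ
        ((ringKrullDim_le_of_surjective (Ideal.Quotient.factor hle)
          (Ideal.Quotient.factor_surjective hle)).trans ha) hb
        ⟨c, hc.trans (sup_le_sup_left hle _)⟩ hF
  exact key d le_rfl

/-- positivity for a module killed by `P` implies positivity for `R / P` -/
theorem Van.chi_pos {d : ℕ} (h : Van R d) {P Q : Ideal R} (hP : P.IsPrime) (hQ : Q.IsPrime)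
    {a b : ℕ} (hab : a + b = d) (ha : ringKrullDim (R ⧸ P) ≤ a) (hb : ringKrullDim (R ⧸ Q) ≤ b)
    (hPQ : ∃ c : ℕ, maximalIdeal R ^ c ≤ P ⊔ Q) {F : MC R} (hF : F.IsRes (R ⧸ Q)) (M : Type)
    [AddCommGroup M] [Module R M] [Module.Finite R M] (hM : P ≤ Module.annihilator R M)
    (hpos : 0 < F.chi (LF.length R) M) : 0 < F.chi (LF.length R) (R ⧸ P) := by
  rw [sup_comm] at hPQ
  obtain ⟨ρ, hρ, e⟩ := VAN_filt hF.supp_quot hPQ
    (fun s => ∃ ρ : ℝ, 0 ≤ ρ ∧ s = ρ * F.chi (LF.length R) (R ⧸ P)) ⟨0, le_rfl, by simp⟩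
    (fun s t ⟨ρ, h1, h2⟩ ⟨ρ', h3, h4⟩ => ⟨ρ + ρ', add_nonneg h1 h3, by rw [h2, h4, add_mul]⟩)
    (fun p hp hle => by
      rcases hle.eq_or_lt with rfl | hlt
      · exact ⟨1, zero_le_one, (one_mul _).symm⟩
      · obtain ⟨a₁, ha₁, ha₂⟩ := VSS_dim_lt hP hlt hp.ne_top ha
        obtain ⟨c, hc⟩ := hPQ
        refine ⟨0, le_rfl, ?_⟩
        rw [zero_mul]
        refine h a₁ b Q _ F (by omega) hQ hb ?_ ⟨c, ?_⟩ hF
        · rwa [Ideal.annihilator_quotient]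
        · rw [Ideal.annihilator_quotient]
          exact hc.trans (sup_le_sup_left hle _)) M
    fun r hr => Module.mem_annihilator.1 (hM hr)
  rw [e] at hpos
  by_contra h0
  exact absurd hpos (not_lt.2 (mul_nonpos_of_nonneg_of_nonpos hρ (not_lt.1 h0)))

end Crest.Agent.R188
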