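import Crest.Agent.R188.CCoord
import Crest.Agent.R188.CGcl
import Crest.Agent.R188.CChpP
import Crest.Agent.R188.BFin
import Crest.Agent.R188.RMod
import Crest.Agent.R188.RReg
import Crest.Agent.R188.VAN

/-!
# Positivity in the case `p ∈ P`
-/

set_option autoImplicit false
set_option linter.unusedVariables false
set_option linter.unusedSectionVars false
set_option linter.style.haveILetI false

open scoped ENNReal NNReal TensorProduct

namespace Crest.Agent.R188

open Crest.Agent.R183 IsLocalRing WittVector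

theorem CChp_mem_spn {R : Type} [CommRing R] (z : ℕ → R) {t i : ℕ} (hi : i < t) :
    z i ∈ spn z t := Ideal.subset_span ⟨i, hi, rfl⟩

theorem CChp_spn_le {R : Type} [CommRing R] {z : ℕ → R} {t : ℕ} {I : Ideal R}
    (h : ∀ i < t, z i ∈ I) : spn z t ≤ I := by
  refine Ideal.span_le.2 ?_
  rintro _ ⟨i, hi, rfl⟩
  exact h i hi

theorem CChp_sp_le {B ι : Type} [CommRing B] {u : ι → B} {I : Ideal B} (h : ∀ i, u i ∈ I) :
    sp u ≤ I := by
  refine Ideal.span_le.2 ?_
  rintro _ ⟨i, rfl⟩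
  exact h i

/-- an ideal with a power in the radical of another has a power in the other -/
theorem CChp_pow_le {B : Type} [CommRing B] [IsNoetherianRing B] {I J : Ideal B} {e : ℕ}
    (h : I ^ e ≤ J.radical) : ∃ c : ℕ, I ^ c ≤ J := by
  refine Ideal.exists_pow_le_of_le_radical_of_fg (fun x hx => ?_) (Ideal.fg_of_isNoetherianRing _)
  have h1 : x ∈ J.radical.radical := ⟨e, h (Ideal.pow_mem_pow hx e)⟩
  rwa [Ideal.radical_idem] at h1

theorem CChp_coord {p : ℕ} {R : Type} [CommRing R] [IsNoetherianRing R] [IsLocalRing R]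
    {d : ℕ} {x : Fin d → R} (hx : RegL R x) {P Q : Ideal R} (hQ : Q.IsPrime)
    {a₀ b b' : ℕ} (hab : a₀ + 1 + b = d)
    (hcase : ((p : R) ∉ Q ∧ b = b' + 1) ∨ ((p : R) ∈ Q ∧ b = b'))
    (ha : ringKrullDim (R ⧸ P) = (a₀ + 1 : ℕ)) (hb : ringKrullDim (R ⧸ Q) = b) :
    ∃ z : ℕ → R, spn z d = maximalIdeal R ∧
      (∃ c : ℕ, maximalIdeal R ^ c ≤ P ⊔ spn z (a₀ + 1)) ∧
      ∃ c : ℕ, maximalIdeal R ^ c ≤ Q ⊔ Ideal.span {(p : R)} ⊔ spn z b' := by
  have hQ' : ringKrullDim (R ⧸ (Q ⊔ Ideal.span {(p : R)})) ≤ (b' : ℕ) := by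
    rcases hcase with ⟨h1, rfl⟩ | ⟨h1, rfl⟩
    · have := dim_sup_le (I := Q) (e := b' + 1) hb.le (y := (p : R)) fun 𝔮 h𝔮 _ => by
        rw [Ideal.minimalPrimes_eq_subsingleton_self, Set.mem_singleton_iff] at h𝔮
        rwa [h𝔮]
      simpa using this
    · rw [sup_eq_left.2 ((Ideal.span_singleton_le_iff_mem _).2 h1)]
      exact hb.le
  obtain ⟨z, hz, hz'⟩ := coord_gen x hx.max (ι := Bool)
    (fun i => cond i P (Q ⊔ Ideal.span {(p : R)})) (fun i => cond i (a₀ + 1) b') (by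
      rintro (_ | _)
      · exact hQ'
      · exact ha.le)
  have hb'd : b' ≤ d := by rcases hcase with ⟨-, h⟩ | ⟨-, h⟩ <;> omega
  refine ⟨z, hz, pow_le_of_dim_le_zero ?_, pow_le_of_dim_le_zero ?_⟩
  · simpa using hz' true (a₀ + 1) (by omega)
  · simpa using hz' false b' hb'd

section cover

variable {p : ℕ} [Fact p.Prime] {k : Type} [Field k] [CharP k p] [PerfectRing k p]

theorem CChp_xi0 (a₀ : ℕ) : xi0 p k a₀ false = p := by
  simp [xi0]

theorem CChp_max_le {a : ℕ} {I : Ideal (WS p k a)} (hp : (p : WS p k a) ∈ I)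
    (hX : ∀ i, MvPowerSeries.X i ∈ I) : maximalIdeal (WS p k a) ≤ I := by
  rw [← (regL_witt_series p k a).max]
  refine CChp_sp_le fun i => ?_
  refine Fin.cases ?_ (fun i => ?_) i
  · simpa using hp
  · simpa using hX i

theorem CChp_X_mem {a : ℕ} (i : Fin a) : MvPowerSeries.X i ∈ maximalIdeal (WS p k a) := by
  simpa using (regL_witt_series p k a).mem_max i.succ

/-- every power series is congruent to a power of a constant -/
theorem CChp_res {a : ℕ} (e : ℕ) (f : WS p k a) :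
    ∃ w : WittVector p k, f - MvPowerSeries.C w ^ p ^ e ∈ maximalIdeal (WS p k a) := by
  obtain ⟨c, hc⟩ := (bijective_iterateFrobenius k p e).2
    ((MvPowerSeries.coeff 0 f : WittVector p k).coeff 0)
  refine ⟨teichmuller p c, ?_⟩
  rw [Complete_mem_max, map_sub, ← map_pow, ← map_pow, MvPowerSeries.coeff_zero_C,
    maximalIdeal_wittVector, WittVector.mem_span_p_iff_coeff_zero_eq_zero]
  rw [iterateFrobenius_def] at hc
  have h1 : ∀ u v : WittVector p k, (u - v).coeff 0 = u.coeff 0 - v.coeff 0 := fun u v =>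
    map_sub (WittVector.constantCoeff : WittVector p k →+* k) u v
  rw [h1, WittVector.teichmuller_coeff_zero, hc, sub_self]

/-- the twisted Galois cover of `R / P` -/
theorem CChp_cover {R : Type} [CommRing R] [IsNoetherianRing R] [IsLocalRing R]
    [IsAdicComplete (maximalIdeal R) R] {d a₀ : ℕ} (had : a₀ + 1 ≤ d) {P : Ideal R}
    (hP : P.IsPrime) (hpP : (p : R) ∈ P) (ha : ringKrullDim (R ⧸ P) = (a₀ + 1 : ℕ))
    (z : ℕ → R) (hz : spn z d = maximalIdeal R)
    (hc : ∃ c : ℕ, maximalIdeal R ^ c ≤ P ⊔ spn z (a₀ + 1))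
    (j : WS p k (a₀ + 1) →+* R) (hjX : ∀ i, j (MvPowerSeries.X i) = z i)
    (hres : ∀ r, ∃ w, r - j (MvPowerSeries.C w) ∈ maximalIdeal R) :
    ∃ (e₀ : ℕ) (S : Type) (_ : CommRing S) (_ : IsNoetherianRing S) (_ : IsLocalRing S)
      (_ : IsDomain S) (_ : Algebra R S) (_ : Algebra (WS p k (a₀ + 1)) S) (_ : Module.Finite R S)
      (_ : Module.Finite (WS p k (a₀ + 1)) S),
      (∀ t : S, ∃ r : R, t - algebraMap R S r ∈ maximalIdeal S) ∧
      (∀ t : S, ∃ r : WS p k (a₀ + 1), t - algebraMap _ S r ∈ maximalIdeal S) ∧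
      P ≤ RingHom.ker (algebraMap R S) ∧
      (∃ e : ℕ, maximalIdeal S ^ e ≤ (maximalIdeal R).map (algebraMap R S)) ∧
      (∃ e : ℕ, maximalIdeal S ^ e ≤
        sp fun i => algebraMap (WS p k (a₀ + 1)) S (MvPowerSeries.X i)) ∧
      (∀ a, algebraMap R S (j a) = algebraMap (WS p k (a₀ + 1)) S a ^ p ^ e₀) ∧
      RingHom.ker (algebraMap (WS p k (a₀ + 1)) S) = Ideal.span {xi0 p k a₀ false} ∧
      ∃ (σ : Type) (_ : Fintype σ) (_ : DecidableEq σ) (gal : σ → S ≃ₐ[WS p k (a₀ + 1)] S)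
        (w : WS p k (a₀ + 1)) (ε : σ → S ⊗[WS p k (a₀ + 1)] S),
        algebraMap _ S w ≠ 0 ∧ GalD gal w ε := by
  haveI := hP
  haveI := isAdicComplete_witt_series p k (a₀ + 1)
  have hPm : P ≤ maximalIdeal R := le_maximalIdeal hP.ne_top
  have hzm : ∀ i < d, z i ∈ maximalIdeal R := fun i hi => hz ▸ CChp_mem_spn z hi
  have hjm : (maximalIdeal (WS p k (a₀ + 1))).map j ≤ maximalIdeal R := by
    rw [Ideal.map_le_iff_le_comap]
    refine CChp_max_le ?_ fun i => ?_
    · rw [Ideal.mem_comap, map_natCast]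
      exact hPm hpP
    · rw [Ideal.mem_comap, hjX]
      exact hzm _ (by omega)
  have hzj : spn z (a₀ + 1) ≤ (maximalIdeal (WS p k (a₀ + 1))).map j :=
    CChp_spn_le fun i hi => by
      have := Ideal.mem_map_of_mem j (CChp_X_mem (p := p) (k := k) (⟨i, hi⟩ : Fin (a₀ + 1)))
      rwa [hjX] at this
  obtain ⟨c, hc⟩ := hc
  have hc' : maximalIdeal R ^ c ≤ P ⊔ (maximalIdeal (WS p k (a₀ + 1))).map j :=
    hc.trans (sup_le_sup_left hzj _)
  have hfin := finite_of_pow_le j hjm (fun r => (hres r).elim fun w hw => ⟨_, hw⟩) P ⟨c, hc'⟩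
  letI : Algebra (WS p k (a₀ + 1)) (R ⧸ P) := ((Ideal.Quotient.mk P).comp j).toAlgebra
  have halg : ∀ a, algebraMap (WS p k (a₀ + 1)) (R ⧸ P) a = Ideal.Quotient.mk P (j a) :=
    fun _ => rfl
  haveI : Module.Finite (WS p k (a₀ + 1)) (R ⧸ P) := hfin
  haveI : IsLocalRing (R ⧸ P) :=
    IsLocalRing.of_surjective' (Ideal.Quotient.mk _) Ideal.Quotient.mk_surjective
  have hm0 : (maximalIdeal R).map (Ideal.Quotient.mk P) = maximalIdeal (R ⧸ P) :=
    map_maximalIdeal_of_surjective _ Ideal.Quotient.mk_surjective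
  have hp0 : ((p : ℕ) : R ⧸ P) = 0 := by
    rw [← map_natCast (Ideal.Quotient.mk P), Ideal.Quotient.eq_zero_iff_mem]
    exact hpP
  haveI : CharP (R ⧸ P) p := (CharP.charP_iff_prime_eq_zero Fact.out).2 hp0
  have hadj : Algebra.adjoin (WS p k (a₀ + 1))
      (Set.range fun i : Fin d => Ideal.Quotient.mk P (z i)) = ⊤ := by
    refine adjoin_eq_top_of_pow_le (fun r => ?_) _ ?_ fun i => ?_
    · obtain ⟨r, rfl⟩ := Ideal.Quotient.mk_surjective r
      obtain ⟨w, hw⟩ := hres r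
      refine ⟨MvPowerSeries.C w, ?_⟩
      rw [halg, ← map_sub, ← hm0]
      exact Ideal.mem_map_of_mem _ hw
    · rw [← hm0, ← hz, Ideal.map_le_iff_le_comap]
      exact CChp_spn_le fun i hi =>
        Ideal.mem_sup_left (Ideal.subset_span ⟨⟨i, hi⟩, rfl⟩)
    · rw [← hm0]
      exact Ideal.mem_map_of_mem _ (hzm _ i.2)
  have hn : ∀ i : Fin d, ∃ e : ℕ, Ideal.Quotient.mk P (z i) ^ e ∈
      (maximalIdeal (WS p k (a₀ + 1))).map (algebraMap (WS p k (a₀ + 1)) (R ⧸ P)) := fun i => by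
    refine ⟨c, ?_⟩
    have h1 := Ideal.mem_map_of_mem (Ideal.Quotient.mk P)
      (hc' (Ideal.pow_mem_pow (hzm _ i.2) c))
    rwa [Ideal.map_sup, Ideal.map_quotient_self, bot_sup_eq, Ideal.map_map, map_pow] at h1
  have hker0 : RingHom.ker (algebraMap (WS p k (a₀ + 1)) (R ⧸ P)) =
      Ideal.span {xi0 p k a₀ false} := by
    refine ker_eq_of_finite _ hfin _ (xi0_prime a₀ false).1 ?_ (xi0_prime a₀ false).2.le ha.ge
    rw [Ideal.span_singleton_le_iff_mem, CChp_xi0, RingHom.mem_ker, map_natCast, hp0]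
  obtain ⟨e₀, S, _, _, _, _, _, φ, hφi, hφ, hker, hresS, ⟨e, he⟩, hgal⟩ :=
    exists_gcl p (fun i : Fin d => Ideal.Quotient.mk P (z i)) hadj hn
  haveI : IsNoetherianRing S := IsNoetherianRing.of_finite (WS p k (a₀ + 1)) S
  letI : Algebra R S := (φ.comp (Ideal.Quotient.mk P)).toAlgebra
  have halg' : ∀ r, algebraMap R S r = φ (Ideal.Quotient.mk P r) := fun _ => rfl
  have hcomp : ∀ a, algebraMap R S (j a) = algebraMap (WS p k (a₀ + 1)) S a ^ p ^ e₀ := fun a => by
    rw [halg', ← halg, hφ]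
  have hkerS := hker.trans hker0
  have hpS : algebraMap (WS p k (a₀ + 1)) S p = 0 := by
    rw [← RingHom.mem_ker, hkerS, CChp_xi0]
    exact Ideal.mem_span_singleton_self _
  have hΛS : (maximalIdeal (WS p k (a₀ + 1))).map (algebraMap (WS p k (a₀ + 1)) S) ≤
      maximalIdeal S := map_maximalIdeal_le_of_finite _ (RingHom.finite_algebraMap.2 inferInstance)
  have hPS : P ≤ RingHom.ker (algebraMap R S) := fun r hr => by
    rw [RingHom.mem_ker, halg', Ideal.Quotient.eq_zero_iff_mem.2 hr, map_zero]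
  have hq : p ^ e₀ ≠ 0 := pow_ne_zero _ (Fact.out : p.Prime).ne_zero
  have hRS : (maximalIdeal R).map (algebraMap R S) ≤ maximalIdeal S := by
    rw [Ideal.map_le_iff_le_comap]
    refine Ideal.IsPrime.le_of_pow_le (n := c) (hc.trans (sup_le ?_ ?_))
    · intro r hr
      rw [Ideal.mem_comap, (RingHom.mem_ker).1 (hPS hr)]
      exact zero_mem _
    · refine CChp_spn_le fun i hi => ?_
      rw [Ideal.mem_comap, ← hjX ⟨i, hi⟩, hcomp]
      exact Ideal.pow_mem_of_mem _ (hΛS (Ideal.mem_map_of_mem _ (CChp_X_mem _))) _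
        (Nat.pos_of_ne_zero hq)
  have hresR : ∀ t : S, ∃ r : R, t - algebraMap R S r ∈ maximalIdeal S := fun t => by
    obtain ⟨a, ha⟩ := hresS t
    obtain ⟨w, hw⟩ := CChp_res e₀ a
    refine ⟨j (MvPowerSeries.C w), ?_⟩
    have h1 := hΛS (Ideal.mem_map_of_mem _ hw)
    rw [map_sub, map_pow, ← hcomp] at h1
    have := add_mem ha h1
    rwa [sub_add_sub_cancel] at this
  have hmR : ∃ e : ℕ, maximalIdeal S ^ e ≤ (maximalIdeal R).map (algebraMap R S) := by
    refine CChp_pow_le (he.trans ?_)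
    rw [Ideal.map_le_iff_le_comap]
    refine CChp_max_le ?_ fun i => ?_
    · rw [Ideal.mem_comap, hpS]
      exact zero_mem _
    · refine ⟨p ^ e₀, ?_⟩
      rw [← hcomp, hjX]
      exact Ideal.mem_map_of_mem _ (hzm _ (by omega))
  have hfinR : (algebraMap R S).Finite := by
    have h1 := finite_of_pow_le (algebraMap R S) hRS hresR ⊥ (by simpa using hmR)
    have h2 : algebraMap R S = (RingEquiv.quotientBot S).toRingHom.comp
        ((Ideal.Quotient.mk ⊥).comp (algebraMap R S)) := RingHom.ext fun _ => rfl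
    rw [h2]
    exact (RingHom.Finite.of_surjective _ (RingEquiv.quotientBot S).surjective).comp h1
  refine ⟨e₀, S, inferInstance, inferInstance, inferInstance, inferInstance, inferInstance,
    inferInstance, RingHom.finite_algebraMap.1 hfinR, inferInstance, hresR, hresS, hPS, hmR,
    ⟨e, he.trans ?_⟩, hcomp, hkerS, hgal⟩
  rw [Ideal.map_le_iff_le_comap]
  refine CChp_max_le ?_ fun i => ?_
  · rw [Ideal.mem_comap, hpS]
    exact zero_mem _
  · exact Ideal.subset_span ⟨i, rfl⟩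

/-- the element that kills the Koszul homology -/
theorem CChp_w1 {a₀ : ℕ} {S : Type} [CommRing S] [IsDomain S] [Algebra (WS p k (a₀ + 1)) S]
    [Module.Finite (WS p k (a₀ + 1)) S]
    (hker : RingHom.ker (algebraMap (WS p k (a₀ + 1)) S) = Ideal.span {xi0 p k a₀ false}) :
    ∃ w₁ : WS p k (a₀ + 1), w₁ ∉ Ideal.span {xi0 p k a₀ false} ∧ MvPowerSeries.X 0 ∣ w₁ ∧
      ∀ (q : ℕ) (n : ℤ), 0 < n → ∀ x,
        (K (fun i => algebraMap (WS p k (a₀ + 1)) S (MvPowerSeries.X i) ^ q)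
          (DG.single S S)).π n x = x →
        (K (fun i => algebraMap (WS p k (a₀ + 1)) S (MvPowerSeries.X i) ^ q)
          (DG.single S S)).D x = 0 →
        ∃ y, (K (fun i => algebraMap (WS p k (a₀ + 1)) S (MvPowerSeries.X i) ^ q)
          (DG.single S S)).D y = algebraMap (WS p k (a₀ + 1)) S w₁ • x := by
  have hk : RingHom.ker (redW p k (a₀ + 1)) = RingHom.ker (algebraMap (WS p k (a₀ + 1)) S) := by
    rw [hker, ker_redW, CChp_xi0]
  let ψ : MvPowerSeries (Fin (a₀ + 1)) k →+* S :=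
    (redW p k (a₀ + 1)).liftOfSurjective (redW_surjective _) ⟨algebraMap _ S, hk.le⟩
  have hψ : ∀ a, ψ (redW p k (a₀ + 1) a) = algebraMap _ S a := fun a =>
    RingHom.liftOfSurjective_comp_apply _ _ _ _
  letI : Algebra (MvPowerSeries (Fin (a₀ + 1)) k) S := ψ.toAlgebra
  have hψ' : ∀ a, algebraMap (MvPowerSeries (Fin (a₀ + 1)) k) S a = ψ a := fun _ => rfl
  have hfin : ψ.Finite := by
    refine RingHom.Finite.of_comp_finite (f := redW p k (a₀ + 1)) ?_
    rw [show ψ.comp (redW p k (a₀ + 1)) = algebraMap _ S from RingHom.ext hψ]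
    exact RingHom.finite_algebraMap.2 inferInstance
  haveI : Module.Finite (MvPowerSeries (Fin (a₀ + 1)) k) S := hfin
  have hinj : Function.Injective (algebraMap (MvPowerSeries (Fin (a₀ + 1)) k) S) := by
    rw [injective_iff_map_eq_zero]
    intro a ha
    obtain ⟨a, rfl⟩ := redW_surjective (p := p) (k := k) _ a
    rw [hψ', hψ, ← RingHom.mem_ker, ← hk] at ha
    exact ha
  obtain ⟨c₀, hc₀, hak⟩ := exists_ak (regL_field_series k (a₀ + 1)) hinj
  obtain ⟨c₁, rfl⟩ := redW_surjective (p := p) (k := k) _ c₀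
  have hX : ∀ i, redW p k (a₀ + 1) (MvPowerSeries.X i) = MvPowerSeries.X i := fun i =>
    MvPowerSeries.map_X _ _
  have hfun : ∀ i, algebraMap (MvPowerSeries (Fin (a₀ + 1)) k) S (MvPowerSeries.X i) =
      algebraMap (WS p k (a₀ + 1)) S (MvPowerSeries.X i) := fun i => by
    rw [hψ', ← hX, hψ]
  refine ⟨MvPowerSeries.X 0 * c₁, ?_, dvd_mul_right _ _, fun q n hn => ?_⟩
  · rw [← hker, ← hk, RingHom.mem_ker, map_mul, hX]
    refine mul_ne_zero (fun h => ?_) hc₀
    simpa using congrArg (MvPowerSeries.coeff (Finsupp.single (0 : Fin (a₀ + 1)) 1)) h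
  · have h1 := hak q n hn
    rw [show (fun i => algebraMap (MvPowerSeries (Fin (a₀ + 1)) k) S (MvPowerSeries.X i) ^ q) =
      fun i => algebraMap (WS p k (a₀ + 1)) S (MvPowerSeries.X i) ^ q from
        funext fun i => by rw [hfun]] at h1
    intro x h2 h3
    obtain ⟨y, hy⟩ := h1 x h2 h3
    refine ⟨algebraMap (WS p k (a₀ + 1)) S (MvPowerSeries.X 0) • y, ?_⟩
    rw [map_smul, hy, hψ', hψ, map_mul, mul_smul]

end cover

theorem pos_chp (p : ℕ) [Fact p.Prime] {R : Type} [CommRing R] [IsNoetherianRing R] [IsLocalRing R]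
    [IsAdicComplete (maximalIdeal R) R] [IsAlgClosed (ResidueField R)] [CharP (ResidueField R) p]
    {d : ℕ} {x : Fin d → R} (hx : RegL R x) {P Q : Ideal R} (hP : P.IsPrime) (hQ : Q.IsPrime)
    (hpP : (p : R) ∈ P) {a₀ b b' : ℕ} (hab : a₀ + 1 + b = d) (hb' : b' ≤ a₀ + 1)
    (hcase : ((p : R) ∉ Q ∧ b = b' + 1) ∨ ((p : R) ∈ Q ∧ b = b'))
    (ha : ringKrullDim (R ⧸ P) = (a₀ + 1 : ℕ)) (hb : ringKrullDim (R ⧸ Q) = b)
    (hPQ : ∃ c : ℕ, maximalIdeal R ^ c ≤ P ⊔ Q) {F : MC R} (hF : F.IsRes (R ⧸ Q)) :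
    0 < F.chi (LF.length R) (R ⧸ P) := by
  haveI : ExpChar (ResidueField R) p := ExpChar.prime Fact.out
  haveI : PerfectRing (ResidueField R) p := PerfectField.toPerfectRing p
  haveI := hQ
  obtain ⟨ω, hω⟩ := exists_witt_hom R p
  have hω' : ∀ r, ∃ w, r - ω w ∈ maximalIdeal R := fun r =>
    ⟨teichmuller p (residue R r), by
      rw [← residue_eq_zero_iff, map_sub, hω, WittVector.teichmuller_coeff_zero, sub_self]⟩
  have hPm : P ≤ maximalIdeal R := le_maximalIdeal hP.ne_top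
  obtain ⟨r, n, hd, hcase₁, hcase₂⟩ : ∃ r n : ℕ, b' + n = d ∧
      ((r = 0 ∧ n = a₀ + 2) ∨ (r = 1 ∧ n = a₀ + 1)) ∧
      ((r = 0 ∧ b = b' + 1) ∨ (r = 1 ∧ (p : R) ∈ Q ∧ b = b')) := by
    rcases hcase with ⟨h1, h2⟩ | ⟨h1, h2⟩
    · exact ⟨0, a₀ + 2, by omega, Or.inl ⟨rfl, rfl⟩, Or.inl ⟨rfl, h2⟩⟩
    · exact ⟨1, a₀ + 1, by omega, Or.inr ⟨rfl, rfl⟩, Or.inr ⟨rfl, h1, h2⟩⟩
  obtain ⟨z, hz, hcP, hcQ⟩ := CChp_coord hx hQ hab hcase ha hb
  have hzm : ∀ i < d, z i ∈ maximalIdeal R := fun i hi => hz ▸ CChp_mem_spn z hi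
  obtain ⟨π, ξ, hπ, hξ, hξ0, hξp, hπC, hπz⟩ := exists_pres hx ω hω' (hPm hpP) z hd hz
  obtain ⟨j, hjC, hjX⟩ := exists_eval (σ := Fin (a₀ + 1)) (maximalIdeal R) ω (fun i => z i)
    fun i => hzm _ (by omega)
  obtain ⟨e₀, S, _, _, _, _, _, _, _, _, hresR, hresΛ, hPS, hmR, hmΛ, hcomp, hker,
    σ, _, _, gal, w, ε, hw, hgal⟩ := CChp_cover (p := p) (k := ResidueField R) (by omega) hP hpP ha
      z hz hcP j hjX fun r => by simpa only [hjC] using hω' r
  obtain ⟨w₁, hw₁, hdvd, hak⟩ := CChp_w1 hker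
  obtain ⟨ι, hιC, hιX, hι⟩ := exists_iota (p := p) (k := ResidueField R) (Fin.castLE hb')
    (Fin.castLE_injective hb') e₀
  obtain ⟨hfinQ, hkerQ⟩ := finQ_kerQ π hπ z (fun i hi => hπz i (by omega)) Q hQ hb hcQ hcase₂
  have hsT : ∀ i : Fin (a₀ + 1), π (tv _ b' n i) = z i := fun i => hπz i (by omega)
  obtain ⟨c₀, hc₀⟩ := id hPQ
  obtain ⟨E, m, δ, U, U', c, hE, hδ, hspl, hc⟩ := exists_spl_mem hx.hasRes Q P
    (π (tv _ b' n ((0 : Fin (a₀ + 1)) : ℕ))) (c₀ := c₀)
    (hc₀ (Ideal.pow_mem_pow (by rw [hsT]; exact hzm _ (by omega)) _))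
  have hvan : Van R d := hx.van (hasRoots R)
  let X : Base p (ResidueField R) :=
    { a₀ := a₀, b := b, d := d, b' := b', n := n, r := r, m := m, c := c, q₀ := p ^ e₀, mP := 1
      R := R, x := x, hx := hx, Q := Q, hab := hab, hb := hb, van := hvan
      roots := fun i _ hi => exists_rootU R i fun h =>
        hi ((CharP.cast_eq_zero_iff (ResidueField R) p i).1 h)
      π := π, hπ := hπ, ξ := ξ, hξ := hξ, hξ0 := hξ0
      η := fun _ => p, hη := fun _ => rfl, hcase := hcase₁, finQ := hfinQ, kerQ := hkerQ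
      H := P, hHQ := hPQ
      sT := fun i => tv _ b' n i
      hsT := fun i => by rw [hsT]; exact hzm _ (by omega)
      hHs := hcP.elim fun e he => ⟨e, he.trans (le_sup_of_le_left (sup_le_sup_left
        (CChp_spn_le fun i hi => Ideal.subset_span
          (show z i ∈ Set.range fun i : Fin (a₀ + 1) => π (tv _ b' n i) from
            ⟨⟨i, hi⟩, hsT ⟨i, hi⟩⟩)) _))⟩
      E := E, δ := δ, U := U, U' := U', hE := hE, hδ := hδ, spl := hspl, hc := hc
      mix := false
      hq₀ := Nat.one_le_iff_ne_zero.2 (pow_ne_zero _ (Fact.out : p.Prime).ne_zero)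
      hmix := fun h => absurd h (by decide)
      ιΛ := ι, hι := hι r _ fun _ => rfl
      S := S, resR := hresR, resΛ := hresΛ, hHS := hPS
      dimS := (ringKrullDim_le_of_surjective (Ideal.Quotient.factor hPS)
        (Ideal.Quotient.factor_surjective hPS)).trans ha.le
      hmR := hmR, hmΛ := hmΛ
      hsS := fun i => by rw [hsT, ← hjX, hcomp]
      kerΛ := hker, σ := σ, gal := gal, w := w, ε := ε, hw := hw, galD := hgal
      G := Unit, w₁ := w₁, hw₁ := hw₁ }
  let M : ChpD X :=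
    { hmix := rfl, e₀ := e₀, hq := rfl, hξp := hξp
      hz := fun i => by
        change π (tv _ b' n i) ∈ maximalIdeal R
        by_cases hi : i < d
        · rw [hπz i hi]
          exact hzm i hi
        · rw [tv, dif_neg (by omega), dif_neg (by omega), map_zero]
          exact zero_mem _
      πC := fun w => by
        change algebraMap R S (π (tc _ b' n w)) = algebraMap _ S (MvPowerSeries.C w) ^ p ^ e₀
        rw [hπC, ← hjC, hcomp]
      ιΛC := hιC
      ιΛX := fun i => ⟨Fin.castLE hb' i, hιX i, by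
        change tv _ b' n i = _
        rw [tv, dif_pos i.2]⟩
      hmP := le_rfl, dvd := hdvd, ak := hak, g₀ := () }
  have hpos : 0 < E.chi (LF.length R) S := X.chi_pos fun K => M.pre K
  rw [hE.chi_eq hF] at hpos
  refine hvan.chi_pos hP hQ hab ha.le hb.le hPQ hF S (fun r hr => ?_) hpos
  rw [Module.mem_annihilator]
  intro s
  rw [Algebra.smul_def, (RingHom.mem_ker).1 (hPS hr), zero_mul]

end Crest.Agent.R188
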