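import Crest.Agent.R188.CPres

/-!
# General coordinates
-/

set_option autoImplicit false
set_option linter.unusedVariables false
set_option linter.unusedSectionVars false

open scoped ENNReal NNReal TensorProduct

namespace Crest.Agent.R188

open Crest.Agent.R183 IsLocalRing WittVector

variable {R : Type} [CommRing R] [IsNoetherianRing R] [IsLocalRing R]

theorem pow_le_of_dim_le_zero {I : Ideal R} (h : ringKrullDim (R ⧸ I) ≤ (0 : ℕ)) :
    ∃ c : ℕ, maximalIdeal R ^ c ≤ I := by
  obtain ⟨c, hc⟩ := Ideal.exists_radical_pow_le_of_fg I (IsNoetherian.noetherian _)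
  refine ⟨c, le_trans (Ideal.pow_right_mono ?_ c) hc⟩
  rw [Ideal.radical_eq_sInf]
  refine le_sInf ?_
  rintro q ⟨hIq, hq⟩
  rw [ringKrullDim_quotient, Nat.cast_zero, Order.krullDim_nonpos_iff_forall_isMax] at h
  have hqm : q ≤ maximalIdeal R := IsLocalRing.le_maximalIdeal hq.ne_top
  have h1 := h ⟨⟨q, hq⟩, hIq⟩
    (b := ⟨⟨maximalIdeal R, inferInstance⟩, fun x hx => hqm (hIq hx)⟩) hqm
  exact h1

/-- cutting with an element outside the minimal primes -/
theorem dim_sup_le {I : Ideal R} {e : ℕ} (h : ringKrullDim (R ⧸ I) ≤ e) {y : R}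
    (hy : ∀ 𝔮 ∈ I.minimalPrimes, 𝔮 ≠ maximalIdeal R → y ∉ 𝔮) :
    ringKrullDim (R ⧸ (I ⊔ Ideal.span {y})) ≤ (e - 1 : ℕ) := by
  rw [ringKrullDim_quotient] at h ⊢
  refine iSup_le fun l => ?_
  rcases Nat.eq_zero_or_pos l.length with h0 | h0
  · rw [h0]; exact_mod_cast Nat.zero_le _
  have hlt : l.head < l.last := l.strictMono (by
    change (0 : Fin (l.length + 1)) < Fin.last _
    rw [Fin.lt_def]; simpa using h0)
  have hhead : I ⊔ Ideal.span {y} ≤ l.head.1.asIdeal := l.head.2
  have hpr := l.head.1.isPrime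
  obtain ⟨𝔮, h𝔮, hle⟩ := Ideal.exists_minimalPrimes_le (le_sup_left.trans hhead)
  have hne : 𝔮 ≠ maximalIdeal R := by
    rintro rfl
    have h2 : l.last.1.asIdeal ≤ maximalIdeal R :=
      IsLocalRing.le_maximalIdeal l.last.1.isPrime.ne_top
    exact hlt.not_ge (h2.trans hle)
  have hy𝔮 := hy 𝔮 h𝔮 hne
  let f : PrimeSpectrum.zeroLocus (R := R) (↑(I ⊔ Ideal.span {y}) : Set R) →
      PrimeSpectrum.zeroLocus (R := R) (I : Set R) :=
    fun q => ⟨q.1, fun x hx => q.2 (Ideal.mem_sup_left hx)⟩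
  have hf : StrictMono f := fun _ _ h => h
  let q₀ : PrimeSpectrum.zeroLocus (R := R) (I : Set R) := ⟨⟨𝔮, h𝔮.1.1⟩, h𝔮.1.2⟩
  have hq₀ : q₀ < (l.map f hf).head := by
    refine lt_of_le_of_ne hle fun hh => hy𝔮 ?_
    have : 𝔮 = l.head.1.asIdeal := congrArg (fun q => q.1.asIdeal) hh
    rw [this]
    exact hhead (Ideal.mem_sup_right (Ideal.mem_span_singleton_self y))
  have h3 := (Order.LTSeries.length_le_krullDim ((l.map f hf).cons q₀ hq₀)).trans h
  have h4 : l.length + 1 ≤ e := by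
    have : ((l.map f hf).cons q₀ hq₀).length = l.length + 1 := by simp
    rw [this] at h3
    exact_mod_cast h3
  have h5 : l.length ≤ e - 1 := by omega
  exact_mod_cast h5

omit [IsNoetherianRing R] [IsLocalRing R] in
theorem CCoord_spn_congr {z z' : ℕ → R} {t : ℕ} (h : ∀ i < t, z' i = z i) :
    spn z' t = spn z t := by
  unfold spn
  rw [Set.image_congr (s := Set.Iio t) (fun i hi => h i hi)]

omit [IsNoetherianRing R] [IsLocalRing R] in
theorem CCoord_spn_succ (z : ℕ → R) (t : ℕ) : spn z (t + 1) = spn z t ⊔ Ideal.span {z t} := by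
  unfold spn
  rw [← Ideal.span_union, ← Set.image_singleton, ← Set.image_union]
  congr 2
  ext i
  simp only [Set.mem_Iio, Set.mem_union, Set.mem_singleton_iff]
  omega

omit [IsNoetherianRing R] [IsLocalRing R] in
theorem CCoord_spn_update_le (z : ℕ → R) {t t' : ℕ} (ht : t' ≤ t) (y : R) :
    spn (Function.update z t y) t' = spn z t' :=
  CCoord_spn_congr fun i hi => Function.update_of_ne (by omega) _ _

omit [IsNoetherianRing R] [IsLocalRing R] in
theorem CCoord_spn_update (z : ℕ → R) (t : ℕ) (y : R) :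
    spn (Function.update z t y) (t + 1) = spn z t ⊔ Ideal.span {y} := by
  rw [CCoord_spn_succ, CCoord_spn_update_le z le_rfl, Function.update_self]

omit [IsNoetherianRing R] [IsLocalRing R] in
theorem CCoord_spn_zero (z : ℕ → R) : spn z 0 = ⊥ := by
  unfold spn
  have : Set.Iio (0 : ℕ) = ∅ := by ext i; simp
  rw [this, Set.image_empty, Ideal.span_empty]

omit [IsNoetherianRing R] in
theorem CCoord_exchange {A : Ideal R} {n : ℕ} (u : Fin (n + 1) → R)
    (h : A ⊔ sp u = maximalIdeal R) {y : R} (hy : y ∈ maximalIdeal R)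
    (hy' : y ∉ A ⊔ maximalIdeal R ^ 2) :
    ∃ u' : Fin n → R, A ⊔ Ideal.span {y} ⊔ sp u' = maximalIdeal R := by
  have hu : ∀ i, u i ∈ maximalIdeal R := fun i =>
    h ▸ Ideal.mem_sup_right (Ideal.subset_span ⟨i, rfl⟩)
  have hA : A ≤ maximalIdeal R := h ▸ le_sup_left
  have hy2 := hy
  rw [← h] at hy2
  obtain ⟨a, ha, b, hb, rfl⟩ := Submodule.mem_sup.1 hy2
  obtain ⟨c, rfl⟩ := Ideal.mem_span_range_iff_exists_fun.1 hb
  have hc : ∃ i, IsUnit (c i) := by
    by_contra hc
    push Not at hc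
    refine hy' (Submodule.add_mem_sup ha (Ideal.sum_mem _ fun i _ => ?_))
    rw [pow_two]
    exact Ideal.mul_mem_mul ((IsLocalRing.mem_maximalIdeal _).2 (hc i)) (hu i)
  obtain ⟨i, hi⟩ := hc
  refine ⟨fun j => u (i.succAbove j), le_antisymm ?_ ?_⟩
  · refine sup_le (sup_le hA ?_) ?_
    · rwa [Ideal.span_singleton_le_iff_mem]
    · rw [Ideal.span_le]; rintro _ ⟨j, rfl⟩; exact hu _
  · rw [← h]
    refine sup_le (le_sup_left.trans le_sup_left) ?_
    rw [Ideal.span_le]
    rintro _ ⟨j, rfl⟩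
    have hj : ∀ j, u (i.succAbove j) ∈
        A ⊔ Ideal.span {a + ∑ i, c i * u i} ⊔ sp (fun j => u (i.succAbove j)) := fun j =>
      Ideal.mem_sup_right (Ideal.subset_span ⟨j, rfl⟩)
    rcases Fin.eq_self_or_eq_succAbove i j with rfl | ⟨j', rfl⟩
    · change u j ∈ (_ : Ideal R)
      rw [← Ideal.unit_mul_mem_iff_mem _ hi]
      have e : c j * u j = (a + ∑ i, c i * u i) - a -
          ∑ l, c (j.succAbove l) * u (j.succAbove l) := by
        rw [Fin.sum_univ_succAbove _ j]; ring
      rw [e]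
      refine Ideal.sub_mem _ (Ideal.sub_mem _ ?_ ?_) (Ideal.sum_mem _ fun l _ => ?_)
      · exact Ideal.mem_sup_left (Ideal.mem_sup_right (Ideal.mem_span_singleton_self _))
      · exact Ideal.mem_sup_left (Ideal.mem_sup_left ha)
      · exact Ideal.mul_mem_left _ _ (hj l)
    · exact hj j'

/-- `t` elements that can be completed to a system of `d` generators of the maximal ideal -/
def Part (z : ℕ → R) (t d : ℕ) : Prop :=
  ∃ u : Fin (d - t) → R, spn z t ⊔ sp u = maximalIdeal R

theorem Part.update {z : ℕ → R} {t d : ℕ} (h : Part z t d) (ht : t < d) {y : R}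
    (hy : y ∈ maximalIdeal R)
    (hy' : maximalIdeal R ≤ spn z t ⊔ maximalIdeal R ^ 2 ∨ y ∉ spn z t ⊔ maximalIdeal R ^ 2) :
    Part (Function.update z t y) (t + 1) d := by
  obtain ⟨u, hu⟩ := h
  unfold Part
  rw [CCoord_spn_update]
  rcases hy' with hy' | hy'
  · have h1 : maximalIdeal R ≤ spn z t := by
      refine Submodule.le_of_le_smul_of_le_jacobson_bot (I := maximalIdeal R)
        (IsNoetherian.noetherian _) (IsLocalRing.maximalIdeal_le_jacobson _) ?_
      rwa [smul_eq_mul, ← pow_two]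
    refine ⟨fun _ => 0, le_antisymm (sup_le (sup_le (hu ▸ le_sup_left) ?_) ?_)
      (h1.trans (le_sup_left.trans le_sup_left))⟩
    · rwa [Ideal.span_singleton_le_iff_mem]
    · rw [Ideal.span_le]; rintro _ ⟨j, rfl⟩; exact Ideal.zero_mem _
  · have e : d - t = d - (t + 1) + 1 := by omega
    refine CCoord_exchange (fun i => u (i.cast e.symm)) ?_ hy hy'
    rw [← hu]
    have : Set.range (fun i => u (Fin.cast e.symm i)) = Set.range u :=
      (finCongr e.symm).surjective.range_comp u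
    unfold sp
    rw [this]

theorem Part.complete {z : ℕ → R} {t d : ℕ} (h : Part z t d) (ht : t ≤ d) :
    ∃ z' : ℕ → R, (∀ i < t, z' i = z i) ∧ spn z' d = maximalIdeal R := by
  obtain ⟨u, hu⟩ := h
  refine ⟨fun i => if i < t then z i else if h : i - t < d - t then u ⟨i - t, h⟩ else 0,
    fun i hi => if_pos hi, ?_⟩
  rw [← hu]
  refine le_antisymm ?_ (sup_le ?_ ?_)
  · unfold spn
    rw [Ideal.span_le]
    rintro _ ⟨i, hi, rfl⟩
    by_cases h1 : i < t
    · simp only [if_pos h1]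
      exact Ideal.mem_sup_left (Ideal.subset_span ⟨i, h1, rfl⟩)
    · have h2 : i - t < d - t := by have : i < d := hi; omega
      simp only [if_neg h1, dif_pos h2]
      exact Ideal.mem_sup_right (Ideal.subset_span ⟨_, rfl⟩)
  · unfold spn
    rw [Ideal.span_le]
    rintro _ ⟨i, hi, rfl⟩
    have h1 : i < t := hi
    exact Ideal.subset_span ⟨i, (by change i < d; omega), if_pos h1⟩
  · rw [Ideal.span_le]
    rintro _ ⟨j, rfl⟩
    have hj := j.2
    refine Ideal.subset_span ⟨t + j, (by change t + j < d; omega), ?_⟩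
    have h1 : ¬ t + j < t := by omega
    have h2 : t + j - t < d - t := by omega
    simp only [if_neg h1, dif_pos h2]
    congr 1
    ext
    simp

omit [IsNoetherianRing R] [IsLocalRing R] in
/-- prime avoidance with one exceptional ideal -/
theorem CCoord_avoid {M K : Ideal R} {S : Set (Ideal R)} (hS : S.Finite)
    (hp : ∀ q ∈ S, q.IsPrime) (hM : ∀ q ∈ S, ¬ M ≤ q) :
    ∃ y ∈ M, (∀ q ∈ S, y ∉ q) ∧ (M ≤ K ∨ y ∉ K) := by
  classical
  by_cases hK : M ≤ K
  · have : ¬ (M : Set R) ⊆ ⋃ q ∈ (↑hS.toFinset : Set (Ideal R)), ((q : Ideal R) : Set R) := by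
      rw [Ideal.subset_union_prime ⊥ ⊥ (fun q hq _ _ => hp q (hS.mem_toFinset.1 hq))]
      rintro ⟨q, hq, hle⟩
      exact hM q (hS.mem_toFinset.1 hq) hle
    obtain ⟨y, hy, hy'⟩ := Set.not_subset.1 this
    refine ⟨y, hy, fun q hq hyq => hy' ?_, Or.inl hK⟩
    exact Set.mem_biUnion (hS.mem_toFinset.2 hq) hyq
  · have : ¬ (M : Set R) ⊆
        ⋃ q ∈ (↑(insert K hS.toFinset) : Set (Ideal R)), ((q : Ideal R) : Set R) := by
      rw [Ideal.subset_union_prime K K (fun q hq hne _ => hp q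
        (hS.mem_toFinset.1 ((Finset.mem_insert.1 hq).resolve_left hne)))]
      rintro ⟨q, hq, hle⟩
      rcases Finset.mem_insert.1 hq with rfl | hq
      · exact hK hle
      · exact hM q (hS.mem_toFinset.1 hq) hle
    obtain ⟨y, hy, hy'⟩ := Set.not_subset.1 this
    refine ⟨y, hy, fun q hq hyq => hy' ?_, Or.inr fun hyK => hy' ?_⟩
    · exact Set.mem_biUnion (Finset.mem_insert_of_mem (hS.mem_toFinset.2 hq)) hyq
    · exact Set.mem_biUnion (Finset.mem_insert_self _ _) hyK

theorem coord_gen {d : ℕ} (x : Fin d → R) (hx : sp x = maximalIdeal R) {ι : Type} [Finite ι]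
    (J : ι → Ideal R) (e : ι → ℕ) (h : ∀ i, ringKrullDim (R ⧸ J i) ≤ e i) :
    ∃ z : ℕ → R, spn z d = maximalIdeal R ∧
      ∀ i, ∀ t ≤ d, ringKrullDim (R ⧸ (J i ⊔ spn z t)) ≤ (e i - t : ℕ) := by
  have key : ∀ s ≤ d, ∃ z : ℕ → R, Part z s d ∧
      ∀ i, ∀ t ≤ s, ringKrullDim (R ⧸ (J i ⊔ spn z t)) ≤ (e i - t : ℕ) := by
    intro s
    induction s with
    | zero =>
      intro _
      refine ⟨fun _ => 0, ⟨x, ?_⟩, fun i t ht => ?_⟩
      · rw [CCoord_spn_zero, bot_sup_eq]; exact hx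
      · obtain rfl : t = 0 := by omega
        rw [CCoord_spn_zero, sup_bot_eq]
        exact h i
    | succ s ih =>
      intro hs
      obtain ⟨z, hz, hdim⟩ := ih (by omega)
      have hfin : (⋃ i, {q ∈ (J i ⊔ spn z s).minimalPrimes | q ≠ maximalIdeal R}).Finite :=
        Set.finite_iUnion fun i =>
          (Ideal.finite_minimalPrimes_of_isNoetherianRing R _).subset fun _ hq => hq.1
      obtain ⟨y, hy, hyq, hyK⟩ := CCoord_avoid (M := maximalIdeal R)
        (K := spn z s ⊔ maximalIdeal R ^ 2) hfin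
        (fun q hq => by
          obtain ⟨i, hi⟩ := Set.mem_iUnion.1 hq
          exact hi.1.1.1)
        (fun q hq hle => by
          obtain ⟨i, hi⟩ := Set.mem_iUnion.1 hq
          exact hi.2 (le_antisymm (IsLocalRing.le_maximalIdeal hi.1.1.1.ne_top) hle))
      refine ⟨Function.update z s y, hz.update (by omega) hy hyK, fun i t ht => ?_⟩
      rcases Nat.lt_or_ge s t with hlt | hle
      · obtain rfl : t = s + 1 := by omega
        rw [CCoord_spn_update, ← sup_assoc, ← Nat.sub_sub]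
        exact dim_sup_le (hdim i s le_rfl) fun q hq hne =>
          hyq q (Set.mem_iUnion.2 ⟨i, hq, hne⟩)
      · rw [CCoord_spn_update_le z hle]
        exact hdim i t hle
  obtain ⟨z, hz, hdim⟩ := key d le_rfl
  obtain ⟨z', hz', hm⟩ := hz.complete le_rfl
  refine ⟨z', hm, fun i t ht => ?_⟩
  rw [CCoord_spn_congr (z' := z') (z := z) fun j hj => hz' j (by omega)]
  exact hdim i t ht

/-- points of the moment curve avoid an ideal that does not contain all `u i` -/
theorem moment_finite {W B κ : Type} [CommRing W] [CommRing B] (ω : W →+* B) (τ : κ → W)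
    (hτ : ∀ c c', c ≠ c' → IsUnit (τ c - τ c')) {n : ℕ} (u : Fin n → B) (I : Ideal B)
    (hI : ¬ sp u ≤ I) : {c | ∑ i : Fin n, ω (τ c) ^ i.val * u i ∈ I}.Finite := by
  classical
  by_contra hinf
  have hinf' : Set.Infinite _ := hinf
  let f : Fin n → κ := fun a => (hinf'.natEmbedding _ a.val).1
  have hf : Function.Injective f := fun a b hab =>
    Fin.ext ((hinf'.natEmbedding _).injective (Subtype.ext hab))
  have hfm : ∀ a, ∑ i : Fin n, ω (τ (f a)) ^ i.val * u i ∈ I := fun a =>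
    (hinf'.natEmbedding _ a.val).2
  let v : Fin n → B ⧸ I := fun a => Ideal.Quotient.mk I (ω (τ (f a)))
  have hV : IsUnit (Matrix.vandermonde v) := by
    rw [Matrix.isUnit_iff_isUnit_det, Matrix.det_vandermonde]
    refine IsUnit.prod_univ_iff.2 fun i => IsUnit.prod_iff.2 fun j hj => ?_
    have hne : f j ≠ f i := fun hh => (Finset.mem_Ioi.1 hj).ne' (hf hh)
    have := ((hτ _ _ hne).map ω).map (Ideal.Quotient.mk I)
    simpa [v] using this
  have h0 : (Matrix.vandermonde v).mulVec (fun i => Ideal.Quotient.mk I (u i)) =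
      (Matrix.vandermonde v).mulVec 0 := by
    rw [Matrix.mulVec_zero]
    funext a
    have := Ideal.Quotient.eq_zero_iff_mem.2 (hfm a)
    simpa [Matrix.mulVec, dotProduct, Matrix.vandermonde, v] using this
  have h1 := Matrix.mulVec_injective_of_isUnit hV h0
  refine hI ?_
  rw [Ideal.span_le]
  rintro _ ⟨i, rfl⟩
  exact Ideal.Quotient.eq_zero_iff_mem.1 (congrFun h1 i)

end Crest.Agent.R188
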