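import Crest.Agent.R188.CAvoid

/-!
# Coordinates in mixed characteristic
-/

set_option autoImplicit false
set_option linter.unusedVariables false

open scoped ENNReal NNReal TensorProduct

namespace Crest.Agent.R188

open Crest.Agent.R183 IsLocalRing WittVector

section aux

variable {R : Type} [CommRing R]

theorem CCoordM_spn_congr {z z' : ℕ → R} {t : ℕ} (h : ∀ i < t, z i = z' i) :
    spn z t = spn z' t := by
  unfold spn
  rw [Set.image_congr (s := Set.Iio t) (g := z') fun i hi => h i hi]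

theorem CCoordM_spn_succ (z : ℕ → R) (t : ℕ) :
    spn z (t + 1) = spn z t ⊔ Ideal.span {z t} := by
  unfold spn
  rw [← Ideal.span_union, ← Set.image_singleton, ← Set.image_union]
  congr 2
  ext i
  simp only [Set.mem_Iio, Set.mem_union, Set.mem_singleton_iff]
  omega

theorem CCoordM_mem_spn (z : ℕ → R) {t i : ℕ} (h : i < t) : z i ∈ spn z t :=
  Ideal.subset_span ⟨i, h, rfl⟩

theorem CCoordM_spn_le {z : ℕ → R} {t : ℕ} {I : Ideal R} (h : ∀ i < t, z i ∈ I) :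
    spn z t ≤ I := by
  refine Ideal.span_le.2 ?_
  rintro _ ⟨i, hi, rfl⟩
  exact h i hi

theorem CCoordM_sp_fin (z : ℕ → R) (n : ℕ) : (sp fun i : Fin n => z i) = spn z n := by
  refine le_antisymm (Ideal.span_le.2 ?_) (CCoordM_spn_le fun i hi => ?_)
  · rintro _ ⟨i, rfl⟩
    exact CCoordM_mem_spn z i.2
  · exact Ideal.subset_span ⟨⟨i, hi⟩, rfl⟩

theorem CCoordM_part [IsLocalRing R] {z : ℕ → R} {t d : ℕ} (hz : spn z d = maximalIdeal R)
    (ht : t ≤ d) : Part z t d := by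
  refine ⟨fun i => z (t + i), le_antisymm (sup_le ?_ (Ideal.span_le.2 ?_)) ?_⟩
  · exact CCoordM_spn_le fun i hi => hz ▸ CCoordM_mem_spn z (by omega)
  · rintro _ ⟨i, rfl⟩
    have := i.2
    exact hz ▸ CCoordM_mem_spn z (by omega)
  · rw [← hz]
    refine CCoordM_spn_le fun i hi => ?_
    by_cases h : i < t
    · exact Ideal.mem_sup_left (CCoordM_mem_spn z h)
    · refine Ideal.mem_sup_right (Ideal.subset_span ⟨⟨i - t, by omega⟩, ?_⟩)
      change z (t + (i - t)) = z i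
      rw [show t + (i - t) = i by omega]

theorem CCoordM_not_le [IsLocalRing R] {𝔮 : Ideal R} (h : 𝔮.IsPrime) (hne : 𝔮 ≠ maximalIdeal R) :
    ¬ maximalIdeal R ≤ 𝔮 := fun hle =>
  hne ((maximalIdeal.isMaximal R).eq_of_le h.ne_top hle).symm

end aux

/-- one step of the second phase -/
theorem CCoordM_step {W Λ R κ : Type} [CommRing W] [CommRing Λ] [IsLocalRing Λ] [CommRing R]
    [IsNoetherianRing R] [IsLocalRing R] [Infinite κ] (cw : W →+* Λ) (j : Λ →+* R)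
    (hres : ∀ r : R, ∃ w, r - j (cw w) ∈ maximalIdeal R) (τ : κ → W)
    (hτ : ∀ c c', c ≠ c' → IsUnit (τ c - τ c')) {n : ℕ} (u : Fin n → R)
    (hu : sp u = maximalIdeal R) (P : Ideal R)
    (hfin : ((Ideal.Quotient.mk P).comp j).Finite)
    (hP : ∃ c : ℕ, maximalIdeal R ^ c ≤ P ⊔ (maximalIdeal Λ).map j) (I₀ I₁ I₂ : Ideal R)
    (h₂ : ∃ c : ℕ, maximalIdeal R ^ c ≤ P ⊔ I₂) :
    ∃ (y : R) (f : Polynomial Λ), y ∈ maximalIdeal R ∧ (maximalIdeal R ≤ I₀ ∨ y ∉ I₀) ∧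
      (∀ 𝔮 ∈ I₁.minimalPrimes, 𝔮 ≠ maximalIdeal R → y ∉ 𝔮) ∧
      f.IsDistinguishedAt (maximalIdeal Λ) ∧ f.eval₂ j y ∈ P ∧
      ∀ 𝔮 ∈ I₂.minimalPrimes, 𝔮 ≠ maximalIdeal R → f.eval₂ j y ∉ 𝔮 := by
  let Y : κ → R := fun c => ∑ i : Fin n, j (cw (τ c)) ^ i.val * u i
  have hmom : ∀ I : Ideal R, ¬ maximalIdeal R ≤ I → {c | Y c ∈ I}.Finite := fun I hI =>
    moment_finite (j.comp cw) τ hτ u I (hu ▸ hI)
  let L₁ : Set (Ideal R) := {𝔮 | 𝔮 ∈ I₁.minimalPrimes ∧ 𝔮 ≠ maximalIdeal R}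
  let L₂ : Set (Ideal R) := {𝔮 | 𝔮 ∈ I₂.minimalPrimes ∧ 𝔮 ≠ maximalIdeal R}
  have hL₁ : L₁.Finite :=
    (Ideal.finite_minimalPrimes_of_isNoetherianRing R I₁).subset fun _ h => h.1
  have hL₂ : L₂.Finite :=
    (Ideal.finite_minimalPrimes_of_isNoetherianRing R I₂).subset fun _ h => h.1
  have hB₀ : {c | ¬ (maximalIdeal R ≤ I₀ ∨ Y c ∉ I₀)}.Finite := by
    by_cases h : maximalIdeal R ≤ I₀
    · simp [h]
    · exact (hmom I₀ h).subset fun c hc => by simpa [h] using hc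
  have hB₁ : (⋃ 𝔮 ∈ L₁, {c | Y c ∈ 𝔮}).Finite :=
    hL₁.biUnion fun 𝔮 h => hmom 𝔮 (CCoordM_not_le h.1.1.1 h.2)
  have hB₂ : (⋃ 𝔮 ∈ L₂, {c | Y c ∈ 𝔮}).Finite :=
    hL₂.biUnion fun 𝔮 h => hmom 𝔮 (CCoordM_not_le h.1.1.1 h.2)
  have hB₃ : (⋃ 𝔮 ∈ L₂, {c | ∀ g : Polynomial Λ, g.eval₂ j (Y c) ∈ P →
      g.eval₂ j (Y c) ∈ 𝔮}).Finite := by
    refine hL₂.biUnion fun 𝔮 h => avoid_finite cw j hres τ hτ u hu P 𝔮 h.1.1.1 ?_ hfin
    intro hle
    obtain ⟨c, hc⟩ := h₂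
    have := h.1.1.1
    exact CCoordM_not_le h.1.1.1 h.2
      (Ideal.IsPrime.le_of_pow_le (hc.trans (sup_le hle h.1.1.2)))
  obtain ⟨c, hc⟩ := (((hB₀.union hB₁).union hB₂).union hB₃).exists_notMem
  simp only [Set.mem_union, Set.mem_ofPred_eq, Set.mem_iUnion, not_or, not_exists, not_not,
    not_forall] at hc
  obtain ⟨⟨⟨hc₀, hc₁⟩, hc₂⟩, hc₃⟩ := hc
  have hy : Y c ∈ maximalIdeal R :=
    Ideal.sum_mem _ fun i _ => Ideal.mul_mem_left _ _ (hu ▸ Ideal.subset_span ⟨i, rfl⟩)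
  obtain ⟨e, he⟩ := hP
  obtain ⟨f, hf₁, hf₂, hf₃⟩ := exists_distinguished_avoid cw j τ hτ P hfin (Y c)
    ⟨e, he (Ideal.pow_mem_pow hy e)⟩ L₂ hL₂ (fun 𝔮 h => h.1.1.1) hc₂ fun 𝔮 h => by
      obtain ⟨g, hg, hg'⟩ := hc₃ 𝔮 h
      exact ⟨g, hg, hg'⟩
  refine ⟨Y c, f, hy, ?_, fun 𝔮 h h' => hc₁ 𝔮 ⟨h, h'⟩, hf₁, hf₂, fun 𝔮 h h' => hf₃ 𝔮 ⟨h, h'⟩⟩
  tauto

/-- the second phase -/
theorem CCoordM_phase {W Λ R κ : Type} [CommRing W] [CommRing Λ] [IsLocalRing Λ] [CommRing R]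
    [IsNoetherianRing R] [IsLocalRing R] [Infinite κ] (cw : W →+* Λ) (j : Λ →+* R)
    (hres : ∀ r : R, ∃ w, r - j (cw w) ∈ maximalIdeal R) (τ : κ → W)
    (hτ : ∀ c c', c ≠ c' → IsUnit (τ c - τ c')) {n : ℕ} (u : Fin n → R)
    (hu : sp u = maximalIdeal R) (P Q J : Ideal R)
    (hfin : ((Ideal.Quotient.mk P).comp j).Finite)
    (hP : ∃ c : ℕ, maximalIdeal R ^ c ≤ P ⊔ (maximalIdeal Λ).map j)
    (hPQ : ∃ c : ℕ, maximalIdeal R ^ c ≤ P ⊔ Q) {a b d : ℕ} (hab : a + b ≤ d) (z₀ : ℕ → R)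
    (hz₀ : Part z₀ a d) (hJ : ringKrullDim (R ⧸ (J ⊔ spn z₀ a)) ≤ b)
    (hb : ringKrullDim (R ⧸ Q) ≤ b) (l : ℕ) (hl : l ≤ b) :
    ∃ (z : ℕ → R) (f : ℕ → Polynomial Λ), (∀ i < a, z i = z₀ i) ∧ Part z (a + l) d ∧
      ringKrullDim (R ⧸ (J ⊔ spn z (a + l))) ≤ (b - l : ℕ) ∧
      (∀ i < l, (f i).IsDistinguishedAt (maximalIdeal Λ) ∧ (f i).eval₂ j (z (a + i)) ∈ P) ∧
      ringKrullDim (R ⧸ (Q ⊔ spn (fun i => (f i).eval₂ j (z (a + i))) l)) ≤ (b - l : ℕ) := by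
  induction l with
  | zero =>
    refine ⟨z₀, fun _ => 0, fun _ _ => rfl, hz₀, hJ, fun i hi => absurd hi (Nat.not_lt_zero i), ?_⟩
    have : spn (fun i => Polynomial.eval₂ j (z₀ (a + i)) (0 : Polynomial Λ)) 0 = ⊥ := by
      simp [spn]
    rw [this, sup_bot_eq]
    exact hb
  | succ l ih =>
    obtain ⟨z, f, hz, hpart, hdJ, hf, hdQ⟩ := ih (by omega)
    obtain ⟨c, hc⟩ := hPQ
    obtain ⟨y, g, hy, hy₀, hy₁, hg₁, hg₂, hg₃⟩ := CCoordM_step cw j hres τ hτ u hu P hfin hP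
      (spn z (a + l) ⊔ maximalIdeal R ^ 2) (J ⊔ spn z (a + l))
      (Q ⊔ spn (fun i => (f i).eval₂ j (z (a + i))) l)
      ⟨c, hc.trans (sup_le_sup_left le_sup_left _)⟩
    have e₁ : spn (Function.update z (a + l) y) (a + (l + 1)) =
        spn z (a + l) ⊔ Ideal.span {y} := by
      rw [← add_assoc, CCoordM_spn_succ, Function.update_self,
        CCoordM_spn_congr (z' := z) fun i hi => Function.update_of_ne hi.ne _ _]
    have e₂ : spn (fun i => (Function.update f l g i).eval₂ j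
        (Function.update z (a + l) y (a + i))) (l + 1) =
        spn (fun i => (f i).eval₂ j (z (a + i))) l ⊔ Ideal.span {g.eval₂ j y} := by
      rw [CCoordM_spn_succ, Function.update_self, Function.update_self,
        CCoordM_spn_congr (z' := fun i => (f i).eval₂ j (z (a + i))) fun i hi => by
          rw [Function.update_of_ne hi.ne, Function.update_of_ne (by omega)]]
    refine ⟨Function.update z (a + l) y, Function.update f l g, fun i hi => ?_,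
      hpart.update (by omega) hy hy₀, ?_, fun i hi => ?_, ?_⟩
    · rw [Function.update_of_ne (by omega), hz i hi]
    · rw [e₁, ← sup_assoc, ← Nat.sub_sub]
      exact dim_sup_le hdJ hy₁
    · rcases Nat.lt_succ_iff_lt_or_eq.1 hi with hi | rfl
      · rw [Function.update_of_ne hi.ne, Function.update_of_ne (by omega)]
        exact hf i hi
      · rw [Function.update_self, Function.update_self]
        exact ⟨hg₁, hg₂⟩
    · rw [e₂, ← sup_assoc, ← Nat.sub_sub]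
      exact dim_sup_le hdQ hg₃

variable {p : ℕ} [Fact p.Prime] {k : Type} [Field k] [CharP k p] [PerfectRing k p]
  {R : Type} [CommRing R] [IsNoetherianRing R] [IsLocalRing R]

omit [PerfectRing k p] in
theorem CCoordM_teich (c c' : k) (h : c ≠ c') :
    IsUnit (teichmuller p c - teichmuller p c') := by
  refine WittVector.isUnit_of_coeff_zero_ne_zero _ ?_
  rw [← WittVector.constantCoeff_apply, map_sub, WittVector.constantCoeff_apply,
    WittVector.constantCoeff_apply, teichmuller_coeff_zero, teichmuller_coeff_zero]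
  exact sub_ne_zero.2 h

theorem coord_mix [IsAdicComplete (maximalIdeal R) R] [Infinite k] {d : ℕ} {x : Fin d → R}
    (hx : RegL R x) (ω : WittVector p k →+* R) (hω : ∀ r, ∃ w, r - ω w ∈ maximalIdeal R)
    (hp : (p : R) ∈ maximalIdeal R) {P Q : Ideal R} (hP : P.IsPrime) (hpP : (p : R) ∉ P)
    {a₀ b b' : ℕ} (hab : a₀ + 1 + b = d) (hb' : b' ≤ a₀)
    (ha : ringKrullDim (R ⧸ P) ≤ (a₀ + 1 : ℕ)) (hb : ringKrullDim (R ⧸ Q) ≤ b)
    (hbp : ringKrullDim (R ⧸ (Q ⊔ Ideal.span {(p : R)})) ≤ b')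
    (hPQ : ∃ c : ℕ, maximalIdeal R ^ c ≤ P ⊔ Q) :
    ∃ (z : ℕ → R) (j : WS p k (a₀ + 1) →+* R) (f : Fin b → Polynomial (WS p k (a₀ + 1))),
      spn z d = maximalIdeal R ∧ (∀ w, j (MvPowerSeries.C w) = ω w) ∧
      j (MvPowerSeries.X 0) = p ∧ (∀ i : Fin a₀, j (MvPowerSeries.X i.succ) = z i) ∧
      (∃ c : ℕ, maximalIdeal R ^ c ≤ P ⊔ Ideal.span {(p : R)} ⊔ spn z a₀) ∧
      (∃ c : ℕ, maximalIdeal R ^ c ≤ Q ⊔ Ideal.span {(p : R)} ⊔ spn z b') ∧
      (∃ c : ℕ, maximalIdeal R ^ c ≤ Ideal.span {(p : R)} ⊔ spn z (a₀ + b)) ∧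
      (∀ l, (f l).IsDistinguishedAt (maximalIdeal _) ∧ (f l).eval₂ j (z (a₀ + l)) ∈ P) ∧
      ∃ c : ℕ, maximalIdeal R ^ c ≤ (sp fun l => (f l).eval₂ j (z (a₀ + l))) ⊔ Q := by
  have hdom := hx.isDomain
  have h1 : ringKrullDim (R ⧸ (P ⊔ Ideal.span {(p : R)})) ≤ a₀ := by
    refine dim_sup_le ha fun 𝔮 h _ => ?_
    rw [Ideal.minimalPrimes_eq_subsingleton_self, Set.mem_singleton_iff] at h
    exact h ▸ hpP
  have h2 : ringKrullDim (R ⧸ ((⊥ : Ideal R) ⊔ Ideal.span {(p : R)})) ≤ (d - 1 : ℕ) := by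
    refine dim_sup_le ?_ fun 𝔮 h _ => ?_
    · rw [ringKrullDim_eq_of_ringEquiv (RingEquiv.quotientBot R), hx.dim]
    · have := Ideal.isPrime_bot (α := R)
      rw [Ideal.minimalPrimes_eq_subsingleton_self, Set.mem_singleton_iff] at h
      rw [h, Ideal.mem_bot]
      intro h0
      exact hpP (h0 ▸ P.zero_mem)
  rw [bot_sup_eq] at h2
  obtain ⟨z₀, hz₀, hJ⟩ := coord_gen x hx.max
    ![P ⊔ Ideal.span {(p : R)}, Q ⊔ Ideal.span {(p : R)}, Ideal.span {(p : R)}] ![a₀, b', d - 1]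
    fun i => by
      fin_cases i
      · exact h1
      · exact hbp
      · exact h2
  have hJ₀ : ∃ c : ℕ, maximalIdeal R ^ c ≤ P ⊔ Ideal.span {(p : R)} ⊔ spn z₀ a₀ :=
    pow_le_of_dim_le_zero (by
      have := hJ 0 a₀ (by omega)
      rw [← Nat.sub_self a₀]
      exact this)
  have hJ₁ : ∃ c : ℕ, maximalIdeal R ^ c ≤ Q ⊔ Ideal.span {(p : R)} ⊔ spn z₀ b' :=
    pow_le_of_dim_le_zero (by
      have := hJ 1 b' (by omega)
      rw [← Nat.sub_self b']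
      exact this)
  have hJ₂ : ringKrullDim (R ⧸ (Ideal.span {(p : R)} ⊔ spn z₀ a₀)) ≤ b := by
    have := hJ 2 a₀ (by omega)
    rw [show b = d - 1 - a₀ by omega]
    exact this
  have hzm : ∀ i < d, z₀ i ∈ maximalIdeal R := fun i hi => hz₀ ▸ CCoordM_mem_spn z₀ hi
  obtain ⟨j, hjC, hjX⟩ := exists_eval (maximalIdeal R) ω
    (Fin.cons (p : R) fun i : Fin a₀ => z₀ i : Fin (a₀ + 1) → R) fun i => by
      refine Fin.cases hp (fun i => ?_) i
      have := i.2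
      exact hzm i (by omega)
  have hj0 : j (MvPowerSeries.X 0) = p := hjX 0
  have hjs : ∀ i : Fin a₀, j (MvPowerSeries.X i.succ) = z₀ i := fun i => hjX i.succ
  have hXm : ∀ i, (MvPowerSeries.X i : WS p k (a₀ + 1)) ∈ maximalIdeal (WS p k (a₀ + 1)) :=
    fun i => by
      rw [maximalIdeal_mvPowerSeries]
      exact Ideal.mem_sup_right (Ideal.subset_span ⟨i, rfl⟩)
  have hle : (maximalIdeal (WS p k (a₀ + 1))).map j ≤ maximalIdeal R := by
    rw [maximalIdeal_mvPowerSeries, maximalIdeal_wittVector, Ideal.map_sup, Ideal.map_map,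
      Ideal.map_span, Set.image_singleton, map_natCast, sp_map]
    refine sup_le ((Ideal.span_singleton_le_iff_mem _).2 hp) (Ideal.span_le.2 ?_)
    rintro _ ⟨i, rfl⟩
    refine Fin.cases ?_ (fun i => ?_) i
    · change j _ ∈ maximalIdeal R
      rw [hj0]
      exact hp
    · have := i.2
      change j _ ∈ maximalIdeal R
      rw [hjs]
      exact hzm i (by omega)
  have hge : P ⊔ Ideal.span {(p : R)} ⊔ spn z₀ a₀ ≤
      P ⊔ (maximalIdeal (WS p k (a₀ + 1))).map j := by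
    rw [sup_assoc]
    refine sup_le_sup_left (sup_le ((Ideal.span_singleton_le_iff_mem _).2 ?_)
      (CCoordM_spn_le fun i hi => ?_)) _
    · exact hj0 ▸ Ideal.mem_map_of_mem j (hXm 0)
    · exact hjs ⟨i, hi⟩ ▸ Ideal.mem_map_of_mem j (hXm _)
  have hP' : ∃ c : ℕ, maximalIdeal R ^ c ≤ P ⊔ (maximalIdeal (WS p k (a₀ + 1))).map j :=
    hJ₀.imp fun c hc => hc.trans hge
  have hres : ∀ r : R, ∃ w, r - j (MvPowerSeries.C w) ∈ maximalIdeal R := fun r =>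
    (hω r).imp fun w hw => hjC w ▸ hw
  have hcomp := isAdicComplete_witt_series p k (a₀ + 1)
  have hfin := finite_of_pow_le j hle (fun r => (hres r).elim fun w hw => ⟨_, hw⟩) P hP'
  obtain ⟨z, f, hz, hpart, hdJ, hf, hdQ⟩ := CCoordM_phase MvPowerSeries.C j hres
    (fun c : k => teichmuller p c) CCoordM_teich x hx.max P Q (Ideal.span {(p : R)}) hfin hP' hPQ
    (a := a₀) (b := b) (d := d) (by omega) z₀ (CCoordM_part hz₀ (by omega)) hJ₂ hb b le_rfl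
  rw [Nat.sub_self] at hdJ hdQ
  obtain ⟨z', hz', hzd⟩ := hpart.complete (by omega)
  have hz₁ : ∀ i < a₀, z' i = z₀ i := fun i hi => (hz' i (by omega)).trans (hz i hi)
  refine ⟨z', j, fun l => f l, hzd, hjC, hj0, fun i => (hjs i).trans (hz₁ i i.2).symm, ?_, ?_, ?_,
    fun l => ?_, ?_⟩
  · rwa [CCoordM_spn_congr hz₁]
  · rwa [CCoordM_spn_congr (z' := z₀) fun i hi => hz₁ i (by omega)]
  · rw [CCoordM_spn_congr hz']
    exact pow_le_of_dim_le_zero hdJ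
  · have := l.2
    rw [hz' _ (by omega)]
    exact hf l l.2
  · rw [CCoordM_sp_fin (fun l => (f l).eval₂ j (z' (a₀ + l))) b, sup_comm,
      CCoordM_spn_congr (z' := fun i => (f i).eval₂ j (z (a₀ + i))) fun i hi => by
        rw [hz' _ (by omega)]]
    exact pow_le_of_dim_le_zero hdQ

end Crest.Agent.R188
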