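import Crest.Agent.R188.CDefs

/-!
# Galois idempotents
-/

set_option autoImplicit false
set_option linter.unusedVariables false
set_option linter.style.haveILetI false

open scoped ENNReal NNReal TensorProduct

namespace Crest.Agent.R188

open Crest.Agent.R183 IsLocalRing WittVector

/-- a nonzero element of an integral domain extension divides a nonzero scalar -/
theorem CGal_dvd {Λ S : Type} [CommRing Λ] [CommRing S] [IsDomain S] [Algebra Λ S]
    [Module.Finite Λ S] (c : S) (hc : c ≠ 0) :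
    ∃ (l : Λ) (u : S), algebraMap Λ S l ≠ 0 ∧ u * c = algebraMap Λ S l := by
  have hint : IsIntegral (⊥ : Subalgebra Λ S) c :=
    (Algebra.IsIntegral.isIntegral (R := Λ) c).tower_top
  obtain ⟨r, hr, u, hu⟩ := hint.isAlgebraic.exists_nonzero_dvd (mem_nonZeroDivisors_of_ne_zero hc)
  obtain ⟨l, hl⟩ := Algebra.mem_bot.1 r.2
  refine ⟨l, u, ?_, ?_⟩
  · rw [hl]; exact fun h => hr (Subtype.ext h)
  · rw [hl, mul_comm]; exact hu.symm

/-- elements dying in a base change to a field are torsion -/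
theorem CGal_torsion {S F N : Type} [CommRing S] [IsDomain S] [Field F] [Algebra S F]
    (hι : Function.Injective (algebraMap S F)) [AddCommGroup N] [Module S N] (n : N)
    (hn : ((1 : F) ⊗ₜ[S] n) = 0) : ∃ s : S, s ≠ 0 ∧ s • n = 0 := by
  by_contra hcon
  push Not at hcon
  haveI : FaithfulSMul S F := (faithfulSMul_iff_algebraMap_injective S F).2 hι
  letI : Algebra (FractionRing S) F := FractionRing.liftAlgebra S F
  haveI : IsScalarTower S (FractionRing S) F := FractionRing.isScalarTower_liftAlgebra S F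
  haveI : Module.Flat S (FractionRing S) := IsLocalization.flat _ (nonZeroDivisors S)
  haveI : Module.Flat S F := Module.Flat.trans S (FractionRing S) F
  have hinj : Function.Injective (LinearMap.toSpanSingleton S N n) := by
    rw [injective_iff_map_eq_zero]
    intro s hs
    by_contra h0
    exact hcon s h0 (by simpa using hs)
  have h2 := Module.Flat.lTensor_preserves_injective_linearMap (M := F) _ hinj
  have h3 : ((1 : F) ⊗ₜ[S] (1 : S)) = 0 := by
    apply h2
    simpa using hn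
  have h4 := congrArg (TensorProduct.rid S F) h3
  simp at h4

theorem CGal_reduced {Λ S F : Type} [CommRing Λ] [CommRing S] [IsDomain S] [Algebra Λ S]
    [Module.Finite Λ S] [Field F] [Algebra Λ F] (ι : S →ₐ[Λ] F)
    (hι : Function.Injective ι)
    (hsep : ∀ y : S, ∃ f : Polynomial Λ, Polynomial.aeval y f = 0 ∧
      Polynomial.aeval y (Polynomial.derivative f) ≠ 0) : IsReduced (F ⊗[Λ] S) := by
  have hD : ∀ b : F ⊗[Λ] S, KaehlerDifferential.D F (F ⊗[Λ] S) b = 0 := by
    have h1 : ∀ y : S, KaehlerDifferential.D F (F ⊗[Λ] S) (1 ⊗ₜ y) = 0 := by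
      intro y
      obtain ⟨f, hf, hf'⟩ := hsep y
      obtain ⟨l, u, hl, hu⟩ := CGal_dvd (Λ := Λ) _ hf'
      have e1 : ∀ g : Polynomial Λ, Polynomial.aeval ((1 : F) ⊗ₜ[Λ] y) (g.map (algebraMap Λ F)) =
          (1 : F) ⊗ₜ[Λ] Polynomial.aeval y g := by
        intro g
        rw [Polynomial.aeval_map_algebraMap]
        exact Polynomial.aeval_algHom_apply
          (Algebra.TensorProduct.includeRight : S →ₐ[Λ] F ⊗[Λ] S) y g
      have e2 := (KaehlerDifferential.D F (F ⊗[Λ] S)).map_aeval (f.map (algebraMap Λ F))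
        ((1 : F) ⊗ₜ[Λ] y)
      rw [Polynomial.derivative_map, e1, e1, hf, TensorProduct.tmul_zero, map_zero] at e2
      have hlF : algebraMap Λ F l ≠ 0 := by
        rw [← ι.commutes]
        exact fun h => hl (hι (by rw [h, map_zero]))
      have e3 : (((algebraMap Λ F l)⁻¹ ⊗ₜ[Λ] u) * ((1 : F) ⊗ₜ[Λ]
          Polynomial.aeval y (Polynomial.derivative f)) : F ⊗[Λ] S) = 1 := by
        rw [Algebra.TensorProduct.tmul_mul_tmul, hu, mul_one,
          Algebra.algebraMap_eq_smul_one (A := S) l,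
          ← TensorProduct.smul_tmul, Algebra.smul_def, mul_inv_cancel₀ hlF]
        rfl
      rw [← one_smul (F ⊗[Λ] S) (KaehlerDifferential.D F (F ⊗[Λ] S) (1 ⊗ₜ y)), ← e3, mul_smul,
        ← e2, smul_zero]
    intro b
    induction b using TensorProduct.induction_on with
    | zero => simp
    | add x y hx hy => rw [map_add, hx, hy, add_zero]
    | tmul c y =>
      have : (c ⊗ₜ[Λ] y : F ⊗[Λ] S) = c • ((1 : F) ⊗ₜ[Λ] y) := by
        rw [TensorProduct.smul_tmul', smul_eq_mul, mul_one]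
      rw [this, Derivation.map_smul, h1, smul_zero]
  haveI : Algebra.FormallyUnramified F (F ⊗[Λ] S) := by
    refine ⟨subsingleton_of_forall_eq 0 fun x => ?_⟩
    have hx : x ∈ Submodule.span (F ⊗[Λ] S) (Set.range (KaehlerDifferential.D F (F ⊗[Λ] S))) := by
      rw [KaehlerDifferential.span_range_derivation]; trivial
    have hle : Submodule.span (F ⊗[Λ] S) (Set.range (KaehlerDifferential.D F (F ⊗[Λ] S))) ≤ ⊥ := by
      rw [Submodule.span_le]
      rintro _ ⟨b, rfl⟩
      exact hD b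
    exact hle hx
  exact Algebra.FormallyUnramified.isReduced_of_field F _

/-- the kernel of all Galois multiplications is torsion -/
theorem CGal_ker {Λ S F Γ : Type} [CommRing Λ] [CommRing S] [IsDomain S] [Algebra Λ S]
    [Module.Finite Λ S] [Field F] [IsAlgClosed F] [Algebra Λ F] (ι : S →ₐ[Λ] F)
    (hι : Function.Injective ι) (a : Γ → S ≃ₐ[Λ] S)
    (ha : ∀ f : S →ₐ[Λ] F, ∃ γ, ∀ y, f y = ι (a γ y))
    (hsep : ∀ y : S, ∃ f : Polynomial Λ, Polynomial.aeval y f = 0 ∧
      Polynomial.aeval y (Polynomial.derivative f) ≠ 0) (t : S ⊗[Λ] S)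
    (ht : ∀ γ, Algebra.TensorProduct.productMap (a γ : S →ₐ[Λ] S) (AlgHom.id Λ S) t = 0) :
    ∃ l : Λ, algebraMap Λ S l ≠ 0 ∧ l • t = 0 := by
  haveI := CGal_reduced ι hι hsep
  let ρ : S ⊗[Λ] S →ₐ[Λ] F ⊗[Λ] S :=
    (Algebra.TensorProduct.map ι (AlgHom.id Λ S)).comp (Algebra.TensorProduct.comm Λ S S).toAlgHom
  have hρ : ∀ x y : S, ρ (x ⊗ₜ y) = ι y ⊗ₜ x := fun x y => by simp [ρ]
  have h0 : ρ t = 0 := by
    haveI : IsArtinianRing (F ⊗[Λ] S) := IsArtinianRing.of_finite F _
    have hj : ρ t ∈ Ideal.jacobson (⊥ : Ideal (F ⊗[Λ] S)) := by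
      rw [Ideal.jacobson, Ideal.mem_sInf]
      rintro m ⟨-, hm⟩
      letI : Field ((F ⊗[Λ] S) ⧸ m) := Ideal.Quotient.field m
      let e : F ≃ₐ[F] ((F ⊗[Λ] S) ⧸ m) := AlgEquiv.ofBijective (Algebra.ofId F _)
        IsAlgClosed.algebraMap_bijective_of_isIntegral
      let χ : F ⊗[Λ] S →ₐ[F] F := (e.symm : _ →ₐ[F] F).comp (Ideal.Quotient.mkₐ F m)
      obtain ⟨γ, hγ⟩ := ha ((χ.restrictScalars Λ).comp Algebra.TensorProduct.includeRight)
      have key : ∀ z : S ⊗[Λ] S, χ (ρ z) =
          ι (Algebra.TensorProduct.productMap (a γ : S →ₐ[Λ] S) (AlgHom.id Λ S) z) := by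
        intro z
        induction z using TensorProduct.induction_on with
        | zero => simp
        | add x y hx hy => simp only [map_add, hx, hy]
        | tmul x y =>
          have e1 : (ι y ⊗ₜ[Λ] x : F ⊗[Λ] S) = ι y • ((1 : F) ⊗ₜ[Λ] x) := by
            rw [TensorProduct.smul_tmul', smul_eq_mul, mul_one]
          have e2 : χ ((1 : F) ⊗ₜ[Λ] x) = ι (a γ x) := hγ x
          rw [hρ, e1, map_smul, e2, Algebra.TensorProduct.productMap_apply_tmul, map_mul,
            smul_eq_mul, mul_comm]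
          rfl
      have h1 : χ (ρ t) = 0 := by rw [key, ht, map_zero]
      have h2 : Ideal.Quotient.mk m (ρ t) = 0 := by
        apply e.symm.injective
        rw [map_zero]
        exact h1
      exact Ideal.Quotient.eq_zero_iff_mem.1 h2
    obtain ⟨n, hn⟩ := IsArtinianRing.isNilpotent_jacobson_bot (R := F ⊗[Λ] S)
    have : (ρ t) ^ n ∈ (⊥ : Ideal (F ⊗[Λ] S)) := by
      have := Ideal.pow_mem_pow hj n
      rwa [hn] at this
    exact IsNilpotent.eq_zero ⟨n, this⟩
  letI : Algebra S F := ι.toRingHom.toAlgebra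
  haveI : IsScalarTower Λ S F := IsScalarTower.of_algebraMap_eq fun l => (ι.commutes l).symm
  have hc : ∀ z : S ⊗[Λ] S, TensorProduct.AlgebraTensorModule.cancelBaseChange Λ S F F S
      ((1 : F) ⊗ₜ[S] (Algebra.TensorProduct.comm Λ S S z)) = ρ z := by
    intro z
    induction z using TensorProduct.induction_on with
    | zero => simp
    | add x y hx hy => simp only [map_add, TensorProduct.tmul_add, hx, hy]
    | tmul x y =>
      rw [hρ, Algebra.TensorProduct.comm_tmul,
        TensorProduct.AlgebraTensorModule.cancelBaseChange_tmul, Algebra.smul_def, mul_one]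
      rfl
  have h1 : ((1 : F) ⊗ₜ[S] (Algebra.TensorProduct.comm Λ S S t)) = 0 := by
    apply (TensorProduct.AlgebraTensorModule.cancelBaseChange Λ S F F S).injective
    rw [hc, h0, map_zero]
  obtain ⟨s, hs, hst⟩ := CGal_torsion (S := S) (F := F) hι _ h1
  obtain ⟨l, u, hl, hu⟩ := CGal_dvd (Λ := Λ) s hs
  refine ⟨l, hl, ?_⟩
  apply (Algebra.TensorProduct.comm Λ S S).injective
  rw [map_smul, map_zero, ← algebraMap_smul S l, ← hu, mul_smul, hst, smul_zero]

theorem exists_galD {Λ S F Γ : Type} [CommRing Λ] [CommRing S] [IsDomain S] [Algebra Λ S]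
    [Module.Finite Λ S] [Field F] [IsAlgClosed F] [Algebra Λ F] (ι : S →ₐ[Λ] F)
    (hι : Function.Injective ι) (a : Γ → S ≃ₐ[Λ] S)
    (ha : ∀ f : S →ₐ[Λ] F, ∃ γ, ∀ y, f y = ι (a γ y))
    (hsep : ∀ y : S, ∃ f : Polynomial Λ, Polynomial.aeval y f = 0 ∧
      Polynomial.aeval y (Polynomial.derivative f) ≠ 0) :
    ∃ (σ : Type) (_ : Fintype σ) (_ : DecidableEq σ) (sel : σ → Γ) (w : Λ) (ε : σ → S ⊗[Λ] S),
      algebraMap Λ S w ≠ 0 ∧ GalD (fun g => a (sel g)) w ε := by
  classical
  -- the index set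
  let σ : Type := Set.range a
  let sel : σ → Γ := fun g => g.2.choose
  have hsel : ∀ g : σ, a (sel g) = g.1 := fun g => g.2.choose_spec
  haveI : Finite σ := by
    let j : σ → (F ⊗[Λ] S →ₐ[F] F) := fun g =>
      Algebra.TensorProduct.lift (Algebra.ofId F F) (ι.comp (g.1 : S →ₐ[Λ] S))
        fun _ _ => Commute.all _ _
    refine Finite.of_injective j fun g h hgh => Subtype.ext (AlgEquiv.ext fun y => hι ?_)
    have := DFunLike.congr_fun hgh ((1 : F) ⊗ₜ[Λ] y)
    simpa [j] using this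
  letI : Fintype σ := Fintype.ofFinite σ
  let μ : σ → (S ⊗[Λ] S →ₐ[Λ] S) := fun h =>
    Algebra.TensorProduct.productMap (a (sel h) : S →ₐ[Λ] S) (AlgHom.id Λ S)
  have hμ : ∀ h x y, μ h (x ⊗ₜ y) = a (sel h) x * y := fun h x y => by simp [μ]
  have hker : ∀ t : S ⊗[Λ] S, (∀ h, μ h t = 0) → ∃ l : Λ, algebraMap Λ S l ≠ 0 ∧ l • t = 0 := by
    intro t ht
    refine CGal_ker ι hι a ha hsep t fun γ => ?_
    have := ht ⟨a γ, γ, rfl⟩
    simpa only [μ, hsel] using this
  -- separating elements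
  have hy : ∀ g h : σ, ∃ y : S, g ≠ h → a (sel g) y ≠ a (sel h) y := by
    intro g h
    by_cases hgh : g = h
    · exact ⟨0, fun h' => absurd hgh h'⟩
    · by_contra hcon
      push Not at hcon
      refine hgh (Subtype.ext ?_)
      rw [← hsel, ← hsel]
      exact AlgEquiv.ext fun y => (hcon y).2
  choose y hy using hy
  have hstep : ∀ g : σ, ∃ (l : Λ) (t : S ⊗[Λ] S), algebraMap Λ S l ≠ 0 ∧
      ∀ h, μ h t = if g = h then algebraMap Λ S l else 0 := by
    intro g
    have hc : (∏ h ∈ Finset.univ.erase g, (a (sel g) (y g h) - a (sel h) (y g h))) ≠ 0 :=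
      Finset.prod_ne_zero_iff.2 fun h hh =>
        sub_ne_zero.2 (hy g h (Finset.ne_of_mem_erase hh).symm)
    obtain ⟨l, u, hl, hu⟩ := CGal_dvd (Λ := Λ) _ hc
    refine ⟨l, ((1 : S) ⊗ₜ[Λ] u) * ∏ h ∈ Finset.univ.erase g,
      (y g h ⊗ₜ[Λ] (1 : S) - (1 : S) ⊗ₜ[Λ] a (sel h) (y g h)), hl, fun h => ?_⟩
    simp only [map_mul, map_prod, map_sub, hμ, map_one, one_mul, mul_one]
    split_ifs with hgh
    · subst hgh; exact hu
    · rw [Finset.prod_eq_zero (i := h) (Finset.mem_erase.2 ⟨fun e => hgh e.symm, Finset.mem_univ _⟩)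
        (sub_self _), mul_zero]
  choose l t hl ht using hstep
  let w₁ : Λ := ∏ g, l g
  have hw₁ : algebraMap Λ S w₁ ≠ 0 := by
    rw [map_prod]; exact Finset.prod_ne_zero_iff.2 fun g _ => hl g
  let e : σ → S ⊗[Λ] S := fun g => (∏ h ∈ Finset.univ.erase g, l h) • t g
  have he : ∀ g h, μ h (e g) = if g = h then algebraMap Λ S w₁ else 0 := by
    intro g h
    simp only [e, map_smul, ht]
    split_ifs with hgh
    · rw [Algebra.smul_def, ← map_mul, Finset.prod_erase_mul _ _ (Finset.mem_univ g)]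
    · rw [smul_zero]
  clear_value e
  -- generators
  obtain ⟨n, b, hb⟩ := Module.Finite.exists_fin (R := Λ) (M := S)
  have h1 : ∀ (g : σ) (i : Fin n), ∃ r : Λ, algebraMap Λ S r ≠ 0 ∧
      r • (e g * (b i ⊗ₜ 1) - e g * (1 ⊗ₜ a (sel g) (b i))) = 0 := by
    intro g i
    refine hker _ fun h => ?_
    simp only [map_sub, map_mul, he, hμ, map_one, one_mul, mul_one]
    split_ifs with hgh
    · subst hgh; exact sub_self _
    · simp
  choose r hr0 hr using h1
  obtain ⟨r', hr'0, hr'⟩ := hker (∑ g, e g - algebraMap Λ (S ⊗[Λ] S) w₁) fun h => by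
    rw [map_sub, map_sum, AlgHom.commutes, Finset.sum_eq_single h, he, if_pos rfl, sub_self]
    · intro g _ hg; rw [he, if_neg hg]
    · intro hh; exact absurd (Finset.mem_univ h) hh
  let w₂ : Λ := ∏ x : σ × Fin n, r x.1 x.2
  have hw₂ : algebraMap Λ S w₂ ≠ 0 := by
    rw [map_prod]; exact Finset.prod_ne_zero_iff.2 fun x _ => hr0 _ _
  refine ⟨σ, inferInstance, inferInstance, sel, w₂ * r' * w₁, fun g => (w₂ * r') • e g, ?_,
    ?_, ?_, ?_⟩
  · rw [map_mul, map_mul]; exact mul_ne_zero (mul_ne_zero hw₂ hr'0) hw₁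
  · intro g x
    have hx : x ∈ Submodule.span Λ (Set.range b) := by rw [hb]; trivial
    induction hx using Submodule.span_induction with
    | mem x hx =>
      obtain ⟨i, rfl⟩ := hx
      obtain ⟨c, hc⟩ : r g i ∣ w₂ * r' :=
        (Finset.dvd_prod_of_mem (fun x : σ × Fin n => r x.1 x.2)
          (Finset.mem_univ (g, i))).mul_right r'
      rw [← sub_eq_zero, smul_mul_assoc, smul_mul_assoc, ← smul_sub, hc, mul_comm, mul_smul, hr,
        smul_zero]
    | zero => simp
    | add x y _ _ hx hy =>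
      rw [map_add, TensorProduct.add_tmul, TensorProduct.tmul_add, mul_add, mul_add, hx, hy]
    | smul c x _ hx =>
      rw [map_smul, ← TensorProduct.smul_tmul', TensorProduct.tmul_smul, mul_smul_comm,
        mul_smul_comm, hx]
  · rw [← Finset.smul_sum, map_mul _ (w₂ * r'), ← Algebra.smul_def, ← sub_eq_zero, ← smul_sub,
      mul_smul, hr', smul_zero]
  · intro g h
    change μ h ((w₂ * r') • e g) = _
    rw [map_smul, he]
    split_ifs
    · rw [Algebra.smul_def, ← map_mul]
    · rw [smul_zero]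

theorem sep_of_charZero {Λ S : Type} [CommRing Λ] [CommRing S] [IsDomain S] [CharZero S]
    [Algebra Λ S] [Module.Finite Λ S] (y : S) : ∃ f : Polynomial Λ, Polynomial.aeval y f = 0 ∧
      Polynomial.aeval y (Polynomial.derivative f) ≠ 0 := by
  classical
  have hex : ∃ n : ℕ, ∃ f : Polynomial Λ, Polynomial.aeval y f = 0 ∧
      f.map (algebraMap Λ S) ≠ 0 ∧ (f.map (algebraMap Λ S)).natDegree = n := by
    obtain ⟨f, hf, hfy⟩ := Algebra.IsIntegral.isIntegral (R := Λ) y
    exact ⟨_, f, hfy, (hf.map _).ne_zero, rfl⟩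
  obtain ⟨f, hf, hf0, hfn⟩ := Nat.find_spec hex
  refine ⟨f, hf, fun h => ?_⟩
  by_cases h0 : (Polynomial.derivative f).map (algebraMap Λ S) = 0
  · rw [← Polynomial.derivative_map] at h0
    have hd := Polynomial.derivative_eq_zero.1 h0
    rw [Polynomial.natDegree_eq_zero] at hd
    obtain ⟨c, hc⟩ := hd
    have : Polynomial.eval y (f.map (algebraMap Λ S)) = 0 := by
      rw [Polynomial.eval_map_algebraMap]; exact hf
    rw [← hc, Polynomial.eval_C] at this
    exact hf0 (by rw [← hc, this, map_zero])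
  · have hle := Nat.find_min' hex ⟨_, h, h0, rfl⟩
    rw [← hfn, ← Polynomial.derivative_map] at hle
    rw [← Polynomial.derivative_map] at h0
    have hne : (f.map (algebraMap Λ S)).natDegree ≠ 0 := fun hz =>
      h0 (Polynomial.derivative_of_natDegree_zero hz)
    exact absurd (Polynomial.natDegree_derivative_lt hne) (not_lt.2 hle)

end Crest.Agent.R188
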