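import Crest.Agent.R188.CSym
import Crest.Agent.R188.CGal
import Crest.Agent.R188.CLoc

/-!
# The symmetric Galois cover
-/

set_option autoImplicit false
set_option linter.unusedVariables false

open scoped ENNReal NNReal TensorProduct

namespace Crest.Agent.R188

open Crest.Agent.R183 IsLocalRing WittVector

/-- a permutation of finitely many variables mapping an ideal into itself preserves it -/
theorem CCov_rename_iff {Λ V : Type} [CommRing Λ] [Finite V] (g : Equiv.Perm V)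
    (P : Ideal (MvPolynomial V Λ)) (h : ∀ y ∈ P, MvPolynomial.rename g y ∈ P)
    (y : MvPolynomial V Λ) : MvPolynomial.rename g y ∈ P ↔ y ∈ P := by
  refine ⟨fun hy => ?_, h y⟩
  have hpow : ∀ (n : ℕ) (z : MvPolynomial V Λ), z ∈ P → MvPolynomial.rename (g ^ n) z ∈ P := by
    intro n
    induction n with
    | zero => intro z hz; simpa using hz
    | succ n ih =>
      intro z hz
      have := h _ (ih z hz)
      rw [MvPolynomial.rename_rename] at this
      rw [pow_succ']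
      exact this
  have hord : 0 < orderOf g := orderOf_pos g
  have h1 := hpow (orderOf g - 1) _ hy
  rw [MvPolynomial.rename_rename] at h1
  have h2 : (⇑(g ^ (orderOf g - 1)) ∘ ⇑g) = id := by
    rw [← Equiv.Perm.coe_mul, ← pow_succ, Nat.sub_add_cancel hord, pow_orderOf_eq_one]
    rfl
  rw [h2, MvPolynomial.rename_id] at h1
  exact h1

theorem CCov_map_eq {Λ V : Type} [CommRing Λ] (g : Equiv.Perm V)
    (P : Ideal (MvPolynomial V Λ)) (h : ∀ y, MvPolynomial.rename g y ∈ P ↔ y ∈ P) :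
    P = P.map (MvPolynomial.renameEquiv Λ g : MvPolynomial V Λ →+* MvPolynomial V Λ) := by
  apply le_antisymm
  · intro y hy
    have h1 : MvPolynomial.rename g (MvPolynomial.rename g.symm y) = y := by
      rw [MvPolynomial.rename_rename]
      simp
    have h2 : MvPolynomial.rename g.symm y ∈ P := by
      rw [← h, h1]
      exact hy
    have := Ideal.mem_map_of_mem
      (MvPolynomial.renameEquiv Λ g : MvPolynomial V Λ →+* MvPolynomial V Λ) h2
    rw [← h1]
    exact this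
  · rw [Ideal.map_le_iff_le_comap]
    intro y hy
    exact (h y).2 hy

theorem CCov_hom_eq {Λ V F : Type} [CommRing Λ] [CommRing F] (φ φ' : MvPolynomial V Λ →+* F)
    (g : V → V) (hC : ∀ a, φ (MvPolynomial.C a) = φ' (MvPolynomial.C a))
    (hX : ∀ v, φ' (MvPolynomial.X v) = φ (MvPolynomial.X (g v))) (y : MvPolynomial V Λ) :
    φ' y = φ (MvPolynomial.rename g y) := by
  have : φ' = φ.comp (MvPolynomial.rename g : MvPolynomial V Λ →ₐ[Λ] MvPolynomial V Λ).toRingHom := by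
    apply MvPolynomial.ringHom_ext
    · intro a
      simp [hC]
    · intro v
      simp [hX]
  rw [this]
  rfl

theorem exists_symCov {Λ : Type} [CommRing Λ] [IsNoetherianRing Λ] [IsLocalRing Λ] (ξ₀ x₀ : Λ)
    {N : ℕ} (G : Fin N → MvPolynomial (Fin N) Λ) (hG : Tower G) {S₀ : Type} [CommRing S₀]
    [IsDomain S₀] [CharZero S₀] (φ₀ : MvPolynomial (Fin N) Λ →+* S₀)
    (hφ₀ : Function.Surjective φ₀)
    (hker : RingHom.ker (φ₀.comp MvPolynomial.C) = Ideal.span {ξ₀}) (hφG : ∀ l, φ₀ (G l) = 0)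
    (hx₀ : φ₀ (MvPolynomial.C x₀) ≠ 0) : Nonempty (SymCov ξ₀ x₀ G φ₀) := by
  classical
  obtain ⟨V, fV, eV, D, ι₀, hGD, loc, fin, htrans, hext⟩ := exists_sym G hG
  let F : Type := AlgebraicClosure (FractionRing S₀)
  let ι₁ : S₀ →+* F := (algebraMap (FractionRing S₀) F).comp (algebraMap S₀ (FractionRing S₀))
  have hι₁ : Function.Injective ι₁ :=
    (algebraMap (FractionRing S₀) F).injective.comp (IsFractionRing.injective S₀ (FractionRing S₀))
  obtain ⟨φ, hφι, hφD⟩ := hext F (ι₁.comp φ₀) (fun l => by simp [hφG l])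
  have hφC : ∀ a, φ (MvPolynomial.C a) = ι₁ (φ₀ (MvPolynomial.C a)) := by
    intro a
    have := hφι (MvPolynomial.C a)
    rw [MvPolynomial.rename_C] at this
    exact this
  let P : Ideal (MvPolynomial V Λ) := RingHom.ker φ
  have hP : P.IsPrime := RingHom.ker_isPrime φ
  have hmemP : ∀ y, y ∈ P ↔ φ y = 0 := fun y => RingHom.mem_ker
  have hDP : sp D ≤ P := by
    rw [Ideal.span_le]
    rintro _ ⟨v, rfl⟩
    exact hφD v
  have hξ₀ : φ₀ (MvPolynomial.C ξ₀) = 0 := by
    have : ξ₀ ∈ RingHom.ker (φ₀.comp MvPolynomial.C) := by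
      rw [hker]; exact Ideal.subset_span rfl
    exact this
  have hfinQ : ∀ I : Ideal (MvPolynomial V Λ), sp D ≤ I → Module.Finite Λ (MvPolynomial V Λ ⧸ I) := by
    intro I hI
    exact Module.Finite.of_surjective (Ideal.Quotient.factorₐ Λ hI).toLinearMap
      (Ideal.Quotient.factor_surjective hI)
  let S : Type := MvPolynomial V Λ ⧸ P
  have dS : IsDomain S := Ideal.Quotient.isDomain P
  have fS : Module.Finite Λ S := hfinQ P hDP
  let Φ : MvPolynomial V Λ →ₐ[Λ] S := Ideal.Quotient.mkₐ Λ P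
  have hΦs : Function.Surjective Φ := Ideal.Quotient.mkₐ_surjective Λ P
  have hΦ0 : ∀ y, Φ y = 0 ↔ y ∈ P := fun y => Ideal.Quotient.eq_zero_iff_mem
  -- the embedding of `S₀`
  let j : S₀ →+* S := (φ₀.liftOfRightInverse (Function.surjInv hφ₀)
    (Function.rightInverse_surjInv hφ₀))
    ⟨(Φ.comp (MvPolynomial.rename ι₀)).toRingHom, by
      intro t ht
      rw [RingHom.mem_ker] at ht ⊢
      change Φ (MvPolynomial.rename ι₀ t) = 0
      rw [hΦ0, hmemP, hφι]
      simp [ht]⟩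
  have hj : ∀ t, j (φ₀ t) = Φ (MvPolynomial.rename ι₀ t) := fun t =>
    RingHom.liftOfRightInverse_comp_apply _ _ _ _ _
  have hjinj : Function.Injective j := by
    rw [injective_iff_map_eq_zero]
    intro s hs
    obtain ⟨t, rfl⟩ := hφ₀ s
    rw [hj, hΦ0, hmemP, hφι] at hs
    exact hι₁ (by simpa using hs)
  have cz : CharZero S := charZero_of_injective_ringHom hjinj
  -- locality
  obtain ⟨lS, hres, hm⟩ := exists_local_of_gen (Λ := Λ) (S := S)
    (fun v => Φ (MvPolynomial.X v)) (by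
      have h1 : Set.range (fun v => Φ (MvPolynomial.X v)) =
          Φ '' Set.range (MvPolynomial.X : V → MvPolynomial V Λ) := by
        rw [← Set.range_comp]; rfl
      rw [h1, ← AlgHom.map_adjoin, MvPolynomial.adjoin_range_X, Algebra.map_top]
      exact (AlgHom.range_eq_top Φ).2 hΦs) (by
      intro v
      obtain ⟨e, he⟩ := loc.nil v
      refine ⟨e, ?_⟩
      obtain ⟨a, ha, b, hb, hab⟩ := Submodule.mem_sup.1 he
      rw [← map_pow, ← hab, map_add, (hΦ0 a).2 (hDP ha), zero_add]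
      have h1 : (algebraMap Λ S) = (Φ : MvPolynomial V Λ →+* S).comp MvPolynomial.C := by
        ext a
        rfl
      rw [h1, ← Ideal.map_map]
      exact Ideal.mem_map_of_mem (Φ : MvPolynomial V Λ →+* S) hb)
  -- the Galois data
  let ψ : Λ →+* F := φ.comp MvPolynomial.C
  let _ : Algebra Λ F := ψ.toAlgebra
  let φa : MvPolynomial V Λ →ₐ[Λ] F := { φ with commutes' := fun a => rfl }
  let ιS : S →ₐ[Λ] F := Ideal.kerLiftAlg φa
  have hιS : Function.Injective ιS := Ideal.kerLiftAlg_injective φa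
  have hιΦ : ∀ y, ιS (Φ y) = φ y := fun y => rfl
  let Γ : Type := {g : Sym D // ∀ y, MvPolynomial.rename g.1.1 y ∈ P ↔ y ∈ P}
  let a : Γ → S ≃ₐ[Λ] S := fun g =>
    Ideal.quotientEquivAlg P P (MvPolynomial.renameEquiv Λ g.1.1.1) (CCov_map_eq _ P g.2)
  have haΦ : ∀ g y, a g (Φ y) = Φ (MvPolynomial.rename g.1.1.1 y) := fun g y => rfl
  have ha : ∀ f : S →ₐ[Λ] F, ∃ γ, ∀ y, f y = ιS (a γ y) := by
    intro f
    obtain ⟨g, hg, hgX⟩ := htrans F φ ((f.comp Φ).toRingHom) (fun c => by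
        change algebraMap Λ F c = (f.comp Φ) (algebraMap Λ _ c)
        rw [AlgHom.commutes]) hφD (fun v => by
        change f (Φ (D v)) = 0
        rw [(hΦ0 _).2 (hφD v), map_zero])
    have hf : ∀ y, f (Φ y) = φ (MvPolynomial.rename g.1 y) :=
      CCov_hom_eq φ ((f.comp Φ).toRingHom) g.1 (fun c => by
        change algebraMap Λ F c = (f.comp Φ) (algebraMap Λ _ c)
        rw [AlgHom.commutes]) hgX
    refine ⟨⟨⟨g, hg⟩, CCov_rename_iff g.1 P fun y hy => ?_⟩, fun y => ?_⟩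
    · rw [hmemP, ← hf, (hΦ0 y).2 hy, map_zero]
    · obtain ⟨y, rfl⟩ := hΦs y
      rw [haΦ, hιΦ, hf]
  obtain ⟨σ, fσ, eσ, sel, w, ε, hw, hgal⟩ := exists_galD ιS hιS a ha sep_of_charZero
  -- the stabiliser
  have hfinS : Finite (Sym D) := inferInstance
  let St : Finset (Sym D) :=
    (Set.toFinite {g : Sym D | ∀ y, MvPolynomial.rename g.1.1 y ∈ P ↔ y ∈ P}).toFinset
  have hSt : ∀ g : Sym D, g ∈ St ↔ ∀ y, MvPolynomial.rename g.1.1 y ∈ P ↔ y ∈ P := fun g =>
    Set.Finite.mem_toFinset _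
  -- the minimal prime
  let 𝔞 : Ideal (MvPolynomial V Λ) := sp D ⊔ Ideal.span {MvPolynomial.C ξ₀}
  have f𝔞 : Module.Finite Λ (MvPolynomial V Λ ⧸ 𝔞) := hfinQ 𝔞 le_sup_left
  have hmin : P ∈ 𝔞.minimalPrimes := by
    refine mem_minimalPrimes_of_finite (Λ := Λ) hP (sup_le hDP ?_) ?_
    · rw [Ideal.span_le, Set.singleton_subset_iff]
      change φ _ = 0
      rw [hφC, hξ₀, map_zero]
    · intro c hc
      have h1 : φ (MvPolynomial.C c) = 0 := hc
      rw [hφC] at h1
      have h2 : c ∈ RingHom.ker (φ₀.comp MvPolynomial.C) := hι₁ (by simpa using h1)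
      rw [hker, Ideal.mem_span_singleton'] at h2
      obtain ⟨d, rfl⟩ := h2
      change MvPolynomial.C (d * ξ₀) ∈ 𝔞
      rw [map_mul]
      exact Ideal.mul_mem_left _ _ (Ideal.mem_sup_right (Ideal.subset_span rfl))
  obtain ⟨c₀, hc₀, mP, hmP, hcP⟩ := exists_mul_pow_mem hmin
  -- the mass
  let c₁ : MvPolynomial V Λ :=
    MvPolynomial.C x₀ * ∏ h ∈ St, MvPolynomial.rename h.1.1 (MvPolynomial.C x₀ * c₀)
  have hx₁ : φ (MvPolynomial.C x₀) ≠ 0 := by
    rw [hφC]
    intro h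
    exact hx₀ (hι₁ (by simpa using h))
  have hc₁ : φ c₁ ≠ 0 := by
    simp only [c₁, map_mul φ, map_prod φ]
    refine mul_ne_zero hx₁ (Finset.prod_ne_zero_iff.2 fun h hh => ?_)
    intro h0
    have h1 := ((hSt h).1 hh _).1 ((hmemP _).2 h0)
    rw [hmemP, map_mul] at h1
    exact mul_ne_zero hx₁ hc₀ h1
  let 𝔟 : Ideal (MvPolynomial V Λ) := 𝔞 ⊔ sp fun g : Sym D => MvPolynomial.rename g.1.1 c₁
  have f𝔟 : Module.Finite Λ (MvPolynomial V Λ ⧸ 𝔟) := hfinQ 𝔟 (le_sup_left.trans le_sup_left)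
  obtain ⟨w₁, hw₁, hw𝔟⟩ := exists_mem_of_points ψ 𝔟 (by
    intro φ' hφ'
    by_cases hD : ∀ v, φ' (D v) = 0
    · obtain ⟨g, hg, hgX⟩ := htrans F φ φ' (fun c => (hφ' c).symm) hφD hD
      have hf := CCov_hom_eq φ φ' g.1 (fun c => (hφ' c).symm) hgX
      refine ⟨MvPolynomial.rename ((⟨g, hg⟩ : Sym D)⁻¹).1.1 c₁,
        Ideal.mem_sup_right (Ideal.subset_span ⟨_, rfl⟩), ?_⟩
      rw [hf, MvPolynomial.rename_rename]
      have h2 : (⇑g.1 ∘ ⇑((⟨g, hg⟩ : Sym D)⁻¹).1.1) = id := by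
        funext v
        change g.1 (g.1⁻¹ v) = v
        simp
      rw [h2, MvPolynomial.rename_id]
      exact hc₁
    · push Not at hD
      obtain ⟨v, hv⟩ := hD
      exact ⟨D v, Ideal.mem_sup_left (Ideal.mem_sup_left (Ideal.subset_span ⟨v, rfl⟩)), hv⟩)
  refine ⟨{
    V := V, D := D, ι₀ := ι₀, loc := loc, hG := hGD, S := S, Φ := Φ, surj := hΦs, j := j,
    inj := hjinj, hΦ := fun t => (hj t).symm, res := hres, hm := hm, σ := σ,
    gal := fun g => a (sel g), w := w, ε := ε, hw := hw, galD := hgal,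
    sel := fun γ => (sel γ).1, hsel := fun γ y => haΦ _ y, St := St,
    one_mem := ?_, hSt := ?_, c₀ := c₀, mP := mP, hmP := hmP,
    hc₀ := fun y hy => hcP y ((hΦ0 y).1 hy), w₁ := w₁, hw₁ := ?_, mass := hw𝔟 }⟩
  · rw [hSt]
    intro y
    change MvPolynomial.rename id y ∈ P ↔ _
    rw [MvPolynomial.rename_id]
    rfl
  · intro γ g
    rw [hSt, hSt]
    refine forall_congr' fun y => ?_
    have h1 : MvPolynomial.rename ((sel γ).1 * g).1.1 y =
        MvPolynomial.rename (sel γ).1.1.1 (MvPolynomial.rename g.1.1 y) := by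
      rw [MvPolynomial.rename_rename]
      rfl
    rw [h1, (sel γ).2]
  · intro h
    rw [Ideal.mem_span_singleton'] at h
    obtain ⟨d, rfl⟩ := h
    apply hw₁
    rw [map_mul]
    have : ψ ξ₀ = 0 := by
      change φ (MvPolynomial.C ξ₀) = 0
      rw [hφC, hξ₀, map_zero]
    rw [this, mul_zero]

end Crest.Agent.R188
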