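import Crest.Agent.R188.BDefs

/-!
# Definitions for the construction of the covers
-/

set_option autoImplicit false

namespace Crest.Agent.R188

open scoped TensorProduct

open Crest.Agent.R183 IsLocalRing WittVector

/-- the ideal generated by the first `t` terms of a sequence -/
def spn {R : Type} [CommRing R] (z : ℕ → R) (t : ℕ) : Ideal R := Ideal.span (z '' Set.Iio t)

/-- the variables of an iterated power series ring -/
noncomputable def tv (W : Type) [CommRing W] (b' n : ℕ) (i : ℕ) :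
    MvPowerSeries (Fin n) (MvPowerSeries (Fin b') W) :=
  if h : i < b' then MvPowerSeries.C (MvPowerSeries.X ⟨i, h⟩)
  else if h' : i - b' < n then MvPowerSeries.X ⟨i - b', h'⟩ else 0

/-- the constants of an iterated power series ring -/
noncomputable def tc (W : Type) [CommRing W] (b' n : ℕ) :
    W →+* MvPowerSeries (Fin n) (MvPowerSeries (Fin b') W) :=
  (MvPowerSeries.C : MvPowerSeries (Fin b') W →+* _).comp MvPowerSeries.C

/-- the symmetries of a system of equations -/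
def Sym {Λ V : Type} [CommRing Λ] (D : V → MvPolynomial V Λ) :
    Subgroup (Equiv.Perm V × Equiv.Perm V) where
  carrier := {g | ∀ v, MvPolynomial.rename g.1 (D v) = D (g.2 v)}
  one_mem' v := by simp
  mul_mem' {g h} hg hh v := by
    change MvPolynomial.rename (g.1 ∘ h.1) (D v) = D (g.2 (h.2 v))
    rw [← MvPolynomial.rename_rename, hh v, hg]
  inv_mem' {g} hg v := by
    have := hg (g.2⁻¹ v)
    change MvPolynomial.rename (⇑(g.1⁻¹)) (D v) = D (g.2⁻¹ v)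
    rw [show g.2 (g.2⁻¹ v) = v by simp] at this
    rw [← this, MvPolynomial.rename_rename]
    simp

theorem mem_Sym {Λ V : Type} [CommRing Λ] {D : V → MvPolynomial V Λ}
    {g : Equiv.Perm V × Equiv.Perm V} :
    g ∈ Sym D ↔ ∀ v, MvPolynomial.rename g.1 (D v) = D (g.2 v) := Iff.rfl

/-- the maximal ideal at the origin -/
noncomputable abbrev mO (Λ V : Type) [CommRing Λ] [IsLocalRing Λ] : Ideal (MvPolynomial V Λ) :=
  (maximalIdeal Λ).map MvPolynomial.C ⊔ sp MvPolynomial.X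

/-- a tower of distinguished monic equations -/
def Tower {Λ : Type} [CommRing Λ] [IsLocalRing Λ] {N : ℕ} (G : Fin N → MvPolynomial (Fin N) Λ) :
    Prop :=
  ∀ j, ∃ f : Polynomial (MvPolynomial (Fin N) Λ), f.Monic ∧ 0 < f.natDegree ∧
    (∀ i, f.coeff i ∈ MvPolynomial.supported Λ {j' | j' < j}) ∧
    (∀ i < f.natDegree, f.coeff i ∈ mO Λ (Fin N)) ∧ G j = f.eval (MvPolynomial.X j)

/-- a system of equations whose only solution modulo the maximal ideal is the origin -/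
structure Loc {Λ V : Type} [CommRing Λ] [IsLocalRing Λ] (D : V → MvPolynomial V Λ) : Prop where
  mem : ∀ v, D v ∈ mO Λ V
  nil : ∀ v, ∃ e : ℕ, MvPolynomial.X v ^ e ∈ sp D ⊔ (maximalIdeal Λ).map MvPolynomial.C

/-- evaluation of polynomials at the terms `a, a + 1, …` of a sequence -/
noncomputable abbrev evN {Λ T : Type} [CommRing Λ] [CommRing T] (ι : Λ →+* T) (y : ℕ → T)
    (a N : ℕ) : MvPolynomial (Fin N) Λ →+* T :=
  MvPolynomial.eval₂Hom ι fun l => y (a + l)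

/-- a symmetric Galois cover of `S₀` cut out by a local system of equations -/
structure SymCov {Λ : Type} [CommRing Λ] [IsLocalRing Λ] (ξ₀ x₀ : Λ) {N : ℕ}
    (G : Fin N → MvPolynomial (Fin N) Λ) {S₀ : Type} [CommRing S₀]
    (φ₀ : MvPolynomial (Fin N) Λ →+* S₀) where
  V : Type
  [fV : Fintype V]
  [eV : DecidableEq V]
  D : V → MvPolynomial V Λ
  ι₀ : Fin N → V
  loc : Loc D
  hG : ∀ l, MvPolynomial.rename ι₀ (G l) ∈ sp D
  S : Type
  [cS : CommRing S]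
  [lS : IsLocalRing S]
  [dS : IsDomain S]
  [aΛ : Algebra Λ S]
  [fΛ : Module.Finite Λ S]
  Φ : MvPolynomial V Λ →ₐ[Λ] S
  surj : Function.Surjective Φ
  j : S₀ →+* S
  inj : Function.Injective j
  hΦ : ∀ t, Φ (MvPolynomial.rename ι₀ t) = j (φ₀ t)
  res : ∀ t : S, ∃ r : Λ, t - algebraMap Λ S r ∈ maximalIdeal S
  hm : ∃ e : ℕ, maximalIdeal S ^ e ≤ (maximalIdeal Λ).map (algebraMap Λ S)
  σ : Type
  [fσ : Fintype σ]
  [eσ : DecidableEq σ]
  gal : σ → S ≃ₐ[Λ] S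
  w : Λ
  ε : σ → S ⊗[Λ] S
  hw : algebraMap Λ S w ≠ 0
  galD : GalD gal w ε
  sel : σ → Sym D
  hsel : ∀ γ y, gal γ (Φ y) = Φ (MvPolynomial.rename (sel γ).1.1 y)
  St : Finset (Sym D)
  one_mem : 1 ∈ St
  hSt : ∀ γ g, sel γ * g ∈ St ↔ g ∈ St
  c₀ : MvPolynomial V Λ
  mP : ℕ
  hmP : 1 ≤ mP
  hc₀ : ∀ y, Φ y = 0 → c₀ * y ^ mP ∈ sp D ⊔ Ideal.span {MvPolynomial.C ξ₀}
  w₁ : Λ
  hw₁ : w₁ ∉ Ideal.span {ξ₀}
  mass : MvPolynomial.C w₁ ∈ sp D ⊔ Ideal.span {MvPolynomial.C ξ₀} ⊔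
    sp fun g : Sym D => MvPolynomial.rename g.1.1
      (MvPolynomial.C x₀ * ∏ h ∈ St, MvPolynomial.rename h.1.1 (MvPolynomial.C x₀ * c₀))

attribute [instance] SymCov.fV SymCov.eV SymCov.cS SymCov.lS SymCov.dS SymCov.aΛ SymCov.fΛ
  SymCov.fσ SymCov.eσ

variable {p : ℕ} [Fact p.Prime] {k : Type} [Field k] [CharP k p] [PerfectRing k p]

/-- a characteristic `p` envelope of precision `K` of a system of equations -/
structure Env {a₀ : ℕ} (θ : WS p k (a₀ + 1) →+* WittVector p (MvPowerSeries (Fin (a₀ + 1)) k))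
    {Ω : Type} (E : Ω → MvPolynomial Ω (WS p k (a₀ + 1))) (K : ℕ) where
  C : Type
  [cC : CommRing C]
  [nC : IsNoetherianRing C]
  [lC : IsLocalRing C]
  [pC : CharP C p]
  [kC : IsAdicComplete (maximalIdeal C) C]
  [aC : Algebra (MvPowerSeries (Fin (a₀ + 1)) k) C]
  [fC : Module.Finite (MvPowerSeries (Fin (a₀ + 1)) k) C]
  inj : Function.Injective (algebraMap (MvPowerSeries (Fin (a₀ + 1)) k) C)
  smem : ∀ i, algebraMap (MvPowerSeries (Fin (a₀ + 1)) k) C (MvPowerSeries.X i) ∈ maximalIdeal C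
  reg : RingTheory.Sequence.IsWeaklyRegular C
    (List.ofFn fun i => algebraMap (MvPowerSeries (Fin (a₀ + 1)) k) C (MvPowerSeries.X i))
  v : Ω → C
  vmem : ∀ o, v o ∈ maximalIdeal C
  eqn : ∀ o, MvPolynomial.eval₂Hom ((WittVector.map ((PerfectClosure.of C p).comp
      (algebraMap (MvPowerSeries (Fin (a₀ + 1)) k) C))).comp θ) (fun o => tw p (v o)) (E o) ∈
    Ideal.span {WittVector.map ((PerfectClosure.of C p).comp
      (algebraMap (MvPowerSeries (Fin (a₀ + 1)) k) C)) (θ (xi0 p k a₀ true))} ⊔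
      Ideal.span {(p : WittVector p (PerfectClosure C p)) ^ K}
  sym : ∀ g ∈ Sym E, ∃ e : C ≃ₐ[MvPowerSeries (Fin (a₀ + 1)) k] C, ∀ o, e (v o) = v (g.1 o)

attribute [instance] Env.cC Env.nC Env.lC Env.pC Env.kC Env.aC Env.fC

/-- the additional data in the case `p ∉ P` -/
structure MixD (X : Base p k) where
  hmix : X.mix = true
  hd : X.b' + X.n = X.a₀ + (X.b + 1)
  hb' : X.b' ≤ X.a₀
  hξp : X.ξ - p ∈ spn (tv (WittVector p k) X.b' X.n) (X.b' + X.n)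
  ι : X.Λ →+* X.T
  ιC : ∀ w, ι (MvPowerSeries.C w) = tc _ _ _ w
  ιZ : ι (MvPowerSeries.X 0) = p
  ιS : ∀ i : Fin X.a₀, ι (MvPowerSeries.X i.succ) = tv _ _ _ i
  hsT : ∀ i, X.sT i = ι (MvPowerSeries.X i)
  ιΛC : ∀ w, X.ιΛ (MvPowerSeries.C w) = MvPowerSeries.C w
  ιΛX : ∀ (i : Fin X.b') (j : Fin X.a₀), i.val = j.val →
    X.ιΛ (MvPowerSeries.X i) = MvPowerSeries.X j.succ
  G : Fin (X.b + 1) → MvPolynomial (Fin (X.b + 1)) X.Λ
  hH : X.H.comap X.π = sp fun l => evN ι (tv _ _ _) X.a₀ (X.b + 1) (G l)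
  hT : ∀ t, ∃ t₀, t - evN ι (tv _ _ _) X.a₀ (X.b + 1) t₀ ∈ X.H.comap X.π
  V : Type
  [fV : Fintype V]
  [eV : DecidableEq V]
  D : V → MvPolynomial V X.Λ
  ι₀ : Fin (X.b + 1) → V
  loc : Loc D
  hG : ∀ l, MvPolynomial.rename ι₀ (G l) ∈ sp D
  Φ : MvPolynomial V X.Λ →ₐ[X.Λ] X.S
  surj : Function.Surjective Φ
  hΦ : ∀ t, Φ (MvPolynomial.rename ι₀ t) =
    algebraMap X.R X.S (X.π (evN ι (tv _ _ _) X.a₀ (X.b + 1) t))
  sel : X.σ → Sym D
  hsel : ∀ γ y, X.gal γ (Φ y) = Φ (MvPolynomial.rename (sel γ).1.1 y)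
  St : Finset (Sym D)
  one_mem : 1 ∈ St
  hSt : ∀ γ g, sel γ * g ∈ St ↔ g ∈ St
  c₀ : MvPolynomial V X.Λ
  hmP : 1 ≤ X.mP
  hc₀ : ∀ y, Φ y = 0 →
    c₀ * y ^ X.mP ∈ sp D ⊔ Ideal.span {MvPolynomial.C (xi0 p k X.a₀ true)}
  eG : X.G → Sym D
  mass : MvPolynomial.C X.w₁ ∈ sp D ⊔ Ideal.span {MvPolynomial.C (xi0 p k X.a₀ true)} ⊔
    sp fun g : X.G => MvPolynomial.rename (eG g).1.1 (MvPolynomial.C (MvPowerSeries.X 0) *
      ∏ h ∈ St, MvPolynomial.rename h.1.1 (MvPolynomial.C (MvPowerSeries.X 0) * c₀))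

attribute [instance] MixD.fV MixD.eV

/-- the additional data in the case `p ∈ P` -/
structure ChpD (X : Base p k) where
  hmix : X.mix = false
  e₀ : ℕ
  hq : X.q₀ = p ^ e₀
  hξp : X.ξ - p ∈ spn (tv (WittVector p k) X.b' X.n) (X.b' + X.n)
  hz : ∀ i, X.π (tv _ _ _ i) ∈ maximalIdeal X.R
  πC : ∀ w, algebraMap X.R X.S (X.π (tc _ _ _ w)) =
    algebraMap X.Λ X.S (MvPowerSeries.C w) ^ X.q₀
  ιΛC : ∀ w, X.ιΛ (MvPowerSeries.C w) =
    MvPowerSeries.C (WittVector.map (iterateFrobenius k p e₀) w)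
  ιΛX : ∀ i : Fin X.b', ∃ j, X.ιΛ (MvPowerSeries.X i) = MvPowerSeries.X j ^ X.q₀ ∧
    X.sT j = MvPowerSeries.C (MvPowerSeries.X i)
  hmP : 1 ≤ X.mP
  dvd : MvPowerSeries.X 0 ∣ X.w₁
  ak : ∀ (q : ℕ) (n : ℤ), 0 < n → ∀ x,
    (R188.K (fun i => algebraMap X.Λ X.S (MvPowerSeries.X i) ^ q) (DG.single X.S X.S)).π n x = x →
    (R188.K (fun i => algebraMap X.Λ X.S (MvPowerSeries.X i) ^ q) (DG.single X.S X.S)).D x = 0 →
    ∃ y, (R188.K (fun i => algebraMap X.Λ X.S (MvPowerSeries.X i) ^ q) (DG.single X.S X.S)).D y =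
      algebraMap X.Λ X.S X.w₁ • x
  g₀ : X.G

end Crest.Agent.R188
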