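import Crest.Agent.R188.CEv
import Crest.Agent.R188.FSpl

/-!
# Presentations of complete regular local rings
-/

set_option autoImplicit false
set_option linter.unusedVariables false

open scoped ENNReal NNReal TensorProduct

namespace Crest.Agent.R188

open Crest.Agent.R183 IsLocalRing WittVector

theorem ker_eq_of_finite {A S : Type} [CommRing A] [IsNoetherianRing A] [CommRing S]
    (f : A →+* S) (hf : f.Finite) (𝔭 : Ideal A) (h𝔭 : 𝔭.IsPrime) (hle : 𝔭 ≤ RingHom.ker f) {δ : ℕ}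
    (hA : ringKrullDim (A ⧸ 𝔭) ≤ δ) (hS : (δ : WithBot ℕ∞) ≤ ringKrullDim S) :
    RingHom.ker f = 𝔭 := by
  refine le_antisymm (fun x hx => by_contra fun hx' => ?_) hle
  let _ := f.toAlgebra
  have : Module.Finite A S := hf
  have h1 := ringKrullDim_le_of_isIntegral A S
  have h2 := ringKrullDim_succ_le_of_surjective (Ideal.Quotient.factor hle)
    (Ideal.Quotient.factor_surjective hle) (r := Ideal.Quotient.mk 𝔭 x)
    (mem_nonZeroDivisors_of_ne_zero fun h => hx' (Ideal.Quotient.eq_zero_iff_mem.1 h))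
    (by rw [Ideal.Quotient.factor_mk]; exact Ideal.Quotient.eq_zero_iff_mem.2 hx)
  have h3 : (δ : WithBot ℕ∞) + 1 ≤ δ := (add_le_add_left (hS.trans h1) 1).trans (h2.trans hA)
  have h4 : δ + 1 ≤ δ := by exact_mod_cast h3
  omega

theorem CPres_fg {A R : Type} [CommRing A] [CommRing R] [IsNoetherianRing R] [Algebra A R]
    (J : Ideal R) (hres : ∀ r : R, ∃ a, r - algebraMap A R a ∈ J) (c : ℕ) :
    ∃ N : Submodule A R, N.FG ∧ ∀ r, ∃ a ∈ N, r - a ∈ J ^ c := by
  induction c with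
  | zero => exact ⟨⊥, Submodule.fg_bot, fun r => ⟨0, Submodule.zero_mem _, by simp⟩⟩
  | succ c ih =>
    obtain ⟨N, hN, h⟩ := ih
    obtain ⟨t, ht⟩ := (Ideal.fg_of_isNoetherianRing (J ^ c))
    refine ⟨N ⊔ Submodule.span A t, hN.sup ⟨t, rfl⟩, fun r => ?_⟩
    obtain ⟨a, ha, hr⟩ := h r
    rw [← ht] at hr
    obtain ⟨g, -, hg⟩ := Submodule.mem_span_finset.1 hr
    choose u hu using fun i => hres (g i)
    refine ⟨a + ∑ i ∈ t, u i • i, Submodule.add_mem_sup ha (Submodule.sum_mem _ fun i hi =>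
      Submodule.smul_mem _ _ (Submodule.subset_span hi)), ?_⟩
    rw [← sub_sub, ← hg, ← Finset.sum_sub_distrib, pow_succ']
    refine Ideal.sum_mem _ fun i hi => ?_
    rw [smul_eq_mul, Algebra.smul_def, ← sub_mul]
    exact Ideal.mul_mem_mul (hu i) (ht ▸ Ideal.subset_span hi)

/-- finiteness over a complete ring -/
theorem finite_of_pow_le {A R : Type} [CommRing A] [IsNoetherianRing A] [IsLocalRing A]
    [IsAdicComplete (maximalIdeal A) A] [CommRing R] [IsNoetherianRing R] [IsLocalRing R]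
    (f : A →+* R) (hf : (maximalIdeal A).map f ≤ maximalIdeal R)
    (hres : ∀ r : R, ∃ a, r - f a ∈ maximalIdeal R) (I : Ideal R)
    (h : ∃ c : ℕ, maximalIdeal R ^ c ≤ I ⊔ (maximalIdeal A).map f) :
    ((Ideal.Quotient.mk I).comp f).Finite := by
  let _ := f.toAlgebra
  obtain ⟨c, hc⟩ := h
  obtain ⟨N, hN, hs⟩ := CPres_fg (A := A) (maximalIdeal R) hres c
  have h1 : IsHausdorff ((maximalIdeal A).map (algebraMap A R)) (R ⧸ I) :=
    IsHausdorff.of_isLocalRing _ _ fun h =>
      (maximalIdeal.isMaximal R).ne_top (top_le_iff.1 (h ▸ hf))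
  have h2 : IsHausdorff (maximalIdeal A) (R ⧸ I) := IsHausdorff.map_algebraMap_iff.1 h1
  have h3 : Module.Finite A ((R ⧸ I) ⧸ (maximalIdeal A • ⊤ : Submodule A (R ⧸ I))) := by
    let g : R →ₗ[A] (R ⧸ I) ⧸ (maximalIdeal A • ⊤ : Submodule A (R ⧸ I)) :=
      (maximalIdeal A • ⊤ : Submodule A (R ⧸ I)).mkQ ∘ₗ (Ideal.Quotient.mkₐ A I).toLinearMap
    have hg : N.map g = ⊤ := by
      refine eq_top_iff.2 fun y _ => ?_
      obtain ⟨y, rfl⟩ := Submodule.mkQ_surjective _ y
      obtain ⟨r, rfl⟩ := Ideal.Quotient.mk_surjective y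
      obtain ⟨a, ha, hr⟩ := hs r
      refine ⟨a, ha, ?_⟩
      obtain ⟨i, hi, j, hj, e⟩ := Submodule.mem_sup.1 (hc hr)
      change Submodule.mkQ _ (Ideal.Quotient.mk I a) = _
      rw [eq_comm, Submodule.mkQ_apply, Submodule.mkQ_apply, Submodule.Quotient.eq, ← map_sub, ← e,
        map_add, Ideal.Quotient.eq_zero_iff_mem.2 hi, zero_add, Ideal.smul_top_eq_map,
        Submodule.restrictScalars_mem]
      have := Ideal.mem_map_of_mem (Ideal.Quotient.mk I) hj
      rwa [Ideal.map_map] at this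
    exact ⟨hg ▸ hN.map g⟩
  have h4 := finite_of_complete (maximalIdeal A) (R ⧸ I)
  exact RingHom.finite_algebraMap.2 h4

/-- generation over a complete ring -/
theorem adjoin_eq_top_of_pow_le {A S : Type} [CommRing A] [IsLocalRing A] [CommRing S]
    [IsLocalRing S] [Algebra A S] [Module.Finite A S]
    (hres : ∀ r : S, ∃ a, r - algebraMap A S a ∈ maximalIdeal S) {ι : Type} (v : ι → S)
    (hv : maximalIdeal S ≤ sp v ⊔ (maximalIdeal A).map (algebraMap A S))
    (hv' : ∀ i, v i ∈ maximalIdeal S) : Algebra.adjoin A (Set.range v) = ⊤ := by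
  set J : Ideal S := (maximalIdeal A).map (algebraMap A S) with hJ
  have hle : maximalIdeal A ≤ J.comap (algebraMap A S) := Ideal.le_comap_map
  let _ : Algebra (A ⧸ maximalIdeal A) (S ⧸ J) := Ideal.Quotient.algebraQuotientOfLEComap hle
  have : IsScalarTower A (A ⧸ maximalIdeal A) (S ⧸ J) :=
    IsScalarTower.of_algebraMap_eq fun _ => rfl
  have h2 : Module.Finite (A ⧸ maximalIdeal A) (S ⧸ J) :=
    Module.Finite.of_restrictScalars_finite A _ _
  let _ := Ideal.Quotient.field (maximalIdeal A)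
  have h3 : IsArtinianRing (S ⧸ J) := IsArtinianRing.of_finite (A ⧸ maximalIdeal A) _
  obtain ⟨e, he⟩ := exists_maximalIdeal_pow_le_of_isArtinianRing_quotient J
  have hvm : sp v ≤ maximalIdeal S := Ideal.span_le.2 (by rintro _ ⟨i, rfl⟩; exact hv' i)
  have key : ∀ (N : ℕ) (s : S), ∃ b ∈ Algebra.adjoin A (Set.range v), s - b ∈ sp v ^ N ⊔ J := by
    intro N
    induction N with
    | zero => exact fun s => ⟨0, Subalgebra.zero_mem _, by simp⟩
    | succ N ih =>
      intro s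
      obtain ⟨a, ha⟩ := hres s
      obtain ⟨y, hy, j, hj, e⟩ := Submodule.mem_sup.1 (hv ha)
      have h5 : ∀ t : S, ∃ b ∈ Algebra.adjoin A (Set.range v),
          t * y - b ∈ sp v ^ (N + 1) ⊔ J := by
        clear e
        induction hy using Submodule.span_induction with
        | mem x hx =>
          intro t
          obtain ⟨b, hb, ht⟩ := ih t
          refine ⟨b * x, Subalgebra.mul_mem _ hb (Algebra.subset_adjoin hx), ?_⟩
          obtain ⟨y', hy', j', hj', e'⟩ := Submodule.mem_sup.1 ht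
          rw [← sub_mul, ← e', add_mul, pow_succ]
          exact Submodule.add_mem_sup (Ideal.mul_mem_mul hy' (Ideal.subset_span hx))
            (J.mul_mem_right _ hj')
        | zero => exact fun t => ⟨0, Subalgebra.zero_mem _, by simp⟩
        | add x x' _ _ hx hx' =>
          intro t
          obtain ⟨b, hb, h⟩ := hx t
          obtain ⟨b', hb', h'⟩ := hx' t
          refine ⟨b + b', Subalgebra.add_mem _ hb hb', ?_⟩
          convert Ideal.add_mem _ h h' using 1
          ring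
        | smul r x _ hx =>
          intro t
          obtain ⟨b, hb, h⟩ := hx (t * r)
          exact ⟨b, hb, by rwa [smul_eq_mul, ← mul_assoc]⟩
      obtain ⟨b, hb, h⟩ := h5 1
      refine ⟨algebraMap A S a + b, Subalgebra.add_mem _ (Subalgebra.algebraMap_mem _ a) hb, ?_⟩
      rw [← sub_sub, ← e]
      convert Ideal.add_mem _ h (Ideal.mem_sup_right hj) using 1
      ring
  have h6 : (⊤ : Submodule A S) ≤ (Algebra.adjoin A (Set.range v)).toSubmodule := by
    refine Submodule.le_of_le_smul_of_le_jacobson_bot (I := maximalIdeal A) Module.Finite.fg_top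
      (maximalIdeal_le_jacobson _) fun s _ => ?_
    obtain ⟨b, hb, h⟩ := key e s
    have h7 : s - b ∈ J := (sup_le ((Ideal.pow_right_mono hvm e).trans he) le_rfl :) h
    refine Submodule.mem_sup.2 ⟨b, hb, s - b, ?_, by ring⟩
    rw [Ideal.smul_top_eq_map]
    exact h7
  exact eq_top_iff.2 fun s _ => h6 trivial

theorem CPres_spn_map {T R : Type} [CommRing T] [CommRing R] (π : T →+* R) (y : ℕ → T)
    (z : ℕ → R) {d : ℕ} (h : ∀ i < d, π (y i) = z i) : (spn y d).map π = spn z d := by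
  rw [spn, Ideal.map_span, Set.image_image, spn]
  exact congrArg Ideal.span (Set.image_congr h)

theorem CPres_spn_eq {T : Type} [CommRing T] (y : ℕ → T) (d : ℕ) :
    spn y d = sp fun i : Fin d => y i := by
  refine congrArg Ideal.span (Set.ext fun x => ⟨?_, ?_⟩)
  · rintro ⟨i, hi, rfl⟩
    exact ⟨⟨i, hi⟩, rfl⟩
  · rintro ⟨i, rfl⟩
    exact ⟨i, i.2, rfl⟩

theorem CPres_eval {W R : Type} [CommRing W] [IsNoetherianRing W] [IsLocalRing W]
    [IsAdicComplete (maximalIdeal W) W] [CommRing R] [IsNoetherianRing R] [IsLocalRing R]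
    [IsAdicComplete (maximalIdeal R) R] (ω : W →+* R) (hω : ∀ r, ∃ w, r - ω w ∈ maximalIdeal R)
    (hp : (maximalIdeal W).map ω ≤ maximalIdeal R) (z : ℕ → R) (b' n : ℕ)
    (hz : spn z (b' + n) = maximalIdeal R) :
    ∃ π : MvPowerSeries (Fin n) (MvPowerSeries (Fin b') W) →+* R, Function.Surjective π ∧
      (∀ w, π (tc _ _ _ w) = ω w) ∧ ∀ i < b' + n, π (tv _ _ _ i) = z i := by
  obtain ⟨π, hC, hX⟩ := exists_eval_nested b' n (maximalIdeal R) ω z fun i hi =>
    hz ▸ Ideal.subset_span ⟨i, hi, rfl⟩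
  refine ⟨π, ?_, hC, hX⟩
  have h1 : IsAdicComplete (maximalIdeal (MvPowerSeries (Fin b') W)) (MvPowerSeries (Fin b') W) :=
    isAdicComplete_mvPowerSeries _ (Ideal.fg_of_isNoetherianRing _) _
  have h2 := isAdicComplete_mvPowerSeries (MvPowerSeries (Fin b') W)
    (Ideal.fg_of_isNoetherianRing _) (Fin n)
  have hmap : (maximalIdeal (MvPowerSeries (Fin n) (MvPowerSeries (Fin b') W))).map π =
      maximalIdeal R := by
    rw [maximalIdeal_nested, Ideal.map_sup, CPres_spn_map π _ z hX, hz, Ideal.map_map,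
      show π.comp (tc W b' n) = ω from RingHom.ext hC, sup_eq_right.2 hp]
  refine surjective_of_mk_map_comp_surjective
    (I := maximalIdeal (MvPowerSeries (Fin n) (MvPowerSeries (Fin b') W))) π
    (haus := hmap ▸ inferInstance) fun y => ?_
  obtain ⟨b, rfl⟩ := Ideal.Quotient.mk_surjective y
  obtain ⟨a, ha⟩ := hω b
  refine ⟨tc _ _ _ a, ?_⟩
  rw [RingHom.comp_apply, hC, eq_comm, Ideal.Quotient.mk_eq_mk_iff_sub_mem, hmap]
  exact ha

theorem CPres_cast {B : Type} [CommRing B] [IsLocalRing B] {d d' : ℕ} (h : d = d') {x : Fin d → B}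
    (hx : RegL B x) : ∃ x' : Fin d' → B, RegL B x' := by
  subst h
  exact ⟨x, hx⟩

variable {p : ℕ} [Fact p.Prime] {k : Type} [Field k] [CharP k p] [PerfectRing k p]
  {R : Type} [CommRing R] [IsNoetherianRing R] [IsLocalRing R]

theorem exists_pres [IsAdicComplete (maximalIdeal R) R] {d : ℕ} {x : Fin d → R} (hx : RegL R x)
    (ω : WittVector p k →+* R) (hω : ∀ r, ∃ w, r - ω w ∈ maximalIdeal R)
    (hp : (p : R) ∈ maximalIdeal R) (z : ℕ → R) {b' n : ℕ} (hd : b' + n = d)
    (hz : spn z d = maximalIdeal R) :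
    ∃ (π : MvPowerSeries (Fin n) (WS p k b') →+* R) (ξ : MvPowerSeries (Fin n) (WS p k b')),
      Function.Surjective π ∧ RingHom.ker π = Ideal.span {ξ} ∧ ξ ≠ 0 ∧
      ξ - p ∈ spn (tv (WittVector p k) b' n) (b' + n) ∧ (∀ w, π (tc _ _ _ w) = ω w) ∧
      ∀ i < d, π (tv _ _ _ i) = z i := by
  subst hd
  have := isAdicComplete_wittVector p k
  obtain ⟨π, hπ, hC, hX⟩ := CPres_eval ω hω (by
    rw [maximalIdeal_wittVector, Ideal.map_span, Set.image_singleton, map_natCast]
    exact (Ideal.span_singleton_le_iff_mem _).2 hp) z b' n hz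
  rw [← hz, ← CPres_spn_map π _ z hX] at hp
  obtain ⟨t, ht, e⟩ := (Ideal.mem_map_iff_of_surjective π hπ).1 hp
  obtain ⟨y, hy⟩ := CPres_cast (show b' + 1 + n = b' + n + 1 by omega)
    ((regL_witt_series p k b').mvPowerSeries n)
  have hm : sp (Fin.cons ((p : MvPowerSeries (Fin n) (WS p k b')) - t)
      (fun i : Fin (b' + n) => tv (WittVector p k) b' n i) : Fin (b' + n + 1) → _) =
      maximalIdeal (MvPowerSeries (Fin n) (WS p k b')) := by
    rw [maximalIdeal_nested, maximalIdeal_wittVector, Ideal.map_span, Set.image_singleton,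
      map_natCast, sp, Fin.range_cons, Ideal.span_insert, ← sp, ← CPres_spn_eq]
    refine le_antisymm (sup_le ((Ideal.span_singleton_le_iff_mem _).2 ?_) le_sup_right)
      (sup_le ((Ideal.span_singleton_le_iff_mem _).2 ?_) le_sup_right)
    · exact Ideal.sub_mem _ (Ideal.mem_sup_left (Ideal.mem_span_singleton_self _))
        (Ideal.mem_sup_right ht)
    · exact Submodule.mem_sup.2 ⟨_, Ideal.mem_span_singleton_self _, t, ht, by ring⟩
  obtain ⟨h1, _, h2⟩ := HReg_tail (hy.of_span _ hm)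
  rw [Fin.cons_zero] at h1
  have h0 : π ((p : MvPowerSeries (Fin n) (WS p k b')) - t) = 0 := by
    rw [map_sub, map_natCast, e, sub_self]
  refine ⟨π, p - t, hπ, ?_, fun h => IsSMulRegular.not_zero (h ▸ h1 :), ?_, hC, hX⟩
  · exact ker_eq_of_finite π (RingHom.Finite.of_surjective π hπ) _
      ((Ideal.Quotient.isDomain_iff_prime _).1 h2.isDomain)
      ((Ideal.span_singleton_le_iff_mem _).2 h0) h2.dim.le hx.dim.ge
  · rw [sub_sub_cancel_left]
    exact Submodule.neg_mem _ ht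

theorem finQ_kerQ {b b' n : ℕ} (π : MvPowerSeries (Fin n) (WS p k b') →+* R)
    (hπ : Function.Surjective π) (z : ℕ → R) (hz : ∀ i < b', π (tv _ _ _ i) = z i) (Q : Ideal R)
    (hQ : Q.IsPrime) (hb : ringKrullDim (R ⧸ Q) = b)
    (h : ∃ c : ℕ, maximalIdeal R ^ c ≤ Q ⊔ Ideal.span {(p : R)} ⊔ spn z b') {r : ℕ}
    (hcase : (r = 0 ∧ b = b' + 1) ∨ (r = 1 ∧ (p : R) ∈ Q ∧ b = b')) :
    Module.Finite (WS p k b') (MvPowerSeries (Fin n) (WS p k b') ⧸ Q.comap π) ∧
      (Q.comap π).comap MvPowerSeries.C = sp fun _ : Fin r => (p : WS p k b') := by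
  have := isAdicComplete_witt_series p k b'
  have hA := regL_witt_series p k b'
  obtain ⟨c, hc⟩ := h
  have h1 : Ideal.span {(p : R)} ⊔ spn z b' ≤
      ((maximalIdeal (WS p k b')).map MvPowerSeries.C).map π := by
    refine sup_le ((Ideal.span_singleton_le_iff_mem _).2 ?_) (Ideal.span_le.2 ?_)
    · have := Ideal.mem_map_of_mem π (Ideal.mem_map_of_mem
        (MvPowerSeries.C : WS p k b' →+* MvPowerSeries (Fin n) (WS p k b')) (hA.mem_max 0))
      rwa [Fin.cons_zero, map_natCast, map_natCast] at this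
    · rintro _ ⟨i, hi, rfl⟩
      have := Ideal.mem_map_of_mem π (Ideal.mem_map_of_mem
        (MvPowerSeries.C : WS p k b' →+* MvPowerSeries (Fin n) (WS p k b'))
        (hA.mem_max (Fin.succ ⟨i, hi⟩)))
      rw [← hz i hi, tv, dif_pos (show i < b' from hi)]
      exact this
  have hfin : ((Ideal.Quotient.mk (Q.comap π)).comp
      (MvPowerSeries.C : WS p k b' →+* MvPowerSeries (Fin n) (WS p k b'))).Finite := by
    refine finite_of_pow_le _ (by rw [maximalIdeal_mvPowerSeries _ (Fin n)]; exact le_sup_left)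
      (fun t => ⟨MvPowerSeries.coeff 0 t, by rw [Complete_mem_max]; simp⟩) _ ⟨c, fun t ht => ?_⟩
    have h2 := Ideal.mem_map_of_mem π ht
    rw [Ideal.map_pow, map_maximalIdeal_of_surjective π hπ] at h2
    have h3 := hc h2
    rw [sup_assoc] at h3
    obtain ⟨q, hq, j, hj, e⟩ := Submodule.mem_sup.1 h3
    obtain ⟨j', hj', rfl⟩ := (Ideal.mem_map_iff_of_surjective π hπ).1 (h1 hj)
    refine Submodule.mem_sup.2 ⟨t - j', ?_, j', hj', by ring⟩
    rw [Ideal.mem_comap, map_sub, ← e, add_sub_cancel_right]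
    exact hq
  have hdim : (b : WithBot ℕ∞) ≤
      ringKrullDim (MvPowerSeries (Fin n) (WS p k b') ⧸ Q.comap π) :=
    hb.ge.trans (ringKrullDim_le_of_surjective (Ideal.quotientMap Q π le_rfl)
      (Ideal.quotientMap_surjective hπ))
  have hker : RingHom.ker ((Ideal.Quotient.mk (Q.comap π)).comp
      (MvPowerSeries.C : WS p k b' →+* MvPowerSeries (Fin n) (WS p k b'))) =
      (Q.comap π).comap MvPowerSeries.C := by
    rw [← RingHom.comap_ker, Ideal.mk_ker]
  refine ⟨RingHom.finite_algebraMap.1 hfin, ?_⟩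
  rw [← hker]
  rcases hcase with ⟨rfl, rfl⟩ | ⟨rfl, hp, rfl⟩
  · have e : (sp fun _ : Fin 0 => (p : WS p k b')) = ⊥ := by simp [sp]
    rw [e]
    exact ker_eq_of_finite _ hfin ⊥ Ideal.isPrime_bot bot_le
      ((ringKrullDim_quotient_le _).trans hA.dim.le) hdim
  · have e : (sp fun _ : Fin 1 => (p : WS p k b)) = Ideal.span {(p : WS p k b)} := by simp [sp]
    rw [e]
    obtain ⟨-, _, h2⟩ := HReg_tail hA
    refine ker_eq_of_finite _ hfin _ ((Ideal.Quotient.isDomain_iff_prime _).1 h2.isDomain)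
      ((Ideal.span_singleton_le_iff_mem _).2 ?_) h2.dim.le hdim
    rw [hker, Ideal.mem_comap, Ideal.mem_comap, map_natCast, map_natCast]
    exact hp

theorem exists_spl_mem {R : Type} [CommRing R] {d : ℕ} (hR : HasRes R d) (Q H : Ideal R) (ϖ : R)
    {c₀ : ℕ} (h : ϖ ^ c₀ ∈ H ⊔ Q) :
    ∃ (E : MC R) (m : ℕ) (δ : ℕ → ℤ) (U : Matrix E.ι (Fin (2 * m)) R)
      (U' : Matrix (Fin (2 * m)) E.ι R) (c : ℕ), E.IsRes (R ⧸ Q) ∧ Antitone δ ∧
      ASpl E m δ U U' (ϖ ^ c) H ∧ ϖ ^ c ∈ H ⊔ Q := by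
  obtain ⟨E, m, δ, U, U', c, h1, h2, h3⟩ := exists_spl hR Q H ϖ h
  refine ⟨E, m, δ, U, ϖ ^ c₀ • U', c + c₀, h1, h2, ?_, ?_⟩
  · rw [pow_add]
    exact h3.mul _
  · rw [pow_add]
    exact Ideal.mul_mem_left _ _ h

/-- the equicharacteristic presentation -/
theorem exists_pres_field {k R : Type} [Field k] [CommRing R] [IsNoetherianRing R] [IsLocalRing R]
    [IsAdicComplete (maximalIdeal R) R] {d : ℕ} {x : Fin d → R} (hx : RegL R x) (s : k →+* R)
    (hs : ∀ r, ∃ a, r - s a ∈ maximalIdeal R) (z : ℕ → R) {b n : ℕ} (hd : b + n = d)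
    (hz : spn z d = maximalIdeal R) :
    ∃ π : MvPowerSeries (Fin n) (MvPowerSeries (Fin b) k) →+* R, Function.Bijective π ∧
      (∀ a, π (tc _ _ _ a) = s a) ∧ ∀ i < d, π (tv _ _ _ i) = z i := by
  subst hd
  obtain ⟨π, hπ, hC, hX⟩ := CPres_eval s hs (by
    rw [maximalIdeal_eq_bot, Ideal.map_bot]
    exact bot_le) z b n hz
  refine ⟨π, ⟨(RingHom.injective_iff_ker_eq_bot π).2 ?_, hπ⟩, hC, hX⟩
  exact ker_eq_of_finite π (RingHom.Finite.of_surjective π hπ) ⊥ Ideal.isPrime_bot bot_le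
    ((ringKrullDim_quotient_le _).trans ((regL_field_series k b).mvPowerSeries n).dim.le) hx.dim.ge

end Crest.Agent.R188
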