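import Crest.Agent.R188.CEv
import Crest.Agent.R188.CPres

/-!
# Characteristic `p` envelopes
-/

set_option autoImplicit false
set_option linter.unusedVariables false
set_option linter.unusedSectionVars false

open scoped ENNReal NNReal TensorProduct

namespace Crest.Agent.R188

open Crest.Agent.R183 IsLocalRing WittVector

variable {p : ℕ} [Fact p.Prime] {k : Type} [Field k] [CharP k p] [PerfectRing k p]

/-- the auxiliary Witt vector of new variables -/
noncomputable def CEnv_Y (p : ℕ) {D Ω : Type} [CommRing D] {K : ℕ} (x : Ω ⊕ Ω × Fin K → D)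
    (o : Ω) : WittVector p D :=
  WittVector.mk p fun i => if h : i < K then x (Sum.inr (o, ⟨i, h⟩)) else 0

/-- the equations of the envelope -/
noncomputable def CEnv_Z {Λ D Ω : Type} [CommRing Λ] [CommRing D] {K : ℕ}
    (θ : Λ →+* WittVector p D) (ξ : Λ) (e : Ω → Λ) (E : Ω → MvPolynomial Ω Λ)
    (x : Ω ⊕ Ω × Fin K → D) (o : Ω) : WittVector p D :=
  MvPolynomial.eval₂Hom θ (fun o' => teichmuller p (x (Sum.inl o'))) (E o) - θ ξ * θ (e o) +
    θ ξ * CEnv_Y p x o

theorem CEnv_map_Y {D D' Ω : Type} [CommRing D] [CommRing D'] {K : ℕ} (π : D →+* D')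
    (x : Ω ⊕ Ω × Fin K → D) (o : Ω) :
    WittVector.map π (CEnv_Y p x o) = CEnv_Y p (fun v => π (x v)) o := by
  ext i
  rw [WittVector.map_coeff]
  simp only [CEnv_Y, WittVector.coeff_mk]
  split_ifs <;> simp

theorem CEnv_map_Z {Λ D D' Ω : Type} [CommRing Λ] [CommRing D] [CommRing D'] {K : ℕ}
    (π : D →+* D') (θ : Λ →+* WittVector p D) (ξ : Λ) (e : Ω → Λ) (E : Ω → MvPolynomial Ω Λ)
    (x : Ω ⊕ Ω × Fin K → D) (o : Ω) :
    WittVector.map π (CEnv_Z θ ξ e E x o) =
      CEnv_Z ((WittVector.map π).comp θ) ξ e E (fun v => π (x v)) o := by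
  simp only [CEnv_Z, map_add, map_sub, map_mul, CEnv_map_Y, RingHom.comp_apply,
    MvPolynomial.map_eval₂Hom, WittVector.map_teichmuller]

theorem CEnv_Z_perm {Λ D Ω : Type} [CommRing Λ] [CommRing D] {K : ℕ}
    (θ : Λ →+* WittVector p D) (ξ : Λ) (e : Ω → Λ) (E : Ω → MvPolynomial Ω Λ)
    (x : Ω ⊕ Ω × Fin K → D) (g : Equiv.Perm Ω × Equiv.Perm Ω) (hg : g ∈ Sym E)
    (he : ∀ o, e (g.2 o) = e o) (o : Ω) :
    CEnv_Z θ ξ e E (fun v => x (Sum.map g.1 (Prod.map g.2 id) v)) o =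
      CEnv_Z θ ξ e E x (g.2 o) := by
  unfold CEnv_Z
  rw [← hg o, he, MvPolynomial.eval₂Hom_rename]
  rfl

/-- the generators of the ideal of the envelope -/
noncomputable def CEnv_gen {D Ω : Type} {K : ℕ} (Z : Ω → WittVector p D) :
    Ω ⊕ Ω × Fin K → D :=
  Sum.elim (fun o => (Z o).coeff 0) fun q => (Z q.1).coeff (q.2 + 1)

omit [PerfectRing k p] in
theorem CEnv_theta {a : ℕ} (θ : WS p k a →+* WittVector p (MvPowerSeries (Fin a) k))
    (hC : ∀ w, θ (MvPowerSeries.C w) = WittVector.map MvPowerSeries.C w)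
    (hX : ∀ i, θ (MvPowerSeries.X i) = teichmuller p (MvPowerSeries.X i))
    {D : Type} [CommRing D] (π : MvPowerSeries (Fin a) k →+* D)
    (hπ : ∀ i, π (MvPowerSeries.X i) = 0) :
    (WittVector.map π).comp θ =
      (WittVector.map (π.comp MvPowerSeries.C)).comp MvPowerSeries.constantCoeff := by
  have h0 : ∀ i, ((WittVector.map π).comp θ) (MvPowerSeries.X i) = 0 := fun i => by
    rw [RingHom.comp_apply, hX, WittVector.map_teichmuller, hπ, teichmuller_zero]
  refine mvPowerSeries_hom_ext _ _ (fun w => ?_) (fun i => ?_) ?_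
  · rw [RingHom.comp_apply, hC, RingHom.comp_apply, MvPowerSeries.constantCoeff_C]
    ext n
    simp [WittVector.map_coeff]
  · rw [h0]
    simp
  · refine le_bot_iff.1 ((iInf_le _ 1).trans ?_)
    rw [pow_one, Ideal.span_le]
    rintro _ ⟨i, rfl⟩
    exact h0 i

theorem CEnv_exists_e {a : ℕ} {Ω : Type} (E : Ω → MvPolynomial Ω (WS p k a)) (hE : Loc E) :
    ∃ e : Ω → WittVector p k, ∀ o, (p : WittVector p k) * e o =
      MvPowerSeries.constantCoeff (MvPolynomial.constantCoeff (E o)) := by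
  have h : ∀ o, MvPowerSeries.constantCoeff (MvPolynomial.constantCoeff (E o)) ∈
      Ideal.span {(p : WittVector p k)} := by
    intro o
    have h1 : mO (WS p k a) Ω ≤ (Ideal.span {(p : WittVector p k)}).comap
        ((MvPowerSeries.constantCoeff : WS p k a →+* _).comp MvPolynomial.constantCoeff) := by
      refine sup_le ?_ ?_
      · rw [Ideal.map_le_iff_le_comap]
        intro x hx
        rw [Complete_mem_max, maximalIdeal_wittVector] at hx
        simpa using hx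
      · rw [Ideal.span_le]
        rintro _ ⟨i, rfl⟩
        simp
    exact h1 (hE.mem o)
  choose e he using fun o => Ideal.mem_span_singleton'.1 (h o)
  exact ⟨e, fun o => by rw [mul_comm, he]⟩

section red

variable {a₀ : ℕ} {Ω : Type} (E : Ω → MvPolynomial Ω (WS p k (a₀ + 1))) {K : ℕ}
  (e : Ω → WittVector p k) {D : Type} [CommRing D] (ι : k →+* D)

omit [CharP k p] [PerfectRing k p] in
theorem CEnv_Z_zero (he : ∀ o, (p : WittVector p k) * e o =
      MvPowerSeries.constantCoeff (MvPolynomial.constantCoeff (E o)))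
    (x : Ω ⊕ Ω × Fin K → D) (hx : ∀ o, x (Sum.inl o) = 0) (o : Ω) :
    CEnv_Z ((WittVector.map ι).comp MvPowerSeries.constantCoeff) (xi0 p k a₀ true)
      (fun o => MvPowerSeries.C (e o)) E x o = CEnv_Y p x o * p := by
  have h1 : (fun o' => teichmuller p (x (Sum.inl o'))) = fun _ => 0 := by
    funext o'
    rw [hx, teichmuller_zero]
  have h2 : ((WittVector.map ι).comp MvPowerSeries.constantCoeff) (xi0 p k a₀ true) =
      (p : WittVector p D) := by
    simp [xi0]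
  unfold CEnv_Z
  rw [h1, h2, MvPolynomial.eval₂Hom_zero'_apply, RingHom.comp_apply, ← he]
  simp [mul_comm]

theorem CEnv_vanish [IsDomain D] [CharP D p] (hE : Loc E) (he : ∀ o, (p : WittVector p k) * e o =
      MvPowerSeries.constantCoeff (MvPolynomial.constantCoeff (E o)))
    (x : Ω ⊕ Ω × Fin K → D)
    (hx : ∀ v : Ω ⊕ Ω × Fin K, CEnv_gen (CEnv_Z
      ((WittVector.map ι).comp MvPowerSeries.constantCoeff) (xi0 p k a₀ true)
      (fun o => MvPowerSeries.C (e o)) E x) v = 0) (v : Ω ⊕ Ω × Fin K) : x v = 0 := by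
  set θ' : WS p k (a₀ + 1) →+* WittVector p D :=
    (WittVector.map ι).comp MvPowerSeries.constantCoeff with hθ'
  have h2 : θ' (xi0 p k a₀ true) = (p : WittVector p D) := by
    simp [hθ', xi0]
  let ψ : MvPolynomial Ω (WS p k (a₀ + 1)) →+* D :=
    MvPolynomial.eval₂Hom ((constantCoeff : WittVector p D →+* D).comp θ') fun o => x (Sum.inl o)
  have hψ : ∀ o, ψ (E o) = 0 := by
    intro o
    have h3 : (constantCoeff : WittVector p D →+* D) (CEnv_Z θ' (xi0 p k a₀ true)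
      (fun o => MvPowerSeries.C (e o)) E x o) = 0 := hx (Sum.inl o)
    unfold CEnv_Z at h3
    rw [h2, map_add, map_sub, map_mul, map_mul, map_natCast, CharP.cast_eq_zero, zero_mul,
      zero_mul, sub_zero, add_zero, MvPolynomial.map_eval₂Hom] at h3
    exact h3
  have hle : sp E ⊔ (maximalIdeal (WS p k (a₀ + 1))).map MvPolynomial.C ≤ RingHom.ker ψ := by
    refine sup_le ?_ ?_
    · rw [Ideal.span_le]
      rintro _ ⟨o, rfl⟩
      exact hψ o
    · rw [Ideal.map_le_iff_le_comap]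
      intro y hy
      rw [Complete_mem_max, maximalIdeal_wittVector, mem_span_p_iff_coeff_zero_eq_zero] at hy
      rw [Ideal.mem_comap, RingHom.mem_ker]
      simp only [ψ, MvPolynomial.coe_eval₂Hom, MvPolynomial.eval₂_C, RingHom.comp_apply, hθ',
        constantCoeff_apply, WittVector.map_coeff]
      rw [← MvPowerSeries.coeff_zero_eq_constantCoeff_apply, hy, map_zero]
  have h0 : ∀ o, x (Sum.inl o) = 0 := by
    intro o
    obtain ⟨n, hn⟩ := hE.nil o
    have h4 := hle hn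
    rw [RingHom.mem_ker, map_pow] at h4
    simpa [ψ] using eq_zero_of_pow_eq_zero h4
  rcases v with o | ⟨o, i⟩
  · exact h0 o
  · have h5 : (CEnv_Z θ' (xi0 p k a₀ true) (fun o => MvPowerSeries.C (e o)) E x o).coeff
        (i + 1) = 0 := hx (Sum.inr (o, i))
    rw [hθ', CEnv_Z_zero E e ι he x h0, mul_charP_coeff_succ] at h5
    have h7 := eq_zero_of_pow_eq_zero h5
    simpa [CEnv_Y] using h7

end red

theorem CEnv_regB (k : Type) [Field k] (a : ℕ) {V : Type} {N : ℕ} (f : Fin N ≃ V) :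
    RingTheory.Sequence.IsWeaklyRegular (MvPowerSeries V (MvPowerSeries (Fin a) k))
      (List.ofFn (Fin.append (fun i => MvPowerSeries.C (MvPowerSeries.X i))
        fun j => (MvPowerSeries.X (f j) : MvPowerSeries V (MvPowerSeries (Fin a) k)))) := by
  have h := ((regL_field_series k a).mvPowerSeries N).reg
  rw [QPow_congr (MvPowerSeries.renameEquiv (MvPowerSeries (Fin a) k) f).toRingEquiv] at h
  refine (congrArg _ ?_).mp h
  rw [List.ofFn_fin_append, List.ofFn_fin_append, List.map_append, List.map_ofFn, List.map_ofFn]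
  congr 2
  · funext i
    simp [MvPowerSeries.renameEquiv]
  · funext i
    simp [MvPowerSeries.renameEquiv]

/-- the ambient power series ring -/
abbrev CEnv_B (k : Type) [Field k] (a : ℕ) (Ω : Type) (K : ℕ) : Type :=
  MvPowerSeries (Ω ⊕ Ω × Fin K) (MvPowerSeries (Fin a) k)

section main

variable {a₀ : ℕ} (θ : WS p k (a₀ + 1) →+* WittVector p (MvPowerSeries (Fin (a₀ + 1)) k))
  {Ω : Type} (E : Ω → MvPolynomial Ω (WS p k (a₀ + 1))) (K : ℕ) (e : Ω → WittVector p k)

/-- the equations in the ambient power series ring -/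
noncomputable def CEnv_ZB : Ω → WittVector p (CEnv_B k (a₀ + 1) Ω K) :=
  CEnv_Z ((WittVector.map MvPowerSeries.C).comp θ) (xi0 p k a₀ true)
    (fun o => MvPowerSeries.C (e o)) E MvPowerSeries.X

/-- the generators -/
noncomputable def CEnv_g : Ω ⊕ Ω × Fin K → CEnv_B k (a₀ + 1) Ω K := CEnv_gen (CEnv_ZB θ E K e)

omit [CharP k p] [PerfectRing k p] in
theorem CEnv_map_ZB {D : Type} [CommRing D] (π : CEnv_B k (a₀ + 1) Ω K →+* D) (o : Ω) :
    WittVector.map π (CEnv_ZB θ E K e o) =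
      CEnv_Z ((WittVector.map (π.comp MvPowerSeries.C)).comp θ) (xi0 p k a₀ true)
        (fun o => MvPowerSeries.C (e o)) E (fun v => π (MvPowerSeries.X v)) o := by
  unfold CEnv_ZB
  rw [CEnv_map_Z]
  rfl

omit [CharP k p] [PerfectRing k p] in
theorem CEnv_map_g {D : Type} [CommRing D] (π : CEnv_B k (a₀ + 1) Ω K →+* D)
    (v : Ω ⊕ Ω × Fin K) : π (CEnv_g θ E K e v) =
      CEnv_gen (CEnv_Z ((WittVector.map (π.comp MvPowerSeries.C)).comp θ) (xi0 p k a₀ true)
        (fun o => MvPowerSeries.C (e o)) E (fun v => π (MvPowerSeries.X v))) v := by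
  rcases v with o | ⟨o, i⟩
  · exact congrArg (fun z => WittVector.coeff z 0) (CEnv_map_ZB θ E K e π o)
  · exact congrArg (fun z => WittVector.coeff z (i + 1)) (CEnv_map_ZB θ E K e π o)

variable (hC : ∀ w, θ (MvPowerSeries.C w) = WittVector.map MvPowerSeries.C w)
  (hX : ∀ i, θ (MvPowerSeries.X i) = teichmuller p (MvPowerSeries.X i))
  (he : ∀ o, (p : WittVector p k) * e o =
    MvPowerSeries.constantCoeff (MvPolynomial.constantCoeff (E o)))

include hC hX he

omit [PerfectRing k p] in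
theorem CEnv_g_mem (v : Ω ⊕ Ω × Fin K) :
    CEnv_g θ E K e v ∈ maximalIdeal (CEnv_B k (a₀ + 1) Ω K) := by
  let π : CEnv_B k (a₀ + 1) Ω K →+* k :=
    (MvPowerSeries.constantCoeff : MvPowerSeries (Fin (a₀ + 1)) k →+* k).comp
      MvPowerSeries.constantCoeff
  have h1 : π (CEnv_g θ E K e v) = 0 := by
    rw [CEnv_map_g, CEnv_theta θ hC hX _ (fun i => by simp [π])]
    have h2 : ∀ o, CEnv_Z ((WittVector.map ((π.comp MvPowerSeries.C).comp MvPowerSeries.C)).comp
        MvPowerSeries.constantCoeff) (xi0 p k a₀ true) (fun o => MvPowerSeries.C (e o)) E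
        (fun v : Ω ⊕ Ω × Fin K => π (MvPowerSeries.X v)) o = 0 := by
      intro o
      rw [CEnv_Z_zero E e _ he _ (fun o => by simp [π])]
      have h3 : CEnv_Y p (fun v : Ω ⊕ Ω × Fin K => π (MvPowerSeries.X v)) o = 0 := by
        ext i
        simp [CEnv_Y, π]
      rw [h3, zero_mul]
    rcases v with o | ⟨o, i⟩
    · exact (congrArg (fun z => WittVector.coeff z 0) (h2 o)).trans (WittVector.zero_coeff _ _ _)
    · exact (congrArg (fun z => WittVector.coeff z (i + 1)) (h2 o)).trans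
        (WittVector.zero_coeff _ _ _)
  rw [Complete_mem_max, Complete_mem_max, maximalIdeal_eq_bot, Ideal.mem_bot,
    MvPowerSeries.coeff_zero_eq_constantCoeff_apply,
    MvPowerSeries.coeff_zero_eq_constantCoeff_apply]
  exact h1

theorem CEnv_rad [Finite Ω] (hE : Loc E) : ∃ c : ℕ, maximalIdeal (CEnv_B k (a₀ + 1) Ω K) ^ c ≤
    sp (CEnv_g θ E K e) ⊔ (maximalIdeal (MvPowerSeries (Fin (a₀ + 1)) k)).map MvPowerSeries.C := by
  refine Ideal.exists_pow_le_of_le_radical_of_fg ?_ (Ideal.fg_of_isNoetherianRing _)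
  rw [Ideal.radical_eq_sInf]
  refine le_sInf ?_
  rintro 𝔭 ⟨hle, h𝔭⟩
  rw [maximalIdeal_mvPowerSeries]
  refine sup_le (le_sup_right.trans hle) ?_
  rw [Ideal.span_le]
  rintro _ ⟨v, rfl⟩
  let π : CEnv_B k (a₀ + 1) Ω K →+* CEnv_B k (a₀ + 1) Ω K ⧸ 𝔭 := Ideal.Quotient.mk 𝔭
  have hch : CharP (CEnv_B k (a₀ + 1) Ω K ⧸ 𝔭) p :=
    charP_of_injective_ringHom
      (f := (π.comp MvPowerSeries.C).comp MvPowerSeries.C) (RingHom.injective _) p
  have h1 : ∀ i, (π.comp MvPowerSeries.C) (MvPowerSeries.X i) = 0 := fun i =>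
    Ideal.Quotient.eq_zero_iff_mem.2 (hle (Ideal.mem_sup_right (Ideal.mem_map_of_mem _
      ((regL_field_series k (a₀ + 1)).mem_max i))))
  refine Ideal.Quotient.eq_zero_iff_mem.1 (CEnv_vanish E e
    ((π.comp MvPowerSeries.C).comp MvPowerSeries.C) hE he
    (fun v => π (MvPowerSeries.X v)) (fun w => ?_) v)
  rw [← CEnv_theta θ hC hX _ h1, ← CEnv_map_g]
  exact Ideal.Quotient.eq_zero_iff_mem.2 (hle (Ideal.mem_sup_left (Ideal.subset_span ⟨w, rfl⟩)))

theorem CEnv_reg [Finite Ω] (hE : Loc E) :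
    RingTheory.Sequence.IsWeaklyRegular (CEnv_B k (a₀ + 1) Ω K ⧸ sp (CEnv_g θ E K e))
      (List.ofFn fun i : Fin (a₀ + 1) => Ideal.Quotient.mk (sp (CEnv_g θ E K e))
        (MvPowerSeries.C (MvPowerSeries.X i))) := by
  obtain ⟨N, ⟨f⟩⟩ := Finite.exists_equiv_fin (Ω ⊕ Ω × Fin K)
  obtain ⟨c, hc⟩ := CEnv_rad θ E K e hC hX he hE
  have hsp : sp (fun j => CEnv_g θ E K e (f.symm j)) = sp (CEnv_g θ E K e) :=
    congrArg Ideal.span (f.symm.surjective.range_comp (CEnv_g θ E K e))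
  have hm : (maximalIdeal (MvPowerSeries (Fin (a₀ + 1)) k)).map
      (MvPowerSeries.C : _ →+* CEnv_B k (a₀ + 1) Ω K) =
      sp fun i : Fin (a₀ + 1) => MvPowerSeries.C (MvPowerSeries.X i) := by
    rw [← (regL_field_series k (a₀ + 1)).max, sp_map]
  have hmax : maximalIdeal (CEnv_B k (a₀ + 1) Ω K) = (sp fun i : Fin (a₀ + 1) =>
      MvPowerSeries.C (MvPowerSeries.X i)) ⊔ sp MvPowerSeries.X := by
    rw [maximalIdeal_mvPowerSeries, hm]
  have h1 := reg_of_rad (B := CEnv_B k (a₀ + 1) Ω K) (n := a₀ + 1 + N) (m := N + (a₀ + 1))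
    (by omega) _ (Fin.append (fun j => CEnv_g θ E K e (f.symm j))
      fun i : Fin (a₀ + 1) => MvPowerSeries.C (MvPowerSeries.X i))
    (fun i => by
      refine Fin.addCases (fun j => ?_) (fun j => ?_) i
      · rw [Fin.append_left]
        exact CEnv_g_mem θ E K e hC hX he _
      · rw [Fin.append_right, hmax]
        exact Ideal.mem_sup_left (Ideal.subset_span ⟨j, rfl⟩))
    _ (CEnv_regB k (a₀ + 1) f.symm) fun i => ⟨c, Ideal.mem_sup_left (by
      rw [QPow_sp_append, hsp, ← hm]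
      refine hc (Ideal.pow_mem_pow ?_ c)
      rw [hmax]
      refine Fin.addCases (fun j => ?_) (fun j => ?_) i
      · rw [Fin.append_left]
        exact Ideal.mem_sup_left (Ideal.subset_span ⟨j, rfl⟩)
      · rw [Fin.append_right]
        exact Ideal.mem_sup_right (Ideal.subset_span ⟨_, rfl⟩))⟩
  have h2 := reg_right_of_append _ _ _ h1
  have e1 : (CEnv_B k (a₀ + 1) Ω K ⧸ (sp (fun j => CEnv_g θ E K e (f.symm j)) • ⊤ :
      Submodule (CEnv_B k (a₀ + 1) Ω K) (CEnv_B k (a₀ + 1) Ω K))) ≃ₗ[CEnv_B k (a₀ + 1) Ω K]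
      CEnv_B k (a₀ + 1) Ω K ⧸ sp (CEnv_g θ E K e) :=
    Submodule.quotEquivOfEq _ _ (by rw [smul_eq_mul, Ideal.mul_top, hsp])
  have h3 := (e1.isWeaklyRegular_congr _).1 h2
  rw [← RingTheory.Sequence.isWeaklyRegular_map_algebraMap_iff
    (CEnv_B k (a₀ + 1) Ω K ⧸ sp (CEnv_g θ E K e)), List.map_ofFn] at h3
  exact h3

omit hC hX in
theorem CEnv_sym (g : Equiv.Perm Ω × Equiv.Perm Ω) (hg : g ∈ Sym E) :
    ∃ ρ : CEnv_B k (a₀ + 1) Ω K ≃ₐ[MvPowerSeries (Fin (a₀ + 1)) k] CEnv_B k (a₀ + 1) Ω K,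
      sp (CEnv_g θ E K e) = (sp (CEnv_g θ E K e)).map (ρ : _ →+* _) ∧
      ∀ o, ρ (MvPowerSeries.X (Sum.inl o)) = MvPowerSeries.X (Sum.inl (g.1 o)) := by
  let σ : Ω ⊕ Ω × Fin K ≃ Ω ⊕ Ω × Fin K := Equiv.sumCongr g.1 (Equiv.prodCongr g.2 (Equiv.refl _))
  let τ : Ω ⊕ Ω × Fin K ≃ Ω ⊕ Ω × Fin K := Equiv.sumCongr g.2 (Equiv.prodCongr g.2 (Equiv.refl _))
  let ρ := MvPowerSeries.renameEquiv (MvPowerSeries (Fin (a₀ + 1)) k) σ
  have hρ : ∀ v, ρ (MvPowerSeries.X v) = MvPowerSeries.X (σ v) := fun v => by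
    simp [ρ, MvPowerSeries.renameEquiv]
  have hρC : (ρ : CEnv_B k (a₀ + 1) Ω K →+* CEnv_B k (a₀ + 1) Ω K).comp MvPowerSeries.C =
      MvPowerSeries.C := RingHom.ext fun a => by simp [ρ, MvPowerSeries.renameEquiv]
  have he' : ∀ o, e (g.2 o) = e o := fun o =>
    mul_left_cancel₀ (WittVector.p_nonzero p k) (by
      rw [he, he, ← hg o, MvPolynomial.constantCoeff_rename])
  have hZ : ∀ o, CEnv_Z ((WittVector.map ((ρ : CEnv_B k (a₀ + 1) Ω K →+* _).comp
      MvPowerSeries.C)).comp θ) (xi0 p k a₀ true) (fun o => MvPowerSeries.C (e o)) E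
      (fun v => (ρ : CEnv_B k (a₀ + 1) Ω K →+* _) (MvPowerSeries.X v)) o =
      CEnv_ZB θ E K e (g.2 o) := by
    intro o
    rw [hρC]
    refine Eq.trans ?_ (CEnv_Z_perm _ _ _ E MvPowerSeries.X g hg (fun o => by rw [he']) o)
    congr 1
    funext v
    exact hρ v
  have hg' : ∀ v, (ρ : CEnv_B k (a₀ + 1) Ω K →+* _) (CEnv_g θ E K e v) =
      CEnv_g θ E K e (τ v) := by
    intro v
    rw [CEnv_map_g]
    rcases v with o | ⟨o, i⟩
    · exact congrArg (fun z => WittVector.coeff z 0) (hZ o)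
    · exact congrArg (fun z => WittVector.coeff z (i + 1)) (hZ o)
  refine ⟨ρ, ?_, fun o => hρ _⟩
  rw [sp_map, funext hg']
  exact (congrArg Ideal.span (τ.surjective.range_comp (CEnv_g θ E K e))).symm

end main

theorem exists_env {a₀ : ℕ} (θ : WS p k (a₀ + 1) →+* WittVector p (MvPowerSeries (Fin (a₀ + 1)) k))
    (hC : ∀ w, θ (MvPowerSeries.C w) = WittVector.map MvPowerSeries.C w)
    (hX : ∀ i, θ (MvPowerSeries.X i) = teichmuller p (MvPowerSeries.X i))
    {Ω : Type} [Fintype Ω] [DecidableEq Ω] (E : Ω → MvPolynomial Ω (WS p k (a₀ + 1)))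
    (hE : Loc E) (K : ℕ) : Nonempty (Env θ E K) := by
  obtain ⟨e, he⟩ := CEnv_exists_e E hE
  set I : Ideal (CEnv_B k (a₀ + 1) Ω K) := sp (CEnv_g θ E K e) with hI
  have hle : I ≤ maximalIdeal _ := by
    rw [hI, Ideal.span_le]
    rintro _ ⟨v, rfl⟩
    exact CEnv_g_mem θ E K e hC hX he v
  have hne : I ≠ ⊤ := fun h => (maximalIdeal.isMaximal _).ne_top (top_le_iff.1 (h ▸ hle))
  have hnt := Ideal.Quotient.nontrivial_iff.2 hne
  have hl : IsLocalRing (CEnv_B k (a₀ + 1) Ω K ⧸ I) :=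
    IsLocalRing.of_surjective' (Ideal.Quotient.mk _) Ideal.Quotient.mk_surjective
  have hch : CharP (CEnv_B k (a₀ + 1) Ω K ⧸ I) p :=
    charP_of_injective_ringHom
      (f := ((Ideal.Quotient.mk I).comp MvPowerSeries.C).comp MvPowerSeries.C)
      (RingHom.injective _) p
  have hk : IsAdicComplete (maximalIdeal k) k := by
    rw [maximalIdeal_eq_bot]
    infer_instance
  have hA : IsAdicComplete (maximalIdeal (MvPowerSeries (Fin (a₀ + 1)) k))
      (MvPowerSeries (Fin (a₀ + 1)) k) :=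
    isAdicComplete_mvPowerSeries _ (Ideal.fg_of_isNoetherianRing _) _
  have hB : IsAdicComplete (maximalIdeal (CEnv_B k (a₀ + 1) Ω K)) (CEnv_B k (a₀ + 1) Ω K) :=
    isAdicComplete_mvPowerSeries _ (Ideal.fg_of_isNoetherianRing _) _
  have hQ := isAdicComplete_quotient _ I
  have halg : algebraMap (MvPowerSeries (Fin (a₀ + 1)) k) (CEnv_B k (a₀ + 1) Ω K ⧸ I) =
      (Ideal.Quotient.mk I).comp MvPowerSeries.C := rfl
  have hCm : (maximalIdeal (MvPowerSeries (Fin (a₀ + 1)) k)).map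
      (MvPowerSeries.C : _ →+* CEnv_B k (a₀ + 1) Ω K) ≤ maximalIdeal _ := by
    rw [maximalIdeal_mvPowerSeries _ (Ω ⊕ Ω × Fin K)]
    exact le_sup_left
  have hfin : Module.Finite (MvPowerSeries (Fin (a₀ + 1)) k) (CEnv_B k (a₀ + 1) Ω K ⧸ I) := by
    rw [← RingHom.finite_algebraMap, halg]
    refine finite_of_pow_le _ hCm (fun r => ⟨MvPowerSeries.constantCoeff r, ?_⟩) I
      (CEnv_rad θ E K e hC hX he hE)
    rw [Complete_mem_max, MvPowerSeries.coeff_zero_eq_constantCoeff_apply]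
    simp
  have hmk : ∀ x ∈ maximalIdeal (CEnv_B k (a₀ + 1) Ω K),
      Ideal.Quotient.mk I x ∈ maximalIdeal (CEnv_B k (a₀ + 1) Ω K ⧸ I) := fun x hx => by
    rw [← map_maximalIdeal_of_surjective (Ideal.Quotient.mk I) Ideal.Quotient.mk_surjective]
    exact Ideal.mem_map_of_mem _ hx
  have hreg : RingTheory.Sequence.IsWeaklyRegular (CEnv_B k (a₀ + 1) Ω K ⧸ I)
      (List.ofFn fun i => algebraMap (MvPowerSeries (Fin (a₀ + 1)) k)
        (CEnv_B k (a₀ + 1) Ω K ⧸ I) (MvPowerSeries.X i)) := CEnv_reg θ E K e hC hX he hE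
  have hfree : Module.Free (MvPowerSeries (Fin (a₀ + 1)) k) (CEnv_B k (a₀ + 1) Ω K ⧸ I) := by
    refine (regL_field_series k (a₀ + 1)).free _ ?_
    rw [← RingTheory.Sequence.isWeaklyRegular_map_algebraMap_iff (CEnv_B k (a₀ + 1) Ω K ⧸ I),
      List.map_ofFn]
    exact hreg
  refine ⟨{
    C := CEnv_B k (a₀ + 1) Ω K ⧸ I
    inj := FaithfulSMul.algebraMap_injective _ _
    smem := fun i => hmk _ (hCm (Ideal.mem_map_of_mem _
      ((regL_field_series k (a₀ + 1)).mem_max i)))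
    reg := hreg
    v := fun o => Ideal.Quotient.mk I (MvPowerSeries.X (Sum.inl o))
    vmem := fun o => hmk _ (by
      rw [maximalIdeal_mvPowerSeries _ (Ω ⊕ Ω × Fin K)]
      exact Ideal.mem_sup_right (Ideal.subset_span ⟨_, rfl⟩))
    eqn := fun o => ?_
    sym := fun g hg => ?_ }⟩
  · let φ : CEnv_B k (a₀ + 1) Ω K →+* PerfectClosure (CEnv_B k (a₀ + 1) Ω K ⧸ I) p :=
      (PerfectClosure.of _ p).comp (Ideal.Quotient.mk I)
    have h1 : WittVector.map φ (CEnv_ZB θ E K e o) ∈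
        Ideal.span {(p : WittVector p (PerfectClosure (CEnv_B k (a₀ + 1) Ω K ⧸ I) p)) ^ K} := by
      rw [mem_span_p_pow_iff_le_coeff_eq_zero]
      intro m hm
      rw [WittVector.map_coeff]
      have h2 : (CEnv_ZB θ E K e o).coeff m ∈ I := by
        rcases m with _ | m
        · exact Ideal.subset_span ⟨Sum.inl o, rfl⟩
        · exact Ideal.subset_span ⟨Sum.inr (o, ⟨m, by omega⟩), rfl⟩
      change PerfectClosure.of _ p (Ideal.Quotient.mk I _) = 0
      rw [Ideal.Quotient.eq_zero_iff_mem.2 h2, map_zero]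
    rw [CEnv_map_ZB] at h1
    unfold CEnv_Z at h1
    have h3 : ∀ {R : Type} [CommRing R] (J : Ideal R) (a ξ b c : R), a - ξ * b + ξ * c ∈ J →
        a ∈ Ideal.span {ξ} ⊔ J := fun J a ξ b c h => by
      have : a = ξ * (b - c) + (a - ξ * b + ξ * c) := by ring
      rw [this]
      exact Submodule.add_mem_sup (Ideal.mul_mem_right _ _ (Ideal.mem_span_singleton_self ξ)) h
    exact h3 _ _ _ _ _ h1
  · obtain ⟨ρ, h1, h2⟩ := CEnv_sym θ E K e he g hg
    exact ⟨Ideal.quotientEquivAlg I I ρ h1, fun o => by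
      rw [Ideal.quotientEquivAlg_mk, h2]⟩

end Crest.Agent.R188
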