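import Crest.Agent.R188.CDefs
import Crest.Agent.R188.QPow
import Crest.Agent.R188.PRP

/-!
# Evaluation of power series, Witt vectors of complete rings
-/

set_option autoImplicit false
set_option linter.unusedVariables false
set_option linter.unusedSectionVars false

open scoped ENNReal NNReal TensorProduct

namespace Crest.Agent.R188

open Crest.Agent.R183 IsLocalRing WittVector

variable {p : ℕ} [Fact p.Prime] {k : Type} [Field k] [CharP k p] [PerfectRing k p]

theorem CEv_sp_fg {B ι : Type} [CommRing B] [Finite ι] (z : ι → B) : (sp z).FG :=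
  Submodule.fg_span (Set.finite_range z)

/-- completeness for a finitely generated ideal of topologically nilpotent elements -/
theorem CEv_complete {B : Type} [CommRing B] (J : ℕ → Ideal B)
    (hH : ∀ x : B, (∀ n, x ∈ J n) → x = 0)
    (hC : ∀ f : ℕ → B, (∀ n, ∃ N, ∀ a, N ≤ a → ∀ b, N ≤ b → f a - f b ∈ J n) →
      ∃ L, ∀ n, ∃ N, ∀ a, N ≤ a → L - f a ∈ J n)
    {ι : Type} [Finite ι] (z : ι → B) (hz : ∀ i n, ∃ e : ℕ, z i ^ e ∈ J n) :
    IsAdicComplete (sp z) B := by
  classical
  have := Fintype.ofFinite ι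
  have h1 : ∀ n, ∃ e : ℕ, sp z ^ e ≤ J n := fun n =>
    Ideal.exists_pow_le_of_le_radical_of_fg (Ideal.span_le.2 (by
      rintro _ ⟨i, rfl⟩
      exact hz i n)) (CEv_sp_fg z)
  have h2 : ∀ n : ℕ, ∃ e : ℕ, n ≤ e ∧ sp z ^ e ≤ sp fun i => z i ^ n := by
    intro n
    obtain ⟨e, he⟩ : ∃ e : ℕ, sp z ^ e ≤ sp fun i => z i ^ n :=
      Ideal.exists_pow_le_of_le_radical_of_fg (Ideal.span_le.2 (by
        rintro _ ⟨i, rfl⟩
        exact ⟨n, Ideal.subset_span ⟨i, rfl⟩⟩)) (CEv_sp_fg z)
    exact ⟨max n e, le_max_left _ _, (Ideal.pow_le_pow_right (le_max_right _ _)).trans he⟩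
  have hHaus : IsHausdorff (sp z) B := ⟨fun x hx => hH x fun n => by
    obtain ⟨e, he⟩ := h1 n
    have := (Complete_smodEq _).1 (hx e)
    rw [sub_zero] at this
    exact he this⟩
  have hPre : IsPrecomplete (sp z) B := ⟨fun f hf => by
    have hf' : ∀ m n, m ≤ n → f n - f m ∈ sp z ^ m := fun m n h => by
      have := (Complete_smodEq _).1 (hf h)
      rw [← neg_sub]
      exact neg_mem this
    obtain ⟨L, hL⟩ := hC f fun n => by
      obtain ⟨e, he⟩ := h1 n
      refine ⟨e, fun a ha b hb => he ?_⟩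
      have := sub_mem (hf' e a ha) (hf' e b hb)
      rwa [sub_sub_sub_cancel_right] at this
    refine ⟨L, fun n => (Complete_smodEq _).2 ?_⟩
    choose M hM1 hM2 using h2
    -- a monotone sequence of exponents
    let g : ℕ → ℕ := fun N => (Finset.range (N + 1)).sup fun j => M (n + j)
    have hg1 : ∀ N, M (n + N) ≤ g N := fun N =>
      Finset.le_sup (f := fun j => M (n + j)) (Finset.self_mem_range_succ N)
    have hg2 : ∀ N, g N ≤ g (N + 1) := fun N =>
      Finset.sup_mono (Finset.range_subset_range.2 (by omega))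
    have hd : ∀ N, ∃ a : ι → B, ∑ i, a i * z i ^ (n + N) = f (g (N + 1)) - f (g N) := fun N =>
      Ideal.mem_span_range_iff_exists_fun.1
        (hM2 (n + N) (Ideal.pow_le_pow_right (hg1 N) (hf' _ _ (hg2 N))))
    choose a ha using hd
    have hs : ∀ i, ∃ S, ∀ m, ∃ N, ∀ T, N ≤ T →
        S - ∑ N ∈ Finset.range T, a N i * z i ^ N ∈ J m := fun i => hC _ fun m => by
      obtain ⟨e, he⟩ := hz i m
      have key : ∀ T, e ≤ T → ∑ N ∈ Finset.range T, a N i * z i ^ N -
          ∑ N ∈ Finset.range e, a N i * z i ^ N ∈ J m := by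
        intro T hT
        rw [← Finset.sum_Ico_eq_sub _ hT]
        refine Ideal.sum_mem _ fun N hN => Ideal.mul_mem_left _ _ ?_
        rw [show N = e + (N - e) by have := (Finset.mem_Ico.1 hN).1; omega, pow_add]
        exact Ideal.mul_mem_right _ _ he
      refine ⟨e, fun s hs t ht => ?_⟩
      have := sub_mem (key s hs) (key t ht)
      rwa [sub_sub_sub_cancel_right] at this
    choose S hS using hs
    have htel : ∀ T, f (g T) - f (g 0) =
        ∑ i, z i ^ n * ∑ N ∈ Finset.range T, a N i * z i ^ N := by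
      intro T
      induction T with
      | zero => simp
      | succ T ih =>
        have : f (g (T + 1)) - f (g 0) = (f (g T) - f (g 0)) + (f (g (T + 1)) - f (g T)) := by
          ring
        rw [this, ih, ← ha T, ← Finset.sum_add_distrib]
        refine Finset.sum_congr rfl fun i _ => ?_
        rw [Finset.sum_range_succ, pow_add]
        ring
    have hLim : L - f (g 0) - ∑ i, z i ^ n * S i = 0 := hH _ fun m => by
      obtain ⟨N₀, hN₀⟩ := hL m
      choose N₁ hN₁ using fun i => hS i m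
      let T := max N₀ (Finset.univ.sup N₁)
      have hT : N₀ ≤ g T := by
        have := hM1 (n + T)
        have := hg1 T
        have : N₀ ≤ T := le_max_left _ _
        omega
      have e1 : L - f (g 0) - ∑ i, z i ^ n * S i = (L - f (g T)) -
          ∑ i, z i ^ n * (S i - ∑ N ∈ Finset.range T, a N i * z i ^ N) := by
        simp only [mul_sub, Finset.sum_sub_distrib]
        rw [← htel T]
        ring
      rw [e1]
      refine sub_mem (hN₀ _ hT) (Ideal.sum_mem _ fun i _ => Ideal.mul_mem_left _ _ ?_)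
      exact hN₁ i T ((Finset.le_sup (f := N₁) (Finset.mem_univ i)).trans (le_max_right _ _))
    have e2 : f n - L = -(f (g 0) - f n) - ∑ i, z i ^ n * S i := by
      rw [sub_eq_zero] at hLim
      rw [← hLim]
      ring
    rw [e2]
    refine sub_mem (neg_mem (hf' _ _ ?_)) (Ideal.sum_mem _ fun i _ => Ideal.mul_mem_right _ _ ?_)
    · exact (hM1 (n + 0)).trans (hg1 0)
    · exact Ideal.pow_mem_pow (Ideal.subset_span (Set.mem_range_self i)) n⟩
  exact ⟨⟩

omit [Fact p.Prime] in
theorem CEv_pow_coeff [Fact p.Prime] {R : Type} [CommRing R] [CharP R p] (x : WittVector p R)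
    (hx : x.coeff 0 = 0) (n : ℕ) : ∀ i < n, (x ^ n).coeff i = 0 := by
  induction n with
  | zero => intro i hi; omega
  | succ n ih =>
    intro i hi
    have h1 : x = verschiebung^[1] (x.shift 1) :=
      eq_iterate_verschiebung fun j hj => by
        rw [show j = 0 by omega]
        exact hx
    have h2 : x ^ n = verschiebung^[n] ((x ^ n).shift n) := eq_iterate_verschiebung ih
    have h3 : x ^ (n + 1) = verschiebung^[n] ((x ^ n).shift n) * verschiebung^[1] (x.shift 1) := by
      rw [← h1, ← h2, pow_succ]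
    rw [h3, iterate_verschiebung_mul]
    exact iterate_verschiebung_coeff_eq_zero _ hi

/-- the ideals defining the topology of the Witt vectors -/
noncomputable def CEv_J (p : ℕ) [Fact p.Prime] {C : Type} [CommRing C] (I : Ideal C) (n : ℕ) :
    Ideal (WittVector p C) :=
  RingHom.ker ((WittVector.truncate n).comp (WittVector.map (Ideal.Quotient.mk (I ^ n))))

theorem CEv_mem_J {C : Type} [CommRing C] (I : Ideal C) (n : ℕ) (x : WittVector p C) :
    x ∈ CEv_J p I n ↔ ∀ i < n, x.coeff i ∈ I ^ n := by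
  change WittVector.map (Ideal.Quotient.mk (I ^ n)) x ∈ RingHom.ker (WittVector.truncate n) ↔ _
  rw [mem_ker_truncate]
  simp only [map_coeff, Ideal.Quotient.eq_zero_iff_mem]

theorem CEv_sub_mem_J {C : Type} [CommRing C] (I : Ideal C) (n : ℕ) (x y : WittVector p C) :
    x - y ∈ CEv_J p I n ↔ ∀ i < n, x.coeff i - y.coeff i ∈ I ^ n := by
  change WittVector.map (Ideal.Quotient.mk (I ^ n)) (x - y) ∈
    RingHom.ker (WittVector.truncate n) ↔ _
  rw [mem_ker_truncate, map_sub, ← le_coeff_eq_iff_le_sub_coeff_eq_zero]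
  simp only [map_coeff, Ideal.Quotient.eq]

theorem isAdicComplete_witt {C : Type} [CommRing C] [IsNoetherianRing C] [IsLocalRing C]
    [CharP C p] [IsAdicComplete (maximalIdeal C) C] {ι : Type} [Finite ι]
    (z : ι → WittVector p C) (hz : ∀ i, (z i).coeff 0 ∈ maximalIdeal C) :
    IsAdicComplete (sp z) (WittVector p C) := by
  refine CEv_complete (CEv_J p (maximalIdeal C)) (fun x hx => ?_) (fun f hf => ?_) z
    (fun i n => ?_)
  · ext i
    rw [zero_coeff]
    refine IsHausdorff.haus' (I := maximalIdeal C) _ fun n => (Complete_smodEq _).2 ?_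
    rw [sub_zero]
    exact Ideal.pow_le_pow_right (by omega)
      ((CEv_mem_J _ _ _).1 (hx (n + i + 1)) i (by omega))
  · choose N hN using hf
    let g : ℕ → ℕ := fun n => (Finset.range (n + 1)).sup N
    have hg1 : ∀ m n, m ≤ n → N m ≤ g n := fun m n h =>
      Finset.le_sup (f := N) (Finset.mem_range.2 (by omega))
    have hc : ∀ i, ∃ l : C, ∀ n, (f (g (n + i + 1))).coeff i - l ∈ maximalIdeal C ^ n := by
      intro i
      obtain ⟨l, hl⟩ := IsPrecomplete.prec' (I := maximalIdeal C)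
        (fun n => (f (g (n + i + 1))).coeff i) (fun {m n} h => (Complete_smodEq _).2
          (Ideal.pow_le_pow_right (by omega) ((CEv_sub_mem_J _ _ _ _).1
            (hN (m + i + 1) _ (hg1 _ _ le_rfl) _ (hg1 _ _ (by omega))) i (by omega))))
      exact ⟨l, fun n => (Complete_smodEq _).1 (hl n)⟩
    choose l hl using hc
    refine ⟨WittVector.mk p l, fun n => ⟨N n, fun a ha => (CEv_sub_mem_J _ _ _ _).2 ?_⟩⟩
    intro i hi
    have h1 := (CEv_sub_mem_J _ _ _ _).1 (hN n _ (hg1 n (n + i + 1) (by omega)) a ha) i hi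
    have h2 := sub_mem h1 (hl i n)
    rw [sub_sub_sub_cancel_left] at h2
    exact h2
  · rcases Nat.eq_zero_or_pos n with rfl | hn
    · exact ⟨0, (CEv_mem_J _ _ _).2 fun j hj => by omega⟩
    have hne : maximalIdeal C ^ n ≠ ⊤ := fun h =>
      (maximalIdeal.isMaximal C).ne_top (top_le_iff.1 (h ▸ Ideal.pow_le_self hn.ne'))
    have := Ideal.Quotient.nontrivial_iff.2 hne
    have : CharP (C ⧸ maximalIdeal C ^ n) p := (CharP.charP_iff_prime_eq_zero Fact.out).2 (by
      rw [← map_natCast (Ideal.Quotient.mk (maximalIdeal C ^ n)), CharP.cast_eq_zero, map_zero])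
    refine ⟨n * n, ?_⟩
    change WittVector.map (Ideal.Quotient.mk (maximalIdeal C ^ n)) (z i ^ (n * n)) ∈
      RingHom.ker (WittVector.truncate n)
    rw [mem_ker_truncate, pow_mul, map_pow]
    refine CEv_pow_coeff _ ?_ n
    rw [map_coeff, Ideal.Quotient.eq_zero_iff_mem, ← constantCoeff_apply, map_pow,
      constantCoeff_apply]
    exact Ideal.pow_mem_pow (hz i) n

theorem isAdicComplete_of_finite {Λ S : Type} [CommRing Λ] [IsNoetherianRing Λ] [IsLocalRing Λ]
    [IsAdicComplete (maximalIdeal Λ) Λ] [CommRing S] [IsLocalRing S] [Algebra Λ S]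
    [Module.Finite Λ S] : IsAdicComplete (maximalIdeal S) S := by
  have hN : IsNoetherianRing S := IsNoetherianRing.of_finite Λ S
  obtain ⟨n, f, hf⟩ := Module.Finite.exists_fin' Λ S
  have h0 := Complete_prec_pi (maximalIdeal Λ) n
  have h1 : IsPrecomplete (maximalIdeal Λ) S := Complete_prec_of_surjective _ f hf
  have h2 : IsAdicComplete (maximalIdeal Λ) S := ⟨⟩
  have h3 : IsAdicComplete ((maximalIdeal Λ).map (algebraMap Λ S)) S :=
    (IsAdicComplete.map_algebraMap_iff _ _).2 h2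
  refine isAdicComplete_of_pow_le ((maximalIdeal Λ).map (algebraMap Λ S)) _ ⟨1, ?_⟩ ?_
  · rw [pow_one, Ideal.map_le_iff_le_comap]
    exact (eq_maximalIdeal (Ideal.isMaximal_comap_of_isIntegral_of_isMaximal
      (R := Λ) (maximalIdeal S))).ge
  · refine Ideal.exists_pow_le_of_le_radical_of_fg ?_ (Ideal.fg_of_isNoetherianRing _)
    rw [Ideal.radical_eq_sInf]
    refine le_sInf ?_
    rintro P ⟨hP, hP'⟩
    have h4 : P.comap (algebraMap Λ S) = maximalIdeal Λ :=
      ((maximalIdeal.isMaximal Λ).eq_of_le (Ideal.comap_isPrime _ P).ne_top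
        (Ideal.map_le_iff_le_comap.1 hP)).symm
    exact (eq_maximalIdeal (Ideal.isMaximal_of_isIntegral_of_isMaximal_comap (R := Λ) P
      (h4 ▸ maximalIdeal.isMaximal Λ))).ge

theorem iInf_pow_eq_bot {B : Type} [CommRing B] (J : Ideal B) [IsHausdorff J B] {I : Ideal B}
    (h : I ≤ J) : ⨅ N : ℕ, I ^ N = ⊥ := by
  refine eq_bot_iff.2 fun x hx => ?_
  rw [Ideal.mem_iInf] at hx
  refine IsHausdorff.haus' (I := J) _ fun n => (Complete_smodEq _).2 ?_
  rw [sub_zero]
  exact Ideal.pow_right_mono h n (hx n)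

theorem tv_mem (W : Type) [CommRing W] (b' n i : ℕ) :
    tv W b' n i ∈ spn (tv W b' n) (b' + n) := by
  by_cases h : i < b' + n
  · exact Ideal.subset_span ⟨i, h, rfl⟩
  · have h1 : ¬ i < b' := by omega
    have h2 : ¬ i - b' < n := by omega
    rw [tv, dif_neg h1, dif_neg h2]
    exact zero_mem _

theorem CEv_tv_left (W : Type) [CommRing W] (b' n : ℕ) (i : Fin b') :
    tv W b' n i = MvPowerSeries.C (MvPowerSeries.X i) := by
  rw [tv, dif_pos i.2]

theorem CEv_tv_right (W : Type) [CommRing W] (b' n : ℕ) (i : Fin n) :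
    tv W b' n (b' + i) = MvPowerSeries.X i := by
  have h1 : ¬ b' + i < b' := by omega
  have h2 : b' + i - b' < n := by omega
  rw [tv, dif_neg h1, dif_pos h2]
  congr 1
  exact Fin.ext (by simp)

theorem CEv_tv_cases (b' n : ℕ) {i : ℕ} (h : i < b' + n) :
    (∃ j : Fin b', i = j) ∨ ∃ j : Fin n, i = b' + j := by
  by_cases h1 : i < b'
  · exact Or.inl ⟨⟨i, h1⟩, rfl⟩
  · exact Or.inr ⟨⟨i - b', by omega⟩, by simp only; omega⟩

theorem CEv_spn (W : Type) [CommRing W] (b' n : ℕ) :
    spn (tv W b' n) (b' + n) =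
      (sp (MvPowerSeries.X : Fin b' → MvPowerSeries (Fin b') W)).map MvPowerSeries.C ⊔
        sp MvPowerSeries.X := by
  rw [sp_map]
  refine le_antisymm (Ideal.span_le.2 ?_) (sup_le (Ideal.span_le.2 ?_) (Ideal.span_le.2 ?_))
  · rintro _ ⟨i, hi, rfl⟩
    rcases CEv_tv_cases b' n hi with ⟨j, rfl⟩ | ⟨j, rfl⟩
    · rw [CEv_tv_left]
      exact Ideal.mem_sup_left (Ideal.subset_span ⟨j, rfl⟩)
    · rw [CEv_tv_right]
      exact Ideal.mem_sup_right (Ideal.subset_span ⟨j, rfl⟩)
  · rintro _ ⟨j, rfl⟩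
    have := tv_mem W b' n j
    rwa [CEv_tv_left] at this
  · rintro _ ⟨j, rfl⟩
    have := tv_mem W b' n (b' + j)
    rwa [CEv_tv_right] at this

theorem maximalIdeal_nested (W : Type) [CommRing W] [IsLocalRing W] (b' n : ℕ) :
    maximalIdeal (MvPowerSeries (Fin n) (MvPowerSeries (Fin b') W)) =
      (maximalIdeal W).map (tc W b' n) ⊔ spn (tv W b' n) (b' + n) := by
  rw [maximalIdeal_mvPowerSeries, maximalIdeal_mvPowerSeries, Ideal.map_sup, Ideal.map_map,
    CEv_spn, sup_assoc]
  rfl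

theorem exists_eval_nested {W B : Type} [CommRing W] [CommRing B] (b' n : ℕ) (J : Ideal B)
    [IsAdicComplete J B] (φ : W →+* B) (u : ℕ → B) (hu : ∀ i < b' + n, u i ∈ J) :
    ∃ Φ : MvPowerSeries (Fin n) (MvPowerSeries (Fin b') W) →+* B,
      (∀ w, Φ (tc W b' n w) = φ w) ∧ ∀ i < b' + n, Φ (tv W b' n i) = u i := by
  obtain ⟨Φ₁, h₁, h₁'⟩ := exists_eval J φ (fun i : Fin b' => u i) fun i => hu i (by omega)
  obtain ⟨Φ₂, h₂, h₂'⟩ := exists_eval J Φ₁ (fun i : Fin n => u (b' + i)) fun i => hu _ (by omega)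
  refine ⟨Φ₂, fun w => (h₂ _).trans (h₁ w), fun i hi => ?_⟩
  rcases CEv_tv_cases b' n hi with ⟨j, rfl⟩ | ⟨j, rfl⟩
  · rw [CEv_tv_left, h₂, h₁']
  · rw [CEv_tv_right, h₂']

theorem hom_ext_nested {W B : Type} [CommRing W] [CommRing B] {b' n : ℕ}
    (φ ψ : MvPowerSeries (Fin n) (MvPowerSeries (Fin b') W) →+* B)
    (hC : ∀ w, φ (tc W b' n w) = ψ (tc W b' n w))
    (hX : ∀ i < b' + n, φ (tv W b' n i) = ψ (tv W b' n i)) (J : Ideal B) [IsHausdorff J B]
    (hJ : ∀ i < b' + n, φ (tv W b' n i) ∈ J) : φ = ψ := by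
  have h1 : φ.comp MvPowerSeries.C = ψ.comp MvPowerSeries.C := by
    refine mvPowerSeries_hom_ext _ _ hC (fun i => ?_) (iInf_pow_eq_bot J (Ideal.span_le.2 ?_))
    · have := hX i (by omega)
      rwa [CEv_tv_left] at this
    · rintro _ ⟨i, rfl⟩
      have := hJ i (by omega)
      rwa [CEv_tv_left] at this
  refine mvPowerSeries_hom_ext _ _ (RingHom.congr_fun h1) (fun i => ?_)
    (iInf_pow_eq_bot J (Ideal.span_le.2 ?_))
  · have := hX (b' + i) (by omega)
    rwa [CEv_tv_right] at this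
  · rintro _ ⟨i, rfl⟩
    have := hJ (b' + i) (by omega)
    rwa [CEv_tv_right] at this

/-- reduction modulo `p` -/
noncomputable def redW (p : ℕ) [Fact p.Prime] (k : Type) [CommRing k] [CharP k p] (a : ℕ) :
    WS p k a →+* MvPowerSeries (Fin a) k := MvPowerSeries.map constantCoeff

theorem redW_surjective (a : ℕ) : Function.Surjective (redW p k a) := by
  intro f
  refine ⟨fun m => teichmuller p (MvPowerSeries.coeff m f), ?_⟩
  ext m
  rw [redW, MvPowerSeries.coeff_map]
  exact teichmuller_coeff_zero p _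

theorem ker_redW (a : ℕ) : RingHom.ker (redW p k a) = Ideal.span {(p : WS p k a)} := by
  refine le_antisymm (fun x hx => ?_) (Ideal.span_le.2 ?_)
  · have h1 : ∀ m, ∃ y : WittVector p k, y * p = MvPowerSeries.coeff m x := fun m => by
      refine Ideal.mem_span_singleton'.1 ((mem_span_p_iff_coeff_zero_eq_zero _).2 ?_)
      have := congrArg (MvPowerSeries.coeff m) (RingHom.mem_ker.1 hx)
      rwa [redW, MvPowerSeries.coeff_map, map_zero] at this
    choose y hy using h1
    refine Ideal.mem_span_singleton'.2 ⟨y, ?_⟩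
    ext1 m
    rw [← map_natCast (MvPowerSeries.C : WittVector p k →+* WS p k a),
      MvPowerSeries.coeff_mul_C]
    exact hy m
  · rintro _ rfl
    change redW p k a p = 0
    rw [map_natCast, ← map_natCast (MvPowerSeries.C : k →+* MvPowerSeries (Fin a) k),
      CharP.cast_eq_zero, map_zero]

theorem CEv_charP (p : ℕ) (k : Type) [Field k] [CharP k p] (a : ℕ) :
    CharP (MvPowerSeries (Fin a) k) p :=
  charP_of_injective_ringHom (f := (MvPowerSeries.C : k →+* MvPowerSeries (Fin a) k))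
    (RingHom.injective _) p

theorem CEv_complete_field (k : Type) [Field k] (a : ℕ) :
    IsAdicComplete (maximalIdeal (MvPowerSeries (Fin a) k)) (MvPowerSeries (Fin a) k) :=
  isAdicComplete_mvPowerSeries _ (Ideal.fg_of_isNoetherianRing _) _

theorem CEv_X_mem {Λ : Type} [CommRing Λ] [IsLocalRing Λ] {a : ℕ} (i : Fin a) :
    (MvPowerSeries.X i : MvPowerSeries (Fin a) Λ) ∈ maximalIdeal (MvPowerSeries (Fin a) Λ) := by
  rw [maximalIdeal_mvPowerSeries]
  exact Ideal.mem_sup_right (Ideal.subset_span ⟨i, rfl⟩)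

theorem CEv_redW_C (a : ℕ) (w : WittVector p k) :
    redW p k a (MvPowerSeries.C w) = MvPowerSeries.C (w.coeff 0) := by
  rw [redW, MvPowerSeries.map_C]
  rfl

theorem CEv_redW_X (a : ℕ) (i : Fin a) :
    redW p k a (MvPowerSeries.X i) = MvPowerSeries.X i := by
  rw [redW, MvPowerSeries.map_X]

theorem CEv_p_mem (a : ℕ) : (p : WS p k a) ∈ maximalIdeal (WS p k a) :=
  (regL_witt_series p k a).mem_max 0

theorem exists_thetaA (a : ℕ) : ∃ θ : WS p k a →+* WittVector p (MvPowerSeries (Fin a) k),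
    (∀ w, θ (MvPowerSeries.C w) = WittVector.map MvPowerSeries.C w) ∧
    (∀ i, θ (MvPowerSeries.X i) = teichmuller p (MvPowerSeries.X i)) ∧
    ∀ x, (θ x).coeff 0 = redW p k a x := by
  have := CEv_charP p k a
  have := CEv_complete_field k a
  have := isAdicComplete_witt (p := p)
    (fun i : Fin a => teichmuller p (MvPowerSeries.X i : MvPowerSeries (Fin a) k)) fun i => by
      rw [teichmuller_coeff_zero]
      exact CEv_X_mem i
  obtain ⟨θ, h₁, h₂⟩ := exists_eval
    (sp fun i : Fin a => teichmuller p (MvPowerSeries.X i : MvPowerSeries (Fin a) k))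
    (WittVector.map (MvPowerSeries.C : k →+* MvPowerSeries (Fin a) k))
    (fun i : Fin a => teichmuller p (MvPowerSeries.X i : MvPowerSeries (Fin a) k))
    fun i => Ideal.subset_span ⟨i, rfl⟩
  refine ⟨θ, h₁, h₂, fun x => ?_⟩
  have h3 : (constantCoeff : WittVector p (MvPowerSeries (Fin a) k) →+* _).comp θ =
      redW p k a := by
    refine mvPowerSeries_hom_ext _ _ (fun w => ?_) (fun i => ?_)
      (iInf_pow_eq_bot (maximalIdeal _) (Ideal.span_le.2 ?_))
    · rw [RingHom.comp_apply, h₁, CEv_redW_C, constantCoeff_apply, map_coeff]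
    · rw [RingHom.comp_apply, h₂, CEv_redW_X, constantCoeff_apply, teichmuller_coeff_zero]
    · rintro _ ⟨i, rfl⟩
      change constantCoeff (θ (MvPowerSeries.X i)) ∈ maximalIdeal _
      rw [h₂, constantCoeff_apply, teichmuller_coeff_zero]
      exact CEv_X_mem i
  exact RingHom.congr_fun h3 x

/-- twisted inclusions of power series rings -/
theorem exists_iota {b' a : ℕ} (f : Fin b' → Fin a) (hf : Function.Injective f) (e : ℕ) :
    ∃ ι : WS p k b' →+* WS p k a,
      (∀ w, ι (MvPowerSeries.C w) = MvPowerSeries.C (WittVector.map (iterateFrobenius k p e) w)) ∧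
      (∀ i, ι (MvPowerSeries.X i) = MvPowerSeries.X (f i) ^ p ^ e) ∧
      ∀ (r : ℕ) (η : Fin r → WS p k b'), (∀ j, η j = p) →
        ∀ w ∉ sp η, ι w ∉ sp fun j => ι (η j) := by
  have := isAdicComplete_witt_series p k a
  have := CEv_charP p k a
  have hpe : p ^ e ≠ 0 := pow_ne_zero _ (Fact.out : p.Prime).ne_zero
  obtain ⟨ι, h₁, h₂⟩ := exists_eval (maximalIdeal (WS p k a))
    ((MvPowerSeries.C : WittVector p k →+* WS p k a).comp
      (WittVector.map (iterateFrobenius k p e)))
    (fun i : Fin b' => (MvPowerSeries.X (f i) : WS p k a) ^ p ^ e)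
    fun i => Ideal.pow_mem_of_mem _ (CEv_X_mem _) _ (Nat.pos_of_ne_zero hpe)
  let fe : Fin b' ↪ Fin a := ⟨f, hf⟩
  have h3 : (redW p k a).comp ι = ((iterateFrobenius (MvPowerSeries (Fin a) k) p e).comp
      (MvPowerSeries.rename (R := k) fe).toRingHom).comp (redW p k b') := by
    refine mvPowerSeries_hom_ext _ _ (fun w => ?_) (fun i => ?_)
      (iInf_pow_eq_bot (maximalIdeal _) (Ideal.span_le.2 ?_))
    · rw [RingHom.comp_apply, h₁, RingHom.comp_apply, CEv_redW_C, RingHom.comp_apply,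
        RingHom.comp_apply, CEv_redW_C, map_coeff, iterateFrobenius_def, iterateFrobenius_def,
        map_pow]
      congr 1
      exact (MvPowerSeries.rename_C _ _).symm
    · rw [RingHom.comp_apply, h₂, map_pow, CEv_redW_X, RingHom.comp_apply, RingHom.comp_apply,
        CEv_redW_X, iterateFrobenius_def]
      congr 1
      exact (MvPowerSeries.rename_X _ _).symm
    · rintro _ ⟨i, rfl⟩
      change redW p k a (ι (MvPowerSeries.X i)) ∈ maximalIdeal _
      rw [h₂, map_pow, CEv_redW_X]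
      exact Ideal.pow_mem_of_mem _ (CEv_X_mem _) _ (Nat.pos_of_ne_zero hpe)
  have h4 : ∀ w, ι w ∈ Ideal.span {(p : WS p k a)} → w ∈ Ideal.span {(p : WS p k b')} := by
    intro w hw
    rw [← ker_redW, RingHom.mem_ker] at hw ⊢
    have h5 := RingHom.congr_fun h3 w
    rw [RingHom.comp_apply, hw, RingHom.comp_apply, RingHom.comp_apply,
      iterateFrobenius_def] at h5
    have h6 := (pow_eq_zero_iff hpe).1 h5.symm
    exact MvPowerSeries.rename_injective (R := k) fe (h6.trans (map_zero _).symm)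
  have hp0 : (p : WS p k a) ≠ 0 := by
    rw [← map_natCast (MvPowerSeries.C : WittVector p k →+* WS p k a)]
    exact fun h => WittVector.p_nonzero p k (MvPowerSeries.C_injective (h.trans (map_zero _).symm))
  have h7 : ∀ (N : ℕ) w, ι w = 0 → w ∈ Ideal.span {(p : WS p k b')} ^ N := by
    intro N
    induction N with
    | zero => intro w _; simp
    | succ N ih =>
      intro w hw
      obtain ⟨y, rfl⟩ := Ideal.mem_span_singleton'.1 (h4 w (hw ▸ zero_mem _))
      rw [map_mul, map_natCast] at hw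
      rw [pow_succ]
      exact Ideal.mul_mem_mul (ih y ((mul_eq_zero.1 hw).resolve_right hp0))
        (Ideal.mem_span_singleton_self _)
  refine ⟨ι, h₁, h₂, fun r η hη w hw hw' => hw ?_⟩
  rcases Nat.eq_zero_or_pos r with rfl | hr
  · have h8 : ι w = 0 := by simpa [sp] using hw'
    have h9 : w ∈ ⨅ N : ℕ, Ideal.span {(p : WS p k b')} ^ N :=
      Ideal.mem_iInf.2 fun N => h7 N w h8
    rw [iInf_pow_eq_bot (maximalIdeal _)
      ((Ideal.span_singleton_le_iff_mem _).2 (CEv_p_mem b'))] at h9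
    rw [Ideal.mem_bot.1 h9]
    exact zero_mem _
  · have h8 : ι w ∈ Ideal.span {(p : WS p k a)} := by
      refine Ideal.span_le.2 ?_ hw'
      rintro _ ⟨j, rfl⟩
      change ι (η j) ∈ Ideal.span {(p : WS p k a)}
      rw [hη, map_natCast]
      exact Ideal.mem_span_singleton_self _
    refine (Ideal.span_singleton_le_iff_mem _).2 ?_ (h4 w h8)
    exact Ideal.subset_span ⟨⟨0, hr⟩, hη _⟩

theorem CEv_xi0_mem (a₀ : ℕ) (mix : Bool) :
    xi0 p k a₀ mix ∈ maximalIdeal (WS p k (a₀ + 1)) := by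
  refine sub_mem (CEv_p_mem _) ?_
  split_ifs
  · exact CEv_X_mem _
  · exact zero_mem _

/-- the substitution `s₀ ↦ p` -/
theorem exists_subst (a₀ : ℕ) : ∃ ρ : WS p k (a₀ + 1) →+* WS p k (a₀ + 1),
    (∀ w, ρ (MvPowerSeries.C w) = MvPowerSeries.C w) ∧ ρ (MvPowerSeries.X 0) = p ∧
    (∀ i : Fin a₀, ρ (MvPowerSeries.X i.succ) = MvPowerSeries.X i.succ) ∧
    ∀ x, ρ x - x ∈ Ideal.span {xi0 p k a₀ true} := by
  have := isAdicComplete_witt_series p k (a₀ + 1)
  obtain ⟨ρ, h₁, h₂⟩ := exists_eval (maximalIdeal (WS p k (a₀ + 1)))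
    (MvPowerSeries.C : WittVector p k →+* WS p k (a₀ + 1))
    (Fin.cons (p : WS p k (a₀ + 1)) fun i : Fin a₀ => MvPowerSeries.X i.succ)
    fun i => Fin.cases (CEv_p_mem _) (fun i => CEv_X_mem _) i
  refine ⟨ρ, h₁, h₂ 0, fun i => h₂ i.succ, fun x => ?_⟩
  have hle : Ideal.span {xi0 p k a₀ true} ≤ maximalIdeal (WS p k (a₀ + 1)) :=
    (Ideal.span_singleton_le_iff_mem _).2 (CEv_xi0_mem a₀ true)
  have hne : Ideal.span {xi0 p k a₀ true} ≠ ⊤ := fun h =>
    (maximalIdeal.isMaximal _).ne_top (top_le_iff.1 (h ▸ hle))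
  have := Ideal.Quotient.nontrivial_iff.2 hne
  have hl : IsLocalRing (WS p k (a₀ + 1) ⧸ Ideal.span {xi0 p k a₀ true}) :=
    IsLocalRing.of_surjective' (Ideal.Quotient.mk _) Ideal.Quotient.mk_surjective
  have h3 : Ideal.Quotient.mk (Ideal.span {xi0 p k a₀ true}) =
      (Ideal.Quotient.mk (Ideal.span {xi0 p k a₀ true})).comp ρ := by
    refine mvPowerSeries_hom_ext _ _ (fun w => ?_) (fun i => ?_)
      (iInf_pow_eq_bot (maximalIdeal _) (Ideal.span_le.2 ?_))
    · rw [RingHom.comp_apply, h₁]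
    · rw [RingHom.comp_apply, h₂]
      refine Fin.cases ?_ (fun i => rfl) i
      refine (Ideal.Quotient.eq.2 ?_).symm
      exact Ideal.mem_span_singleton_self _
    · rintro _ ⟨i, rfl⟩
      rw [← map_maximalIdeal_of_surjective (Ideal.Quotient.mk (Ideal.span {xi0 p k a₀ true}))
        Ideal.Quotient.mk_surjective]
      exact Ideal.mem_map_of_mem _ (CEv_X_mem i)
  exact Ideal.Quotient.eq.1 (RingHom.congr_fun h3 x).symm

theorem xi0_prime (a₀ : ℕ) (mix : Bool) : (Ideal.span {xi0 p k a₀ mix}).IsPrime ∧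
    ringKrullDim (WS p k (a₀ + 1) ⧸ Ideal.span {xi0 p k a₀ mix}) = (a₀ + 1 : ℕ) := by
  have h0 := regL_witt_series p k (a₀ + 1)
  have h1 : RegL (WS p k (a₀ + 1))
      (Fin.cons (xi0 p k a₀ mix) MvPowerSeries.X : Fin (a₀ + 1 + 1) → _) := by
    refine h0.of_span _ (le_antisymm (Ideal.span_le.2 ?_) ?_)
    · rintro _ ⟨i, rfl⟩
      exact Fin.cases (CEv_xi0_mem a₀ mix) (fun i => CEv_X_mem i) i
    · rw [← h0.max]
      refine Ideal.span_le.2 ?_
      rintro _ ⟨i, rfl⟩
      refine Fin.cases ?_ (fun i => Ideal.subset_span ⟨i.succ, rfl⟩) i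
      have e : (p : WS p k (a₀ + 1)) =
          xi0 p k a₀ mix + if mix then MvPowerSeries.X 0 else 0 := by
        rw [xi0, sub_add_cancel]
      change (p : WS p k (a₀ + 1)) ∈ sp _
      rw [e]
      refine add_mem (Ideal.subset_span ⟨0, rfl⟩) ?_
      split_ifs
      · exact Ideal.subset_span ⟨Fin.succ 0, rfl⟩
      · exact zero_mem _
  obtain ⟨-, hl, h2⟩ := HReg_tail h1
  exact ⟨(Ideal.Quotient.isDomain_iff_prime _).1 h2.isDomain, h2.dim⟩

theorem ASpl.mul {B : Type} [CommRing B] {E : MC B} {m : ℕ} {δ : ℕ → ℤ}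
    {U : Matrix E.ι (Fin (2 * m)) B} {U' : Matrix (Fin (2 * m)) E.ι B} {γ : B} {𝔞 : Ideal B}
    (h : ASpl E m δ U U' γ 𝔞) (t : B) : ASpl E m δ U (t • U') (γ * t) 𝔞 := by
  refine ⟨h.hom, fun i j hij => h.deg i j fun h0 => hij ?_, fun i j => ?_, fun i j => ?_⟩
  · rw [Matrix.smul_apply, h0, smul_zero]
  · have := Ideal.mul_mem_left _ t (h.left i j)
    rw [Matrix.smul_mul, Matrix.smul_apply, smul_eq_mul]
    convert this using 1
    split_ifs <;> ring
  · have := Ideal.mul_mem_left _ t (h.right i j)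
    rw [Matrix.mul_smul, Matrix.smul_apply, smul_eq_mul]
    convert this using 1
    split_ifs <;> ring

end Crest.Agent.R188
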