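import Crest.Agent.R188.CEnv
import Crest.Agent.R188.CLoc

/-!
# Perfect covers in the case `p ∉ P`
-/

set_option autoImplicit false
set_option linter.unusedVariables false
set_option linter.unusedSectionVars false

open scoped ENNReal NNReal TensorProduct

namespace Crest.Agent.R188

open Crest.Agent.R183 IsLocalRing WittVector

section ext

variable {Λ V O : Type} [CommRing Λ] (D : V → MvPolynomial V Λ) (h : O → MvPolynomial V Λ)

/-- the system extended by the orbits of finitely many new variables -/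
noncomputable def CMixP_E : V ⊕ (Sym D × O) → MvPolynomial (V ⊕ (Sym D × O)) Λ
  | .inl v => MvPolynomial.rename Sum.inl (D v)
  | .inr go => MvPolynomial.X (.inr go) - MvPolynomial.rename (Sum.inl ∘ go.1.1.1) (h go.2)

/-- the extension of a symmetry -/
def CMixP_hat (O : Type) (g : Sym D) :
    Equiv.Perm (V ⊕ (Sym D × O)) × Equiv.Perm (V ⊕ (Sym D × O)) :=
  (Equiv.sumCongr g.1.1 (Equiv.prodCongr (Equiv.mulLeft g) (Equiv.refl O)),
    Equiv.sumCongr g.1.2 (Equiv.prodCongr (Equiv.mulLeft g) (Equiv.refl O)))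

theorem CMixP_hat_inl (g : Sym D) (v : V) :
    (CMixP_hat D O g).1 (Sum.inl v) = Sum.inl (g.1.1 v) := rfl

theorem CMixP_hat_inr (g g' : Sym D) (o : O) :
    (CMixP_hat D O g).1 (Sum.inr (g', o)) = Sum.inr (g * g', o) := rfl

theorem CMixP_hat_inl' (g : Sym D) (v : V) :
    (CMixP_hat D O g).2 (Sum.inl v) = Sum.inl (g.1.2 v) := rfl

theorem CMixP_hat_inr' (g g' : Sym D) (o : O) :
    (CMixP_hat D O g).2 (Sum.inr (g', o)) = Sum.inr (g * g', o) := rfl

theorem CMixP_E_inl (v : V) : CMixP_E D h (Sum.inl v) = MvPolynomial.rename Sum.inl (D v) := rfl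

theorem CMixP_E_inr (g : Sym D) (o : O) : CMixP_E D h (Sum.inr (g, o)) =
    MvPolynomial.X (.inr (g, o)) - MvPolynomial.rename (Sum.inl ∘ g.1.1) (h o) := rfl

theorem CMixP_hat_mem (g : Sym D) : CMixP_hat D O g ∈ Sym (CMixP_E D h) := by
  rw [mem_Sym]
  rintro (v | ⟨g', o⟩)
  · have e1 : (CMixP_hat D O g).1 ∘ Sum.inl = Sum.inl ∘ g.1.1 := funext fun v => rfl
    rw [CMixP_hat_inl', CMixP_E_inl, CMixP_E_inl, ← mem_Sym.1 g.2 v, MvPolynomial.rename_rename,
      MvPolynomial.rename_rename, e1]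
  · have e1 : (CMixP_hat D O g).1 ∘ (Sum.inl ∘ g'.1.1) = Sum.inl ∘ (g * g').1.1 :=
      funext fun v => rfl
    rw [CMixP_hat_inr', CMixP_E_inr, CMixP_E_inr, map_sub, MvPolynomial.rename_X,
      MvPolynomial.rename_rename, e1, CMixP_hat_inr]

theorem CMixP_rename_map {V' : Type} (f : V → V') (I : Ideal Λ) {y : MvPolynomial V Λ}
    (hy : y ∈ I.map (MvPolynomial.C : Λ →+* MvPolynomial V Λ)) :
    MvPolynomial.rename f y ∈ I.map (MvPolynomial.C : Λ →+* MvPolynomial V' Λ) := by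
  have : I.map (MvPolynomial.C : Λ →+* MvPolynomial V Λ) ≤
      (I.map (MvPolynomial.C : Λ →+* MvPolynomial V' Λ)).comap
        (MvPolynomial.rename f : MvPolynomial V Λ →ₐ[Λ] MvPolynomial V' Λ).toRingHom := by
    rw [Ideal.map_le_iff_le_comap]
    intro a ha
    simp only [Ideal.mem_comap, AlgHom.toRingHom_eq_coe, RingHom.coe_coe, MvPolynomial.rename_C]
    exact Ideal.mem_map_of_mem _ ha
  exact this hy

theorem CMixP_loc [IsLocalRing Λ] (hD : Loc D)
    (hh : ∀ o, h o ∈ (maximalIdeal Λ).map (MvPolynomial.C : Λ →+* MvPolynomial V Λ)) :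
    Loc (CMixP_E D h) := by
  constructor
  · rintro (v | ⟨g, o⟩)
    · obtain ⟨a, ha, b, hb, hab⟩ := Submodule.mem_sup.1 (hD.mem v)
      change MvPolynomial.rename Sum.inl (D v) ∈ _
      rw [← hab, map_add]
      refine Submodule.add_mem_sup (CMixP_rename_map _ _ ha) ?_
      have : sp (MvPolynomial.X : V → MvPolynomial V Λ) ≤
          (sp (MvPolynomial.X : V ⊕ (Sym D × O) → MvPolynomial _ Λ)).comap
            (MvPolynomial.rename Sum.inl : MvPolynomial V Λ →ₐ[Λ] _).toRingHom := by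
        rw [Ideal.span_le]
        rintro _ ⟨w, rfl⟩
        simp only [SetLike.mem_coe, Ideal.mem_comap, AlgHom.toRingHom_eq_coe, RingHom.coe_coe,
          MvPolynomial.rename_X]
        exact Ideal.subset_span ⟨_, rfl⟩
      exact this hb
    · exact sub_mem (Ideal.mem_sup_right (Ideal.subset_span ⟨_, rfl⟩))
        (Ideal.mem_sup_left (CMixP_rename_map _ _ (hh o)))
  · rintro (v | ⟨g, o⟩)
    · obtain ⟨e, he⟩ := hD.nil v
      refine ⟨e, ?_⟩
      obtain ⟨a, ha, b, hb, hab⟩ := Submodule.mem_sup.1 he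
      have h1 : (MvPolynomial.X (Sum.inl v) : MvPolynomial (V ⊕ (Sym D × O)) Λ) ^ e =
          MvPolynomial.rename Sum.inl a + MvPolynomial.rename Sum.inl b := by
        rw [← map_add, hab, map_pow, MvPolynomial.rename_X]
      rw [h1]
      refine Submodule.add_mem_sup ?_ (CMixP_rename_map _ _ hb)
      have : sp D ≤ (sp (CMixP_E D h)).comap
            (MvPolynomial.rename Sum.inl : MvPolynomial V Λ →ₐ[Λ] _).toRingHom := by
        rw [Ideal.span_le]
        rintro _ ⟨w, rfl⟩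
        exact Ideal.subset_span (s := Set.range (CMixP_E D h)) ⟨Sum.inl w, rfl⟩
      exact this ha
    · refine ⟨1, ?_⟩
      have h1 : (MvPolynomial.X (Sum.inr (g, o)) : MvPolynomial (V ⊕ (Sym D × O)) Λ) ^ 1 =
          CMixP_E D h (Sum.inr (g, o)) + MvPolynomial.rename (Sum.inl ∘ g.1.1) (h o) := by
        simp [CMixP_E]
      rw [h1]
      exact Submodule.add_mem_sup (Ideal.subset_span ⟨_, rfl⟩) (CMixP_rename_map _ _ (hh o))

end ext

variable {p : ℕ} [Fact p.Prime] {k : Type} [Field k] [CharP k p] [PerfectRing k p]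

theorem CMixP_theta {X : Base p k} (M : MixD X) {C : Type} [CommRing C] [IsNoetherianRing C]
    [IsLocalRing C] [CharP C p] [IsAdicComplete (maximalIdeal C) C]
    (f : MvPowerSeries (Fin (X.a₀ + 1)) k →+* C)
    (hf : ∀ i, f (MvPowerSeries.X i) ∈ maximalIdeal C)
    (θA : WS p k (X.a₀ + 1) →+* WittVector p (MvPowerSeries (Fin (X.a₀ + 1)) k))
    (hAC : ∀ w, θA (MvPowerSeries.C w) = WittVector.map MvPowerSeries.C w)
    (hAX : ∀ i, θA (MvPowerSeries.X i) = teichmuller p (MvPowerSeries.X i))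
    (vv : Fin (X.b + 1) → C) (hvv : ∀ l, vv l ∈ maximalIdeal C) :
    ∃ θ' : X.T →+* WittVector p C,
      (∀ a, WittVector.map f (θA (X.ιΛ a)) = θ' (MvPowerSeries.C a)) ∧
      (∀ a, θ' (M.ι a) - WittVector.map f (θA a) ∈
        Ideal.span {WittVector.map f (θA (xi0 p k X.a₀ true))}) ∧
      (∀ l : Fin (X.b + 1), θ' (tv _ _ _ (X.a₀ + l)) = teichmuller p (vv l)) ∧
      ∀ i < X.b' + X.n, ∃ y ∈ maximalIdeal C, θ' (tv _ _ _ i) = teichmuller p y := by
  let z : Option (Fin (X.a₀ + 1) ⊕ Fin (X.b + 1)) → WittVector p C := fun o =>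
    o.elim (p : WittVector p C)
      (Sum.elim (fun i => teichmuller p (f (MvPowerSeries.X i))) fun l => teichmuller p (vv l))
  have hz : ∀ o, (z o).coeff 0 ∈ maximalIdeal C := by
    rintro (_ | i | l)
    · change (p : WittVector p C).coeff 0 ∈ _
      rw [WittVector.coeff_p_zero]
      exact zero_mem _
    · exact hf i
    · exact hvv l
  have := isAdicComplete_witt z hz
  let y : ℕ → C := fun i => if hi : i < X.a₀ then f (MvPowerSeries.X (Fin.succ ⟨i, hi⟩))
    else if hi' : i - X.a₀ < X.b + 1 then vv ⟨i - X.a₀, hi'⟩ else 0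
  have hy1 : ∀ i : Fin X.a₀, y i = f (MvPowerSeries.X i.succ) := fun i => dif_pos i.2
  have hy2 : ∀ l : Fin (X.b + 1), y (X.a₀ + l) = vv l := by
    intro l
    have h1 : ¬ X.a₀ + l.1 < X.a₀ := by omega
    have h2 : X.a₀ + l.1 - X.a₀ < X.b + 1 := by omega
    simp only [y, dif_neg h1, dif_pos h2]
    congr 1
    exact Fin.ext (by simp)
  have hy : ∀ i < X.b' + X.n, y i ∈ maximalIdeal C ∧ teichmuller p (y i) ∈ sp z := by
    intro i hi
    have := M.hd
    by_cases h1 : i < X.a₀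
    · rw [show y i = _ from hy1 ⟨i, h1⟩]
      exact ⟨hf _, Ideal.subset_span ⟨some (Sum.inl _), rfl⟩⟩
    · have h2 : i - X.a₀ < X.b + 1 := by omega
      have h3 : i = X.a₀ + (⟨i - X.a₀, h2⟩ : Fin (X.b + 1)) := by simp; omega
      rw [h3, hy2]
      exact ⟨hvv _, Ideal.subset_span ⟨some (Sum.inr _), rfl⟩⟩
  obtain ⟨θ', hθC, hθX⟩ := exists_eval_nested X.b' X.n (sp z)
    (WittVector.map (f.comp MvPowerSeries.C)) (fun i => teichmuller p (y i))
    (fun i hi => (hy i hi).2)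
  have hC' : ∀ w, WittVector.map f (θA (MvPowerSeries.C w)) =
      WittVector.map (f.comp MvPowerSeries.C) w := by
    intro w
    rw [hAC]
    ext n
    simp
  have hX' : ∀ i, WittVector.map f (θA (MvPowerSeries.X i)) =
      teichmuller p (f (MvPowerSeries.X i)) := by
    intro i
    rw [hAX, WittVector.map_teichmuller]
  refine ⟨θ', ?_, ?_, ?_, fun i hi => ⟨y i, (hy i hi).1, hθX i hi⟩⟩
  · have hb' := M.hb'
    have key : ∀ i : Fin X.b', ((WittVector.map f).comp (θA.comp X.ιΛ)) (MvPowerSeries.X i) =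
        teichmuller p (y i) := by
      intro i
      have hi : i.1 < X.a₀ := lt_of_lt_of_le i.2 hb'
      change WittVector.map f (θA (X.ιΛ (MvPowerSeries.X i))) = _
      rw [M.ιΛX i ⟨i, hi⟩ rfl, hX', ← hy1]
    have := mvPowerSeries_hom_ext ((WittVector.map f).comp (θA.comp X.ιΛ))
      (θ'.comp MvPowerSeries.C) (fun w => by
        change WittVector.map f (θA (X.ιΛ (MvPowerSeries.C w))) = θ' (tc _ _ _ w)
        rw [M.ιΛC, hC', hθC]) (fun i => by
        rw [key, ← hθX i (by omega)]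
        change _ = θ' (MvPowerSeries.C (MvPowerSeries.X i))
        rw [tv, dif_pos i.2]) (iInf_pow_eq_bot (sp z) (by
        rw [Ideal.span_le]
        rintro _ ⟨i, rfl⟩
        change ((WittVector.map f).comp (θA.comp X.ιΛ)) (MvPowerSeries.X i) ∈ sp z
        rw [key]
        exact (hy i (by omega)).2))
    exact fun a => RingHom.congr_fun this a
  · obtain ⟨ρ, hρC, hρ0, hρS, hρ⟩ := exists_subst (p := p) (k := k) X.a₀
    have hd := M.hd
    have := mvPowerSeries_hom_ext (θ'.comp M.ι) ((WittVector.map f).comp (θA.comp ρ))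
      (fun w => by
        change θ' (M.ι (MvPowerSeries.C w)) = WittVector.map f (θA (ρ (MvPowerSeries.C w)))
        rw [M.ιC, hρC, hC', hθC]) (fun i => by
        change θ' (M.ι (MvPowerSeries.X i)) = WittVector.map f (θA (ρ (MvPowerSeries.X i)))
        refine Fin.cases ?_ (fun i => ?_) i
        · rw [M.ιZ, hρ0, map_natCast, map_natCast, map_natCast]
        · rw [M.ιS, hρS, hX', hθX i (by omega), hy1]) (iInf_pow_eq_bot (sp z) (by
        rw [Ideal.span_le]
        rintro _ ⟨i, rfl⟩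
        change θ' (M.ι (MvPowerSeries.X i)) ∈ sp z
        refine Fin.cases ?_ (fun i => ?_) i
        · rw [M.ιZ, map_natCast]
          exact Ideal.subset_span ⟨none, rfl⟩
        · rw [M.ιS, hθX i (by omega)]
          exact (hy i (by omega)).2))
    intro a
    have h1 : θ' (M.ι a) = WittVector.map f (θA (ρ a)) := RingHom.congr_fun this a
    obtain ⟨r, hr⟩ := Ideal.mem_span_singleton'.1 (hρ a)
    rw [h1, ← map_sub, ← map_sub, ← hr, map_mul, map_mul]
    exact Ideal.mul_mem_left _ _ (Ideal.subset_span rfl)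
  · intro l
    have hd := M.hd
    rw [hθX _ (by omega), hy2]

theorem CMixP_X0_mem (a : ℕ) :
    (MvPowerSeries.X 0 : WS p k (a + 1)) ∈ maximalIdeal (WS p k (a + 1)) := by
  rw [mem_maximalIdeal, mem_nonunits_iff, MvPowerSeries.isUnit_iff_constantCoeff]
  simp

/-- symmetries of the system act on the Witt vectors of the perfection of the envelope -/
theorem CMixP_sym {a₀ : ℕ} {θA : WS p k (a₀ + 1) →+* WittVector p (MvPowerSeries (Fin (a₀ + 1)) k)}
    {Ω : Type} {E : Ω → MvPolynomial Ω (WS p k (a₀ + 1))} {K : ℕ} (Y : Env θA E K)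
    (g : Equiv.Perm Ω × Equiv.Perm Ω) (hg : g ∈ Sym E) :
    ∃ e : PerfectClosure Y.C p ≃+* PerfectClosure Y.C p,
      (∀ x, e (PerfectClosure.of Y.C p (algebraMap (MvPowerSeries (Fin (a₀ + 1)) k) Y.C x)) =
        PerfectClosure.of Y.C p (algebraMap (MvPowerSeries (Fin (a₀ + 1)) k) Y.C x)) ∧
      ∀ o, e (PerfectClosure.of Y.C p (Y.v o)) = PerfectClosure.of Y.C p (Y.v (g.1 o)) := by
  obtain ⟨e, he⟩ := Y.sym g hg
  obtain ⟨e', he'⟩ := exists_perf_equiv (p := p) e.toRingEquiv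
  refine ⟨e', fun x => ?_, fun o => ?_⟩
  · rw [he']
    exact congrArg _ (e.commutes x)
  · rw [he']
    exact congrArg _ (he o)

section abstract

variable {Λ V A : Type} [CommRing Λ] [CommRing A]

theorem CMixP_W_comp {B O : Type} [CommRing B] [CommRing O] (f : B →+* O) (e : O →+* O)
    (he : ∀ x, e (f x) = f x) (y : WittVector p B) :
    WittVector.map e (WittVector.map f y) = WittVector.map f y := by
  ext n
  simp [he]

theorem CMixP_W_symm {O : Type} [CommRing O] (e : O ≃+* O) (y : WittVector p O) :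
    WittVector.map e.symm.toRingHom (WittVector.map e.toRingHom y) = y := by
  ext n
  simp

theorem CMixP_equivar (θ₀ : Λ →+* A) (u : V → A) (G : A →+* A) (σ : V → V)
    (h0 : ∀ a, G (θ₀ a) = θ₀ a) (hu : ∀ v, G (u v) = u (σ v)) (y : MvPolynomial V Λ) :
    G (MvPolynomial.eval₂Hom θ₀ u y) =
      MvPolynomial.eval₂Hom θ₀ u (MvPolynomial.rename σ y) := by
  have : G.comp (MvPolynomial.eval₂Hom θ₀ u) = (MvPolynomial.eval₂Hom θ₀ u).comp
      (MvPolynomial.rename σ : MvPolynomial V Λ →ₐ[Λ] MvPolynomial V Λ).toRingHom :=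
    MvPolynomial.ringHom_ext (fun a => by simp [h0]) (fun v => by simp [hu])
  exact RingHom.congr_fun this y

theorem CMixP_stab (G : A →+* A) {a b : A} (ha : G a = a) (hb : G b = b) {x : A}
    (hx : x ∈ Ideal.span {a} ⊔ Ideal.span {b}) : G x ∈ Ideal.span {a} ⊔ Ideal.span {b} := by
  obtain ⟨y, hy, z, hz, rfl⟩ := Submodule.mem_sup.1 hx
  obtain ⟨r, rfl⟩ := Ideal.mem_span_singleton'.1 hy
  obtain ⟨r', rfl⟩ := Ideal.mem_span_singleton'.1 hz
  rw [map_add, map_mul, map_mul, ha, hb]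
  exact Submodule.add_mem_sup (Ideal.mul_mem_left _ _ (Ideal.subset_span rfl))
    (Ideal.mul_mem_left _ _ (Ideal.subset_span rfl))

theorem CMixP_stab' (G : A →+* A) {I : Ideal A} (hI : ∀ x ∈ I, G x ∈ I) {B : Type} [CommRing B]
    (Θ : B →+* A) (P : Ideal B) (hP : ∀ y ∈ P, ∃ y' ∈ P, G (Θ y) = Θ y') {x : A}
    (hx : x ∈ I ⊔ P.map Θ) : G x ∈ I ⊔ P.map Θ := by
  have : I ⊔ P.map Θ ≤ (I ⊔ P.map Θ).comap G := by
    refine sup_le (fun y hy => Ideal.mem_sup_left (hI y hy)) ?_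
    rw [Ideal.map_le_iff_le_comap]
    intro y hy
    obtain ⟨y', hy', e⟩ := hP y hy
    change G (Θ y) ∈ I ⊔ P.map Θ
    rw [e]
    exact Ideal.mem_sup_right (Ideal.mem_map_of_mem _ hy')
  exact this hx

theorem CMixP_prod_sub {ι : Type} (I : Ideal A) (s : Finset ι) (u w : ι → A)
    (h : ∀ i, u i - w i ∈ I) : ∏ i ∈ s, u i - ∏ i ∈ s, w i ∈ I := by
  rw [← Ideal.Quotient.eq, map_prod, map_prod]
  exact Finset.prod_congr rfl fun i _ => Ideal.Quotient.eq.2 (h i)

end abstract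

theorem MixD.pre {X : Base p k} (M : MixD X) (K : ℕ) : Nonempty (Pre X K) := by
  classical
  choose t' ht' using fun ij : Fin (2 * X.m + 1) × X.J => X.hπ (pl X.U ij.1 ij.2)
  choose t0 ht0 using fun ij => M.hT (t' ij)
  let h : Option (Fin (2 * X.m + 1) × X.J) → MvPolynomial M.V X.Λ := fun o =>
    MvPolynomial.C (MvPowerSeries.X 0) * o.elim M.c₀ fun ij => MvPolynomial.rename M.ι₀ (t0 ij)
  have hh : ∀ o, h o ∈ (maximalIdeal X.Λ).map (MvPolynomial.C : X.Λ →+* MvPolynomial M.V X.Λ) :=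
    fun o => Ideal.mul_mem_right _ _ (Ideal.mem_map_of_mem _ (CMixP_X0_mem X.a₀))
  obtain ⟨θA, hAC, hAX, -⟩ := exists_thetaA (p := p) (k := k) (X.a₀ + 1)
  have : Fintype (Sym M.D) := Fintype.ofFinite _
  obtain ⟨Y⟩ := exists_env θA hAC hAX (CMixP_E M.D h) (CMixP_loc M.D h M.loc hh) K
  obtain ⟨θ', hθι, hθρ, hθv, hθm⟩ := CMixP_theta M
    (algebraMap (MvPowerSeries (Fin (X.a₀ + 1)) k) Y.C) Y.smem θA hAC hAX
    (fun l => Y.v (Sum.inl (M.ι₀ l))) (fun l => Y.vmem _)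
  obtain ⟨f, hf⟩ : ∃ f : MvPowerSeries (Fin (X.a₀ + 1)) k →+* PerfectClosure Y.C p,
      f = (PerfectClosure.of Y.C p).comp (algebraMap (MvPowerSeries (Fin (X.a₀ + 1)) k) Y.C) :=
    ⟨_, rfl⟩
  have hfx : ∀ x, f x = PerfectClosure.of Y.C p
      (algebraMap (MvPowerSeries (Fin (X.a₀ + 1)) k) Y.C x) := fun x => by rw [hf]; rfl
  obtain ⟨θ₀, hθ₀⟩ : ∃ θ₀ : X.Λ →+* WittVector p (PerfectClosure Y.C p),
      θ₀ = (WittVector.map f).comp θA := ⟨_, rfl⟩
  have hθ₀x : ∀ a, θ₀ a = WittVector.map f (θA a) := fun a => by rw [hθ₀]; rfl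
  obtain ⟨θ, hθ⟩ : ∃ θ : X.T →+* WittVector p (PerfectClosure Y.C p),
      θ = (WittVector.map (PerfectClosure.of Y.C p)).comp θ' := ⟨_, rfl⟩
  have hθx : ∀ t, θ t = WittVector.map (PerfectClosure.of Y.C p) (θ' t) := fun t => by
    rw [hθ]; rfl
  have hmm : ∀ y : WittVector p (MvPowerSeries (Fin (X.a₀ + 1)) k), WittVector.map (PerfectClosure.of Y.C p)
      (WittVector.map (algebraMap (MvPowerSeries (Fin (X.a₀ + 1)) k) Y.C) y) =
      WittVector.map f y := by
    intro y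
    ext n
    simp [hfx]
  obtain ⟨JK, hJK⟩ : ∃ JK : Ideal (WittVector p (PerfectClosure Y.C p)),
      JK = Ideal.span {θ₀ (xi0 p k X.a₀ true)} ⊔
        Ideal.span {(p : WittVector p (PerfectClosure Y.C p)) ^ K} := ⟨_, rfl⟩
  have hξJK : θ₀ (xi0 p k X.a₀ true) ∈ JK := by
    rw [hJK]
    exact Ideal.mem_sup_left (Ideal.subset_span rfl)
  have hX0 : ∀ i, θ₀ (MvPowerSeries.X i) =
      tw p (algebraMap (MvPowerSeries (Fin (X.a₀ + 1)) k) Y.C (MvPowerSeries.X i)) := by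
    intro i
    rw [hθ₀x, hAX, WittVector.map_teichmuller, hfx]
  have hρ : ∀ a, θ (M.ι a) - θ₀ a ∈ JK := by
    intro a
    obtain ⟨r, hr⟩ := Ideal.mem_span_singleton'.1 (hθρ a)
    rw [hθx, hθ₀x, ← hmm, ← map_sub, ← hr, map_mul, hmm, ← hθ₀x]
    exact Ideal.mul_mem_left _ _ hξJK
  obtain ⟨Θ, hΘ⟩ : ∃ Θ : MvPolynomial M.V X.Λ →+* WittVector p (PerfectClosure Y.C p),
      Θ = MvPolynomial.eval₂Hom θ₀ fun v => tw p (Y.v (Sum.inl v)) := ⟨_, rfl⟩
  have hΘC : ∀ a, Θ (MvPolynomial.C a) = θ₀ a := fun a => by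
    rw [hΘ, MvPolynomial.eval₂Hom_C]
  have hΘX : ∀ v, Θ (MvPolynomial.X v) = tw p (Y.v (Sum.inl v)) := fun v => by
    rw [hΘ, MvPolynomial.eval₂Hom_X']
  have heq : ∀ o, MvPolynomial.eval₂Hom θ₀ (fun o => tw p (Y.v o)) (CMixP_E M.D h o) ∈ JK := by
    intro o
    have := Y.eqn o
    rw [← hf, ← hθ₀, ← hθ₀x, ← hJK] at this
    exact this
  have hren : ∀ (σ : M.V → M.V) y, MvPolynomial.eval₂Hom θ₀ (fun o => tw p (Y.v o))
      (MvPolynomial.rename (Sum.inl ∘ σ) y) = Θ (MvPolynomial.rename σ y) := by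
    intro σ y
    rw [hΘ, MvPolynomial.eval₂Hom_rename, MvPolynomial.eval₂Hom_rename]
    rfl
  have hD : ∀ v, Θ (M.D v) ∈ JK := by
    intro v
    have h1 := heq (Sum.inl v)
    have h2 := hren id (M.D v)
    rw [MvPolynomial.rename_id_apply] at h2
    rw [← h2]
    exact h1
  have hV : ∀ (g : Sym M.D) o, tw p (Y.v (Sum.inr (g, o))) -
      Θ (MvPolynomial.rename g.1.1 (h o)) ∈ JK := by
    intro g o
    have h1 := heq (Sum.inr (g, o))
    rw [CMixP_E_inr, map_sub, MvPolynomial.eval₂Hom_X', hren] at h1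
    exact h1
  have hV1 : ∀ o, tw p (Y.v (Sum.inr (1, o))) - Θ (h o) ∈ JK := by
    intro o
    have h1 := hV 1 o
    rwa [show ⇑((1 : Sym M.D).1.1) = id from rfl, MvPolynomial.rename_id_apply] at h1
  have hDJ : ∀ y ∈ sp M.D ⊔ Ideal.span {MvPolynomial.C (xi0 p k X.a₀ true)}, Θ y ∈ JK := by
    have : sp M.D ⊔ Ideal.span {MvPolynomial.C (xi0 p k X.a₀ true)} ≤ JK.comap Θ := by
      refine sup_le ?_ ?_
      · rw [Ideal.span_le]
        rintro _ ⟨v, rfl⟩
        exact hD v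
      · rw [Ideal.span_le, Set.singleton_subset_iff]
        change Θ _ ∈ JK
        rw [hΘC]
        exact hξJK
    exact fun y hy => this hy
  have hev : ∀ t, θ (evN M.ι (tv _ _ _) X.a₀ (X.b + 1) t) - Θ (MvPolynomial.rename M.ι₀ t) ∈ JK := by
    have : ((Ideal.Quotient.mk JK).comp θ).comp (evN M.ι (tv _ _ _) X.a₀ (X.b + 1)) =
        ((Ideal.Quotient.mk JK).comp Θ).comp
          (MvPolynomial.rename M.ι₀ : MvPolynomial _ X.Λ →ₐ[X.Λ] _).toRingHom := by
      refine MvPolynomial.ringHom_ext (fun a => ?_) (fun l => ?_)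
      · simp only [RingHom.comp_apply, MvPolynomial.eval₂Hom_C, AlgHom.toRingHom_eq_coe,
          RingHom.coe_coe, MvPolynomial.rename_C, hΘC]
        exact Ideal.Quotient.eq.2 (hρ a)
      · simp only [RingHom.comp_apply, MvPolynomial.eval₂Hom_X', AlgHom.toRingHom_eq_coe,
          RingHom.coe_coe, MvPolynomial.rename_X, hΘX]
        rw [hθx, hθv, WittVector.map_teichmuller]
    exact fun t => Ideal.Quotient.eq.1 (RingHom.congr_fun this t)
  have hH : ∀ t, X.π t ∈ X.H → θ t ∈ JK := by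
    have : X.H.comap X.π ≤ JK.comap θ := by
      rw [M.hH, Ideal.span_le]
      rintro _ ⟨l, rfl⟩
      change θ _ ∈ JK
      have := add_mem (hev (M.G l)) (hDJ _ (Ideal.mem_sup_left (M.hG l)))
      rwa [sub_add_cancel] at this
    exact fun t ht => this ht
  obtain ⟨c, hc⟩ : ∃ c : Y.C, c = algebraMap (MvPowerSeries (Fin (X.a₀ + 1)) k) Y.C
      (MvPowerSeries.X 0) * ∏ g ∈ M.St, Y.v (Sum.inr (g, none)) := ⟨_, rfl⟩
  have htwc : tw p c = tw p (algebraMap (MvPowerSeries (Fin (X.a₀ + 1)) k) Y.C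
      (MvPowerSeries.X 0)) * ∏ g ∈ M.St, tw p (Y.v (Sum.inr (g, none))) := by
    rw [hc]
    simp only [tw, map_mul, map_prod]
  obtain ⟨𝔍, h𝔍⟩ : ∃ 𝔍 : Ideal (WittVector p (PerfectClosure Y.C p)),
      𝔍 = JK ⊔ (RingHom.ker M.Φ.toRingHom).map Θ := ⟨_, rfl⟩
  have hle : JK ≤ 𝔍 := h𝔍 ▸ le_sup_left
  have hker : ∀ y, M.Φ y = 0 → Θ y ∈ 𝔍 := fun y hy =>
    h𝔍 ▸ Ideal.mem_sup_right (Ideal.mem_map_of_mem _ hy)
  obtain ⟨ψ, hψ⟩ : ∃ ψ : X.S →+* WittVector p (PerfectClosure Y.C p) ⧸ 𝔍,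
      ∀ y, ψ (M.Φ y) = Ideal.Quotient.mk 𝔍 (Θ y) :=
    ⟨M.Φ.toRingHom.liftOfRightInverse (Function.surjInv M.surj)
      (Function.rightInverse_surjInv M.surj) ⟨(Ideal.Quotient.mk 𝔍).comp Θ, fun y hy =>
        Ideal.Quotient.eq_zero_iff_mem.2 (hker y hy)⟩,
      fun y => RingHom.liftOfRightInverse_comp_apply _ _ _ _ y⟩
  -- the symmetries
  choose e he1 he2 using fun g : Sym M.D => CMixP_sym Y _ (CMixP_hat_mem M.D h g)
  have hW0 : ∀ g a, WittVector.map (e g).toRingHom (θ₀ a) = θ₀ a := by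
    intro g a
    rw [hθ₀x]
    exact CMixP_W_comp f _ (fun x => by rw [hfx]; exact he1 g x) _
  have hW0' : ∀ g a, WittVector.map (e g).symm.toRingHom (θ₀ a) = θ₀ a := by
    intro g a
    conv_lhs => rw [← hW0 g a]
    exact CMixP_W_symm _ _
  have hWΘ : ∀ (g : Sym M.D) y, WittVector.map (e g).toRingHom (Θ y) =
      Θ (MvPolynomial.rename g.1.1 y) := by
    intro g y
    rw [hΘ]
    refine CMixP_equivar θ₀ _ _ _ (hW0 g) (fun v => ?_) y
    rw [WittVector.map_teichmuller]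
    exact congrArg _ (he2 g (Sum.inl v))
  have hWJ : ∀ g, ∀ x ∈ JK, WittVector.map (e g).toRingHom x ∈ JK := by
    intro g x hx
    rw [hJK] at hx ⊢
    exact CMixP_stab _ (hW0 g _) (by rw [map_pow, map_natCast]) hx
  have hWJ' : ∀ g, ∀ x ∈ JK, WittVector.map (e g).symm.toRingHom x ∈ JK := by
    intro g x hx
    rw [hJK] at hx ⊢
    exact CMixP_stab _ (hW0' g _) (by rw [map_pow, map_natCast]) hx
  have hW𝔍 : ∀ γ, ∀ x ∈ 𝔍, WittVector.map (e (M.sel γ)).toRingHom x ∈ 𝔍 := by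
    intro γ x hx
    rw [h𝔍] at hx ⊢
    refine CMixP_stab' _ (hWJ _) Θ _ (fun y hy => ⟨_, ?_, hWΘ _ y⟩) hx
    change M.Φ _ = 0
    rw [← M.hsel, show M.Φ y = 0 from hy, map_zero]
  have hW𝔍' : ∀ γ, ∀ x ∈ 𝔍, WittVector.map (e (M.sel γ)).symm.toRingHom x ∈ 𝔍 := by
    intro γ x hx
    rw [h𝔍] at hx ⊢
    refine CMixP_stab' _ (hWJ' _) Θ _ (fun y hy => ?_) hx
    have h1 : MvPolynomial.rename (M.sel γ).1.1 (MvPolynomial.rename (M.sel γ).1.1.symm y) = y := by
      rw [MvPolynomial.rename_rename, Equiv.self_comp_symm, MvPolynomial.rename_id_apply]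
    refine ⟨MvPolynomial.rename (M.sel γ).1.1.symm y, ?_, ?_⟩
    · change M.Φ _ = 0
      apply (X.gal γ).injective
      rw [M.hsel, h1, map_zero]
      exact hy
    · conv_lhs => rw [← h1, ← hWΘ]
      exact CMixP_W_symm _ _
  have hq : X.q₀ = 1 := (X.hmix M.hmix).2
  refine ⟨{
    C := Y.C
    inj := Y.inj
    s := fun i => algebraMap (MvPowerSeries (Fin (X.a₀ + 1)) k) Y.C (MvPowerSeries.X i)
    hs := fun i => rfl
    smem := Y.smem
    reg := isSMulRegular_of_reg _ Y.reg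
    β := fun i j => Y.v (Sum.inr (1, some (i, j)))
    c := c
    hc := hc ▸ dvd_mul_right _ _
    ak := ?_
    θ := θ
    θ₀ := θ₀
    hθ₀ := hX0
    hθι := ?_
    JK := JK
    hJK := by rw [M.hmix]; exact hJK
    hξ := ?_
    hH := hH
    hβ := ?_
    hsT := ?_
    𝔍 := 𝔍
    le𝔍 := hle
    h𝔍 := ?_
    ψ := ψ
    hψ := ?_
    hψ₀ := ?_
    g := fun γ => e (M.sel γ)
    hg := fun γ => he1 _
    hgc := ?_
    hg𝔍 := fun γ x => ⟨fun hx => CMixP_W_symm (e (M.sel γ)) x ▸ hW𝔍' γ _ hx, hW𝔍 γ x⟩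
    hgψ := ?_
    g' := fun γ => e (M.eG γ)
    hg' := fun γ => he1 _
    mass := ?_ }⟩
  · intro q n hn x hx hD
    obtain ⟨y, hy⟩ := ak_of_reg _ Y.smem Y.reg (p ^ q) n hn x hx hD
    exact ⟨c • y, by rw [map_smul, hy]⟩
  · intro a
    rw [hθ₀x, hθx, ← hθι, hmm]
  · have : spn (tv (WittVector p k) X.b' X.n) (X.b' + X.n) ≤
        (Ideal.span (tw p '' (maximalIdeal Y.C : Set Y.C))).comap θ := by
      rw [spn, Ideal.span_le]
      rintro _ ⟨i, hi, rfl⟩
      obtain ⟨y, hy, e⟩ := hθm i hi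
      rw [SetLike.mem_coe, Ideal.mem_comap, hθx, e, WittVector.map_teichmuller]
      exact Ideal.subset_span ⟨y, hy, rfl⟩
    have h1 := Ideal.mem_comap.1 (this M.hξp)
    rwa [map_sub, map_natCast] at h1
  · intro i j t ht
    have h1 : θ (t - X.sT 0 * t' (i, j)) ∈ JK := by
      apply hH
      rw [map_sub, map_mul, ht, ht', Base.β, sub_self]
      exact zero_mem _
    have h2 : θ (t' (i, j) - evN M.ι (tv _ _ _) X.a₀ (X.b + 1) (t0 (i, j))) ∈ JK :=
      hH _ (ht0 (i, j))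
    have h3 := hev (t0 (i, j))
    have h4 := hV1 (some (i, j))
    have h5 := hρ (MvPowerSeries.X 0)
    have h6 : Θ (h (some (i, j))) =
        θ₀ (MvPowerSeries.X 0) * Θ (MvPolynomial.rename M.ι₀ (t0 (i, j))) := by
      rw [← hΘC, ← map_mul]
      rfl
    rw [map_sub, map_mul, M.hsT] at h1
    rw [map_sub] at h2
    rw [h6] at h4
    have h7 := sub_mem (add_mem (add_mem h1 (Ideal.mul_mem_left _ (θ (M.ι (MvPowerSeries.X 0)))
      (add_mem h2 h3))) (Ideal.mul_mem_right (Θ (MvPolynomial.rename M.ι₀ (t0 (i, j)))) _ h5)) h4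
    convert h7 using 1
    ring
  · intro i
    rw [hq, pow_one, M.hsT, ← hX0]
    exact hρ _
  · have hm := M.hmP
    rw [h𝔍]
    refine sup_le (fun y hy => Ideal.subset_span ?_) ?_
    · exact Ideal.mul_mem_left _ _ (Ideal.pow_mem_of_mem _ hy _ hm)
    · rw [Ideal.map_le_iff_le_comap]
      intro y hy
      refine Ideal.subset_span (s := {y | tw p c * y ^ X.mP ∈ JK}) ?_
      change tw p c * Θ y ^ X.mP ∈ JK
      have h1 := hDJ _ (M.hc₀ y hy)
      have h4 := hV1 none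
      have h6 : Θ (h none) = θ₀ (MvPowerSeries.X 0) * Θ M.c₀ := by
        rw [← hΘC, ← map_mul]
        rfl
      rw [h6] at h4
      rw [map_mul, map_pow] at h1
      rw [htwc, ← Finset.mul_prod_erase _ _ M.one_mem]
      have h7 := Ideal.mul_mem_left _ (tw p (algebraMap (MvPowerSeries (Fin (X.a₀ + 1)) k) Y.C
        (MvPowerSeries.X 0)) * ∏ g ∈ M.St.erase 1, tw p (Y.v (Sum.inr (g, none))))
        (add_mem (Ideal.mul_mem_right (Θ y ^ X.mP) _ h4)
          (Ideal.mul_mem_left _ (θ₀ (MvPowerSeries.X 0)) h1))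
      convert h7 using 1
      ring
  · intro t
    obtain ⟨t₀, ht₀⟩ := M.hT t
    have h1 : algebraMap X.R X.S (X.π t) = M.Φ (MvPolynomial.rename M.ι₀ t₀) := by
      rw [M.hΦ, ← sub_eq_zero, ← map_sub, ← map_sub]
      exact X.hHS ht₀
    rw [h1, hψ, eq_comm, Ideal.Quotient.eq]
    have h2 := add_mem (hH _ ht₀) (hev t₀)
    rw [map_sub, sub_add_sub_cancel] at h2
    exact hle h2
  · intro a
    rw [← hΘC, ← hψ, ← M.Φ.commutes]
    rfl
  · intro γ
    rw [hc]
    simp only [map_mul, map_prod, he1, he2, CMixP_hat_inr]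
    congr 1
    exact Finset.prod_equiv (Equiv.mulLeft (M.sel γ)) (fun g => (M.hSt γ g).symm) fun g _ => rfl
  · intro γ y x hx
    obtain ⟨y, rfl⟩ := M.surj y
    rw [hψ, Ideal.Quotient.eq] at hx
    rw [M.hsel, hψ, ← hWΘ, Ideal.Quotient.eq, ← map_sub]
    exact hW𝔍 γ _ hx
  · have h0 : tw p c - Θ (MvPolynomial.C (MvPowerSeries.X 0) * ∏ g ∈ M.St,
        MvPolynomial.rename g.1.1 (MvPolynomial.C (MvPowerSeries.X 0) * M.c₀)) ∈ JK := by
      rw [htwc, map_mul, map_prod, hΘC, hX0, ← mul_sub]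
      exact Ideal.mul_mem_left _ _ (CMixP_prod_sub _ _ _ _ fun g => hV g none)
    have : sp M.D ⊔ Ideal.span {MvPolynomial.C (xi0 p k X.a₀ true)} ⊔
        (sp fun g : X.G => MvPolynomial.rename (M.eG g).1.1 (MvPolynomial.C (MvPowerSeries.X 0) *
          ∏ g ∈ M.St, MvPolynomial.rename g.1.1 (MvPolynomial.C (MvPowerSeries.X 0) * M.c₀))) ≤
        (sp (fun γ => teichmuller p (e (M.eG γ) (PerfectClosure.of Y.C p c))) ⊔ JK).comap Θ := by
      refine sup_le (fun y hy => Ideal.mem_sup_right (hDJ y hy)) ?_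
      rw [Ideal.span_le]
      rintro _ ⟨γ, rfl⟩
      have h1 := hWJ (M.eG γ) _ h0
      rw [map_sub, hWΘ, WittVector.map_teichmuller] at h1
      have h2 := sub_mem (Ideal.mem_sup_left (Ideal.subset_span
        (s := Set.range fun γ => teichmuller p (e (M.eG γ) (PerfectClosure.of Y.C p c))) ⟨γ, rfl⟩))
        (Ideal.mem_sup_right h1)
      rw [SetLike.mem_coe, Ideal.mem_comap]
      convert h2 using 1
      simp
    have h1 := Ideal.mem_comap.1 (this M.mass)
    rwa [hΘC] at h1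

end Crest.Agent.R188
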