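import Crest.Agent.R188.CTowAux

/-!
# The complete intersection is cut out by a tower
-/

set_option autoImplicit false
set_option linter.unusedVariables false

open scoped ENNReal NNReal TensorProduct

namespace Crest.Agent.R188

open Crest.Agent.R183 IsLocalRing WittVector

variable {p : ℕ} [Fact p.Prime] {k : Type} [Field k] [CharP k p] [PerfectRing k p]

theorem CTow_max_W : maximalIdeal (WittVector p k) = Ideal.span {(p : WittVector p k)} := by
  rw [← (regL_witt p k).max]
  simp [sp]

theorem CTow_max_T (b' n : ℕ) : maximalIdeal (MvPowerSeries (Fin n) (WS p k b')) =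
    Ideal.span {(p : MvPowerSeries (Fin n) (WS p k b'))} ⊔ spn (tv _ b' n) (b' + n) := by
  rw [maximalIdeal_nested, CTow_max_W, Ideal.map_span]
  simp

theorem CTow_max_A (d : ℕ) : maximalIdeal (WS p k d) =
    Ideal.span {(p : WS p k d)} ⊔ sp MvPowerSeries.X := by
  rw [← (regL_witt_series p k d).max, CTow_sp_cons]

theorem CTow_map_max {T : Type} [CommRing T] {d : ℕ} (lam : WS p k d →+* T) :
    (maximalIdeal (WS p k d)).map lam =
      Ideal.span {(p : T)} ⊔ sp fun i => lam (MvPowerSeries.X i) := by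
  rw [CTow_max_A, Ideal.map_sup, Ideal.map_span, Ideal.map_span, ← Set.range_comp]
  simp only [Set.image_singleton, map_natCast]
  rfl

theorem CTow_res_A (d : ℕ) (r : WS p k d) :
    ∃ w, r - MvPowerSeries.C w ∈ maximalIdeal (WS p k d) :=
  ⟨MvPowerSeries.coeff 0 r, by rw [Complete_mem_max]; simp⟩

theorem CTow_res_T (b' n : ℕ) (r : MvPowerSeries (Fin n) (WS p k b')) :
    ∃ w, r - tc _ b' n w ∈ maximalIdeal (MvPowerSeries (Fin n) (WS p k b')) := by
  obtain ⟨w, hw⟩ := CTow_res_A b' (MvPowerSeries.coeff 0 r)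
  refine ⟨w, ?_⟩
  rw [Complete_mem_max]
  simpa [tc] using hw

theorem CTow_tv_mem (b' n i : ℕ) :
    tv (WittVector p k) b' n i ∈ maximalIdeal (MvPowerSeries (Fin n) (WS p k b')) := by
  rw [CTow_max_T]
  exact Ideal.mem_sup_right (tv_mem _ _ _ _)

theorem CTow_p_mem (b' n : ℕ) :
    (p : MvPowerSeries (Fin n) (WS p k b')) ∈ maximalIdeal (MvPowerSeries (Fin n) (WS p k b')) := by
  rw [CTow_max_T]
  exact Ideal.mem_sup_left (Ideal.mem_span_singleton_self _)

/-- Weierstrass preparation for the last variable -/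
theorem exists_last {d : ℕ} {b' n : ℕ} (hd : b' + n = d + 1)
    (ξ : MvPowerSeries (Fin n) (WS p k b'))
    (hξ : ∃ c : ℕ, tv (WittVector p k) b' n d ^ c ∈ Ideal.span {ξ} ⊔
      Ideal.span {(p : MvPowerSeries (Fin n) (WS p k b'))} ⊔ spn (tv _ b' n) d)
    (hm : ξ ∈ maximalIdeal _) (lam : WS p k d →+* MvPowerSeries (Fin n) (WS p k b'))
    (hC : ∀ w, lam (MvPowerSeries.C w) = tc _ _ _ w)
    (hX : ∀ i : Fin d, lam (MvPowerSeries.X i) = tv _ _ _ i) :
    ∃ g : Polynomial (WS p k d), g.IsDistinguishedAt (maximalIdeal _) ∧ 0 < g.natDegree ∧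
      Ideal.span {g.eval₂ lam (tv _ _ _ d)} = Ideal.span {ξ} := by
  have := isAdicComplete_witt_series p k d
  have hn0 : (maximalIdeal (WS p k d)).map lam =
      Ideal.span {(p : MvPowerSeries (Fin n) (WS p k b'))} ⊔ spn (tv _ b' n) d := by
    rw [CTow_map_max, CTow_spn_eq]
    simp only [hX]
  have hmax : maximalIdeal (MvPowerSeries (Fin n) (WS p k b')) =
      (maximalIdeal (WS p k d)).map lam ⊔ Ideal.span {tv _ b' n d} := by
    rw [hn0, CTow_max_T, hd, CTow_spn_succ, sup_assoc]
  obtain ⟨x, hx⟩ := CTow_regL_cast (show b' + 1 + n = d + 1 + 1 by omega)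
    ((regL_witt_series p k b').mvPowerSeries n)
  have hsp : (maximalIdeal (WS p k d)).map lam =
      sp (Fin.cons (p : MvPowerSeries (Fin n) (WS p k b')) fun i : Fin d => tv _ b' n i :
        Fin (d + 1) → _) := by
    rw [hn0, CTow_sp_cons, CTow_spn_eq]
  obtain ⟨hpr, ht⟩ := CTow_prime hx _ (tv _ b' n d) (hsp ▸ hmax)
  refine CTow_weier lam _ ξ hmax (fun r => ?_) (hsp ▸ hpr) (hsp ▸ ht) hm ?_
  · obtain ⟨w, hw⟩ := CTow_res_T b' n r
    exact ⟨MvPowerSeries.C w, by rwa [hC]⟩
  · rwa [hn0, ← sup_assoc]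

theorem exists_tower {R : Type} [CommRing R] [IsNoetherianRing R] [IsLocalRing R]
    {a₀ b b' n : ℕ} (hd : b' + n = a₀ + (b + 1)) (π : MvPowerSeries (Fin n) (WS p k b') →+* R)
    (hπ : Function.Surjective π) (ξ : MvPowerSeries (Fin n) (WS p k b'))
    (hξ : RingHom.ker π = Ideal.span {ξ})
    (hc : ∃ c : ℕ, maximalIdeal R ^ c ≤
      Ideal.span {(p : R)} ⊔ spn (fun i => π (tv _ _ _ i)) (a₀ + b))
    (ι : WS p k (a₀ + 1) →+* MvPowerSeries (Fin n) (WS p k b'))
    (ιC : ∀ w, ι (MvPowerSeries.C w) = tc _ _ _ w) (ιZ : ι (MvPowerSeries.X 0) = p)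
    (ιS : ∀ i : Fin a₀, ι (MvPowerSeries.X i.succ) = tv _ _ _ i)
    (f : Fin b → Polynomial (WS p k (a₀ + 1)))
    (hf : ∀ l, (f l).IsDistinguishedAt (maximalIdeal _)) (hf0 : ∀ l, 0 < (f l).natDegree)
    (H : Ideal R) (hH : H = sp fun l => π ((f l).eval₂ ι (tv _ _ _ (a₀ + l)))) :
    ∃ G : Fin (b + 1) → MvPolynomial (Fin (b + 1)) (WS p k (a₀ + 1)), Tower G ∧
      H.comap π = (sp fun l => evN ι (tv _ _ _) a₀ (b + 1) (G l)) ∧
      ∀ t, ∃ t₀, t - evN ι (tv _ _ _) a₀ (b + 1) t₀ ∈ H.comap π := by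
  classical
  have hcΛ := isAdicComplete_witt_series p k (a₀ + 1)
  have hcA := isAdicComplete_witt_series p k (a₀ + b)
  have hcB := isAdicComplete_witt_series p k b'
  have hcT : IsAdicComplete (maximalIdeal (MvPowerSeries (Fin n) (WS p k b')))
      (MvPowerSeries (Fin n) (WS p k b')) :=
    isAdicComplete_mvPowerSeries _ (IsNoetherian.noetherian _) (Fin n)
  obtain ⟨lam, lamC, lamX⟩ := exists_eval (maximalIdeal (MvPowerSeries (Fin n) (WS p k b')))
    (tc (WittVector p k) b' n) (fun i : Fin (a₀ + b) => tv (WittVector p k) b' n i)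
    (fun i => CTow_tv_mem b' n i)
  have : IsLocalHom π := IsLocalHom.of_surjective π hπ
  have hξm : ξ ∈ maximalIdeal _ := by
    intro hu
    have h0 : π ξ = 0 := by
      rw [← RingHom.mem_ker, hξ]
      exact Ideal.mem_span_singleton_self _
    exact not_isUnit_zero (h0 ▸ hu.map π)
  have hξc : ∃ c : ℕ, tv (WittVector p k) b' n (a₀ + b) ^ c ∈ Ideal.span {ξ} ⊔
      Ideal.span {(p : MvPowerSeries (Fin n) (WS p k b'))} ⊔ spn (tv _ b' n) (a₀ + b) := by
    obtain ⟨c, hc⟩ := hc
    refine ⟨c, ?_⟩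
    have h1 : π (tv (WittVector p k) b' n (a₀ + b) ^ c) ∈
        (Ideal.span {(p : MvPowerSeries (Fin n) (WS p k b'))} ⊔ spn (tv _ b' n) (a₀ + b)).map π := by
      rw [map_pow, Ideal.map_sup, Ideal.map_span, CTow_spn_eq, Ideal.map_span, ← Set.range_comp,
        Set.image_singleton, map_natCast]
      have h2 := hc (Ideal.pow_mem_pow (map_nonunit π _ (CTow_tv_mem b' n (a₀ + b))) c)
      rw [CTow_spn_eq] at h2
      exact h2
    rw [← Ideal.mem_comap, Ideal.comap_map_of_surjective π hπ, ← RingHom.ker_eq_comap_bot, hξ,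
      sup_comm] at h1
    rwa [sup_assoc]
  obtain ⟨g, hg, hg0, hgξ⟩ := exists_last (d := a₀ + b) hd ξ hξc hξm lam lamC lamX
  have hpA : (p : WS p k (a₀ + b)) ∈ maximalIdeal (WS p k (a₀ + b)) := by
    rw [CTow_max_A]
    exact Ideal.mem_sup_left (Ideal.mem_span_singleton_self _)
  have hXA : ∀ i, (MvPowerSeries.X i : WS p k (a₀ + b)) ∈ maximalIdeal (WS p k (a₀ + b)) := by
    intro i
    rw [CTow_max_A]
    exact Ideal.mem_sup_right (Ideal.subset_span ⟨i, rfl⟩)
  obtain ⟨ι', ι'C, ι'X⟩ := exists_eval (maximalIdeal (WS p k (a₀ + b)))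
    (MvPowerSeries.C : WittVector p k →+* WS p k (a₀ + b))
    (Fin.cons (p : WS p k (a₀ + b)) fun i : Fin a₀ => MvPowerSeries.X (Fin.castAdd b i) :
      Fin (a₀ + 1) → _)
    (fun i => by
      induction i using Fin.cases with
      | zero => exact hpA
      | succ i => exact hXA _)
  have hιX : ∀ i, ι (MvPowerSeries.X i) ∈ maximalIdeal _ := by
    intro i
    induction i using Fin.cases with
    | zero => rw [ιZ]; exact CTow_p_mem b' n
    | succ i => rw [ιS]; exact CTow_tv_mem b' n i
  have hcomp : ι = lam.comp ι' := by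
    refine mvPowerSeries_hom_ext _ _ (fun w => ?_) (fun i => ?_)
      (iInf_pow_eq_bot (maximalIdeal _) ?_)
    · rw [RingHom.comp_apply, ι'C, lamC, ιC]
    · rw [RingHom.comp_apply, ι'X]
      induction i using Fin.cases with
      | zero => rw [ιZ, Fin.cons_zero, map_natCast]
      | succ i => rw [ιS, Fin.cons_succ, lamX]; rfl
    · rw [Ideal.span_le]
      rintro _ ⟨i, rfl⟩
      exact hιX i
  let x : Fin b → WS p k (a₀ + b) := fun l => MvPowerSeries.X (Fin.natAdd a₀ l)
  have hx : ∀ l, lam (x l) = tv _ _ _ (a₀ + l) := fun l => lamX _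
  have hι'm : (maximalIdeal (WS p k (a₀ + 1))).map ι' ≤ maximalIdeal _ := by
    rw [CTow_map_max]
    refine sup_le ((Ideal.span_singleton_le_iff_mem _).2 hpA) ?_
    rw [Ideal.span_le]
    rintro _ ⟨i, rfl⟩
    simp only [ι'X]
    induction i using Fin.cases with
    | zero => exact hpA
    | succ i => exact hXA _
  have hιm : (maximalIdeal (WS p k (a₀ + 1))).map ι ≤ maximalIdeal _ := by
    rw [CTow_map_max]
    refine sup_le ((Ideal.span_singleton_le_iff_mem _).2 (CTow_p_mem b' n)) ?_
    rw [Ideal.span_le]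
    rintro _ ⟨i, rfl⟩
    exact hιX i
  have hFm : ∀ l, (f l).eval₂ ι' (x l) ∈ maximalIdeal _ := by
    intro l
    have h1 := hι'm (CTow_dist_pow ι' (x l) (hf l))
    have h2 : x l ^ (f l).natDegree ∈ maximalIdeal _ :=
      Ideal.pow_mem_of_mem _ (hXA _) _ (hf0 l)
    simpa using Ideal.add_mem _ h1 h2
  have hIA : (sp fun l => (f l).eval₂ ι' (x l)) ≤ maximalIdeal _ := by
    rw [Ideal.span_le]
    rintro _ ⟨l, rfl⟩
    exact hFm l
  have happ := CTow_approx ι' x (sp fun l => (f l).eval₂ ι' (x l)) hIA hι'm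
    (fun r => by
      obtain ⟨w, hw⟩ := CTow_res_A _ r
      exact ⟨MvPowerSeries.C w, by rwa [ι'C]⟩)
    (fun l => hXA _)
    (by
      rw [CTow_max_A, CTow_map_max]
      refine sup_le (le_sup_left.trans le_sup_right) ?_
      rw [Ideal.span_le]
      rintro _ ⟨i, rfl⟩
      induction i using Fin.addCases with
      | left i =>
        refine Ideal.mem_sup_right (Ideal.mem_sup_right (Ideal.subset_span ⟨i.succ, ?_⟩))
        simp only [ι'X, Fin.cons_succ]
      | right l => exact Ideal.mem_sup_left (Ideal.subset_span ⟨l, rfl⟩))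
    (fun l => ⟨(f l).natDegree, by
      have h1 := CTow_dist_pow ι' (x l) (hf l)
      have h2 : (f l).eval₂ ι' (x l) ∈ sp fun l => (f l).eval₂ ι' (x l) :=
        Ideal.subset_span ⟨l, rfl⟩
      simpa using Ideal.sub_mem _ (Ideal.mem_sup_left h2) (Ideal.mem_sup_right h1)⟩)
  choose q hq using happ
  let c : ℕ → MvPolynomial (Fin (b + 1)) (WS p k (a₀ + 1)) :=
    fun i => MvPolynomial.rename Fin.castSucc (q (g.coeff i))
  let G : Fin (b + 1) → MvPolynomial (Fin (b + 1)) (WS p k (a₀ + 1)) :=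
    Fin.lastCases ((CTow_mk g.natDegree c).eval (MvPolynomial.X (Fin.last b)))
      fun l => ((f l).map MvPolynomial.C).eval (MvPolynomial.X l.castSucc)
  have hG1 : ∀ l : Fin b, evN ι (tv _ _ _) a₀ (b + 1) (G l.castSucc) =
      (f l).eval₂ ι (tv _ _ _ (a₀ + l)) := by
    intro l
    simp only [G, Fin.lastCases_castSucc, Polynomial.eval_map, Polynomial.hom_eval₂]
    congr 1
    · ext1 a
      simp
    · simp
  have hren : ∀ u : MvPolynomial (Fin b) (WS p k (a₀ + 1)),
      evN ι (tv _ _ _) a₀ (b + 1) (MvPolynomial.rename Fin.castSucc u) =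
        lam (MvPolynomial.eval₂Hom ι' x u) := by
    intro u
    rw [MvPolynomial.map_eval₂Hom, ← hcomp, MvPolynomial.eval₂Hom_rename]
    simp only [hx]
    rfl
  have hmapI : (sp fun l => (f l).eval₂ ι' (x l)).map lam =
      sp fun l => (f l).eval₂ ι (tv _ _ _ (a₀ + l)) := by
    rw [Ideal.map_span, ← Set.range_comp]
    congr 2
    funext l
    simp only [Function.comp, Polynomial.hom_eval₂, ← hcomp, hx]
  have hG2 : g.eval₂ lam (tv _ _ _ (a₀ + b)) - evN ι (tv _ _ _) a₀ (b + 1) (G (Fin.last b)) ∈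
      sp fun l : Fin b => (f l).eval₂ ι (tv _ _ _ (a₀ + l)) := by
    have h1 : evN ι (tv _ _ _) a₀ (b + 1) (G (Fin.last b)) =
        tv (WittVector p k) b' n (a₀ + b) ^ g.natDegree + ∑ i ∈ Finset.range g.natDegree,
          lam (MvPolynomial.eval₂Hom ι' x (q (g.coeff i))) * tv _ _ _ (a₀ + b) ^ i := by
      simp only [G, Fin.lastCases_last]
      rw [← Polynomial.eval₂_id, Polynomial.hom_eval₂, CTow_mk_eval₂]
      simp only [RingHom.comp_id, c, hren, MvPolynomial.eval₂Hom_X', Fin.val_last]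
    rw [h1, CTow_monic_eval₂ _ _ hg.monic, add_sub_add_left_eq_sub, ← Finset.sum_sub_distrib]
    refine Ideal.sum_mem _ fun i _ => ?_
    rw [← sub_mul, ← map_sub, ← hmapI]
    exact Ideal.mul_mem_right _ _ (Ideal.mem_map_of_mem _ (hq _))
  have hHc : H.comap π = (sp fun l : Fin b => (f l).eval₂ ι (tv _ _ _ (a₀ + l))) ⊔
      Ideal.span {ξ} := by
    rw [← hξ, RingHom.ker_eq_comap_bot, ← Ideal.comap_map_of_surjective π hπ, hH, Ideal.map_span,
      ← Set.range_comp]
    rfl
  refine ⟨G, fun j => ?_, ?_, ?_⟩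
  · induction j using Fin.lastCases with
    | last =>
      refine ⟨CTow_mk g.natDegree c, CTow_mk_monic _ _, by rwa [CTow_mk_natDegree], fun i => ?_,
        fun i hi => ?_, by simp only [G, Fin.lastCases_last]⟩
      · rw [CTow_mk_coeff]
        split_ifs
        · exact one_mem _
        · rw [MvPolynomial.mem_supported]
          intro v hv
          obtain ⟨l, _, rfl⟩ := Finset.mem_image.1 (MvPolynomial.vars_rename _ _ hv)
          exact Fin.castSucc_lt_last l
        · exact zero_mem _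
      · rw [CTow_mk_natDegree] at hi
        rw [CTow_mk_coeff, if_neg hi.ne, if_pos hi]
        refine CTow_mem_mO ι' (fun j => Fin.lastCases 0 x j) (fun j => ?_) _ ?_
        · induction j using Fin.lastCases with
          | last => simp
          | cast l => simpa using hXA _
        · simp only [c]
          rw [MvPolynomial.eval₂Hom_rename]
          have h1 := Ideal.sub_mem _ (hg.mem hi) (hIA (hq (g.coeff i)))
          rw [sub_sub_cancel] at h1
          convert h1 using 3
          funext l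
          simp
    | cast l =>
      refine ⟨(f l).map MvPolynomial.C, (hf l).monic.map _, ?_, fun i => ?_, fun i hi => ?_,
        by simp only [G, Fin.lastCases_castSucc]⟩
      · rw [(hf l).monic.natDegree_map]
        exact hf0 l
      · rw [Polynomial.coeff_map]
        exact Subalgebra.algebraMap_mem _ _
      · rw [(hf l).monic.natDegree_map] at hi
        rw [Polynomial.coeff_map]
        exact Ideal.mem_sup_left (Ideal.mem_map_of_mem _ ((hf l).mem hi))
  · rw [hHc, CTow_sp_last]
    simp only [hG1]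
    rw [← hgξ]
    apply le_antisymm
    · refine sup_le le_sup_left ((Ideal.span_singleton_le_iff_mem _).2 ?_)
      have h1 := Ideal.add_mem _ (Ideal.mem_sup_left hG2) (Ideal.mem_sup_right
        (Ideal.mem_span_singleton_self (evN ι (tv _ _ _) a₀ (b + 1) (G (Fin.last b)))))
      rwa [sub_add_cancel] at h1
    · refine sup_le le_sup_left ((Ideal.span_singleton_le_iff_mem _).2 ?_)
      have h1 := Ideal.sub_mem _ (Ideal.mem_sup_right
        (Ideal.mem_span_singleton_self (g.eval₂ lam (tv _ _ _ (a₀ + b))))) (Ideal.mem_sup_left hG2)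
      rwa [sub_sub_cancel] at h1
  · have hlow : Ideal.span {(p : MvPowerSeries (Fin n) (WS p k b'))} ⊔ spn (tv _ b' n) a₀ ≤
        (maximalIdeal (WS p k (a₀ + 1))).map ι := by
      rw [CTow_map_max, CTow_spn_eq]
      refine sup_le le_sup_left (le_sup_of_le_right ?_)
      rw [Ideal.span_le]
      rintro _ ⟨i, rfl⟩
      exact Ideal.subset_span ⟨i.succ, ιS i⟩
    have hrad : ∀ l : Fin b, tv (WittVector p k) b' n (a₀ + l) ∈
        (H.comap π ⊔ (maximalIdeal (WS p k (a₀ + 1))).map ι).radical := by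
      intro l
      refine ⟨(f l).natDegree, ?_⟩
      have h1 := CTow_dist_pow ι (tv _ _ _ (a₀ + l)) (hf l)
      have h2 : (f l).eval₂ ι (tv _ _ _ (a₀ + l)) ∈ H.comap π := by
        rw [hHc]
        exact Ideal.mem_sup_left (Ideal.subset_span ⟨l, rfl⟩)
      simpa using Ideal.sub_mem _ (Ideal.mem_sup_left h2) (Ideal.mem_sup_right h1)
    refine CTow_approx ι (fun l : Fin (b + 1) => tv _ _ _ (a₀ + l)) (H.comap π) ?_ hιm
      (fun r => ?_) (fun l => CTow_tv_mem b' n _) ?_ (fun l => ?_)
    · rw [hHc, ← hmapI]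
      refine sup_le ?_ ((Ideal.span_singleton_le_iff_mem _).2 hξm)
      refine (Ideal.map_mono hIA).trans ?_
      rw [CTow_map_max]
      refine sup_le ((Ideal.span_singleton_le_iff_mem _).2 (CTow_p_mem b' n)) ?_
      rw [Ideal.span_le]
      rintro _ ⟨i, rfl⟩
      simp only [lamX]
      exact CTow_tv_mem b' n _
    · obtain ⟨w, hw⟩ := CTow_res_T b' n r
      exact ⟨MvPowerSeries.C w, by rwa [ιC]⟩
    · rw [CTow_max_T, hd]
      refine sup_le (le_sup_left.trans (hlow.trans le_sup_right)) ?_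
      unfold spn
      rw [Ideal.span_le]
      rintro _ ⟨i, hi, rfl⟩
      by_cases h : i < a₀
      · exact Ideal.mem_sup_right (hlow (Ideal.mem_sup_right (CTow_mem_spn _ h)))
      · have hi' : i < a₀ + (b + 1) := hi
        refine Ideal.mem_sup_left (Ideal.subset_span ⟨⟨i - a₀, by omega⟩, ?_⟩)
        simp only
        congr 1
        omega
    · induction l using Fin.lastCases with
      | cast l => exact hrad l
      | last =>
        obtain ⟨e, he⟩ := hξc
        refine Ideal.mem_radical_of_pow_mem (m := e) ?_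
        refine SetLike.le_def.1 (sup_le (sup_le ?_ ?_) ?_) he
        · refine le_trans ?_ (le_sup_left.trans Ideal.le_radical)
          rw [hHc]
          exact le_sup_right
        · exact le_sup_left.trans (hlow.trans (le_sup_right.trans Ideal.le_radical))
        · unfold spn
          rw [Ideal.span_le]
          rintro _ ⟨i, hi, rfl⟩
          by_cases h : i < a₀
          · exact Ideal.le_radical
              (Ideal.mem_sup_right (hlow (Ideal.mem_sup_right (CTow_mem_spn _ h))))
          · have hi' : i < a₀ + b := hi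
            have := hrad ⟨i - a₀, by omega⟩
            simp only at this
            rwa [show a₀ + (i - a₀) = i by omega] at this

end Crest.Agent.R188
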