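import Crest.Agent.R188.CCoordM
import Crest.Agent.R188.CTow
import Crest.Agent.R188.CCov
import Crest.Agent.R188.CMixP
import Crest.Agent.R188.BFin
import Crest.Agent.R188.RMod

/-!
# Positivity in the case `p ∉ P`
-/

set_option autoImplicit false
set_option linter.unusedVariables false

open scoped ENNReal NNReal TensorProduct

namespace Crest.Agent.R188

open Crest.Agent.R183 IsLocalRing WittVector

theorem CMix_charZero (p : ℕ) [Fact p.Prime] {k S : Type} [Field k] [CharP k p] [PerfectRing k p]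
    [CommRing S] [IsDomain S] (ω : WittVector p k →+* S) (hp : (p : S) ≠ 0) : CharZero S := by
  obtain ⟨q, hq⟩ := CharP.exists S
  rcases CharP.char_is_prime_or_zero S q with h | rfl
  · exfalso
    by_cases hqp : q = p
    · subst hqp
      exact hp (CharP.cast_eq_zero S q)
    · have h1 : IsUnit (q : WittVector p k) := by
        refine WittVector.isUnit_of_coeff_zero_ne_zero _ ?_
        have : (q : WittVector p k).coeff 0 = (q : k) := map_natCast (constantCoeff (p := p)) q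
        rw [this, Ne, CharP.cast_eq_zero_iff k p]
        exact fun hd => hqp ((Nat.prime_dvd_prime_iff_eq Fact.out h).1 hd).symm
      have h2 := h1.map ω
      rw [map_natCast, CharP.cast_eq_zero S q] at h2
      exact not_isUnit_zero h2
  · exact CharP.charP_to_charZero S

theorem CMix_pow_mem {Λ R : Type} [CommRing Λ] [CommRing R] (j : Λ →+* R) {I : Ideal Λ}
    {f : Polynomial Λ} (hf : f.IsDistinguishedAt I) (y : R) :
    y ^ f.natDegree - f.eval₂ j y ∈ I.map j := by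
  rw [Polynomial.eval₂_eq_sum_range, Finset.sum_range_succ, hf.monic.coeff_natDegree, map_one,
    one_mul, sub_add_eq_sub_sub_swap, sub_self, zero_sub]
  exact neg_mem (Ideal.sum_mem _ fun i hi => Ideal.mul_mem_right _ _
    (Ideal.mem_map_of_mem _ (hf.mem (Finset.mem_range.1 hi))))

theorem CMix_rad {R : Type} [CommRing R] [IsNoetherianRing R] {I J : Ideal R}
    (h : I ≤ J.radical) : ∃ e : ℕ, I ^ e ≤ J :=
  Ideal.exists_pow_le_of_le_radical_of_fg h (IsNoetherian.noetherian _)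

theorem CMix_main (p : ℕ) [Fact p.Prime] {k : Type} [Field k] [CharP k p] [PerfectRing k p]
    [Infinite k] {R : Type} [CommRing R] [IsNoetherianRing R] [IsLocalRing R]
    [IsAdicComplete (maximalIdeal R) R] {d : ℕ} {x : Fin d → R} (hx : RegL R x) (hvan : Van R d)
    (roots : ∀ j : ℕ, Odd j → ¬ p ∣ j → ∃ ζ : R, RootU j ζ)
    (ω : WittVector p k →+* R) (hω : ∀ r, ∃ w, r - ω w ∈ maximalIdeal R)
    (hp : (p : R) ∈ maximalIdeal R) {P Q : Ideal R} (hP : P.IsPrime) (hQ : Q.IsPrime)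
    (hpP : (p : R) ∉ P) {a₀ b b' r n : ℕ} (hab : a₀ + 1 + b = d) (hb' : b' ≤ a₀)
    (hd : b' + n = d) (hc1 : (r = 0 ∧ b = b' + 1) ∨ (r = 1 ∧ (p : R) ∈ Q ∧ b = b'))
    (hc2 : (r = 0 ∧ n = a₀ + 2) ∨ (r = 1 ∧ n = a₀ + 1))
    (ha : ringKrullDim (R ⧸ P) = (a₀ + 1 : ℕ)) (hb : ringKrullDim (R ⧸ Q) = b)
    (hbp : ringKrullDim (R ⧸ (Q ⊔ Ideal.span {(p : R)})) ≤ b')
    (hPQ : ∃ c : ℕ, maximalIdeal R ^ c ≤ P ⊔ Q) {F : MC R} (hF : F.IsRes (R ⧸ Q)) :
    0 < F.chi (LF.length R) (R ⧸ P) := by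
  obtain ⟨z, j, f, hz, jC, jZ, jS, h1, h2, h3, hf, hfQ⟩ :=
    coord_mix hx ω hω hp hP hpP hab hb' ha.le hb.le hbp hPQ
  obtain ⟨π, ξ, hπ, hξ, hξ0, hξp, πC, πX⟩ := exists_pres hx ω hω hp z hd hz
  have hzm : ∀ i < d, z i ∈ maximalIdeal R := fun i hi => hz ▸ Ideal.subset_span ⟨i, hi, rfl⟩
  have hcT : IsAdicComplete (maximalIdeal (MvPowerSeries (Fin n) (WS p k b')))
      (MvPowerSeries (Fin n) (WS p k b')) := by
    have := isAdicComplete_witt_series p k b'
    exact isAdicComplete_mvPowerSeries _ (Ideal.fg_of_isNoetherianRing _) _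
  have hcΛ := isAdicComplete_witt_series p k (a₀ + 1)
  have hmΛ : maximalIdeal (WS p k (a₀ + 1)) =
      Ideal.span {(p : WS p k (a₀ + 1))} ⊔ sp MvPowerSeries.X := by
    rw [← (regL_witt_series p k (a₀ + 1)).max, HKos_sp_succ]
    rfl
  obtain ⟨ι, ιC, ιX⟩ := exists_eval (maximalIdeal (MvPowerSeries (Fin n) (WS p k b')))
    (tc (WittVector p k) b' n)
    (Fin.cons (p : MvPowerSeries (Fin n) (WS p k b')) fun i : Fin a₀ => tv _ b' n i :
      Fin (a₀ + 1) → _) (fun i => by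
      rw [maximalIdeal_nested]
      induction i using Fin.cases with
      | zero =>
        refine Ideal.mem_sup_left ?_
        rw [maximalIdeal_wittVector, Ideal.map_span, Set.image_singleton, map_natCast]
        exact Ideal.subset_span rfl
      | succ i => exact Ideal.mem_sup_right (tv_mem _ _ _ _))
  have ιZ : ι (MvPowerSeries.X 0) = p := ιX 0
  have ιS : ∀ i : Fin a₀, ι (MvPowerSeries.X i.succ) = tv _ b' n i := fun i => ιX i.succ
  have jm : ∀ i, j (MvPowerSeries.X i) ∈ maximalIdeal R := fun i => by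
    induction i using Fin.cases with
    | zero => exact jZ ▸ hp
    | succ i => exact jS i ▸ hzm i (by omega)
  have hπι : ∀ a, π (ι a) = j a := by
    have : j = π.comp ι := by
      refine mvPowerSeries_hom_ext _ _ (fun w => by simp [jC, ιC, πC]) (fun i => ?_)
        (iInf_pow_eq_bot (maximalIdeal R) (Ideal.span_le.2 ?_))
      · induction i using Fin.cases with
        | zero => simp [jZ, ιZ]
        | succ i => rw [RingHom.comp_apply, jS, ιS, πX i (by omega)]
      · rintro _ ⟨i, rfl⟩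
        exact jm i
    exact fun a => by rw [this]; rfl
  have hjmap : (maximalIdeal (WS p k (a₀ + 1))).map j =
      sp (fun i => j (MvPowerSeries.X i)) ⊔ Ideal.span {(p : R)} := by
    rw [hmΛ, Ideal.map_sup, Ideal.map_span, Set.image_singleton, map_natCast, sp_map, sup_comm]
  have hjle : (maximalIdeal (WS p k (a₀ + 1))).map j ≤ maximalIdeal R := by
    rw [hjmap]
    refine sup_le (Ideal.span_le.2 ?_) (Ideal.span_le.2 (Set.singleton_subset_iff.2 hp))
    rintro _ ⟨i, rfl⟩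
    exact jm i
  have hjge : Ideal.span {(p : R)} ⊔ spn z a₀ ≤ (maximalIdeal (WS p k (a₀ + 1))).map j := by
    rw [hjmap]
    refine sup_le le_sup_right (le_sup_of_le_left (Ideal.span_le.2 ?_))
    rintro _ ⟨i, hi, rfl⟩
    exact Ideal.subset_span ⟨Fin.succ ⟨i, hi⟩, jS ⟨i, hi⟩⟩
  have hjres : ∀ r : R, ∃ a, r - j a ∈ maximalIdeal R := fun r => by
    obtain ⟨w, hw⟩ := hω r
    exact ⟨MvPowerSeries.C w, by rwa [jC]⟩
  have hfin : ((Ideal.Quotient.mk P).comp j).Finite :=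
    finite_of_pow_le j hjle hjres P (h1.imp fun c hc => hc.trans (by
      rw [sup_assoc]
      exact sup_le_sup_left hjge _))
  have hker : RingHom.ker ((Ideal.Quotient.mk P).comp j) = Ideal.span {xi0 p k a₀ true} := by
    refine ker_eq_of_finite _ hfin _ (xi0_prime a₀ true).1 ?_ (xi0_prime a₀ true).2.le ha.ge
    rw [Ideal.span_le, Set.singleton_subset_iff]
    change (Ideal.Quotient.mk P) (j (xi0 p k a₀ true)) = 0
    simp [xi0, jZ]
  set H : Ideal R := sp fun l : Fin b => (f l).eval₂ j (z (a₀ + l)) with hH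
  have hHP : H ≤ P := Ideal.span_le.2 (by
    rintro _ ⟨l, rfl⟩
    exact (hf l).2)
  have hf0 : ∀ l, 0 < (f l).natDegree := fun l => by
    rcases Nat.eq_zero_or_pos (f l).natDegree with h | h
    · exfalso
      have h4 := (hf l).2
      rw [Polynomial.eq_one_of_monic_natDegree_zero (hf l).1.monic h, Polynomial.eval₂_one] at h4
      exact hP.ne_top ((Ideal.eq_top_iff_one _).2 h4)
    · exact h
  obtain ⟨G, hG, hGH, hGT⟩ := exists_tower (a₀ := a₀) (b := b) (by omega) π hπ ξ hξ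
    (h3.imp fun c hc => hc.trans (sup_le_sup_left (Ideal.span_le.2 (by
      rintro _ ⟨i, hi, rfl⟩
      exact Ideal.subset_span ⟨i, hi, πX i (by have : i < a₀ + b := hi; omega)⟩)) _))
    ι ιC ιZ ιS f (fun l => (hf l).1) hf0 H (by
      rw [hH]
      congr 1
      funext l
      rw [Polynomial.hom_eval₂, πX _ (by omega)]
      congr 1
      exact RingHom.ext fun a => (hπι a).symm)
  let φ₀ : MvPolynomial (Fin (b + 1)) (WS p k (a₀ + 1)) →+* R ⧸ P :=
    (Ideal.Quotient.mk P).comp (π.comp (evN ι (tv _ b' n) a₀ (b + 1)))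
  have hφ₀C : ∀ a, φ₀ (MvPolynomial.C a) = Ideal.Quotient.mk P (j a) := fun a => by
    simp [φ₀, hπι]
  have hφ₀s : Function.Surjective φ₀ := fun y => by
    obtain ⟨y, rfl⟩ := Ideal.Quotient.mk_surjective y
    obtain ⟨t, rfl⟩ := hπ y
    obtain ⟨t₀, ht₀⟩ := hGT t
    refine ⟨t₀, (Ideal.Quotient.eq.2 ?_).symm⟩
    have := hHP ht₀
    rwa [map_sub] at this
  have hp0 : (p : R ⧸ P) ≠ 0 := fun h => hpP (by
    rwa [← map_natCast (Ideal.Quotient.mk P), Ideal.Quotient.eq_zero_iff_mem] at h)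
  have := CMix_charZero p ((Ideal.Quotient.mk P).comp ω) hp0
  obtain ⟨Y⟩ := exists_symCov (xi0 p k a₀ true) (MvPowerSeries.X 0) G hG φ₀ hφ₀s
    (by rw [← hker]; congr 1; exact RingHom.ext hφ₀C)
    (fun l => Ideal.Quotient.eq_zero_iff_mem.2 (hHP (by
      have : evN ι (tv _ b' n) a₀ (b + 1) (G l) ∈ H.comap π :=
        hGH ▸ Ideal.subset_span ⟨l, rfl⟩
      exact this)))
    (by rw [hφ₀C, jZ, map_natCast]; exact hp0)
  letI aR : Algebra R Y.S := (Y.j.comp (Ideal.Quotient.mk P)).toAlgebra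
  have halg : ∀ a, algebraMap (WS p k (a₀ + 1)) Y.S a = algebraMap R Y.S (j a) := fun a => by
    have := Y.hΦ (MvPolynomial.C a)
    rw [MvPolynomial.rename_C, hφ₀C] at this
    exact (Y.Φ.commutes a).symm.trans this
  have hkR : RingHom.ker (algebraMap R Y.S) = P := by
    ext y
    rw [RingHom.mem_ker, ← Ideal.Quotient.eq_zero_iff_mem]
    exact map_eq_zero_iff Y.j Y.inj
  have hkΛ : RingHom.ker (algebraMap (WS p k (a₀ + 1)) Y.S) = Ideal.span {xi0 p k a₀ true} := by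
    rw [← hker]
    ext a
    rw [RingHom.mem_ker, RingHom.mem_ker, halg]
    exact map_eq_zero_iff Y.j Y.inj
  have fR : Module.Finite R Y.S := by
    have h4 : ((algebraMap R Y.S).comp j).Finite := by
      rw [show (algebraMap R Y.S).comp j = algebraMap _ Y.S from RingHom.ext fun a => (halg a).symm]
      exact RingHom.finite_algebraMap.2 inferInstance
    exact RingHom.finite_algebraMap.1 h4.of_comp_finite
  have nS : IsNoetherianRing Y.S := IsNoetherianRing.of_finite (WS p k (a₀ + 1)) Y.S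
  obtain ⟨finQ, kerQ⟩ := finQ_kerQ π hπ z (fun i hi => πX i (by omega)) Q hQ hb h2 hc1
  obtain ⟨cH, hcH⟩ := hfQ
  obtain ⟨E, m, δ, U, U', c, hE, hδ, spl, hc⟩ := exists_spl_mem hx.hasRes Q H
    (π (ι (MvPowerSeries.X 0))) (c₀ := cH) (hcH (Ideal.pow_mem_pow (hπι _ ▸ jm 0) cH))
  obtain ⟨ιΛ, ιΛC, ιΛX, hι⟩ := exists_iota (p := p) (k := k)
    (fun i : Fin b' => (Fin.castLE hb' i).succ)
    (fun i i' h => Fin.castLE_injective _ (Fin.succ_injective _ h)) 0
  have hHs : ∃ e : ℕ, maximalIdeal R ^ e ≤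
      H ⊔ sp (fun i => π (ι (MvPowerSeries.X i))) ⊔ Ideal.span {(p : R)} := by
    simp only [hπι]
    rw [sup_assoc, ← hjmap]
    obtain ⟨c₃, hc₃⟩ := h3
    refine CMix_rad (Ideal.IsRadical.radical_le_iff (Ideal.radical_isRadical _) |>.2 ?_ |>
      (le_trans fun y hy => ⟨c₃, hc₃ (Ideal.pow_mem_pow hy c₃)⟩))
    refine sup_le ((le_sup_of_le_right (le_sup_left.trans hjge)).trans Ideal.le_radical)
      (Ideal.span_le.2 ?_)
    rintro _ ⟨i, hi, rfl⟩
    rcases lt_or_ge i a₀ with hi' | hi'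
    · exact Ideal.le_radical (Ideal.mem_sup_right (hjge (Ideal.mem_sup_right
        (Ideal.subset_span ⟨i, hi', rfl⟩))))
    · obtain ⟨l, rfl⟩ := Nat.exists_eq_add_of_le hi'
      have hl : l < b := by have : a₀ + l < a₀ + b := hi; omega
      refine ⟨(f ⟨l, hl⟩).natDegree, ?_⟩
      have h4 := CMix_pow_mem j (hf ⟨l, hl⟩).1 (z (a₀ + l))
      have h5 : (f ⟨l, hl⟩).eval₂ j (z (a₀ + l)) ∈ H := Ideal.subset_span ⟨⟨l, hl⟩, rfl⟩
      have := Submodule.add_mem_sup h5 h4
      rwa [add_sub_cancel] at this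
  have hmR : ∃ e : ℕ, maximalIdeal Y.S ^ e ≤ (maximalIdeal R).map (algebraMap R Y.S) :=
    Y.hm.imp fun e he => he.trans (Ideal.map_le_iff_le_comap.2 fun a ha => by
      rw [Ideal.mem_comap, halg]
      exact Ideal.mem_map_of_mem _ (hjle (Ideal.mem_map_of_mem _ ha)))
  have hmΛ' : ∃ e : ℕ, maximalIdeal Y.S ^ e ≤
      sp fun i => algebraMap (WS p k (a₀ + 1)) Y.S (MvPowerSeries.X i) :=
    Y.hm.imp fun e he => he.trans (by
      rw [hmΛ, Ideal.map_sup, sp_map, Ideal.map_span, Set.image_singleton]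
      refine sup_le (Ideal.span_le.2 (Set.singleton_subset_iff.2 ?_)) le_rfl
      refine Ideal.subset_span ⟨0, ?_⟩
      beta_reduce
      rw [halg, halg, jZ, map_natCast j])
  let X : Base p k :=
    { a₀ := a₀, b := b, d := d, b' := b', n := n, r := r, m := m, c := c, q₀ := 1, mP := Y.mP
      R := R, x := x, hx := hx, Q := Q, hab := hab, hb := hb, van := hvan, roots := roots
      π := π, hπ := hπ, ξ := ξ, hξ := hξ, hξ0 := hξ0, η := fun _ => p, hη := fun _ => rfl
      hcase := hc2, finQ := finQ, kerQ := kerQ, H := H, hHQ := ⟨cH, hcH⟩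
      sT := fun i => ι (MvPowerSeries.X i), hsT := fun i => hπι _ ▸ jm i, hHs := hHs
      E := E, δ := δ, U := U, U' := U', hE := hE, hδ := hδ, spl := spl, hc := hc
      mix := true, hq₀ := le_rfl, hmix := fun _ => ⟨ιZ, rfl⟩, ιΛ := ιΛ
      hι := hι r _ fun _ => rfl, S := Y.S
      resR := fun t => (Y.res t).elim fun a ha => ⟨j a, halg a ▸ ha⟩
      resΛ := Y.res, hHS := hHP.trans hkR.ge, dimS := by rw [hkR]; exact ha.le
      hmR := hmR, hmΛ := hmΛ'
      hsS := fun i => by rw [pow_one, halg, hπι]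
      kerΛ := hkΛ, σ := Y.σ, gal := Y.gal, w := Y.w, ε := Y.ε, hw := Y.hw, galD := Y.galD
      G := Sym Y.D, fG := Fintype.ofFinite _, w₁ := Y.w₁, hw₁ := Y.hw₁ }
  have M : MixD X :=
    { hmix := rfl, hd := by change b' + n = a₀ + (b + 1); omega
      hb' := hb', hξp := hξp, ι := ι, ιC := ιC, ιZ := ιZ, ιS := ιS, hsT := fun _ => rfl
      ιΛC := fun w => by
        change ιΛ _ = _
        rw [ιΛC]
        congr 1
        ext i
        simp
      ιΛX := fun i l h => by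
        change ιΛ _ = _
        rw [ιΛX, pow_zero, pow_one]
        congr 2
        exact Fin.ext h
      G := G, hH := hGH, hT := hGT, V := Y.V, D := Y.D, ι₀ := Y.ι₀, loc := Y.loc, hG := Y.hG
      Φ := Y.Φ, surj := Y.surj, hΦ := Y.hΦ, sel := Y.sel, hsel := Y.hsel, St := Y.St
      one_mem := Y.one_mem, hSt := Y.hSt, c₀ := Y.c₀, hmP := Y.hmP, hc₀ := Y.hc₀
      eG := id, mass := Y.mass }
  have hpos : 0 < E.chi (LF.length R) Y.S := X.chi_pos M.pre
  rw [hF.chi_eq hE]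
  refine hvan.chi_pos hP hQ hab ha.le hb.le hPQ hE Y.S (fun y hy => ?_) hpos
  rw [Module.mem_annihilator]
  intro t
  rw [Algebra.smul_def, RingHom.mem_ker.1 (hkR.ge hy), zero_mul]

theorem pos_mix (p : ℕ) [Fact p.Prime] {R : Type} [CommRing R] [IsNoetherianRing R] [IsLocalRing R]
    [IsAdicComplete (maximalIdeal R) R] [IsAlgClosed (ResidueField R)] [CharP (ResidueField R) p]
    {d : ℕ} {x : Fin d → R} (hx : RegL R x) {P Q : Ideal R} (hP : P.IsPrime) (hQ : Q.IsPrime)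
    (hpP : (p : R) ∉ P) {a₀ b b' : ℕ} (hab : a₀ + 1 + b = d) (hb' : b' ≤ a₀)
    (hcase : ((p : R) ∉ Q ∧ b = b' + 1) ∨ ((p : R) ∈ Q ∧ b = b'))
    (ha : ringKrullDim (R ⧸ P) = (a₀ + 1 : ℕ)) (hb : ringKrullDim (R ⧸ Q) = b)
    (hPQ : ∃ c : ℕ, maximalIdeal R ^ c ≤ P ⊔ Q) {F : MC R} (hF : F.IsRes (R ⧸ Q)) :
    0 < F.chi (LF.length R) (R ⧸ P) := by
  obtain ⟨ω, hω⟩ := exists_witt_hom R p
  have hω' : ∀ r, ∃ w, r - ω w ∈ maximalIdeal R := fun r =>
    ⟨teichmuller p (residue R r), by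
      rw [← residue_eq_zero_iff, map_sub, hω, teichmuller_coeff_zero, sub_self]⟩
  have hp : (p : R) ∈ maximalIdeal R := by
    rw [← residue_eq_zero_iff, map_natCast, CharP.cast_eq_zero]
  have roots : ∀ j : ℕ, Odd j → ¬ p ∣ j → ∃ ζ : R, RootU j ζ := fun j _ hj =>
    exists_rootU R j (by rwa [Ne, CharP.cast_eq_zero_iff (ResidueField R) p])
  rcases hcase with ⟨h1, h2⟩ | ⟨h1, h2⟩
  · refine CMix_main p hx (hx.van (hasRoots R)) roots ω hω' hp hP hQ hpP (r := 0) (n := a₀ + 2)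
      hab hb' (by omega) (Or.inl ⟨rfl, h2⟩) (Or.inl ⟨rfl, rfl⟩) ha hb ?_ hPQ hF
    have := dim_sup_le hb.le (y := (p : R)) fun 𝔮 h𝔮 _ => by
      rw [Ideal.minimalPrimes_eq_subsingleton_self, Set.mem_singleton_iff] at h𝔮
      exact h𝔮 ▸ h1
    rwa [h2, Nat.add_sub_cancel] at this
  · refine CMix_main p hx (hx.van (hasRoots R)) roots ω hω' hp hP hQ hpP (r := 1) (n := a₀ + 1)
      hab hb' (by omega) (Or.inr ⟨rfl, h1, h2⟩) (Or.inr ⟨rfl, rfl⟩) ha hb ?_ hPQ hF
    rw [sup_eq_left.2 (Ideal.span_le.2 (Set.singleton_subset_iff.2 h1)), hb, h2]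

end Crest.Agent.R188
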