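import Crest.Agent.R188.CDefs

/-!
# Symmetric systems of equations
-/

set_option autoImplicit false
set_option linter.unusedVariables false

open scoped ENNReal NNReal TensorProduct

namespace Crest.Agent.R188

open Crest.Agent.R183 IsLocalRing WittVector

theorem CSym_perm {F : Type} [Field F] {m : ℕ} (a b : Fin m → F)
    (h : ∏ l, (Polynomial.X - Polynomial.C (a l)) = ∏ l, (Polynomial.X - Polynomial.C (b l))) :
    ∃ π : Equiv.Perm (Fin m), ∀ l, a l = b (π l) := by
  classical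
  have key : ∀ c : Fin m → F, (∏ l, (Polynomial.X - Polynomial.C (c l))).roots =
      Finset.univ.val.map c := by
    intro c
    rw [← Polynomial.roots_multiset_prod_X_sub_C (Finset.univ.val.map c), Multiset.map_map]
    rfl
  have h1 : Finset.univ.val.map a = Finset.univ.val.map b := by rw [← key, ← key, h]
  have h2 : ∀ c, Fintype.card {l // a l = c} = Fintype.card {l // b l = c} := by
    intro c
    have := congrArg (Multiset.count c) h1
    rw [Multiset.count_map, Multiset.count_map] at this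
    rw [Fintype.card_subtype, Fintype.card_subtype]
    simp only [Finset.card_def, Finset.filter_val]
    simpa only [eq_comm] using this
  refine ⟨Equiv.ofFiberEquiv fun c => Fintype.equivOfCardEq (h2 c), fun l => ?_⟩
  exact (Equiv.ofFiberEquiv_map (fun c => Fintype.equivOfCardEq (h2 c)) l).symm

theorem CSym_roots {F : Type} [Field F] [IsAlgClosed F] {m : ℕ} (p : Polynomial F)
    (hp : p.Monic) (hm : p.natDegree = m) :
    ∃ r : Fin m → F, p = ∏ l, (Polynomial.X - Polynomial.C (r l)) := by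
  have hs : p.Splits := IsAlgClosed.splits p
  have hc : p.roots.toList.length = m := by
    rw [Multiset.length_toList, ← hm, hs.natDegree_eq_card_roots]
  subst hc
  refine ⟨fun l => p.roots.toList.get l, ?_⟩
  conv_lhs => rw [hs.eq_prod_roots_of_monic hp]
  rw [← List.prod_ofFn, ← Multiset.prod_map_toList]
  congr 1
  conv_lhs => rw [← List.ofFn_get p.roots.toList, List.map_ofFn]
  rfl

theorem CSym_roots' {F : Type} [Field F] [IsAlgClosed F] {m : ℕ} (h0 : 0 < m) (p : Polynomial F)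
    (hp : p.Monic) (hm : p.natDegree = m) (x : F) (hx : p.eval x = 0) :
    ∃ r : Fin m → F, p = ∏ l, (Polynomial.X - Polynomial.C (r l)) ∧ r ⟨0, h0⟩ = x := by
  obtain ⟨r, hr⟩ := CSym_roots p hp hm
  rw [hr, Polynomial.eval_prod, Finset.prod_eq_zero_iff] at hx
  obtain ⟨l, -, hl⟩ := hx
  refine ⟨r ∘ Equiv.swap ⟨0, h0⟩ l, ?_, ?_⟩
  · rw [hr]
    exact (Equiv.prod_comp (Equiv.swap ⟨0, h0⟩ l)
      fun l => Polynomial.X - Polynomial.C (r l)).symm
  · simp only [Polynomial.eval_sub, Polynomial.eval_X, Polynomial.eval_C] at hl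
    simp only [Function.comp_apply, Equiv.swap_apply_left]
    exact (sub_eq_zero.1 hl).symm

theorem CSym_int {Λ Q : Type} [CommRing Λ] [CommRing Q] [Algebra Λ Q] (p : Polynomial Q)
    (hp : p.Monic) (hc : ∀ i, IsIntegral Λ (p.coeff i)) (x : Q) (hx : p.eval x = 0) :
    IsIntegral Λ x := by
  have h1 : p ∈ Polynomial.lifts (algebraMap (integralClosure Λ Q) Q) :=
    (Polynomial.lifts_iff_coeff_lifts p).2 fun i => ⟨⟨p.coeff i, hc i⟩, rfl⟩
  obtain ⟨q, hq, -, hm⟩ := Polynomial.lifts_and_natDegree_eq_and_monic h1 hp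
  have h2 : IsIntegral (integralClosure Λ Q) x :=
    ⟨q, hm, by rw [Polynomial.eval₂_eq_eval_map, hq]; exact hx⟩
  exact isIntegral_trans x h2

theorem CSym_int' {Λ V Q : Type} [CommRing Λ] [CommRing Q] [Algebra Λ Q]
    (ψ : MvPolynomial V Λ →ₐ[Λ] Q) (h : ∀ v, IsIntegral Λ (ψ (MvPolynomial.X v)))
    (t : MvPolynomial V Λ) : IsIntegral Λ (ψ t) := by
  induction t using MvPolynomial.induction_on with
  | C a => rw [MvPolynomial.algHom_C]; exact isIntegral_algebraMap
  | add p q hp hq => rw [map_add]; exact hp.add hq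
  | mul_X p v hp => rw [map_mul]; exact hp.mul (h v)

theorem CSym_mO {Λ V T : Type} [CommRing Λ] [IsLocalRing Λ] [CommRing T]
    (ψ : MvPolynomial V Λ →+* T) (J : Ideal T)
    (h1 : ∀ a ∈ maximalIdeal Λ, ψ (MvPolynomial.C a) ∈ J) (h2 : ∀ v, ψ (MvPolynomial.X v) ∈ J)
    {t : MvPolynomial V Λ} (ht : t ∈ mO Λ V) : ψ t ∈ J := by
  have : mO Λ V ≤ J.comap ψ := by
    refine sup_le ?_ ?_
    · rw [Ideal.map_le_iff_le_comap]
      exact fun a ha => h1 a ha
    · rw [Ideal.span_le]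
      rintro _ ⟨v, rfl⟩
      exact h2 v
  exact this ht

theorem CSym_C_mem {Λ V : Type} [CommRing Λ] [IsLocalRing Λ] {a : Λ} (ha : a ∈ maximalIdeal Λ) :
    (MvPolynomial.C a : MvPolynomial V Λ) ∈ mO Λ V :=
  Ideal.mem_sup_left (Ideal.mem_map_of_mem _ ha)

theorem CSym_X_mem {Λ V : Type} [CommRing Λ] [IsLocalRing Λ] (v : V) :
    (MvPolynomial.X v : MvPolynomial V Λ) ∈ mO Λ V :=
  Ideal.mem_sup_right (Ideal.subset_span ⟨v, rfl⟩)

theorem CSym_congr {Λ T : Type} [CommRing Λ] [CommRing T] {N : ℕ} {A : Set (Fin N)}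
    (ψ ψ' : MvPolynomial (Fin N) Λ →+* T)
    (h1 : ∀ a, ψ (MvPolynomial.C a) = ψ' (MvPolynomial.C a))
    (h2 : ∀ i ∈ A, ψ (MvPolynomial.X i) = ψ' (MvPolynomial.X i))
    {t : MvPolynomial (Fin N) Λ} (ht : t ∈ MvPolynomial.supported Λ A) : ψ t = ψ' t := by
  classical
  exact MvPolynomial.hom_congr_vars (RingHom.ext h1)
    (fun i hi _ => h2 i (MvPolynomial.mem_supported.1 ht hi)) rfl

theorem CSym_supp {Λ : Type} [CommRing Λ] [IsLocalRing Λ] {N : ℕ}
    {G : Fin N → MvPolynomial (Fin N) Λ} (hG : Tower G) (i : Fin N) :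
    G i ∈ MvPolynomial.supported Λ {j' | j' ≤ i} := by
  obtain ⟨f, -, -, h3, -, h5⟩ := hG i
  rw [h5, Polynomial.eval_eq_sum_range]
  refine Subalgebra.sum_mem _ fun k _ => Subalgebra.mul_mem _ ?_ (Subalgebra.pow_mem _ ?_ _)
  · exact MvPolynomial.supported_mono (fun j' (hj : j' < i) => (hj.le : j' ≤ i)) (h3 k)
  · exact Algebra.subset_adjoin ⟨i, le_refl i, rfl⟩

/-- the statement proved by induction on the number of equations treated -/
structure CSymP {Λ : Type} [CommRing Λ] [IsLocalRing Λ] {N : ℕ}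
    (G : Fin N → MvPolynomial (Fin N) Λ) (j : ℕ) {V : Type} (D : V → MvPolynomial V Λ)
    (s : Fin N → MvPolynomial V Λ) : Prop where
  var : ∀ i : Fin N, i.val < j → ∃ v, s i = MvPolynomial.X v
  smem : ∀ i, s i ∈ mO Λ V
  eqn : ∀ i : Fin N, i.val < j → MvPolynomial.aeval s (G i) ∈ sp D
  loc : Loc D
  int : ∀ v, IsIntegral Λ (Ideal.Quotient.mkₐ Λ (sp D) (MvPolynomial.X v))
  trans : ∀ (F : Type) [Field F] (φ φ' : MvPolynomial V Λ →+* F),
    (∀ a, φ (MvPolynomial.C a) = φ' (MvPolynomial.C a)) → (∀ v, φ (D v) = 0) →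
    (∀ v, φ' (D v) = 0) →
    ∃ g ∈ Sym D, ∀ v, φ' (MvPolynomial.X v) = φ (MvPolynomial.X (g.1 v))
  ext : ∀ (F : Type) [Field F] [IsAlgClosed F] (φ₀ : MvPolynomial (Fin N) Λ →+* F),
    (∀ i : Fin N, i.val < j → φ₀ (G i) = 0) → ∃ φ : MvPolynomial V Λ →+* F,
      (∀ a, φ (MvPolynomial.C a) = φ₀ (MvPolynomial.C a)) ∧
      (∀ i : Fin N, i.val < j → φ (s i) = φ₀ (MvPolynomial.X i)) ∧ ∀ v, φ (D v) = 0

section step

variable {Λ : Type} [CommRing Λ] {V : Type} (D : V → MvPolynomial V Λ) (m : ℕ)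
  (f : Polynomial (MvPolynomial V Λ))

/-- the split polynomial -/
noncomputable def CSymPr (g : Sym D) : Polynomial (MvPolynomial (V ⊕ (Sym D × Fin m)) Λ) :=
  ∏ l, (Polynomial.X - Polynomial.C (MvPolynomial.X (Sum.inr (g, l))))

/-- the conjugate polynomial -/
noncomputable def CSymFr (g : Sym D) : Polynomial (MvPolynomial (V ⊕ (Sym D × Fin m)) Λ) :=
  f.map (MvPolynomial.rename (Sum.inl ∘ g.1.1)).toRingHom

/-- the new system -/
noncomputable def CSymD : V ⊕ (Sym D × Fin m) → MvPolynomial (V ⊕ (Sym D × Fin m)) Λ :=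
  Sum.elim (fun v => MvPolynomial.rename Sum.inl (D v))
    fun x => (CSymPr D m x.1).coeff x.2 - (CSymFr D m f x.1).coeff x.2

theorem CSymPr_map {T : Type} [CommRing T] (ψ : MvPolynomial (V ⊕ (Sym D × Fin m)) Λ →+* T)
    (g : Sym D) : (CSymPr D m g).map ψ =
      ∏ l, (Polynomial.X - Polynomial.C (ψ (MvPolynomial.X (Sum.inr (g, l))))) := by
  simp only [CSymPr, Polynomial.map_prod, Polynomial.map_sub, Polynomial.map_X, Polynomial.map_C]

theorem CSymPr_eval (g : Sym D) (l : Fin m) :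
    (CSymPr D m g).eval (MvPolynomial.X (Sum.inr (g, l))) = 0 := by
  rw [CSymPr, Polynomial.eval_prod]
  exact Finset.prod_eq_zero (Finset.mem_univ l) (by simp)

variable {D m f}

theorem CSym_map_eq [Nontrivial Λ] (hf : f.Monic) (hm : f.natDegree = m) {T : Type} [CommRing T]
    (ψ : MvPolynomial (V ⊕ (Sym D × Fin m)) Λ →+* T) (hψ : ∀ v, ψ (CSymD D m f v) = 0)
    (g : Sym D) : (CSymPr D m g).map ψ = (CSymFr D m f g).map ψ := by
  have hP : (CSymPr D m g).Monic := Polynomial.monic_prod_X_sub_C _ _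
  have hPd : (CSymPr D m g).natDegree = m := by
    rw [CSymPr, Polynomial.natDegree_finsetProd_X_sub_C_eq_card]; simp
  have hF : (CSymFr D m f g).Monic := hf.map _
  have hFd : (CSymFr D m f g).natDegree = m := by rw [CSymFr, hf.natDegree_map, hm]
  ext i
  rw [Polynomial.coeff_map, Polynomial.coeff_map]
  rcases lt_trichotomy i m with h | h | h
  · have := hψ (Sum.inr (g, ⟨i, h⟩))
    simp only [CSymD, Sum.elim_inr, map_sub] at this
    exact sub_eq_zero.1 this
  · have h1 := hP.coeff_natDegree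
    have h2 := hF.coeff_natDegree
    rw [hPd] at h1
    rw [hFd] at h2
    rw [h, h1, h2]
  · rw [Polynomial.coeff_eq_zero_of_natDegree_lt (hPd.trans_lt h),
      Polynomial.coeff_eq_zero_of_natDegree_lt (hFd.trans_lt h)]

theorem CSym_eval_mem [Nontrivial Λ] (hf : f.Monic) (hm : f.natDegree = m) (g : Sym D)
    (l : Fin m) : (CSymFr D m f g).eval (MvPolynomial.X (Sum.inr (g, l))) ∈ sp (CSymD D m f) := by
  have h : ∀ v, Ideal.Quotient.mk (sp (CSymD D m f)) (CSymD D m f v) = 0 :=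
    fun v => Ideal.Quotient.eq_zero_iff_mem.2 (Ideal.subset_span ⟨v, rfl⟩)
  rw [← Ideal.Quotient.eq_zero_iff_mem, ← Polynomial.eval_map_apply,
    ← CSym_map_eq hf hm _ h, Polynomial.eval_map_apply, CSymPr_eval, map_zero]

theorem CSym_inl_mem {t : MvPolynomial V Λ} (ht : t ∈ sp D) :
    MvPolynomial.rename Sum.inl t ∈ sp (CSymD D m f) := by
  have : sp D ≤ (sp (CSymD D m f)).comap (MvPolynomial.rename Sum.inl) := by
    rw [Ideal.span_le]
    rintro _ ⟨v, rfl⟩
    exact Ideal.subset_span ⟨Sum.inl v, rfl⟩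
  exact this ht

theorem CSym_sym (h : Sym D) (π : Sym D → Equiv.Perm (Fin m)) :
    (Equiv.sumCongr h.1.1 (Equiv.prodShear (Equiv.mulLeft h) π),
      Equiv.sumCongr h.1.2 (Equiv.prodCongr (Equiv.mulLeft h) (Equiv.refl _))) ∈
      Sym (CSymD D m f) := by
  rw [mem_Sym]
  rintro (v | ⟨g, i⟩)
  · simp only [CSymD, Sum.elim_inl, Equiv.sumCongr_apply, Sum.map_inl]
    rw [← mem_Sym.1 h.2 v, MvPolynomial.rename_rename, MvPolynomial.rename_rename]
    rfl
  · simp only [CSymD, Sum.elim_inr, Equiv.sumCongr_apply, Sum.map_inr, map_sub,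
      Equiv.prodCongr_apply, Prod.map, Equiv.coe_mulLeft, Equiv.refl_apply]
    congr 1
    · have := congrArg (fun p => Polynomial.coeff p i) (CSymPr_map D m
        (MvPolynomial.rename (Equiv.sumCongr h.1.1 (Equiv.prodShear (Equiv.mulLeft h) π))).toRingHom g)
      simp only [Polynomial.coeff_map] at this
      refine this.trans ?_
      congr 1
      rw [CSymPr]
      refine Eq.trans ?_ (Equiv.prod_comp (π g) _)
      refine Finset.prod_congr rfl fun l _ => ?_
      simp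
    · simp only [CSymFr, Polynomial.coeff_map, AlgHom.toRingHom_eq_coe, RingHom.coe_coe,
        MvPolynomial.rename_rename]
      rfl

theorem CSym_trans [Nontrivial Λ] (hf : f.Monic) (hfm : f.natDegree = m)
    (H : ∀ (F : Type) [Field F] (φ φ' : MvPolynomial V Λ →+* F),
      (∀ a, φ (MvPolynomial.C a) = φ' (MvPolynomial.C a)) → (∀ v, φ (D v) = 0) →
      (∀ v, φ' (D v) = 0) →
      ∃ g ∈ Sym D, ∀ v, φ' (MvPolynomial.X v) = φ (MvPolynomial.X (g.1 v)))
    (F : Type) [Field F] (φ φ' : MvPolynomial (V ⊕ (Sym D × Fin m)) Λ →+* F)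
    (hC : ∀ a, φ (MvPolynomial.C a) = φ' (MvPolynomial.C a))
    (h1 : ∀ v, φ (CSymD D m f v) = 0) (h2 : ∀ v, φ' (CSymD D m f v) = 0) :
    ∃ g ∈ Sym (CSymD D m f), ∀ v, φ' (MvPolynomial.X v) = φ (MvPolynomial.X (g.1 v)) := by
  obtain ⟨h₀, hh, hX₀⟩ := H F (φ.comp (MvPolynomial.rename Sum.inl).toRingHom)
    (φ'.comp (MvPolynomial.rename Sum.inl).toRingHom) (fun a => by simpa using hC a)
    (fun v => h1 (Sum.inl v)) (fun v => h2 (Sum.inl v))
  obtain ⟨h, hX⟩ : ∃ h : Sym D, ∀ v, φ' (MvPolynomial.X (Sum.inl v)) =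
      φ (MvPolynomial.X (Sum.inl (h.1.1 v))) := ⟨⟨h₀, hh⟩, fun v => by simpa using hX₀ v⟩
  have h3 : ∀ g : Sym D, ∃ π : Equiv.Perm (Fin m), ∀ l,
      φ' (MvPolynomial.X (Sum.inr (g, l))) = φ (MvPolynomial.X (Sum.inr (h * g, π l))) := by
    intro g
    have h4 : (CSymPr D m g).map φ' = (CSymPr D m (h * g)).map φ := by
      rw [CSym_map_eq hf hfm _ h1, CSym_map_eq hf hfm _ h2,
        CSymFr, CSymFr, Polynomial.map_map, Polynomial.map_map]
      congr 1
      refine MvPolynomial.ringHom_ext (fun a => ?_) (fun v => ?_)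
      · simpa using (hC a).symm
      · simpa using hX _
    rw [CSymPr_map, CSymPr_map] at h4
    exact CSym_perm _ _ h4
  choose π hπ using h3
  refine ⟨_, CSym_sym h π, ?_⟩
  rintro (v | ⟨g, l⟩)
  · simpa using hX v
  · simpa using hπ g l

end step


theorem CSym_step {Λ : Type} [CommRing Λ] [IsLocalRing Λ] {N : ℕ}
    {G : Fin N → MvPolynomial (Fin N) Λ} (hG : Tower G) {j : ℕ} (hj : j < N) {V : Type}
    {D : V → MvPolynomial V Λ} {s : Fin N → MvPolynomial V Λ} (H : CSymP G j D s) :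
    ∃ (m : ℕ) (D' : V ⊕ (Sym D × Fin m) → MvPolynomial (V ⊕ (Sym D × Fin m)) Λ)
      (s' : Fin N → MvPolynomial (V ⊕ (Sym D × Fin m)) Λ), CSymP G (j + 1) D' s' := by
  classical
  obtain ⟨f₀, hf1, hf2, hf3, hf4, hf5⟩ := hG ⟨j, hj⟩
  obtain ⟨m, hm⟩ : ∃ m, f₀.natDegree = m := ⟨_, rfl⟩
  rw [hm] at hf2 hf4
  obtain ⟨f, hfd⟩ : ∃ f, f = f₀.map (MvPolynomial.aeval s).toRingHom := ⟨_, rfl⟩
  have hf : f.Monic := hfd ▸ hf1.map _
  have hfm : f.natDegree = m := by rw [hfd, hf1.natDegree_map, hm]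
  have hfc : ∀ i < m, f.coeff i ∈ mO Λ V := by
    intro i hi
    rw [hfd, Polynomial.coeff_map]
    refine CSym_mO _ _ (fun a ha => ?_) (fun v => ?_) (hf4 i hi)
    · simpa using CSym_C_mem ha
    · simpa using H.smem v
  obtain ⟨s', hs'⟩ : ∃ s' : Fin N → MvPolynomial (V ⊕ (Sym D × Fin m)) Λ, s' = fun i =>
      if i = ⟨j, hj⟩ then MvPolynomial.X (Sum.inr (1, ⟨0, hf2⟩))
      else MvPolynomial.rename Sum.inl (s i) := ⟨_, rfl⟩
  have hs1 : s' ⟨j, hj⟩ = MvPolynomial.X (Sum.inr (1, ⟨0, hf2⟩)) := by rw [hs']; simp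
  have hs2 : ∀ i, i ≠ ⟨j, hj⟩ → s' i = MvPolynomial.rename Sum.inl (s i) := by
    intro i hi; rw [hs']; simp [hi]
  have hcase : ∀ i : Fin N, i.val < j + 1 → i = ⟨j, hj⟩ ∨ (i.val < j ∧ i ≠ ⟨j, hj⟩) := by
    intro i hi
    rcases Nat.lt_succ_iff_lt_or_eq.1 hi with h | h
    · exact Or.inr ⟨h, fun h' => by rw [h'] at h; exact lt_irrefl _ h⟩
    · exact Or.inl (Fin.ext h)
  have hK : ∀ t ∈ MvPolynomial.supported Λ {j' : Fin N | j' < ⟨j, hj⟩},
      MvPolynomial.aeval s' t = MvPolynomial.rename Sum.inl (MvPolynomial.aeval s t) := by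
    intro t ht
    refine CSym_congr (MvPolynomial.aeval s').toRingHom
      ((MvPolynomial.rename Sum.inl).comp (MvPolynomial.aeval s)).toRingHom ?_ ?_ ht
    · intro a; simp
    · intro i hi
      simpa using hs2 i (ne_of_lt hi)
  have hren : ∀ (e : V → V) (t : MvPolynomial V Λ), t ∈ mO Λ V →
      (MvPolynomial.rename (Sum.inl ∘ e) t : MvPolynomial (V ⊕ (Sym D × Fin m)) Λ) ∈ mO Λ _ := by
    intro e t ht
    refine CSym_mO (MvPolynomial.rename (Sum.inl ∘ e)).toRingHom _ (fun a ha => ?_)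
      (fun v => ?_) ht
    · simpa using CSym_C_mem ha
    · simpa using CSym_X_mem _
  have hnil : ∀ v : V, (MvPolynomial.X (Sum.inl v) : MvPolynomial (V ⊕ (Sym D × Fin m)) Λ) ∈
      (sp (CSymD D m f) ⊔ (maximalIdeal Λ).map MvPolynomial.C).radical := by
    intro v
    obtain ⟨e, he⟩ := H.loc.nil v
    refine ⟨e, ?_⟩
    have : sp D ⊔ (maximalIdeal Λ).map MvPolynomial.C ≤
        (sp (CSymD D m f) ⊔ (maximalIdeal Λ).map MvPolynomial.C).comap
          (MvPolynomial.rename Sum.inl) := by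
      refine sup_le (fun t ht => Ideal.mem_sup_left (CSym_inl_mem ht)) ?_
      rw [Ideal.map_le_iff_le_comap]
      intro a ha
      simpa using Ideal.mem_sup_right (Ideal.mem_map_of_mem _ ha)
    simpa using this he
  have hint : ∀ v : V, IsIntegral Λ (Ideal.Quotient.mkₐ Λ (sp (CSymD D m f))
      (MvPolynomial.X (Sum.inl v))) := by
    intro v
    have := (H.int v).map (Ideal.Quotient.liftₐ (sp D)
      ((Ideal.Quotient.mkₐ Λ (sp (CSymD D m f))).comp (MvPolynomial.rename Sum.inl))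
      fun t ht => Ideal.Quotient.eq_zero_iff_mem.2 (CSym_inl_mem ht))
    simpa using this
  refine ⟨m, CSymD D m f, s', ?_, ?_, ?_, ⟨?_, ?_⟩, ?_, ?_, ?_⟩
  · intro i hi
    rcases hcase i hi with rfl | ⟨h, h'⟩
    · exact ⟨_, hs1⟩
    · obtain ⟨v, hv⟩ := H.var i h
      exact ⟨Sum.inl v, by rw [hs2 i h', hv, MvPolynomial.rename_X]⟩
  · intro i
    by_cases h : i = ⟨j, hj⟩
    · rw [h, hs1]; exact CSym_X_mem _
    · rw [hs2 i h]; exact hren id _ (H.smem i)
  · intro i hi
    rcases hcase i hi with rfl | ⟨h, h'⟩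
    · have h1 : f₀.map (MvPolynomial.aeval s').toRingHom = CSymFr D m f 1 := by
        ext1 k
        rw [CSymFr, hfd, Polynomial.coeff_map, Polynomial.coeff_map, Polynomial.coeff_map]
        exact hK _ (hf3 k)
      have h2 := CSym_eval_mem (D := D) hf hfm 1 ⟨0, hf2⟩
      rw [← h1, ← hs1] at h2
      rw [hf5]
      have h3 := Polynomial.eval_map_apply (p := f₀) (MvPolynomial.aeval s').toRingHom
        (MvPolynomial.X ⟨j, hj⟩)
      simp only [AlgHom.toRingHom_eq_coe, RingHom.coe_coe, MvPolynomial.aeval_X] at h2 h3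
      rw [← h3]; exact h2
    · rw [hK _ (MvPolynomial.supported_mono (fun j' (hj' : j' ≤ i) => lt_of_le_of_lt hj' h)
        (CSym_supp hG i))]
      exact CSym_inl_mem (H.eqn i h)
  · rintro (v | ⟨g, i⟩)
    · exact hren id _ (H.loc.mem v)
    · refine Ideal.sub_mem _ ?_ ?_
      · rw [← Ideal.Quotient.eq_zero_iff_mem, ← Polynomial.coeff_map, CSymPr_map]
        have : ∀ l : Fin m, Ideal.Quotient.mk (mO Λ (V ⊕ (Sym D × Fin m)))
            (MvPolynomial.X (Sum.inr (g, l))) = 0 :=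
          fun l => Ideal.Quotient.eq_zero_iff_mem.2 (CSym_X_mem _)
        simp only [this, map_zero, sub_zero, Finset.prod_const, Finset.card_univ, Fintype.card_fin,
          Polynomial.coeff_X_pow]
        exact if_neg (ne_of_lt i.2)
      · rw [CSymFr, Polynomial.coeff_map]
        exact hren _ _ (hfc i i.2)
  · rintro (v | ⟨g, l⟩)
    · exact hnil v
    · have h1 := CSym_eval_mem (D := D) hf hfm g l
      have hF : (CSymFr D m f g).Monic := hf.map _
      have hFd : (CSymFr D m f g).natDegree = m := by rw [CSymFr, hf.natDegree_map, hfm]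
      have h2 := hF.coeff_natDegree
      rw [Polynomial.eval_eq_sum_range, Finset.sum_range_succ, h2, hFd, one_mul] at h1
      have h3 : (MvPolynomial.X (Sum.inr (g, l)) : MvPolynomial (V ⊕ (Sym D × Fin m)) Λ) ^ m ∈
          (sp (CSymD D m f) ⊔ (maximalIdeal Λ).map MvPolynomial.C).radical := by
        refine (Ideal.add_mem_iff_right _ (Ideal.sum_mem _ fun i hi =>
          Ideal.mul_mem_right _ _ ?_)).1 (Ideal.le_radical (Ideal.mem_sup_left h1))
        rw [CSymFr, Polynomial.coeff_map]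
        refine CSym_mO _ _ (fun a ha => ?_) (fun v => ?_) (hfc i (Finset.mem_range.1 hi))
        · simpa using Ideal.le_radical (Ideal.mem_sup_right (Ideal.mem_map_of_mem _ ha))
        · simpa using hnil _
      obtain ⟨e, he⟩ := h3
      exact ⟨m * e, by rwa [pow_mul]⟩
  · rintro (v | ⟨g, l⟩)
    · exact hint v
    · refine CSym_int ((CSymFr D m f g).map (Ideal.Quotient.mk (sp (CSymD D m f))))
        ((hf.map _).map _) (fun i => ?_) _ ?_
      · rw [Polynomial.coeff_map, CSymFr, Polynomial.coeff_map]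
        refine CSym_int' ((Ideal.Quotient.mkₐ Λ (sp (CSymD D m f))).comp
          (MvPolynomial.rename (Sum.inl ∘ g.1.1))) (fun v => ?_) _
        simpa using hint _
      · rw [Ideal.Quotient.mkₐ_eq_mk, Polynomial.eval_map_apply, Ideal.Quotient.eq_zero_iff_mem]
        exact CSym_eval_mem hf hfm g l
  · exact CSym_trans hf hfm H.trans
  · intro F _ _ φ₀ h0
    obtain ⟨φ, hC, hs, hD⟩ := H.ext F φ₀ fun i hi => h0 i (Nat.lt_succ_of_lt hi)
    have h3 : ∀ g : Sym D, ∃ r : Fin m → F,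
        f.map (φ.comp (MvPolynomial.rename g.1.1).toRingHom) =
          ∏ l, (Polynomial.X - Polynomial.C (r l)) ∧
        (g = 1 → r ⟨0, hf2⟩ = φ₀ (MvPolynomial.X ⟨j, hj⟩)) := by
      intro g
      by_cases hg : g = 1
      · obtain ⟨r, hr, hr'⟩ := CSym_roots' hf2
          (f.map (φ.comp (MvPolynomial.rename g.1.1).toRingHom)) (hf.map _)
          (by rw [hf.natDegree_map, hfm]) (φ₀ (MvPolynomial.X ⟨j, hj⟩)) (by
            have h4 : f.map (φ.comp (MvPolynomial.rename g.1.1).toRingHom) = f₀.map φ₀ := by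
              ext1 k
              rw [hfd, hg, Polynomial.coeff_map, Polynomial.coeff_map, Polynomial.coeff_map]
              have := CSym_congr (φ.comp (MvPolynomial.aeval s).toRingHom) φ₀
                (fun a => by simpa using hC a) (fun i hi => by simpa using hs i hi) (hf3 k)
              simpa using this
            rw [h4, Polynomial.eval_map_apply, ← hf5]
            exact h0 _ (Nat.lt_succ_self j))
        exact ⟨r, hr, fun _ => hr'⟩
      · obtain ⟨r, hr⟩ := CSym_roots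
          (f.map (φ.comp (MvPolynomial.rename g.1.1).toRingHom)) (hf.map _)
          (by rw [hf.natDegree_map, hfm])
        exact ⟨r, hr, fun h => absurd h hg⟩
    choose r hr hr' using h3
    obtain ⟨φ', hφ'⟩ : ∃ φ' : MvPolynomial (V ⊕ (Sym D × Fin m)) Λ →+* F, φ' =
        MvPolynomial.eval₂Hom (φ.comp MvPolynomial.C)
          (Sum.elim (fun v => φ (MvPolynomial.X v)) fun x => r x.1 x.2) := ⟨_, rfl⟩
    have h5 : ∀ e : V → V, φ'.comp (MvPolynomial.rename (Sum.inl ∘ e)).toRingHom =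
        φ.comp (MvPolynomial.rename e).toRingHom := by
      intro e
      refine MvPolynomial.ringHom_ext (fun a => ?_) (fun v => ?_)
      · simp [hφ']
      · simp [hφ']
    have h6 : ∀ t, φ' (MvPolynomial.rename Sum.inl t) = φ t := by
      intro t
      simpa using congrArg (fun ψ => ψ t) (h5 id)
    have h7 : ∀ x, φ' (MvPolynomial.X (Sum.inr x)) = r x.1 x.2 := by
      intro x; simp [hφ']
    refine ⟨φ', fun a => by simp [hφ', hC], fun i hi => ?_, ?_⟩
    · rcases hcase i hi with rfl | ⟨h, h'⟩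
      · rw [hs1, h7]; exact hr' 1 rfl
      · rw [hs2 i h', h6]; exact hs i h
    · rintro (v | ⟨g, i⟩)
      · exact (h6 _).trans (hD v)
      · simp only [CSymD, Sum.elim_inr, map_sub]
        rw [← Polynomial.coeff_map, ← Polynomial.coeff_map, CSymPr_map, CSymFr,
          Polynomial.map_map, h5, hr]
        simp only [h7, sub_self]

theorem CSym_ind {Λ : Type} [CommRing Λ] [IsLocalRing Λ] {N : ℕ}
    {G : Fin N → MvPolynomial (Fin N) Λ} (hG : Tower G) (j : ℕ) (hj : j ≤ N) :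
    ∃ (V : Type) (_ : Finite V) (D : V → MvPolynomial V Λ) (s : Fin N → MvPolynomial V Λ),
      CSymP G j D s := by
  induction j with
  | zero =>
    refine ⟨Empty, inferInstance, fun v => v.elim, fun _ => 0, fun i hi => absurd hi (by simp),
      fun _ => zero_mem _, fun i hi => absurd hi (by simp), ⟨fun v => v.elim, fun v => v.elim⟩,
      fun v => v.elim, fun F _ φ φ' _ _ _ => ⟨1, one_mem _, fun v => v.elim⟩, ?_⟩
    intro F _ _ φ₀ _
    exact ⟨MvPolynomial.eval₂Hom (φ₀.comp MvPolynomial.C) fun v => v.elim, fun a => by simp,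
      fun i hi => absurd hi (by simp), fun v => v.elim⟩
  | succ j ih =>
    obtain ⟨V, _, D, s, H⟩ := ih (Nat.le_of_succ_le hj)
    obtain ⟨m, D', s', H'⟩ := CSym_step hG hj H
    exact ⟨_, inferInstance, D', s', H'⟩

theorem exists_sym {Λ : Type} [CommRing Λ] [IsLocalRing Λ] {N : ℕ}
    (G : Fin N → MvPolynomial (Fin N) Λ) (hG : Tower G) :
    ∃ (V : Type) (_ : Fintype V) (_ : DecidableEq V) (D : V → MvPolynomial V Λ) (ι₀ : Fin N → V),
      (∀ j, MvPolynomial.rename ι₀ (G j) ∈ sp D) ∧ Loc D ∧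
      Module.Finite Λ (MvPolynomial V Λ ⧸ sp D) ∧
      (∀ (F : Type) [Field F] (φ φ' : MvPolynomial V Λ →+* F),
        (∀ a, φ (MvPolynomial.C a) = φ' (MvPolynomial.C a)) → (∀ v, φ (D v) = 0) →
        (∀ v, φ' (D v) = 0) →
        ∃ g ∈ Sym D, ∀ v, φ' (MvPolynomial.X v) = φ (MvPolynomial.X (g.1 v))) ∧
      ∀ (F : Type) [Field F] [IsAlgClosed F] (φ₀ : MvPolynomial (Fin N) Λ →+* F),
        (∀ j, φ₀ (G j) = 0) → ∃ φ : MvPolynomial V Λ →+* F,
          (∀ t, φ (MvPolynomial.rename ι₀ t) = φ₀ t) ∧ ∀ v, φ (D v) = 0 := by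
  classical
  obtain ⟨V, _, D, s, H⟩ := CSym_ind hG N le_rfl
  choose ι₀ hι using fun i : Fin N => H.var i i.2
  have h1 : (MvPolynomial.rename ι₀ : MvPolynomial (Fin N) Λ →ₐ[Λ] _) = MvPolynomial.aeval s :=
    MvPolynomial.algHom_ext fun i => by simp [hι]
  refine ⟨V, Fintype.ofFinite V, inferInstance, D, ι₀, fun j => ?_, H.loc, ?_, H.trans, ?_⟩
  · rw [h1]; exact H.eqn j j.2
  · have : Algebra.IsIntegral Λ (MvPolynomial V Λ ⧸ sp D) := ⟨fun x => by
      obtain ⟨t, rfl⟩ := Ideal.Quotient.mkₐ_surjective Λ (sp D) x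
      exact CSym_int' _ H.int t⟩
    exact Algebra.IsIntegral.finite
  · intro F _ _ φ₀ h0
    obtain ⟨φ, hC, hs, hD⟩ := H.ext F φ₀ fun i _ => h0 i
    refine ⟨φ, fun t => ?_, hD⟩
    have : φ.comp (MvPolynomial.rename ι₀).toRingHom = φ₀ := by
      refine MvPolynomial.ringHom_ext (fun a => ?_) (fun i => ?_)
      · simpa using hC a
      · simpa [← hι] using hs i i.2
    exact congrArg (fun ψ => ψ t) this

end Crest.Agent.R188
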