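import Crest.Agent.R188.CPres

set_option autoImplicit false
set_option linter.unusedVariables false

namespace Crest.Agent.R188

open Crest.Agent.R183 IsLocalRing

theorem CTow_sup_pow {T : Type} [CommRing T] (I J : Ideal T) (n : ℕ) :
    (I ⊔ J) ^ n ≤ I ⊔ J ^ n := by
  induction n with
  | zero => simp
  | succ n ih =>
    rw [pow_succ]
    refine (Ideal.mul_mono_left ih).trans ?_
    rw [Ideal.sup_mul, Ideal.mul_sup, Ideal.mul_sup, ← pow_succ]
    refine sup_le (sup_le ?_ ?_) (sup_le ?_ le_sup_right)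
    · exact Ideal.mul_le_left.trans le_sup_left
    · exact Ideal.mul_le_left.trans le_sup_left
    · exact Ideal.mul_le_right.trans le_sup_left

/-- the monic polynomial with prescribed lower coefficients -/
noncomputable def CTow_mk {B : Type} [CommRing B] (e : ℕ) (c : ℕ → B) : Polynomial B :=
  Polynomial.X ^ e + ∑ i ∈ Finset.range e, Polynomial.C (c i) * Polynomial.X ^ i

theorem CTow_mk_coeff {B : Type} [CommRing B] (e : ℕ) (c : ℕ → B) (i : ℕ) :
    (CTow_mk e c).coeff i = if i = e then 1 else if i < e then c i else 0 := by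
  unfold CTow_mk
  simp only [Polynomial.coeff_add, Polynomial.coeff_X_pow, Polynomial.finsetSum_coeff,
    Polynomial.coeff_C_mul, mul_ite, mul_one, mul_zero, Finset.sum_ite_eq, Finset.mem_range]
  by_cases h : i = e
  · simp [h]
  · simp [h]

theorem CTow_mk_degree_lt {B : Type} [CommRing B] (e : ℕ) (c : ℕ → B) :
    (∑ i ∈ Finset.range e, Polynomial.C (c i) * Polynomial.X ^ i : Polynomial B).degree < e := by
  rw [Polynomial.degree_lt_iff_coeff_zero]
  intro m hm
  simp only [Polynomial.finsetSum_coeff, Polynomial.coeff_C_mul, Polynomial.coeff_X_pow,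
    mul_ite, mul_one, mul_zero, Finset.sum_ite_eq, Finset.mem_range]
  rw [if_neg (by omega)]

theorem CTow_mk_monic {B : Type} [CommRing B] (e : ℕ) (c : ℕ → B) : (CTow_mk e c).Monic :=
  Polynomial.monic_X_pow_add (CTow_mk_degree_lt e c)

theorem CTow_mk_natDegree {B : Type} [CommRing B] [Nontrivial B] (e : ℕ) (c : ℕ → B) :
    (CTow_mk e c).natDegree = e := by
  apply Polynomial.natDegree_eq_of_degree_eq_some
  unfold CTow_mk
  rw [Polynomial.degree_add_eq_left_of_degree_lt, Polynomial.degree_X_pow]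
  rw [Polynomial.degree_X_pow]
  exact CTow_mk_degree_lt e c

theorem CTow_mk_eval₂ {B T : Type} [CommRing B] [CommRing T] (φ : B →+* T) (t : T) (e : ℕ)
    (c : ℕ → B) :
    (CTow_mk e c).eval₂ φ t = t ^ e + ∑ i ∈ Finset.range e, φ (c i) * t ^ i := by
  unfold CTow_mk
  simp [Polynomial.eval₂_add, Polynomial.eval₂_finsetSum]

theorem CTow_monic_eval₂ {B T : Type} [CommRing B] [CommRing T] (φ : B →+* T) (t : T)
    {g : Polynomial B} (hg : g.Monic) :
    g.eval₂ φ t = t ^ g.natDegree + ∑ i ∈ Finset.range g.natDegree, φ (g.coeff i) * t ^ i := by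
  conv_lhs => rw [hg.as_sum]
  exact CTow_mk_eval₂ φ t _ _

theorem CTow_dist_pow {B T : Type} [CommRing B] [CommRing T] (φ : B →+* T) (t : T) {I : Ideal B}
    {g : Polynomial B} (hg : g.IsDistinguishedAt I) :
    g.eval₂ φ t - t ^ g.natDegree ∈ I.map φ := by
  rw [CTow_monic_eval₂ φ t hg.monic, add_sub_cancel_left]
  exact Ideal.sum_mem _ fun i hi => Ideal.mul_mem_right _ _
    (Ideal.mem_map_of_mem _ (hg.mem (Finset.mem_range.1 hi)))

theorem CTow_expand {A T : Type} [CommRing A] [CommRing T] (lam : A →+* T) (n0 : Ideal T) (t : T)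
    (hres : ∀ r : T, ∃ a, r - lam a ∈ n0 ⊔ Ideal.span {t}) (N : ℕ) (r : T) :
    ∃ a : ℕ → A, r - ∑ i ∈ Finset.range N, lam (a i) * t ^ i ∈ n0 ⊔ Ideal.span {t ^ N} := by
  induction N with
  | zero => exact ⟨fun _ => 0, by simp⟩
  | succ N ih =>
    obtain ⟨a, ha⟩ := ih
    obtain ⟨x, hx, y, hy, hxy⟩ := Submodule.mem_sup.1 ha
    obtain ⟨s, rfl⟩ := Ideal.mem_span_singleton'.1 hy
    obtain ⟨a0, ha0⟩ := hres s
    obtain ⟨x', hx', y', hy', hxy'⟩ := Submodule.mem_sup.1 ha0
    obtain ⟨s', rfl⟩ := Ideal.mem_span_singleton'.1 hy'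
    refine ⟨fun i => if i = N then a0 else a i, ?_⟩
    rw [Finset.sum_range_succ]
    beta_reduce
    rw [if_pos rfl, Finset.sum_congr rfl
      (g := fun i => lam (a i) * t ^ i) fun i hi => by
        rw [if_neg (Finset.mem_range.1 hi).ne]]
    have : r - (∑ i ∈ Finset.range N, lam (a i) * t ^ i + lam a0 * t ^ N) =
        (x + x' * t ^ N) + s' * t ^ (N + 1) := by
      rw [← sub_sub, ← hxy]
      have : s = lam a0 + (x' + s' * t) := by rw [hxy']; ring
      rw [this]; ring
    rw [this]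
    exact Ideal.add_mem _ (Ideal.mem_sup_left (n0.add_mem hx (n0.mul_mem_right _ hx')))
      (Ideal.mem_sup_right (Ideal.mul_mem_left _ _ (Ideal.mem_span_singleton_self _)))

/-- abstract Weierstrass preparation -/
theorem CTow_weier {A T : Type} [CommRing A] [IsNoetherianRing A] [IsLocalRing A]
    [IsAdicComplete (maximalIdeal A) A] [CommRing T] [IsNoetherianRing T] [IsLocalRing T]
    (lam : A →+* T) (t ξ : T)
    (hmax : maximalIdeal T = (maximalIdeal A).map lam ⊔ Ideal.span {t})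
    (hres : ∀ r : T, ∃ a, r - lam a ∈ maximalIdeal T)
    (hpr : ((maximalIdeal A).map lam).IsPrime) (ht : t ∉ (maximalIdeal A).map lam)
    (hm : ξ ∈ maximalIdeal T)
    (hξ : ∃ c : ℕ, t ^ c ∈ Ideal.span {ξ} ⊔ (maximalIdeal A).map lam) :
    ∃ g : Polynomial A, g.IsDistinguishedAt (maximalIdeal A) ∧ 0 < g.natDegree ∧
      Ideal.span {g.eval₂ lam t} = Ideal.span {ξ} := by
  classical
  set n0 := (maximalIdeal A).map lam with hn0
  have hle : n0 ≤ maximalIdeal T := hmax ▸ le_sup_left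
  set e := Nat.find hξ with he
  have hte : t ^ e ∈ Ideal.span {ξ} ⊔ n0 := Nat.find_spec hξ
  have he0 : 0 < e := by
    rcases Nat.eq_zero_or_pos e with h | h
    · exfalso
      rw [h, pow_zero] at hte
      have h1 : Ideal.span {ξ} ⊔ n0 ≤ maximalIdeal T :=
        sup_le ((Ideal.span_singleton_le_iff_mem _).2 hm) hle
      exact (maximalIdeal.isMaximal T).ne_top ((Ideal.eq_top_iff_one _).2 (h1 hte))
    · exact h
  have hsup : n0 ⊔ Ideal.span {t ^ e} ≤ Ideal.span {ξ} ⊔ n0 :=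
    sup_le le_sup_right ((Ideal.span_singleton_le_iff_mem _).2 hte)
  have hfin := finite_of_pow_le lam hle hres (Ideal.span {ξ}) ⟨e, by
    rw [hmax]
    refine (CTow_sup_pow _ _ _).trans ?_
    rw [Ideal.span_singleton_pow]
    exact hsup⟩
  let : Algebra A (T ⧸ Ideal.span {ξ}) := ((Ideal.Quotient.mk _).comp lam).toAlgebra
  have : Module.Finite A (T ⧸ Ideal.span {ξ}) := hfin
  have halg : ∀ a, algebraMap A (T ⧸ Ideal.span {ξ}) a = Ideal.Quotient.mk _ (lam a) :=
    fun _ => rfl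
  have hn0m : ∀ x ∈ Ideal.span {ξ} ⊔ n0, Ideal.Quotient.mk (Ideal.span {ξ}) x ∈
      (maximalIdeal A • ⊤ : Submodule A (T ⧸ Ideal.span {ξ})) := by
    intro x hx
    obtain ⟨u, hu, v, hv, rfl⟩ := Submodule.mem_sup.1 hx
    rw [map_add, Ideal.Quotient.eq_zero_iff_mem.2 hu, zero_add, Ideal.smul_top_eq_map]
    change Ideal.Quotient.mk _ v ∈ (maximalIdeal A).map ((Ideal.Quotient.mk _).comp lam)
    rw [← Ideal.map_map]
    exact Ideal.mem_map_of_mem _ hv
  let v : Fin e → T ⧸ Ideal.span {ξ} := fun i => Ideal.Quotient.mk _ (t ^ (i : ℕ))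
  have hspan : (⊤ : Submodule A (T ⧸ Ideal.span {ξ})) ≤ Submodule.span A (Set.range v) := by
    refine Submodule.le_of_le_smul_of_le_jacobson_bot Module.Finite.fg_top
      (maximalIdeal_le_jacobson _) ?_
    intro x _
    obtain ⟨r, rfl⟩ := Ideal.Quotient.mk_surjective x
    obtain ⟨a, ha⟩ := CTow_expand lam n0 t (fun r => hmax ▸ hres r) e r
    have h1 := hn0m _ (hsup ha)
    have h2 : Ideal.Quotient.mk (Ideal.span {ξ}) (∑ i ∈ Finset.range e, lam (a i) * t ^ i) ∈
        Submodule.span A (Set.range v) := by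
      rw [map_sum]
      refine Submodule.sum_mem _ fun i hi => ?_
      rw [map_mul, ← halg, ← Algebra.smul_def]
      exact Submodule.smul_mem _ _ (Submodule.subset_span ⟨⟨i, Finset.mem_range.1 hi⟩, rfl⟩)
    have := Submodule.add_mem_sup h2 h1
    rwa [map_sub, add_sub_cancel] at this
  have h3 : Ideal.Quotient.mk (Ideal.span {ξ}) (t ^ e) ∈
      maximalIdeal A • Submodule.span A (Set.range v) :=
    Submodule.smul_mono le_rfl hspan (hn0m _ hte)
  obtain ⟨a, ha, hsum⟩ := (Submodule.mem_ideal_smul_span_iff_exists_sum _ _ _).1 h3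
  let c : ℕ → A := fun i => if h : i < e then - a ⟨i, h⟩ else 0
  have hg : (CTow_mk e c).IsDistinguishedAt (maximalIdeal A) := by
    refine ⟨⟨fun {i} hi => ?_⟩, CTow_mk_monic e c⟩
    rw [CTow_mk_natDegree] at hi
    rw [CTow_mk_coeff, if_neg hi.ne, if_pos hi]
    simp only [c, dif_pos hi]
    exact neg_mem (ha _)
  have hev : (CTow_mk e c).eval₂ lam t ∈ Ideal.span {ξ} := by
    rw [← Ideal.Quotient.eq_zero_iff_mem, CTow_mk_eval₂, map_add, ← hsum,
      Finsupp.sum_fintype _ _ (by simp), map_sum, ← Fin.sum_univ_eq_sum_range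
        (fun i => Ideal.Quotient.mk (Ideal.span {ξ}) (lam (c i) * t ^ i)),
      ← Finset.sum_add_distrib]
    refine Finset.sum_eq_zero fun i _ => ?_
    simp only [c, dif_pos i.2, map_neg, map_mul, Algebra.smul_def, halg, v, Fin.eta]
    ring
  refine ⟨CTow_mk e c, hg, by rwa [CTow_mk_natDegree], ?_⟩
  obtain ⟨h, hh⟩ := Ideal.mem_span_singleton'.1 hev
  have hu : IsUnit h := by
    by_contra hu
    have hhm : h ∈ maximalIdeal T := hu
    rw [hmax] at hhm
    obtain ⟨x, hx, y, hy, rfl⟩ := Submodule.mem_sup.1 hhm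
    obtain ⟨s, rfl⟩ := Ideal.mem_span_singleton'.1 hy
    have h4 := CTow_dist_pow lam t hg
    rw [CTow_mk_natDegree, ← hh] at h4
    obtain ⟨e', he'⟩ : ∃ e', e = e' + 1 := ⟨e - 1, by omega⟩
    have h5 : t * (s * ξ - t ^ e') ∈ n0 := by
      have : t * (s * ξ - t ^ e') = ((x + s * t) * ξ - t ^ e) - x * ξ := by
        rw [he']; ring
      rw [this]
      exact n0.sub_mem h4 (n0.mul_mem_right _ hx)
    have h6 := (hpr.mem_or_mem h5).resolve_left ht
    refine Nat.find_min hξ (show e' < Nat.find hξ by omega) ?_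
    have : t ^ e' = s * ξ - (s * ξ - t ^ e') := by ring
    rw [this]
    exact Ideal.sub_mem _ (Ideal.mem_sup_left
      (Ideal.mul_mem_left _ _ (Ideal.mem_span_singleton_self _))) (Ideal.mem_sup_right h6)
  rw [← hh]
  exact Ideal.span_singleton_mul_left_unit hu ξ

/-- approximation by polynomials modulo an ideal -/
theorem CTow_approx {Λ T σ : Type} [CommRing Λ] [IsNoetherianRing Λ] [IsLocalRing Λ]
    [IsAdicComplete (maximalIdeal Λ) Λ] [CommRing T] [IsNoetherianRing T] [IsLocalRing T]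
    (ι : Λ →+* T) (y : σ → T) (I : Ideal T) (hI : I ≤ maximalIdeal T)
    (hι : (maximalIdeal Λ).map ι ≤ maximalIdeal T)
    (hres : ∀ r : T, ∃ a, r - ι a ∈ maximalIdeal T) (hy : ∀ i, y i ∈ maximalIdeal T)
    (hgen : maximalIdeal T ≤ sp y ⊔ (maximalIdeal Λ).map ι)
    (hrad : ∀ i, y i ∈ (I ⊔ (maximalIdeal Λ).map ι).radical) (t : T) :
    ∃ q : MvPolynomial σ Λ, t - MvPolynomial.eval₂Hom ι y q ∈ I := by
  have hpow : ∃ c : ℕ, maximalIdeal T ^ c ≤ I ⊔ (maximalIdeal Λ).map ι := by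
    refine Ideal.exists_pow_le_of_le_radical_of_fg ?_ (IsNoetherian.noetherian _)
    refine hgen.trans (sup_le ?_ (le_sup_right.trans Ideal.le_radical))
    rw [Ideal.span_le]
    rintro _ ⟨i, rfl⟩
    exact hrad i
  have hfin := finite_of_pow_le ι hι hres I hpow
  let : Algebra Λ (T ⧸ I) := ((Ideal.Quotient.mk _).comp ι).toAlgebra
  have : Module.Finite Λ (T ⧸ I) := hfin
  have halg : ∀ a, algebraMap Λ (T ⧸ I) a = Ideal.Quotient.mk _ (ι a) := fun _ => rfl
  have : Nontrivial (T ⧸ I) := Ideal.Quotient.nontrivial_iff.2 fun h =>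
    (maximalIdeal.isMaximal T).ne_top (top_le_iff.1 (h ▸ hI))
  have : IsLocalRing (T ⧸ I) := IsLocalRing.of_surjective' _ Ideal.Quotient.mk_surjective
  have : IsLocalHom (Ideal.Quotient.mk I) :=
    IsLocalHom.of_surjective _ Ideal.Quotient.mk_surjective
  have hmk : ∀ x ∈ maximalIdeal T, Ideal.Quotient.mk I x ∈ maximalIdeal (T ⧸ I) :=
    fun x hx => map_nonunit _ x hx
  have hadj := adjoin_eq_top_of_pow_le (A := Λ) (S := T ⧸ I) (fun r => by
      obtain ⟨r, rfl⟩ := Ideal.Quotient.mk_surjective r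
      obtain ⟨a, ha⟩ := hres r
      exact ⟨a, by rw [halg, ← map_sub]; exact hmk _ ha⟩)
    (fun i => Ideal.Quotient.mk I (y i)) (by
      intro x hx
      obtain ⟨r, rfl⟩ := Ideal.Quotient.mk_surjective x
      have hr : r ∈ maximalIdeal T := fun hu => hx (hu.map _)
      have h1 := Ideal.mem_map_of_mem (Ideal.Quotient.mk I) (hgen hr)
      rw [Ideal.map_sup, Ideal.map_span, ← Set.range_comp, Ideal.map_map] at h1
      exact h1) (fun i => hmk _ (hy i))
  have h2 : Ideal.Quotient.mk I t ∈ Algebra.adjoin Λ (Set.range fun i => Ideal.Quotient.mk I (y i)) :=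
    hadj ▸ Algebra.mem_top
  rw [Algebra.adjoin_range_eq_range_aeval] at h2
  obtain ⟨q, hq⟩ := h2
  refine ⟨q, ?_⟩
  rw [← Ideal.Quotient.eq, ← hq, MvPolynomial.map_eval₂Hom]
  rfl

theorem CTow_mem_mO {Λ T σ : Type} [CommRing Λ] [IsLocalRing Λ] [CommRing T] [IsLocalRing T]
    (ι : Λ →+* T) (y : σ → T) (hy : ∀ i, y i ∈ maximalIdeal T) (q : MvPolynomial σ Λ)
    (hq : MvPolynomial.eval₂Hom ι y q ∈ maximalIdeal T) : q ∈ mO Λ σ := by
  have h1 : ∀ q : MvPolynomial σ Λ, q - MvPolynomial.C (MvPolynomial.constantCoeff q) ∈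
      sp (MvPolynomial.X : σ → MvPolynomial σ Λ) := by
    intro q
    induction q using MvPolynomial.induction_on with
    | C a => simp
    | add p q hp hq =>
      have := Ideal.add_mem _ hp hq
      rw [map_add, map_add]
      convert this using 1
      ring
    | mul_X p i hp =>
      simp only [map_mul, MvPolynomial.constantCoeff_X, map_zero, mul_zero, sub_zero]
      exact Ideal.mul_mem_left _ _ (Ideal.subset_span ⟨i, rfl⟩)
  have h2 : MvPolynomial.eval₂Hom ι y (q - MvPolynomial.C (MvPolynomial.constantCoeff q)) ∈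
      maximalIdeal T := by
    have h3 : (sp (MvPolynomial.X : σ → MvPolynomial σ Λ)).map (MvPolynomial.eval₂Hom ι y) ≤
        maximalIdeal T := by
      rw [Ideal.map_span, Ideal.span_le]
      rintro _ ⟨_, ⟨i, rfl⟩, rfl⟩
      simpa using hy i
    exact h3 (Ideal.mem_map_of_mem _ (h1 q))
  have h4 : ι (MvPolynomial.constantCoeff q) ∈ maximalIdeal T := by
    have := Ideal.sub_mem _ hq h2
    rw [map_sub, sub_sub_cancel] at this
    simpa using this
  have h5 : MvPolynomial.constantCoeff q ∈ maximalIdeal Λ := fun hu => h4 (hu.map ι)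
  have := Ideal.add_mem _ (Ideal.mem_sup_left (Ideal.mem_map_of_mem MvPolynomial.C h5))
    (Ideal.mem_sup_right (h1 q) : _ ∈ mO Λ σ)
  rwa [add_sub_cancel] at this

theorem CTow_sp_last {T : Type} [CommRing T] {b : ℕ} (z : Fin (b + 1) → T) :
    sp z = sp (fun l : Fin b => z l.castSucc) ⊔ Ideal.span {z (Fin.last b)} := by
  apply le_antisymm
  · rw [Ideal.span_le]
    rintro _ ⟨i, rfl⟩
    induction i using Fin.lastCases with
    | last => exact Ideal.mem_sup_right (Ideal.mem_span_singleton_self _)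
    | cast l => exact Ideal.mem_sup_left (Ideal.subset_span ⟨l, rfl⟩)
  · refine sup_le ?_ ((Ideal.span_singleton_le_iff_mem _).2 (Ideal.subset_span ⟨_, rfl⟩))
    rw [Ideal.span_le]
    rintro _ ⟨l, rfl⟩
    exact Ideal.subset_span ⟨_, rfl⟩

theorem CTow_spn_succ {T : Type} [CommRing T] (z : ℕ → T) (d : ℕ) :
    spn z (d + 1) = spn z d ⊔ Ideal.span {z d} := by
  unfold spn
  rw [← Ideal.span_union]
  congr 1
  ext x
  simp only [Set.mem_image, Set.mem_Iio, Set.mem_union, Set.mem_singleton_iff]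
  constructor
  · rintro ⟨i, hi, rfl⟩
    rcases Nat.lt_succ_iff_lt_or_eq.1 hi with h | h
    · exact Or.inl ⟨i, h, rfl⟩
    · exact Or.inr (by rw [h])
  · rintro (⟨i, hi, rfl⟩ | rfl)
    · exact ⟨i, by omega, rfl⟩
    · exact ⟨d, by omega, rfl⟩

theorem CTow_spn_eq {T : Type} [CommRing T] (z : ℕ → T) (d : ℕ) :
    spn z d = sp fun i : Fin d => z i := by
  unfold spn
  congr 1
  ext x
  simp only [Set.mem_image, Set.mem_Iio, Set.mem_range]
  exact ⟨fun ⟨i, hi, h⟩ => ⟨⟨i, hi⟩, h⟩, fun ⟨i, h⟩ => ⟨i, i.2, h⟩⟩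

theorem CTow_mem_spn {T : Type} [CommRing T] (z : ℕ → T) {d i : ℕ} (h : i < d) :
    z i ∈ spn z d := Ideal.subset_span ⟨i, h, rfl⟩

theorem CTow_sp_cons {T : Type} [CommRing T] {d : ℕ} (a : T) (z : Fin d → T) :
    sp (Fin.cons a z : Fin (d + 1) → T) = Ideal.span {a} ⊔ sp z := by
  unfold sp
  rw [Fin.range_cons, Ideal.span_insert]

theorem CTow_regL_cast {T : Type} [CommRing T] [IsLocalRing T] {N N' : ℕ} (h : N = N')
    {x : Fin N → T} (hx : RegL T x) : ∃ x' : Fin N' → T, RegL T x' := by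
  subst h
  exact ⟨x, hx⟩

theorem CTow_prime {T : Type} [CommRing T] [IsNoetherianRing T] [IsLocalRing T] {N : ℕ}
    {x : Fin (N + 1) → T} (hx : RegL T x) (y : Fin N → T) (t : T)
    (h : maximalIdeal T = sp y ⊔ Ideal.span {t}) : (sp y).IsPrime ∧ t ∉ sp y := by
  have h1 : RegL T (Fin.append y ![t]) := hx.of_span _ (by
    rw [QPow_sp_append, h]
    simp [sp])
  have h2 := h1.isPrime_left
  refine ⟨h2, fun ht => h2.ne_top ?_⟩
  have h3 := reg_right_of_append y ![t] T h1.reg
  simp only [List.ofFn_succ, List.ofFn_zero, Matrix.cons_val_zero,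
    RingTheory.Sequence.isWeaklyRegular_singleton_iff] at h3
  have h4 : t • (Submodule.Quotient.mk 1 : T ⧸ (sp y • ⊤ : Submodule T T)) =
      t • (0 : T ⧸ (sp y • ⊤ : Submodule T T)) := by
    rw [smul_zero, ← Submodule.Quotient.mk_smul, Submodule.Quotient.mk_eq_zero,
      Complete_mem_smul_top]
    simpa using ht
  have h5 := h3 h4
  rw [Submodule.Quotient.mk_eq_zero, Complete_mem_smul_top] at h5
  exact (Ideal.eq_top_iff_one _).2 h5

end Crest.Agent.R188
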