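import Crest.Agent.R188.ADefs

/-!
# Split complexes, Plücker coordinates, families of ideals: definitions
-/

set_option autoImplicit false

open scoped ENNReal NNReal TensorProduct

namespace Crest.Agent.R188

open Crest.Agent.R183

/-- the split complex with basis `e_j = 2j` in degree `δ j`, `f_j = 2j+1` in degree `δ j + 1`,
`d f_j = e_j` -/
def Sp (B : Type) [CommRing B] (m : ℕ) (δ : ℕ → ℤ) : MC B where
  ι := Fin (2 * m)
  deg t := δ (t.val / 2) + (t.val % 2 : ℕ)
  d := Matrix.of fun i j => if i.val % 2 = 0 ∧ j.val = i.val + 1 then 1 else 0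
  hdeg i j h := by
    have h' : i.val % 2 = 0 ∧ j.val = i.val + 1 := by
      by_contra hc
      exact h (by simp [hc])
    have h1 : j.val / 2 = i.val / 2 := by omega
    have h2 : j.val % 2 = 1 := by omega
    simp [h1, h2, h'.1]
  dd := by
    ext i j
    simp only [Matrix.mul_apply, Matrix.of_apply, Matrix.zero_apply]
    refine Finset.sum_eq_zero fun l _ => ?_
    by_cases h : i.val % 2 = 0 ∧ l.val = i.val + 1
    · have : ¬ (l.val % 2 = 0 ∧ j.val = l.val + 1) := by omega
      simp [this]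
    · simp [h]

/-- the `s × s` minor of `U` on the rows `J 0, …, J (s-1)` and the first `s` columns -/
def pl {B ι : Type} [CommRing B] {n : ℕ} (U : Matrix ι (Fin n) B) (s : ℕ) (J : Fin n → ι) : B :=
  Matrix.det (Matrix.of fun a b : Fin n =>
    if a.val < s ∧ b.val < s then U (J a) b else if a = b then 1 else 0)

/-- the Plücker ideals scaled by `ϖ₀` -/
def plI {B ι : Type} [CommRing B] {n : ℕ} (U : Matrix ι (Fin n) B) (ϖ₀ : B) (s : Fin (n + 1)) :
    Ideal B := sp fun J : Fin n → ι => ϖ₀ * pl U s J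

/-- the vector `𝟙 - e_{t+1} + e_t` -/
def avec (n : ℕ) (t : ℕ) : Fin (n + 1) → ℕ := fun s =>
  if s.val = t + 1 then 0 else if s.val = t then 2 else 1

/-- `E` is split by `U` up to the regular element `γ` -/
structure Spl {B : Type} [CommRing B] (E : MC B) (m : ℕ) (δ : ℕ → ℤ)
    (U : Matrix E.ι (Fin (2 * m)) B) (U' : Matrix (Fin (2 * m)) E.ι B) (γ : B) : Prop where
  hom : MC.IsHom (Sp B m δ) E U
  hom' : MC.IsHom E (Sp B m δ) U'
  left : U' * U = Matrix.scalar _ γ
  right : U * U' = Matrix.scalar _ γ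
  reg : IsSMulRegular B γ

/-- `E` is split by `U` up to `γ` modulo the ideal `𝔞` -/
structure ASpl {B : Type} [CommRing B] (E : MC B) (m : ℕ) (δ : ℕ → ℤ)
    (U : Matrix E.ι (Fin (2 * m)) B) (U' : Matrix (Fin (2 * m)) E.ι B) (γ : B) (𝔞 : Ideal B) :
    Prop where
  hom : MC.IsHom (Sp B m δ) E U
  deg : ∀ i j, U' i j ≠ 0 → (Sp B m δ).deg i = E.deg j
  left : ∀ i j, (U' * U) i j - (if i = j then γ else 0) ∈ 𝔞
  right : ∀ i j, (U * U') i j - (if i = j then γ else 0) ∈ 𝔞

/-- a family of ideals which behaves like the family of products of powers of the `I s` -/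
structure Fam {B τ : Type} [CommRing B] [DecidableEq τ] (I : τ → Ideal B) (γ : B) (C : ℕ)
    (Γ : (τ → ℕ) → Ideal B) : Prop where
  mul : ∀ w s, I s * Γ w ≤ Γ (w + Pi.single s 1)
  gen : ∀ w s, C ≤ w s → Γ (w + Pi.single s 1) ≤ I s * Γ w
  col : ∀ w s (e : ℕ) (x : B), C ≤ w s →
    (∀ b ∈ I s, x * b ∈ Ideal.span {γ ^ e} * Γ (w + Pi.single s 1)) →
    x ∈ Ideal.span {γ ^ e} * Γ w

/-- products of powers -/
def Iw {B τ : Type} [CommRing B] [Fintype τ] (I : τ → Ideal B) (w : τ → ℕ) : Ideal B :=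
  ∏ t, I t ^ w t

end Crest.Agent.R188
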