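import Crest.Agent.R188.FDefs
import Crest.Agent.R188.APat

/-!
# The lattices of a flag
-/

set_option autoImplicit false
set_option linter.unusedVariables false

open scoped ENNReal NNReal TensorProduct

namespace Crest.Agent.R188

open Crest.Agent.R183 Crest.Agent.R183.DG

variable {B : Type} [CommRing B]

theorem Sp_map {B' : Type} [CommRing B'] (m : ℕ) (δ : ℕ → ℤ) (φ : B →+* B') :
    (Sp B m δ).map φ = Sp B' m δ := by
  simp only [MC.map, Sp]
  congr 1
  ext i j
  simp [apply_ite φ]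

theorem pl_map {B' ι : Type} [CommRing B'] {n : ℕ} (U : Matrix ι (Fin n) B) (φ : B →+* B') (s : ℕ)
    (J : Fin n → ι) : pl (U.map φ) s J = φ (pl U s J) := by
  rw [pl, pl, RingHom.map_det]
  congr 1
  ext a b
  simp [apply_ite φ]

theorem plI_map {B' ι : Type} [CommRing B'] {n : ℕ} (U : Matrix ι (Fin n) B) (φ : B →+* B')
    (ϖ₀ : B) (s : Fin (n + 1)) : plI (U.map φ) (φ ϖ₀) s = (plI U ϖ₀ s).map φ := by
  rw [plI, plI, Ideal.map_span, ← Set.range_comp]
  simp only [pl_map, Function.comp_def, map_mul]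

/-- the rows `U (J a)` for `a < s`, completed by unit rows -/
def FLatP {ι : Type} {n : ℕ} (U : Matrix ι (Fin n) B) (s : ℕ) (J : Fin n → ι) :
    Matrix (Fin n) (Fin n) B := fun a => if a.val < s then U (J a) else Pi.single a 1

theorem FLat_det {ι : Type} {n : ℕ} (U : Matrix ι (Fin n) B) (s : ℕ) (J : Fin n → ι) :
    (FLatP U s J).det = pl U s J := by
  rw [pl, Matrix.twoBlockTriangular_det _ (fun a : Fin n => a.val < s),
    Matrix.twoBlockTriangular_det (Matrix.of _) (fun a : Fin n => a.val < s)]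
  · congr 2 <;> ext ⟨a, ha⟩ ⟨b, hb⟩
    · simp [Matrix.toSquareBlockProp_def, FLatP, ha, hb]
    · simp [Matrix.toSquareBlockProp_def, FLatP, ha, hb, Pi.single_apply, eq_comm]
  all_goals
    intro a ha b hb
    have : a ≠ b := fun h => ha (h ▸ hb)
    simp [FLatP, ha, this.symm, this]

theorem FLat_span {σ : Type} {u : σ → B} {T : Ideal B} {g : B} (h : ∀ J, g * u J ∈ T) :
    ∀ b ∈ sp u, g * b ∈ T :=
  Ideal.span_le (I := Submodule.comap (LinearMap.mulLeft B g) T).2 (Set.range_subset_iff.2 h)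

theorem FLat_plI {ι : Type} {n : ℕ} {U : Matrix ι (Fin n) B} (ϖ₀ : B) (s : Fin (n + 1)) {b : B}
    (hb : b ∈ sp (pl U s)) : ϖ₀ * b ∈ plI U ϖ₀ s :=
  FLat_span (fun J => Ideal.subset_span (Set.mem_range_self J)) b hb

/-- Cauchy–Binet -/
theorem pow_mem_pl {ι : Type} [Fintype ι] [DecidableEq ι] {n : ℕ} (U : Matrix ι (Fin n) B)
    (U' : Matrix (Fin n) ι B) {γ : B} (h : U' * U = Matrix.scalar _ γ) (s : ℕ) (hs : s ≤ n) :
    γ ^ n ∈ sp (pl U s) := by
  rcases n.eq_zero_or_pos with rfl | hn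
  · exact Ideal.subset_span ⟨Fin.elim0, by simp [pl]⟩
  rcases isEmpty_or_nonempty ι with hι | ⟨⟨i₀⟩⟩
  · have := congrFun (congrFun h ⟨0, hn⟩) ⟨0, hn⟩
    simp only [Matrix.mul_apply, Finset.univ_eq_empty, Finset.sum_empty, Matrix.scalar_apply,
      Matrix.diagonal_apply_eq] at this
    rw [← this, zero_pow hn.ne']
    exact zero_mem _
  have e : Matrix.scalar (Fin n) γ = fun a => ∑ j, (if a.val < s then U' a j else
      if j = i₀ then γ else 0) • FLatP U s (fun _ => j) a := by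
    funext a b
    by_cases ha : a.val < s
    · simp [← h, Matrix.mul_apply, FLatP, ha]
    · simp [FLatP, ha, Matrix.diagonal_apply, Pi.single_apply, eq_comm, ite_apply]
  have e2 : γ ^ n = Matrix.detRowAlternating.toMultilinearMap (Matrix.scalar (Fin n) γ) := by
    change _ = Matrix.det _
    simp
  rw [e2, e, MultilinearMap.map_sum]
  refine Ideal.sum_mem _ fun r _ => ?_
  rw [MultilinearMap.map_smul_univ]
  exact Submodule.smul_mem _ _ (Ideal.subset_span ⟨r, (FLat_det U s r).symm⟩)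

/-- the functional `y ↦ det [U₀, …, U_{t-1}, y]` on the rows `J` -/
theorem exists_plFun {ι : Type} [Fintype ι] [DecidableEq ι] {n : ℕ} (U : Matrix ι (Fin n) B)
    (t : Fin n) (J : Fin n → ι) : ∃ φ : ι → B, (∀ i, φ i ∈ sp (pl U t)) ∧
      (∀ t' < t, ∑ i, φ i * U i t' = 0) ∧ ∑ i, φ i * U i t = pl U (t + 1) J := by
  set A := FLatP U (t + 1) J with hA
  have h : ∀ t' ≤ t, ∑ i, (∑ a, if J a = i then if a ≤ t then A.adjugate t a else 0 else 0) *
      U i t' = if t = t' then A.det else 0 := fun t' ht' => by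
    have := congrFun (congrFun A.adjugate_mul t) t'
    rw [Matrix.smul_apply, Matrix.one_apply, smul_eq_mul, mul_ite, mul_one, mul_zero] at this
    simp only [Finset.sum_mul, ite_mul, zero_mul]
    rw [Finset.sum_comm, ← this, Matrix.mul_apply]
    refine Finset.sum_congr rfl fun a _ => ?_
    rw [Finset.sum_ite_eq, if_pos (Finset.mem_univ _), hA, FLatP]
    by_cases ha : a ≤ t
    · rw [if_pos ha, if_pos (Nat.lt_succ_of_le ha)]
    · rw [if_neg ha, if_neg fun h => ha (Nat.le_of_lt_succ h),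
        Pi.single_eq_of_ne fun h : t' = a => ha (h ▸ ht'), mul_zero]
  refine ⟨_, fun i => Ideal.sum_mem _ fun a _ => ?_, fun t' ht' => (h t' ht'.le).trans
    (if_neg ht'.ne'), (h t le_rfl).trans ((if_pos rfl).trans (FLat_det _ _ _))⟩
  split_ifs with h1 ha
  · have e : A.updateRow a (Pi.single t 1) =
        (FLatP U t (J ∘ Equiv.swap a t)).submatrix (Equiv.swap a t) id := by
      funext a'
      change _ = FLatP U t (J ∘ Equiv.swap a t) (Equiv.swap a t a')
      by_cases h2 : a' = a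
      · simp [h2, FLatP]
      · rw [Matrix.updateRow_ne h2, hA, FLatP, FLatP, Function.comp_apply, Equiv.swap_apply_self]
        by_cases h3 : a' = t
        · have : a < t := lt_of_le_of_ne ha fun h => h2 (h3.trans h.symm)
          simp [h3, this]
        · have : a'.val ≠ t.val := fun h => h3 (Fin.ext h)
          rw [Equiv.swap_apply_of_ne_of_ne h2 h3]
          exact if_congr (by omega) rfl rfl
    rw [Matrix.adjugate_apply, e, Matrix.det_permute, FLat_det]
    exact Ideal.mul_mem_left _ _ (Ideal.subset_span ⟨_, rfl⟩)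
  all_goals exact zero_mem _

/-- the vector with top coefficient a given minor -/
theorem exists_plVec {ι : Type} [Fintype ι] [DecidableEq ι] {n : ℕ} (U : Matrix ι (Fin n) B)
    (t : Fin n) (J : Fin n → ι) : ∃ c : Fin n → B, c t = pl U t J ∧ (∀ t', t < t' → c t' = 0) ∧
      ∀ i, ∑ t', U i t' * c t' ∈ sp (pl U (t + 1)) := by
  have h : ∀ t', t ≤ t' → (FLatP U t J).adjugate t' t = if t' = t then pl U t J else 0 :=
    fun t' ht' => by
      have := congrFun (congrFun (FLatP U t J).mul_adjugate t') t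
      rw [Matrix.smul_apply, Matrix.one_apply, smul_eq_mul, mul_ite, mul_one, mul_zero,
        Matrix.mul_apply, FLat_det, FLatP, if_neg (show ¬ t'.val < t.val from not_lt.2 ht')] at this
      simpa [Pi.single_apply] using this
  refine ⟨fun t' => (FLatP U t J).adjugate t' t, (h t le_rfl).trans (if_pos rfl),
    fun t' ht' => (h t' ht'.le).trans (if_neg ht'.ne'),
    fun i => Ideal.subset_span ⟨Function.update J t i, ?_⟩⟩
  have e : FLatP U (t + 1) (Function.update J t i) = (FLatP U t J).updateRow t (U i) := by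
    funext a
    by_cases ha : a = t
    · simp [ha, FLatP]
    · have : a.val ≠ t.val := fun h => ha (Fin.ext h)
      rw [Matrix.updateRow_ne ha, FLatP, FLatP, Function.update_of_ne ha]
      exact if_congr (by omega) rfl rfl
  rw [← FLat_det, e, ← Matrix.cramer_transpose_apply, Matrix.cramer_eq_adjugate_mulVec,
    ← Matrix.adjugate_transpose]
  exact Finset.sum_congr (s₁ := Finset.univ) rfl fun t' _ => mul_comm ((FLatP U t J).adjugate t' t) _

/-- the tensor power of a matrix -/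
def tpM {ι κ : Type} (U : Matrix ι κ B) (k : ℕ) : Matrix (Fin k → ι) (Fin k → κ) B :=
  fun t t' => ∏ l, U (t l) (t' l)

theorem FLat_kron {ι κ σ : Type} [Fintype κ] {k : ℕ} (U : Fin k → Matrix ι κ B)
    (V : Fin k → Matrix κ σ B) (t : Fin k → ι) (t' : Fin k → σ) :
    ∑ r : Fin k → κ, (∏ l, U l (t l) (r l)) * ∏ l, V l (r l) (t' l) =
      ∏ l, (U l * V l) (t l) (t' l) := by
  classical
  simp only [Matrix.mul_apply, Finset.prod_univ_sum, Fintype.piFinset_univ, Finset.prod_mul_distrib]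

theorem tpM_mul {ι κ σ : Type} [Fintype κ] (U : Matrix ι κ B) (V : Matrix κ σ B) (k : ℕ) :
    tpM (U * V) k = tpM U k * tpM V k := by
  funext t t'
  exact (FLat_kron (fun _ => U) (fun _ => V) t t').symm

theorem tpM_scalar {ι : Type} [Fintype ι] [DecidableEq ι] (γ : B) (k : ℕ) :
    tpM (Matrix.scalar ι γ) k = Matrix.scalar _ (γ ^ k) := by
  funext t t'
  simp only [tpM, Matrix.scalar_apply, Matrix.diagonal_apply, Finset.prod_ite_zero, funext_iff]
  simp

/-- the factors of the `l`-th summand of the differential of a tensor power -/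
def FLatD (E : MC B) {k : ℕ} (l l' : Fin k) : Matrix E.ι E.ι B :=
  if l' = l then E.d else Matrix.diagonal fun i => if l' < l then (sg (E.deg i) : B) else 1

theorem FLat_tpd (E : MC B) (k : ℕ) (t t' : Fin k → E.ι) :
    tpd E k t t' = ∑ l, ∏ l', FLatD E l l' (t l') (t' l') := by
  refine Finset.sum_congr rfl fun l _ => ?_
  have hs : ∀ s : Finset (Fin k), ((sg (∑ l' ∈ s, E.deg (t l')) : ℤ) : B) =
      ∏ l' ∈ s, (sg (E.deg (t l')) : B) := fun s => by
    induction s using Finset.induction_on with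
    | empty => simp
    | insert a s ha ih => rw [Finset.sum_insert ha, Finset.prod_insert ha, 
      MC.HApp_sg_add, Int.cast_mul, ih]
  split_ifs with hc
  · rw [zsmul_eq_mul, hs, Finset.prod_filter, ← Finset.prod_erase_mul _ _ (Finset.mem_univ l),
      ← Finset.prod_erase_mul _ _ (Finset.mem_univ l), if_neg (lt_irrefl l), mul_one, FLatD,
      if_pos rfl]
    refine congrArg (· * _) (Finset.prod_congr rfl fun l' hl' => ?_)
    have := Finset.ne_of_mem_erase hl'
    rw [FLatD, if_neg this, ← hc l' this, Matrix.diagonal_apply_eq]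
  · push Not at hc
    obtain ⟨l', h1, h2⟩ := hc
    refine (Finset.prod_eq_zero (Finset.mem_univ l') ?_).symm
    rw [FLatD, if_neg h1, Matrix.diagonal_apply_ne _ h2]

theorem FLat_deg {E E' : MC B} {U : Matrix E'.ι E.ι B} (h : MC.IsHom E E' U) {k : ℕ}
    {t : Fin k → E'.ι} {t' : Fin k → E.ι} (ht : tpM U k t t' ≠ 0) (l : Fin k) :
    E'.deg (t l) = E.deg (t' l) :=
  h.deg _ _ fun h0 => ht (Finset.prod_eq_zero (Finset.mem_univ l) h0)

theorem MC.IsHom.tp {E E' : MC B} {U : Matrix E'.ι E.ι B} (h : MC.IsHom E E' U) (k : ℕ) :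
    MC.IsHom (E.tp k) (E'.tp k) (tpM U k) := by
  refine ⟨fun t t' ht => Finset.sum_congr (s₁ := Finset.univ) rfl fun l _ => FLat_deg h ht l, ?_⟩
  have e : ∀ l l' : Fin k, U * FLatD E l l' = FLatD E' l l' * U := fun l l' => by
    unfold FLatD
    split_ifs
    · exact h.comm
    · ext i j
      rw [Matrix.mul_diagonal, Matrix.diagonal_mul, mul_comm]
      by_cases h0 : U i j = 0
      · rw [h0, mul_zero, mul_zero]
      · rw [h.deg i j h0]
    · simp
  funext t t'
  change ∑ r, tpM U k t r * tpd E k r t' = ∑ r, tpd E' k t r * tpM U k r t'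
  simp only [FLat_tpd, Finset.mul_sum, Finset.sum_mul, tpM]
  refine Finset.sum_comm.trans (Eq.trans (Finset.sum_congr rfl fun l _ => ?_) Finset.sum_comm)
  rw [FLat_kron (fun _ => U), FLat_kron _ fun _ => U]
  simp only [e]

theorem MC.IsHom.tpM_cyc {E E' : MC B} {U : Matrix E'.ι E.ι B} (h : MC.IsHom E E' U) (k : ℕ)
    [NeZero k] {M : Type} [AddCommGroup M] [Module B M] (x : (Fin k → E.ι) → M) :
    matApp (tpM U k) M (matApp (E.cyc k) M x) = matApp (E'.cyc k) M (matApp (tpM U k) M x) := by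
  funext t
  rw [MC.matApp_cyc, matApp_apply, matApp_apply, Finset.smul_sum]
  refine Fintype.sum_equiv ((finRotate k).symm.arrowCongr (Equiv.refl _)) _ _ fun r => ?_
  have e : tpM U k (t ∘ finRotate k) (r ∘ finRotate k) = tpM U k t r :=
    Equiv.prod_comp (finRotate k) fun l => U (t l) (r l)
  change _ = _ • tpM U k (t ∘ finRotate k) (r ∘ finRotate k) • x (r ∘ finRotate k)
  rw [MC.matApp_cyc, e, smul_comm]
  by_cases h0 : tpM U k t r = 0
  · rw [h0, zero_smul, smul_zero, smul_zero]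
  · simp only [FLat_deg h h0]

theorem FLat_cons {ι κ : Type} [Fintype κ] (U : Matrix ι κ B) (k : ℕ)
    (x : (Fin (k + 1) → κ) → B) (i : Fin (k + 1) → ι) : matApp (tpM U (k + 1)) B x i =
      ∑ a, U (i 0) a * matApp (tpM U k) B (fun t => x (Fin.cons a t)) (Fin.tail i) := by
  rw [matApp_apply, ← (Fin.consEquiv fun _ => κ).sum_comp, Fintype.sum_prod_type]
  simp only [matApp_apply, Finset.mul_sum, tpM, Fin.prod_univ_succ, smul_eq_mul, mul_assoc]
  rfl

theorem FLat_one {ι κ : Type} [Fintype κ] (U : Matrix ι κ B) (x : (Fin 1 → κ) → B)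
    (i : Fin 1 → ι) : matApp (tpM U 1) B x i = U.mulVec (fun a => x fun _ => a) (i 0) := by
  rw [matApp_apply, ← (Equiv.funUnique (Fin 1) κ).symm.sum_comp]
  simp only [tpM, Fin.prod_univ_one]
  rfl

/-- the vector `𝟙 - e_{t+1}` -/
def FLatb {n : ℕ} (t : Fin n) : Fin (n + 1) → ℕ := fun s => if s = t.succ then 0 else 1

theorem FLat_avec {n : ℕ} (t : Fin n) : avec n t = FLatb t + Pi.single t.castSucc 1 := by
  funext s
  simp only [avec, FLatb, Pi.add_apply, Pi.single_apply, Fin.ext_iff, Fin.val_succ, Fin.val_castSucc]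
  split_ifs <;> omega

theorem FLat_bvec {n : ℕ} (t : Fin n) : 1 = FLatb t + Pi.single t.succ 1 := by
  funext s
  simp only [FLatb, Pi.add_apply, Pi.single_apply, Pi.one_apply]
  split_ifs <;> rfl

section
variable {ι : Type} [Fintype ι] [DecidableEq ι] {n : ℕ} {U : Matrix ι (Fin n) B} {γ ϖ₀ : B} {C : ℕ}
  {Γ : (Fin (n + 1) → ℕ) → Ideal B}

theorem FLat_up (hΓ : Fam (plI U ϖ₀) γ C Γ) (e k : ℕ) : ∀ (v : Fin (n + 1) → ℕ), (∀ s, C ≤ v s) →
    ∀ (x : (Fin k → Fin n) → B), (∀ i, matApp (tpM U k) B x i ∈ Ideal.span {γ ^ e} * Γ (v + k • 1)) →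
    ∀ t : Fin k → Fin n, (∀ t', t ≤ t' → t' ≠ t → x t' = 0) →
    x t ∈ Ideal.span {γ ^ e} * Γ (v + ∑ l, avec n (t l)) := by
  induction k with
  | zero =>
    intro v hv x hx t ht
    simpa [matApp_apply, tpM, Subsingleton.elim default t] using hx Fin.elim0
  | succ k ih =>
    intro v hv x hx t ht
    refine hΓ.col _ (t 0).succ e _ ((hv _).trans le_self_add) (FLat_span fun J => ?_)
    obtain ⟨φ, h1, h2, h3⟩ := exists_plFun U (t 0) J
    have h4 : ∀ a r, Fin.tail t ≤ r → (Fin.cons a r : Fin (k + 1) → Fin n) ≠ t →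
        (ϖ₀ * ∑ i, φ i * U i a) * x (Fin.cons a r) = 0 := fun a r hr hne => by
      rcases lt_or_ge a (t 0) with h | h
      · rw [h2 a h, mul_zero, zero_mul]
      · rw [ht _ (Fin.le_cons.2 ⟨h, hr⟩) hne, mul_zero]
    have h5 := ih (v + 1 + Pi.single (t 0).castSucc 1)
      (fun s => ((hv s).trans le_self_add).trans le_self_add)
      (fun r => ∑ a, (ϖ₀ * ∑ i, φ i * U i a) * x (Fin.cons a r)) (fun i => ?_) (Fin.tail t)
      fun r hr hne => Finset.sum_eq_zero fun a _ => h4 a r hr fun h => hne (by rw [← h, Fin.tail_cons])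
    · rw [Finset.sum_eq_single (t 0) (fun a _ ha => h4 a _ le_rfl fun h => ha (congrFun h 0))
        (by simp), h3, Fin.cons_self_tail, mul_comm _ (x t)] at h5
      convert h5 using 3
      · rw [Fin.sum_univ_succ, FLat_avec, FLat_bvec (t 0)]
        simp only [Fin.tail]
        abel
      · rfl
    · have h6 : matApp (tpM U k) B (fun r => ∑ a, (ϖ₀ * ∑ i, φ i * U i a) * x (Fin.cons a r)) i =
          ∑ i₀, ϖ₀ * φ i₀ * matApp (tpM U (k + 1)) B x (Fin.cons i₀ i) := by
        simp only [FLat_cons, Fin.cons_zero, Fin.tail_cons]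
        simp only [matApp_apply, Finset.mul_sum, Finset.sum_mul, smul_eq_mul]
        rw [Finset.sum_comm, Finset.sum_comm (s := (Finset.univ : Finset ι))]
        refine Finset.sum_congr rfl fun a _ => Finset.sum_comm.trans ?_
        exact Finset.sum_congr rfl fun i₀ _ => Finset.sum_congr rfl fun r _ => by ring
      rw [h6]
      refine Ideal.sum_mem _ fun i₀ _ => ?_
      have h7 := Ideal.mul_mem_mul (FLat_plI ϖ₀ (t 0).castSucc (h1 i₀)) (hx (Fin.cons i₀ i))
      rw [mul_left_comm] at h7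
      convert Ideal.mul_mono_right (hΓ.mul _ _) h7 using 3
      rw [succ_nsmul]
      abel

theorem FLat_gen (hΓ : Fam (plI U ϖ₀) γ C Γ) (k : ℕ) : ∀ (v : Fin (n + 1) → ℕ), (∀ s, C ≤ v s) →
    ∀ t : Fin k → Fin n, ∀ y ∈ Γ (v + ∑ l, avec n (t l)),
    ∃ x : (Fin k → Fin n) → B, x t = y ∧ (∀ t', ¬ t' ≤ t → x t' = 0) ∧
      ∀ i, matApp (tpM U k) B x i ∈ Γ (v + k • 1) := by
  induction k with
  | zero =>
    intro v hv t y hy
    exact ⟨fun _ => y, rfl, fun t' h => absurd (Subsingleton.elim t' t).le h,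
      fun i => by simpa [matApp_apply, tpM] using hy⟩
  | succ k ih =>
    intro v hv t y hy
    let T : Ideal B :=
      { carrier := {y | ∃ x : (Fin (k + 1) → Fin n) → B, x t = y ∧ (∀ t', ¬ t' ≤ t → x t' = 0) ∧
          ∀ i, matApp (tpM U (k + 1)) B x i ∈ Γ (v + (k + 1) • 1)}
        add_mem' := by
          rintro _ _ ⟨x, rfl, h1, h2⟩ ⟨x', rfl, h1', h2'⟩
          exact ⟨x + x', rfl, fun t' h => by simp [h1 t' h, h1' t' h],
            fun i => by rw [map_add]; exact add_mem (h2 i) (h2' i)⟩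
        zero_mem' := ⟨0, rfl, fun _ _ => rfl, fun i => by rw [map_zero]; exact zero_mem _⟩
        smul_mem' := by
          rintro c _ ⟨x, rfl, h1, h2⟩
          exact ⟨c • x, rfl, fun t' h => by simp [h1 t' h],
            fun i => by rw [map_smul]; exact Submodule.smul_mem _ c (h2 i)⟩ }
    have e : v + ∑ l, avec n (t l) = v + FLatb (t 0) + ∑ l, avec n (Fin.tail t l) +
        Pi.single (t 0).castSucc 1 := by
      rw [Fin.sum_univ_succ, FLat_avec]
      simp only [Fin.tail]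
      abel
    rw [e] at hy
    refine (Ideal.mul_le (K := T)).2 (fun b hb g hg => ?_)
      (hΓ.gen _ _ (((hv _).trans le_self_add).trans le_self_add) hy)
    rw [mul_comm]
    refine FLat_span (fun J => ?_) b hb
    obtain ⟨x, h1, h2, h3⟩ := ih (v + FLatb (t 0)) (fun s => (hv s).trans le_self_add) _ g hg
    obtain ⟨c, c1, c2, c3⟩ := exists_plVec U (t 0) J
    refine ⟨fun r => (ϖ₀ * c (r 0)) • x (Fin.tail r), ?_, fun r hr => ?_, fun i => ?_⟩
    · simp only [h1, c1]
      exact mul_comm _ _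
    · beta_reduce
      by_cases h : Fin.tail r ≤ Fin.tail t
      · rw [c2 _ (not_le.1 fun h' => hr fun l => Fin.cases h' h l), mul_zero, zero_smul]
      · rw [h2 _ h, smul_zero]
    · have h4 := hΓ.mul _ _ (Ideal.mul_mem_mul (FLat_plI ϖ₀ (t 0).succ (c3 (i 0))) (h3 (Fin.tail i)))
      convert h4 using 2
      · rw [succ_nsmul, add_right_comm v, add_assoc _ (FLatb _), ← FLat_bvec, add_assoc]
      · simp only [FLat_cons, Fin.cons_zero, Fin.tail_cons, Finset.mul_sum, Finset.sum_mul]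
        refine Finset.sum_congr rfl fun a _ => ?_
        rw [← Pi.smul_def, map_smul, Pi.smul_apply, smul_eq_mul]
        ring

theorem FLat_up1 (hΓ : Fam (plI U ϖ₀) γ C Γ) (e : ℕ) {v : Fin (n + 1) → ℕ} (hv : ∀ s, C ≤ v s)
    (x : Fin n → B) (hx : ∀ i, U.mulVec x i ∈ Ideal.span {γ ^ e} * Γ (v + 1)) (t : Fin n)
    (ht : ∀ t', t < t' → x t' = 0) : x t ∈ Ideal.span {γ ^ e} * Γ (v + avec n t) := by
  simpa using FLat_up hΓ e 1 v hv (fun r => x (r 0)) (fun i => by simpa [FLat_one] using hx (i 0))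
    (fun _ => t) fun r hr hne => ht _ (lt_of_le_of_ne (hr 0) fun h => hne
      (funext fun l => by rw [Subsingleton.elim l 0, h]))

theorem FLat_gen1 (hΓ : Fam (plI U ϖ₀) γ C Γ) {v : Fin (n + 1) → ℕ} (hv : ∀ s, C ≤ v s)
    (t : Fin n) {y : B} (hy : y ∈ Γ (v + avec n t)) :
    ∃ x : Fin n → B, x t = y ∧ (∀ t', t < t' → x t' = 0) ∧ ∀ i, U.mulVec x i ∈ Γ (v + 1) := by
  obtain ⟨x, h1, h2, h3⟩ := FLat_gen hΓ 1 v hv (fun _ => t) y (by simpa using hy)
  exact ⟨fun a => x fun _ => a, h1, fun t' ht' => h2 _ fun h => ht'.not_ge (h 0),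
    fun i => by simpa [FLat_one] using h3 fun _ => i⟩

end

theorem FLat_mem {ι κ : Type} [Fintype κ] (f : Matrix ι κ B) {x : κ → B} {T : Ideal B}
    (h : ∀ j, x j ∈ T) (i : ι) : f.mulVec x i ∈ T :=
  Ideal.sum_mem _ fun j _ => Ideal.mul_mem_left _ _ (h j)

theorem FLat_hg {ι κ : Type} [Fintype κ] {f : Matrix ι κ B} {x : κ → B} {p : ι → ℤ} {q : κ → ℤ}
    {c e : ℤ} (hf : ∀ i j, f i j ≠ 0 → p i = q j + c) (h : ∀ j, x j ≠ 0 → q j = e) (i : ι)
    (hi : f.mulVec x i ≠ 0) : p i = e + c := by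
  obtain ⟨j, -, hj⟩ := Finset.exists_ne_zero_of_sum_ne_zero hi
  rw [hf i j (left_ne_zero_of_mul hj), h j (right_ne_zero_of_mul hj)]

theorem FLat_D (m : ℕ) (δ : ℕ → ℤ) (x : Fin (2 * m) → B) (a : Fin (2 * m)) :
    (Sp B m δ).d.mulVec x a = if h : a.val % 2 = 0 then x ⟨a + 1, by omega⟩ else 0 := by
  change ∑ b : Fin (2 * m), (if a.val % 2 = 0 ∧ b.val = a.val + 1 then (1 : B) else 0) * x b = _
  split_ifs with h
  · rw [Finset.sum_eq_single ⟨a + 1, by omega⟩ (fun b _ hb => by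
      rw [if_neg fun h' => hb (Fin.ext h'.2), zero_mul]) (by simp)]
    simp [h]
  · simp [h]

theorem FLat_unit {ι : Type} [Fintype ι] [DecidableEq ι] {M : Matrix ι ι B} {γ : B} {𝔧 : Ideal B}
    (h : ∀ i j, M i j - (if i = j then γ else 0) ∈ Ideal.span {γ} * 𝔧)
    (h𝔧 : 𝔧 ≤ (⊥ : Ideal B).jacobson) : ∃ A : Matrix ι ι B, IsUnit A.det ∧ M = γ • A := by
  choose N h1 h2 using fun i j => Ideal.mem_span_singleton_mul.1 (h i j)
  refine ⟨1 + Matrix.of N, Ideal.isUnit_of_sub_one_mem_jacobson_bot _ (h𝔧 ?_), ?_⟩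
  · have : (Ideal.Quotient.mk 𝔧).mapMatrix (1 + Matrix.of N) = 1 := by
      rw [map_add, map_one, add_eq_left]
      ext i j
      exact Ideal.Quotient.eq_zero_iff_mem.2 (h1 i j)
    rw [← Ideal.Quotient.eq, RingHom.map_det, this, Matrix.det_one, map_one]
  · ext i j
    simp [mul_add, h2, Matrix.one_apply]

variable {E : MC B} {m : ℕ} {δ : ℕ → ℤ} {U : Matrix E.ι (Fin (2 * m)) B}
  {U' : Matrix (Fin (2 * m)) E.ι B} {γ ϖ₀ : B} {C : ℕ} {Γ : (Fin (2 * m + 1) → ℕ) → Ideal B}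

/-- upper bound for the leading coefficients of the lattice -/
theorem flag_up (hΓ : Fam (plI U ϖ₀) γ C Γ) {k : ℕ} {v : Fin (2 * m + 1) → ℕ} (hv : ∀ s, C ≤ v s)
    (x : (Fin k → Fin (2 * m)) → B)
    (hx : ∀ i, matApp (tpM U k) B x i ∈ Ideal.span {γ ^ k} * Γ (v + k • 1))
    (t : Fin k → Fin (2 * m)) (ht : ∀ t', t ≤ t' → t' ≠ t → x t' = 0) :
    x t ∈ Ideal.span {γ ^ k} * Γ (v + ∑ l, avec (2 * m) (t l)) :=
  FLat_up hΓ k k v hv x hx t ht

/-- every element of the expected lattice is a leading coefficient -/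
theorem flag_gen (hΓ : Fam (plI U ϖ₀) γ C Γ) {k : ℕ} {v : Fin (2 * m + 1) → ℕ} (hv : ∀ s, C ≤ v s)
    (t : Fin k → Fin (2 * m)) {y : B} (hy : y ∈ Γ (v + ∑ l, avec (2 * m) (t l))) :
    ∃ x : (Fin k → Fin (2 * m)) → B, x t = y ∧ (∀ t', ¬ t' ≤ t → x t' = 0) ∧
      ∀ i, matApp (tpM U k) B x i ∈ Γ (v + k • 1) :=
  FLat_gen hΓ k v hv t y hy

theorem flag_le (h : Spl E m δ U U' γ) (hΓ : Fam (plI U ϖ₀) γ C Γ) {w : Fin (2 * m + 1) → ℕ}
    (hw : ∀ s, C ≤ w s) {j : ℕ} (hj : j < m) :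
    Γ (w + avec (2 * m) (2 * j + 1)) ≤ Γ (w + avec (2 * m) (2 * j)) := by
  intro y hy
  obtain ⟨x, h1, h2, h3⟩ := FLat_gen1 hΓ hw ⟨2 * j + 1, by omega⟩ hy
  have h4 := FLat_up1 hΓ 0 hw ((Sp B m δ).d.mulVec x) (fun i => ?_) ⟨2 * j, by omega⟩
    fun a ha => ?_
  · rw [FLat_D, dif_pos (by simp), h1] at h4
    simpa using h4
  · have e : U.mulVec ((Sp B m δ).d.mulVec x) = E.d.mulVec (U.mulVec x) :=
      (Matrix.mulVec_mulVec _ _ _).trans ((congrArg (Matrix.mulVec · x) h.hom.comm).trans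
        (Matrix.mulVec_mulVec _ _ _).symm)
    simpa [e] using FLat_mem E.d h3 i
  · rw [FLat_D]
    split_ifs
    · exact h2 _ (Nat.succ_lt_succ ha)
    · rfl

theorem flag_null (h : Spl E m δ U U' γ) (hδ : Antitone δ) (hΓ : Fam (plI U ϖ₀) γ C Γ)
    {w : Fin (2 * m + 1) → ℕ} (hw : ∀ s, C ≤ w s) {j : ℕ} (hj : j < m) {y : B} (hy : E.Null y) :
    ∀ x ∈ Γ (w + avec (2 * m) (2 * j)), y * x ∈ Γ (w + avec (2 * m) (2 * j + 1)) := by
  intro x hx
  obtain ⟨H, hH, hy⟩ := hy
  obtain ⟨X₀, h1, h2, h3⟩ := FLat_gen1 hΓ hw ⟨2 * j, by omega⟩ hx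
  set X : Fin (2 * m) → B := fun a => if (Sp B m δ).deg a = δ j then X₀ a else 0 with hX
  have dg : ∀ a : Fin (2 * m), (Sp B m δ).deg a = δ (a.val / 2) + (a.val % 2 : ℕ) := fun _ => rfl
  have X1 : X ⟨2 * j, by omega⟩ = x := (if_pos (by simp [dg])).trans h1
  have X2 : ∀ a, ⟨2 * j, by omega⟩ < a → X a = 0 := fun a ha => by simp [hX, h2 a ha]
  have X3 : ∀ a, X a ≠ 0 → (Sp B m δ).deg a = δ j := fun a ha =>
    by_contra fun h => ha (if_neg h)
  have X4 : ∀ i, U.mulVec X i ∈ Γ (w + 1) := fun i => by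
    by_cases hi : E.deg i = δ j
    · convert h3 i using 1
      refine Finset.sum_congr (s₁ := Finset.univ) (f := fun a => U i a * X a) rfl fun a _ => ?_
      by_cases h0 : U i a = 0
      · simp only [h0, zero_mul]
      · exact congrArg (U i a * ·) (if_pos ((h.hom.deg i a h0).symm.trans hi))
    · have : U.mulVec X i = 0 := by_contra fun h0 => hi ((FLat_hg (c := 0)
        (fun i a h0 => (h.hom.deg i a h0).trans (add_zero _).symm) X3 i h0).trans (add_zero _))
      rw [this]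
      exact zero_mem _
  have X5 : (Sp B m δ).d.mulVec X = 0 := funext fun a => by
    rw [FLat_D]
    split_ifs with ha
    · refine by_contra fun h0 => ?_
      have h4 := X3 _ h0
      have h5 : a.val + 1 ≤ 2 * j := not_lt.1 fun h => h0 (X2 _ h)
      have := hδ (show (a.val + 1) / 2 ≤ j by omega)
      simp only [dg] at h4
      omega
    · rfl
  have Z0 : E.d.mulVec (U.mulVec X) = 0 :=
    (Matrix.mulVec_mulVec _ _ _).trans ((congrArg (Matrix.mulVec · X) h.hom.comm.symm).trans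
      ((Matrix.mulVec_mulVec _ _ _).symm.trans
        ((congrArg U.mulVec X5).trans (Matrix.mulVec_zero _))))
  set z := H.mulVec (U.mulVec X) with hz
  have Z1 : E.d.mulVec z = y • U.mulVec X := by
    have := congrArg (Matrix.mulVec · (U.mulVec X)) hy
    simp only [Matrix.add_mulVec, ← Matrix.mulVec_mulVec, Z0, Matrix.mulVec_zero, add_zero] at this
    rw [this]
    funext i
    simp [Matrix.mulVec_diagonal]
  have Z2 : ∀ a, (Sp B m δ).d.mulVec (U'.mulVec z) a = γ * (y * X a) := fun a => by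
    have e : (Sp B m δ).d.mulVec (U'.mulVec z) = U'.mulVec (E.d.mulVec z) :=
      (Matrix.mulVec_mulVec _ _ _).trans ((congrArg (Matrix.mulVec · z) h.hom'.comm.symm).trans
        (Matrix.mulVec_mulVec _ _ _).symm)
    rw [e, Z1, Matrix.mulVec_smul, Matrix.mulVec_mulVec, h.left]
    simp [mul_left_comm]
  have Z3 : ∀ a, U'.mulVec z a ≠ 0 → (Sp B m δ).deg a = δ j + 0 + 1 + 0 :=
    FLat_hg (fun i a h0 => (h.hom'.deg i a h0).trans (add_zero _).symm) (FLat_hg hH
      (FLat_hg (fun i a h0 => (h.hom.deg i a h0).trans (add_zero _).symm) X3))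
  have h4 := FLat_up1 hΓ 1 hw (U'.mulVec z) (fun i => ?_) ⟨2 * j + 1, by omega⟩ fun a ha => ?_
  · have h5 := Z2 ⟨2 * j, by omega⟩
    rw [FLat_D, dif_pos (by simp), X1] at h5
    rw [h5, pow_one] at h4
    obtain ⟨g, hg, e⟩ := Ideal.mem_span_singleton_mul.1 h4
    exact h.reg e ▸ hg
  · rw [Matrix.mulVec_mulVec, h.right, pow_one, Matrix.scalar_apply, Matrix.mulVec_diagonal]
    exact Ideal.mul_mem_mul (Ideal.mem_span_singleton_self γ) (FLat_mem H X4 i)
  · have ha' : 2 * j + 1 < a.val := ha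
    by_cases h5 : a.val % 2 = 0
    · refine by_contra fun h0 => ?_
      have h6 := Z3 a h0
      have := hδ (show j ≤ a.val / 2 by omega)
      rw [dg] at h6
      omega
    · have h6 := Z2 ⟨a - 1, by omega⟩
      rw [FLat_D, dif_pos (by simp only; omega), X2 _ (by simp only [Fin.lt_def]; omega), mul_zero,
        mul_zero] at h6
      convert h6 using 2
      exact Fin.ext (by simp only; omega)

theorem ASpl.map {B' : Type} [CommRing B'] {𝔞 : Ideal B} (h : ASpl E m δ U U' γ 𝔞)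
    (φ : B →+* B') {𝔞' : Ideal B'} (h𝔞 : ∀ a ∈ 𝔞, φ a ∈ 𝔞') :
    ASpl (E.map φ) m δ (U.map φ) (U'.map φ) (φ γ) 𝔞' := by
  refine ⟨⟨(h.hom.map φ).deg, ?_⟩, fun i j h0 => h.deg i j fun h1 => h0 (by simp [h1]),
    fun i j => ?_, fun (i j : E.ι) => ?_⟩
  · refine Eq.trans ?_ (h.hom.map φ).comm
    congr 1
    ext i j
    simp [Sp, MC.map, apply_ite φ]
  · have := h𝔞 _ (h.left i j)
    rwa [map_sub, apply_ite φ, map_zero, ← Matrix.map_apply (f := φ), Matrix.map_mul] at this
  · have := h𝔞 _ (h.right i j)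
    rwa [map_sub, apply_ite φ, map_zero, ← Matrix.map_apply (f := φ), Matrix.map_mul] at this

/-- correcting an approximate splitting -/
theorem ASpl.exists_spl {𝔧 : Ideal B} (h : ASpl E m δ U U' γ (Ideal.span {γ} * 𝔧))
    (hγ : IsSMulRegular B γ) (h𝔧 : 𝔧 ≤ (⊥ : Ideal B).jacobson) : ∃ U'', Spl E m δ U U'' γ := by
  obtain ⟨A, hA, eA⟩ := FLat_unit h.left h𝔧
  obtain ⟨A', hA', eA'⟩ := FLat_unit h.right h𝔧
  have e1 : A⁻¹ * U' * U = γ • 1 := by
    rw [Matrix.mul_assoc, eA, Matrix.mul_smul, Matrix.nonsing_inv_mul _ hA]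
  obtain ⟨V, hV, e2⟩ : ∃ V : Matrix (Fin (2 * m)) E.ι B,
      (∀ i j, V i j ≠ 0 → (Sp B m δ).deg i = E.deg j) ∧ V * U = γ • 1 := by
    refine ⟨fun i j => if (Sp B m δ).deg i = E.deg j then (A⁻¹ * U') i j else 0,
      fun i j h0 => by_contra fun h1 => h0 (if_neg h1), ?_⟩
    ext i i'
    rw [Matrix.mul_apply]
    by_cases hi : (Sp B m δ).deg i = (Sp B m δ).deg i'
    · rw [← e1, Matrix.mul_apply]
      refine Finset.sum_congr rfl fun j _ => ?_
      by_cases h0 : U j i' = 0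
      · rw [h0, mul_zero, mul_zero]
      · rw [if_pos (hi.trans (h.hom.deg j i' h0).symm)]
    · rw [Matrix.smul_apply, Matrix.one_apply_ne fun h => hi (congrArg _ h), smul_zero]
      refine Finset.sum_eq_zero fun j _ => ?_
      by_cases h0 : U j i' = 0
      · rw [h0, mul_zero]
      · rw [if_neg fun h1 => hi (h1.trans (h.hom.deg j i' h0)), zero_mul]
  have e3 : U * V = γ • 1 := by
    have e4 : U * V * (U * U') = γ • (U * U') := by
      rw [Matrix.mul_assoc, ← Matrix.mul_assoc V, e2, Matrix.smul_mul, Matrix.mul_smul,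
        Matrix.one_mul]
    rw [eA', Matrix.mul_smul] at e4
    rw [← Matrix.mul_nonsing_inv _ hA', ← Matrix.smul_mul, ← hγ.matrix e4, Matrix.mul_assoc (U * V),
      Matrix.mul_nonsing_inv _ hA', Matrix.mul_one]
  obtain ⟨D, hD, e5⟩ : ∃ D : Matrix (Fin (2 * m)) (Fin (2 * m)) B, D = (Sp B m δ).d ∧
      U * D = E.d * U := ⟨_, rfl, h.hom.comm⟩
  have e6 : V * E.d = D * V := hγ.matrix (show γ • (V * E.d) = γ • (D * V) by
    rw [← Matrix.mul_one (V * E.d), ← Matrix.mul_smul, ← e3, ← Matrix.mul_assoc, Matrix.mul_assoc V,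
      ← e5, ← Matrix.mul_assoc, e2, Matrix.smul_mul, Matrix.smul_mul, Matrix.one_mul])
  subst hD
  exact ⟨V, h.hom, ⟨hV, e6⟩, e2.trans (Matrix.smul_one_eq_diagonal _),
    e3.trans (Matrix.smul_one_eq_diagonal _), hγ⟩

end Crest.Agent.R188
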