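import Crest.Agent.R183.HSBasic
import Crest.Agent.R183.LF

/-!
# Growth of the graded pieces of a standard graded algebra over a local ring
-/

set_option autoImplicit false
set_option linter.unusedVariables false

open scoped ENNReal NNReal TensorProduct

namespace Crest.Agent.R188

open Crest.Agent.R183 IsLocalRing MvPolynomial

attribute [local instance] MvPolynomial.gradedAlgebra

section aux

variable {Y σ : Type} [CommRing Y]

theorem GJ_dec (φ : MvPolynomial σ Y) (i : ℕ) :
    (DirectSum.decompose (homogeneousSubmodule σ Y) φ i : MvPolynomial σ Y) =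
      homogeneousComponent i φ :=
  decomposition.decompose'_apply φ i

theorem GJ_comp_mul {f : MvPolynomial σ Y} {d : ℕ} (hf : f.IsHomogeneous d)
    (g : MvPolynomial σ Y) (n : ℕ) :
    homogeneousComponent (d + n) (f * g) = f * homogeneousComponent n g := by
  rw [← GJ_dec, ← GJ_dec]
  exact DirectSum.coe_decompose_mul_add_of_left_mem (homogeneousSubmodule σ Y) hf

theorem GJ_colon_hom {J : Ideal (MvPolynomial σ Y)}
    (hJ : J.IsHomogeneous (homogeneousSubmodule σ Y)) {f : MvPolynomial σ Y} {d : ℕ}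
    (hf : f.IsHomogeneous d) : Ideal.IsHomogeneous (homogeneousSubmodule σ Y) (J.colon {f}) := by
  intro n x hx
  have hx' : x * f ∈ J := Submodule.mem_colon_singleton.1 hx
  refine Submodule.mem_colon_singleton.2 ?_
  have h := homogeneousComponent_mem_of_mem hJ hx' (d + n)
  rw [mul_comm x f, GJ_comp_mul hf, mul_comm] at h
  rw [GJ_dec]
  exact h

theorem GJ_sup_hom {J : Ideal (MvPolynomial σ Y)}
    (hJ : J.IsHomogeneous (homogeneousSubmodule σ Y)) {f : MvPolynomial σ Y} {d : ℕ}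
    (hf : f.IsHomogeneous d) :
    Ideal.IsHomogeneous (homogeneousSubmodule σ Y) (J ⊔ Ideal.span {f}) :=
  hJ.sup (Ideal.homogeneous_span _ _ fun x hx => ⟨d, by rw [Set.mem_singleton_iff.1 hx]; exact hf⟩)

/-- the exact sequence `P/(J : f) → P/J → P/(J + f)` in degree `d + n`, modulo `I` -/
theorem GJ_step (μ : LF Y) {J : Ideal (MvPolynomial σ Y)}
    (hJ : J.IsHomogeneous (homogeneousSubmodule σ Y)) {f : MvPolynomial σ Y} {d : ℕ}
    (hf : f.IsHomogeneous d) (I : Ideal Y) (n : ℕ) :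
    μ.sz (homogeneousSubmodule σ Y (d + n))
        (J.restrictScalars Y ⊔ I • homogeneousSubmodule σ Y (d + n)) ≤
      μ.sz (homogeneousSubmodule σ Y n)
          ((J.colon {f} : Ideal (MvPolynomial σ Y)).restrictScalars Y ⊔
            I • homogeneousSubmodule σ Y n) +
        μ.sz (homogeneousSubmodule σ Y (d + n))
          ((J ⊔ Ideal.span {f}).restrictScalars Y ⊔ I • homogeneousSubmodule σ Y (d + n)) := by
  have hle : (homogeneousSubmodule σ Y n).map (LinearMap.mulLeft Y f) ≤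
      homogeneousSubmodule σ Y (d + n) := by
    rintro _ ⟨g, hg, rfl⟩
    exact hf.mul hg
  rw [μ.sz_tower_left hle, μ.sz_map_eq]
  refine add_le_add (μ.sz_mono le_rfl (sup_le (fun x hx => ?_) ?_)) ?_
  · have hx' : x * f ∈ J := Submodule.mem_colon_singleton.1 hx
    refine Submodule.mem_sup_left ?_
    change f * x ∈ J
    rwa [mul_comm]
  · rw [← Submodule.map_le_iff_le_comap, Submodule.map_smul'']
    exact le_sup_of_le_right (Submodule.smul_mono le_rfl hle)
  · rw [← μ.sz_inf_right _ ((J ⊔ Ideal.span {f}).restrictScalars Y ⊔ _)]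
    refine μ.sz_mono le_rfl fun x hx => ?_
    obtain ⟨a, ha, y, hy, rfl⟩ := Submodule.mem_sup.1 hx.2
    obtain ⟨j, hj, b, hb, rfl⟩ := Submodule.mem_sup.1 (show a ∈ J ⊔ Ideal.span {f} from ha)
    obtain ⟨g, rfl⟩ := Ideal.mem_span_singleton'.1 hb
    have hy' : y ∈ homogeneousSubmodule σ Y (d + n) := Submodule.smul_le_right hy
    have h1 : j + g * f ∈ homogeneousSubmodule σ Y (d + n) := by
      simpa using Submodule.sub_mem _ hx.1 hy'
    have h2 := homogeneousComponent_eq_self h1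
    rw [map_add, mul_comm g f, GJ_comp_mul hf] at h2
    rw [mul_comm g f, ← h2, add_comm (homogeneousComponent _ j), add_assoc]
    refine Submodule.add_mem_sup ⟨_, homogeneousComponent_mem n g, rfl⟩
      (Submodule.add_mem_sup ?_ hy)
    exact homogeneousComponent_mem_of_mem hJ hj _

theorem GJ_dim_mono {R : Type} [CommRing R] {J J' : Ideal R} (h : J ≤ J') :
    ringKrullDim (R ⧸ J') ≤ ringKrullDim (R ⧸ J) :=
  ringKrullDim_le_of_surjective (Ideal.Quotient.factor h) (Ideal.Quotient.factor_surjective h)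

/-- the degree zero part is a quotient of `P / (J + X i)` -/
theorem GJ_dim_zero {J : Ideal (MvPolynomial σ Y)}
    (hJ : J.IsHomogeneous (homogeneousSubmodule σ Y)) (i : σ) :
    ringKrullDim (Y ⧸ J.comap (C : Y →+* MvPolynomial σ Y)) ≤
      ringKrullDim (MvPolynomial σ Y ⧸ (J ⊔ Ideal.span {X i})) := by
  refine ringKrullDim_le_of_surjective (Ideal.Quotient.lift (J ⊔ Ideal.span {X i})
    ((Ideal.Quotient.mk (J.comap (C : Y →+* MvPolynomial σ Y))).comp constantCoeff)
      fun a ha => ?_) fun y => ?_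
  · refine (sup_le (fun j hj => ?_) ?_ : J ⊔ Ideal.span {X i} ≤ RingHom.ker _) ha
    · rw [RingHom.mem_ker, RingHom.comp_apply, Ideal.Quotient.eq_zero_iff_mem, Ideal.mem_comap]
      have h := homogeneousComponent_mem_of_mem hJ hj 0
      rwa [homogeneousComponent_zero] at h
    · rw [Ideal.span_singleton_le_iff_mem, RingHom.mem_ker, RingHom.comp_apply, constantCoeff_X,
        map_zero]
  · obtain ⟨y, rfl⟩ := Ideal.Quotient.mk_surjective y
    exact ⟨Ideal.Quotient.mk _ (C y), by simp⟩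

theorem GJ_base [IsNoetherianRing Y] [IsLocalRing Y] [Fintype σ] (J : Ideal (MvPolynomial σ Y))
    (D : ℕ) (hD : ringKrullDim (Y ⧸ J.comap (C : Y →+* MvPolynomial σ Y)) ≤ D) (q : ℕ) :
    ∃ C₀ : ℕ, ∀ N : ℕ, (LF.length Y).sz (homogeneousSubmodule σ Y q)
      (J.restrictScalars Y ⊔ maximalIdeal Y ^ N • homogeneousSubmodule σ Y q) ≤
        (C₀ * (N + 1) ^ D : ℕ) := by
  have : Module.Finite Y (homogeneousSubmodule σ Y q) :=
    Module.Finite.iff_fg.2 (homogeneousSubmodule_fg σ Y q)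
  obtain ⟨C₀, hC⟩ := growth_le Y _ D hD (homogeneousSubmodule σ Y q)
  refine ⟨C₀, fun N => ?_⟩
  rw [LF.sz_eq_quot]
  refine ((LF.length Y).quot_anti (A := (J.comap (C : Y →+* MvPolynomial σ Y) ⊔
    maximalIdeal Y ^ N) • ⊤) ?_).trans ?_
  · rw [Submodule.sup_smul]
    refine sup_le (Submodule.smul_le.2 fun a ha x _ => ?_) (Submodule.smul_le.2 fun a ha x _ => ?_)
    · refine Submodule.mem_sup_left ?_
      change a • (x : MvPolynomial σ Y) ∈ J
      rw [smul_eq_C_mul]
      exact J.mul_mem_right _ ha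
    · exact Submodule.mem_sup_right (Submodule.smul_mem_smul ha x.2)
  · rw [LF.length_val]
    exact_mod_cast hC N

/-- `t ^ (D - 1)`, and `0` for `D = 0` -/
def GJw : ℕ → ℕ → ℕ
  | 0, _ => 0
  | D + 1, t => t ^ D

theorem GJw_mono (D : ℕ) {t t' : ℕ} (h : t ≤ t') : GJw D t ≤ GJw D t' := by
  cases D with
  | zero => exact le_rfl
  | succ D => exact Nat.pow_le_pow_left h D

theorem GJw_mul (D t : ℕ) : GJw D t * t ≤ t ^ D := by
  cases D with
  | zero => exact (Nat.zero_mul t).le.trans (Nat.zero_le _)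
  | succ D => exact (pow_succ t D).ge

theorem GJw_step (D t : ℕ) : t ^ D + GJw D (t + 1) ≤ (t + 1) ^ D := by
  cases D with
  | zero => exact le_rfl
  | succ D =>
    change t ^ (D + 1) + (t + 1) ^ D ≤ (t + 1) ^ (D + 1)
    have := Nat.pow_le_pow_left (Nat.le_succ t) D
    calc t ^ (D + 1) + (t + 1) ^ D = t ^ D * t + (t + 1) ^ D := by ring
      _ ≤ (t + 1) ^ D * t + (t + 1) ^ D := by gcongr
      _ = (t + 1) ^ (D + 1) := by ring

theorem GJ_main [IsNoetherianRing Y] [IsLocalRing Y] [Fintype σ] (J : Ideal (MvPolynomial σ Y)) :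
    J.IsHomogeneous (homogeneousSubmodule σ Y) → ∀ D : ℕ,
      ringKrullDim (MvPolynomial σ Y ⧸ J) ≤ D →
      ∃ C q₀ : ℕ, ∀ q N : ℕ, q₀ ≤ q → (LF.length Y).sz (homogeneousSubmodule σ Y q)
        (J.restrictScalars Y ⊔ maximalIdeal Y ^ N • homogeneousSubmodule σ Y q) ≤
          (C * GJw D (q + N + 1) : ℕ) := by
  induction J using WellFoundedGT.induction with
  | ind J ih =>
  intro hJ D hD
  by_cases hT : J = ⊤
  · refine ⟨0, 0, fun q N _ => ?_⟩
    rw [LF.sz_eq_zero_of_le _ (le_sup_of_le_left fun x _ => by rw [hT]; trivial)]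
    exact zero_le
  have hlt : ∀ f, f ∉ J → J < J ⊔ Ideal.span {f} := fun f hf =>
    lt_of_le_of_ne le_sup_left fun h => hf
      (h ▸ Submodule.mem_sup_right (Ideal.mem_span_singleton_self f))
  by_cases hp : J.IsPrime
  swap
  · rw [hJ.isPrime_iff] at hp
    push Not at hp
    obtain ⟨f, g, ⟨d, hf⟩, -, hfg, hfJ, hgJ⟩ := hp hT
    have h1 : J < J.colon {f} := lt_of_le_of_ne
      (fun x hx => Submodule.mem_colon_singleton.2 (J.mul_mem_right f hx)) fun h => hgJ
        (h ▸ Submodule.mem_colon_singleton.2 (by rwa [smul_eq_mul, mul_comm]))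
    obtain ⟨C₁, q₁, b₁⟩ := ih _ h1 (GJ_colon_hom hJ hf) D ((GJ_dim_mono h1.le).trans hD)
    obtain ⟨C₂, q₂, b₂⟩ := ih _ (hlt f hfJ) (GJ_sup_hom hJ hf) D
      ((GJ_dim_mono le_sup_left).trans hD)
    refine ⟨C₁ + C₂, d + q₁ + q₂, fun q N hq => ?_⟩
    obtain ⟨n, rfl⟩ : ∃ n, q = d + n := ⟨q - d, by omega⟩
    refine (GJ_step _ hJ hf _ n).trans ((add_le_add (b₁ n N (by omega))
      (b₂ (d + n) N (by omega))).trans ?_)
    have := GJw_mono D (show n + N + 1 ≤ d + n + N + 1 by omega)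
    rw [← Nat.cast_add, Nat.cast_le, add_mul]
    gcongr
  by_cases hX : ∀ i, X i ∈ J
  · refine ⟨0, 1, fun q N hq => ?_⟩
    refine (LF.sz_eq_zero_of_le _ (le_sup_of_le_left fun x hx => ?_)).le.trans zero_le
    have hle : Ideal.span (X '' Set.univ) ≤ J := Ideal.span_le.2 (by
      rintro _ ⟨i, -, rfl⟩
      exact hX i)
    refine hle (mem_ideal_span_X_image.2 fun m hm => ?_)
    by_contra hc
    push Not at hc
    have h0 : m = 0 := Finsupp.ext fun i => hc i (Set.mem_univ i)
    refine mem_support_iff.1 hm (IsHomogeneous.coeff_eq_zero hx ?_)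
    rw [h0, map_zero]
    omega
  push Not at hX
  obtain ⟨i, hi⟩ := hX
  have hX1 : (X i : MvPolynomial σ Y).IsHomogeneous 1 := isHomogeneous_X Y i
  have hcol : J.colon {X i} = J := le_antisymm
    (fun x hx => (hp.mem_or_mem (Submodule.mem_colon_singleton.1 hx)).resolve_right hi)
    fun x hx => Submodule.mem_colon_singleton.2 (J.mul_mem_right _ hx)
  have hd1 : ringKrullDim (MvPolynomial σ Y ⧸ (J ⊔ Ideal.span {X i})) + 1 ≤ D := by
    refine (ringKrullDim_succ_le_of_surjective (Ideal.Quotient.factor le_sup_left)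
      (Ideal.Quotient.factor_surjective _) (r := Ideal.Quotient.mk J (X i))
      (mem_nonZeroDivisors_of_ne_zero fun h => hi (Ideal.Quotient.eq_zero_iff_mem.1 h)) ?_).trans hD
    rw [Ideal.Quotient.factor_mk, Ideal.Quotient.eq_zero_iff_mem]
    exact Submodule.mem_sup_right (Ideal.mem_span_singleton_self _)
  have hd0 := GJ_dim_zero hJ i
  have : Nontrivial (Y ⧸ J.comap (C : Y →+* MvPolynomial σ Y)) :=
    Ideal.Quotient.nontrivial_iff.2 (Ideal.comap_ne_top _ hT)
  obtain ⟨D, rfl⟩ : ∃ D', D = D' + 1 := by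
    refine Nat.exists_eq_succ_of_ne_zero ?_
    rintro rfl
    have h1 : (0 : WithBot ℕ∞) + 1 ≤ (0 : ℕ) :=
      (add_le_add (ringKrullDim_nonneg_of_nontrivial.trans hd0) le_rfl).trans hd1
    rw [zero_add, Nat.cast_zero] at h1
    exact absurd h1 (by decide)
  rw [Nat.cast_add, Nat.cast_one, ENat.WithBot.add_le_add_one_right_iff] at hd1
  obtain ⟨C₁, q₁, b₁⟩ := ih _ (hlt _ hi) (GJ_sup_hom hJ hX1) D hd1
  obtain ⟨C₀, b₀⟩ := GJ_base J D (hd0.trans hd1) q₁
  refine ⟨C₀ + C₁, q₁, fun q N hq => ?_⟩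
  change _ ≤ (((C₀ + C₁) * (q + N + 1) ^ D : ℕ) : ℝ≥0∞)
  induction q, hq using Nat.le_induction with
  | base =>
    refine (b₀ N).trans (Nat.cast_le.2 ?_)
    gcongr <;> omega
  | succ q hq ihq =>
    have h1 := GJ_step (LF.length Y) hJ hX1 (maximalIdeal Y ^ N) q
    rw [hcol, add_comm 1 q] at h1
    refine h1.trans ((add_le_add ihq (b₁ (q + 1) N (by omega))).trans ?_)
    have h2 := GJw_step D (q + N + 1)
    rw [← Nat.cast_add, Nat.cast_le, show q + 1 + N + 1 = q + N + 1 + 1 by omega]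
    calc (C₀ + C₁) * (q + N + 1) ^ D + C₁ * GJw D (q + N + 1 + 1)
        ≤ (C₀ + C₁) * (q + N + 1) ^ D + (C₀ + C₁) * GJw D (q + N + 1 + 1) := by
          gcongr; omega
      _ ≤ (C₀ + C₁) * (q + N + 1 + 1) ^ D := by
          rw [← mul_add]
          gcongr

/-- adjoining fractions does not raise the dimension -/
theorem GJ_adjoin [IsNoetherianRing Y] {T : Type} [CommRing T] [IsDomain T] [Algebra Y T]
    (u : T) {n : WithBot ℕ∞} (hu : ringKrullDim Y + 1 ≤ n) (s : Finset T)
    (hs : ∀ z ∈ s, ∃ a ∈ Algebra.adjoin Y {u}, ∃ b ∈ Algebra.adjoin Y {u}, a ≠ 0 ∧ a * z = b) :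
    ringKrullDim (Algebra.adjoin Y ({u} ∪ (s : Set T))) ≤ n := by
  classical
  induction s using Finset.induction_on with
  | empty =>
    have he : Algebra.adjoin Y ({u} ∪ ((∅ : Finset T) : Set T)) =
        (Polynomial.aeval u : Polynomial Y →ₐ[Y] T).range := by
      rw [Finset.coe_empty, Set.union_empty, Algebra.adjoin_singleton_eq_range_aeval]
    rw [he]
    refine (ringKrullDim_le_of_surjective
      (Polynomial.aeval u : Polynomial Y →ₐ[Y] T).rangeRestrict.toRingHom
      (AlgHom.rangeRestrict_surjective _)).trans ?_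
    rwa [Polynomial.ringKrullDim_of_isNoetherianRing]
  | insert z s _ ih =>
    have h1 := ih fun w hw => hs w (Finset.mem_insert_of_mem hw)
    obtain ⟨a, ha, b, hb, ha0, hab⟩ := hs z (Finset.mem_insert_self z s)
    set B := Algebra.adjoin Y ({u} ∪ (s : Set T)) with hB
    have hle : Algebra.adjoin Y {u} ≤ B := Algebra.adjoin_mono Set.subset_union_left
    have : IsNoetherianRing B := isNoetherianRing_of_fg ⟨insert u s, by
      rw [hB, Finset.coe_insert, Set.insert_eq]⟩
    have he : Algebra.adjoin Y ({u} ∪ ((insert z s : Finset T) : Set T)) =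
        ((Polynomial.aeval z : Polynomial B →ₐ[B] T).range).restrictScalars Y := by
      rw [← Algebra.adjoin_singleton_eq_range_aeval, ← Algebra.adjoin_union_eq_adjoin_adjoin,
        Finset.coe_insert, Set.union_assoc, Set.union_singleton]
    rw [he]
    have h2 := ringKrullDim_succ_le_of_surjective
      (Polynomial.aeval z : Polynomial B →ₐ[B] T).rangeRestrict.toRingHom
      (AlgHom.rangeRestrict_surjective _)
      (r := Polynomial.C ⟨a, hle ha⟩ * Polynomial.X - Polynomial.C ⟨b, hle hb⟩)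
      (mem_nonZeroDivisors_of_ne_zero fun h => ha0 (by
        have h3 := congrArg (fun p => ((Polynomial.coeff p 1 : B) : T)) h
        simpa using h3))
      (Subtype.ext (by
        change Polynomial.aeval z _ = 0
        simp [← hab]))
    rw [Polynomial.ringKrullDim_of_isNoetherianRing, ENat.WithBot.add_le_add_one_right_iff] at h2
    exact h2.trans h1

end aux

theorem graded_growth {Y σ : Type} [CommRing Y] [IsNoetherianRing Y] [IsLocalRing Y] [Fintype σ]
    (J : Ideal (MvPolynomial σ Y)) (hJ : J.IsHomogeneous (homogeneousSubmodule σ Y)) (D : ℕ)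
    (hD : ringKrullDim (MvPolynomial σ Y ⧸ J) ≤ D) :
    ∃ C q₀ : ℕ, ∀ q N : ℕ, q₀ ≤ q → (LF.length Y).sz (homogeneousSubmodule σ Y q)
      (J.restrictScalars Y ⊔ maximalIdeal Y ^ N • homogeneousSubmodule σ Y q) *
        ((q + N + 1 : ℕ) : ℝ≥0∞) ≤ (C * (q + N + 1) ^ D : ℕ) := by
  obtain ⟨C, q₀, h⟩ := GJ_main J hJ D hD
  refine ⟨C, q₀, fun q N hq => (mul_le_mul_left (h q N hq) _).trans ?_⟩
  rw [← Nat.cast_mul, Nat.cast_le, mul_assoc]
  exact Nat.mul_le_mul_left _ (GJw_mul D _)

/-- the dimension of the Rees algebra of a domain -/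
theorem dim_rees_le {Y σ : Type} [CommRing Y] [IsNoetherianRing Y] [IsDomain Y] [Fintype σ]
    (c : σ → Y) (δ : ℕ) (hd : ringKrullDim Y ≤ δ) :
    ringKrullDim (MvPolynomial σ Y ⧸ RingHom.ker
      (aeval (R := Y) fun i => (Polynomial.C (c i) * Polynomial.X : Polynomial Y))) ≤
      (δ + 1 : ℕ) := by
  classical
  set v : σ → Polynomial Y := fun i => Polynomial.C (c i) * Polynomial.X with hv
  obtain ⟨u, hu1, hu2⟩ : ∃ u ∈ Algebra.adjoin Y (Set.range v), ∀ i,
      ∃ a ∈ Algebra.adjoin Y {u}, ∃ b ∈ Algebra.adjoin Y {u}, a ≠ 0 ∧ a * v i = b := by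
    by_cases h : ∀ i, c i = 0
    · exact ⟨0, zero_mem _, fun i => ⟨1, one_mem _, 0, zero_mem _, one_ne_zero, by simp [hv, h i]⟩⟩
    · push Not at h
      obtain ⟨j, hj⟩ := h
      refine ⟨v j, Algebra.subset_adjoin ⟨j, rfl⟩, fun i => ⟨Polynomial.C (c j),
        Subalgebra.algebraMap_mem _ (c j), Polynomial.C (c i) * v j,
        mul_mem (Subalgebra.algebraMap_mem _ (c i)) (Algebra.subset_adjoin rfl),
        Polynomial.C_ne_zero.2 hj, ?_⟩⟩
      simp only [hv]
      ring
  have h1 : ringKrullDim Y + 1 ≤ (δ + 1 : ℕ) := by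
    rw [Nat.cast_add, Nat.cast_one]
    exact add_le_add hd le_rfl
  have h2 := GJ_adjoin u h1 (Finset.univ.image v) fun z hz => by
    obtain ⟨i, -, rfl⟩ := Finset.mem_image.1 hz
    exact hu2 i
  have h3 : Algebra.adjoin Y ({u} ∪ ((Finset.univ.image v : Finset _) : Set (Polynomial Y))) =
      (aeval (R := Y) v).range := by
    rw [aeval_range, Finset.coe_image, Finset.coe_univ, Set.image_univ]
    exact le_antisymm (Algebra.adjoin_le (Set.union_subset (Set.singleton_subset_iff.2 hu1)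
      Algebra.subset_adjoin)) (Algebra.adjoin_mono Set.subset_union_right)
  rw [h3] at h2
  rw [(Ideal.quotientKerEquivRange (aeval (R := Y) v)).toRingEquiv.ringKrullDim]
  exact h2

end Crest.Agent.R188
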