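import Crest.Agent.R188.HDefs

/-!
# Euler characteristics, quasi-isomorphisms
-/

set_option autoImplicit false
set_option linter.unusedVariables false

open scoped ENNReal NNReal TensorProduct

namespace Crest.Agent.R183

namespace DG

variable {B : Type} [CommRing B] {X : Type} [AddCommGroup X] [Module B X]
  {X' : Type} [AddCommGroup X'] [Module B X'] {X'' : Type} [AddCommGroup X''] [Module B X'']
  {C : DG B X} {C' : DG B X'} {C'' : DG B X''} {μ : LF B}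

theorem sub_top (C : DG B X) : C.Sub ⊤ := by
  exact ⟨fun _ _ => trivial, fun _ _ _ => trivial⟩

theorem sub_bot (C : DG B X) : C.Sub ⊥ := by
  refine ⟨fun x hx => ?_, fun k x hx => ?_⟩ <;> rw [(Submodule.mem_bot B).1 hx, map_zero] <;>
    exact zero_mem _

theorem Bdd.exists_h_eq_zero (hC : C.Bdd) :
    ∃ L : ℕ, ∀ (μ : LF B) (A A' : Submodule B X) (k : ℤ), (L : ℤ) < |k| → C.h μ k A A' = 0 := by
  obtain ⟨L, hL⟩ := hC
  refine ⟨L, fun μ A A' k hk => μ.sz_eq_zero_of_le fun x hx => ?_⟩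
  rw [← (C.mem_Z.1 hx).1.2, hL k hk]
  exact zero_mem _

theorem h_sub_le {A₁ A₂ A₃ : Submodule B X} (s₁ : C.Sub A₁) (s₂ : C.Sub A₂) (s₃ : C.Sub A₃)
    (h₁₂ : A₂ ≤ A₁) (h₂₃ : A₃ ≤ A₂) (k : ℤ) :
    C.h μ k A₂ A₃ ≤ C.h μ (k + 1) A₁ A₂ + C.h μ k A₁ A₃ := by
  obtain ⟨-, e2, e3⟩ := C.les μ s₁ s₂ s₃ h₁₂ h₂₃ (k + 1)
  rw [add_sub_cancel_right] at e3
  rw [e3, e2, (C.les μ s₁ s₂ s₃ h₁₂ h₂₃ k).1]
  exact add_le_add le_add_self le_self_add

theorem h_quot_le {A₁ A₂ A₃ : Submodule B X} (s₁ : C.Sub A₁) (s₂ : C.Sub A₂) (s₃ : C.Sub A₃)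
    (h₁₂ : A₂ ≤ A₁) (h₂₃ : A₃ ≤ A₂) (k : ℤ) :
    C.h μ k A₁ A₂ ≤ C.h μ k A₁ A₃ + C.h μ (k - 1) A₂ A₃ := by
  obtain ⟨e1, e2, e3⟩ := C.les μ s₁ s₂ s₃ h₁₂ h₂₃ k
  rw [e1, e2, e3]
  exact add_le_add le_add_self le_self_add

theorem FinH.mid {A₁ A₂ A₃ : Submodule B X} (s₁ : C.Sub A₁) (s₂ : C.Sub A₂) (s₃ : C.Sub A₃)
    (h₁₂ : A₂ ≤ A₁) (h₂₃ : A₃ ≤ A₂) (f₁₂ : C.FinH μ A₁ A₂) (f₂₃ : C.FinH μ A₂ A₃) :
    C.FinH μ A₁ A₃ := by
  exact fun k => ne_top_of_le_ne_top (ENNReal.add_ne_top.2 ⟨f₂₃ k, f₁₂ k⟩)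
    (C.h_le_add μ s₁ s₂ s₃ h₁₂ h₂₃ k)

theorem FinH.sub {A₁ A₂ A₃ : Submodule B X} (s₁ : C.Sub A₁) (s₂ : C.Sub A₂) (s₃ : C.Sub A₃)
    (h₁₂ : A₂ ≤ A₁) (h₂₃ : A₃ ≤ A₂) (f₁₂ : C.FinH μ A₁ A₂) (f₁₃ : C.FinH μ A₁ A₃) :
    C.FinH μ A₂ A₃ := by
  exact fun k => ne_top_of_le_ne_top (ENNReal.add_ne_top.2 ⟨f₁₂ _, f₁₃ k⟩)
    (h_sub_le s₁ s₂ s₃ h₁₂ h₂₃ k)

theorem FinH.quot {A₁ A₂ A₃ : Submodule B X} (s₁ : C.Sub A₁) (s₂ : C.Sub A₂) (s₃ : C.Sub A₃)
    (h₁₂ : A₂ ≤ A₁) (h₂₃ : A₃ ≤ A₂) (f₂₃ : C.FinH μ A₂ A₃) (f₁₃ : C.FinH μ A₁ A₃) :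
    C.FinH μ A₁ A₂ := by
  exact fun k => ne_top_of_le_ne_top (ENNReal.add_ne_top.2 ⟨f₁₃ k, f₂₃ _⟩)
    (h_quot_le s₁ s₂ s₃ h₁₂ h₂₃ k)

theorem HBasic_ech_sum {A A' : Submodule B X} (s : Finset ℤ)
    (h : ∀ k, k ∉ s → C.h μ k A A' = 0) :
    C.ech μ A A' = ∑ k ∈ s, (sg k : ℝ) * (C.h μ k A A').toReal :=
  finsum_eq_sum_of_support_subset _ fun k hk => by
    by_contra hk'
    exact hk (by simp only [h k hk', ENNReal.toReal_zero, mul_zero])

theorem HBasic_sz_eq {A A' : Submodule B X} (sA : C.Sub A) (sA' : C.Sub A') (k : ℤ) :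
    μ.sz (A ⊓ C.deg k) A' = C.h μ k A A' +
      (μ.sz (A ⊓ C.deg (k + 1)) (A'.comap C.D) + μ.sz (A ⊓ C.deg k) (A'.comap C.D)) := by
  rw [μ.sz_tower_right _ (show A' ≤ A'.comap C.D from sA'.1), add_comm, ← add_assoc,
    μ.sz_tower_right _ (C.le_Bd A A'), ← μ.sz_map_eq C.D (A ⊓ C.deg (k + 1))]
  congr 2
  refine le_antisymm (DG_le_left μ fun x hx => ?_) (μ.sz_mono ?_ le_rfl)
  · obtain ⟨a, ha, b, hb, h1, -, rfl⟩ := exists_of_mem_Bd sA sA' rfl hx.2 hx.1.1.2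
    exact Submodule.add_mem_sup ⟨a, ⟨ha, h1⟩, rfl⟩ hb
  · rintro _ ⟨a, ha, rfl⟩
    exact ⟨C.D_mem_Z A' rfl (C.mem_Z.2 ⟨ha, sA.1 a ha.1⟩), C.D_mem_Bd _ ha.1⟩

/-- additivity of the Euler characteristic -/
theorem ech_add (hC : C.Bdd) {A₁ A₂ A₃ : Submodule B X} (s₁ : C.Sub A₁) (s₂ : C.Sub A₂)
    (s₃ : C.Sub A₃) (h₁₂ : A₂ ≤ A₁) (h₂₃ : A₃ ≤ A₂) (f₁₂ : C.FinH μ A₁ A₂)
    (f₂₃ : C.FinH μ A₂ A₃) : C.ech μ A₁ A₃ = C.ech μ A₂ A₃ + C.ech μ A₁ A₂ := by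
  obtain ⟨L, hL⟩ := hC.exists_h_eq_zero
  have e : ∀ A A' : Submodule B X, C.ech μ A A' = C.chi μ (-(L + 1)) L A A' := fun A A' =>
    HBasic_ech_sum _ fun k hk => hL μ A A' k (by
      rw [Finset.mem_Icc] at hk
      rw [lt_abs]
      omega)
  have z : ∀ k : ℤ, (L : ℤ) < |k| →
      μ.sz (C.Z k A₁ A₂) (C.Z k A₁ A₃ ⊔ C.Bd A₁ A₂) = 0 := fun k hk => by
    have h := (C.les μ s₁ s₂ s₃ h₁₂ h₂₃ k).2.1
    rw [hL μ _ _ k hk, eq_comm, add_eq_zero] at h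
    exact h.2
  rw [e, e, e, C.chi_add μ s₁ s₂ s₃ h₁₂ h₂₃ f₁₂ f₂₃ (by omega),
    z _ (lt_abs.2 (Or.inl (by omega))), z _ (lt_abs.2 (Or.inr (by omega)))]
  simp

/-- comparison of Euler characteristics (possibly over different rings) -/
theorem ech_shift {B' : Type} [CommRing B'] {Y : Type} [AddCommGroup Y] [Module B' Y]
    {E : DG B' Y} {μ' : LF B'} {A A' : Submodule B X} {P P' : Submodule B' Y} (s : ℤ)
    (h : ∀ k, C.h μ k A A' = E.h μ' (k + s) P P') : C.ech μ A A' = sg s * E.ech μ' P P' := by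
  rw [ech, ech, mul_finsum]
  refine finsum_eq_of_bijective (· + s) (Equiv.addRight s).bijective fun k => ?_
  rw [h k, ← mul_assoc]
  congr 1
  rw [← Int.cast_mul, ← Units.val_mul, Int.negOnePow_add, mul_left_comm, Int.units_mul_self,
    mul_one]

theorem ech_congr {B' : Type} [CommRing B'] {Y : Type} [AddCommGroup Y] [Module B' Y]
    {E : DG B' Y} {μ' : LF B'} {A A' : Submodule B X} {P P' : Submodule B' Y}
    (h : ∀ k, C.h μ k A A' = E.h μ' k P P') : C.ech μ A A' = E.ech μ' P P' := by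
  simp only [ech, h]

theorem ech_eq_zero {A A' : Submodule B X} (h : ∀ k, C.h μ k A A' = 0) : C.ech μ A A' = 0 := by
  simp [ech, h]

theorem ech_eq_single {A A' : Submodule B X} (j : ℤ) (h : ∀ k, k ≠ j → C.h μ k A A' = 0) :
    C.ech μ A A' = sg j * (C.h μ j A A').toReal := by
  exact finsum_eq_single _ j fun k hk => by rw [h k hk, ENNReal.toReal_zero, mul_zero]

theorem ech_eq_sum {A A' : Submodule B X} (s : Finset ℤ) (h : ∀ k, k ∉ s → C.h μ k A A' = 0) :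
    C.ech μ A A' = ∑ k ∈ s, (sg k : ℝ) * (C.h μ k A A').toReal := by
  exact HBasic_ech_sum s h

/-- the Euler characteristic of a subquotient of finite size is the alternating sum of the sizes
of its terms -/
theorem ech_eq_sum_sz {A A' : Submodule B X} (sA : C.Sub A) (sA' : C.Sub A') (hA : A' ≤ A)
    (s : Finset ℤ) (h : ∀ k, k ∉ s → A ⊓ C.deg k ≤ A') (hf : ∀ k, μ.sz (A ⊓ C.deg k) A' ≠ ⊤) :
    C.FinH μ A A' ∧ C.ech μ A A' = ∑ k ∈ s, (sg k : ℝ) * (μ.sz (A ⊓ C.deg k) A').toReal := by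
  have e := HBasic_sz_eq (μ := μ) sA sA'
  have f := fun k => ENNReal.add_ne_top.1 (e k ▸ hf k)
  have z : ∀ k, k ∉ s → μ.sz (A ⊓ C.deg k) A' = 0 := fun k hk => μ.sz_eq_zero_of_le (h k hk)
  have z' := fun k hk => add_eq_zero.1 ((e k).symm.trans (z k hk))
  refine ⟨fun k => (f k).1, ?_⟩
  have hL : ∀ k ∈ s, k.natAbs ≤ s.sup Int.natAbs := fun k hk => Finset.le_sup hk
  generalize s.sup Int.natAbs = L at hL
  have hs : s ⊆ Finset.Icc (-(L + 1) : ℤ) L := fun k hk => by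
    have := hL k hk
    rw [Finset.mem_Icc]
    omega
  have t := DG_telescope (fun k => (μ.sz (A ⊓ C.deg k) (A'.comap C.D)).toReal)
    (show (-(L + 1) : ℤ) ≤ L + 1 by omega)
  rw [(add_eq_zero.1 (z' (L + 1) fun hk => by have := hL _ hk; omega).2).2,
    (add_eq_zero.1 (z' (-(L + 1)) fun hk => by have := hL _ hk; omega).2).2,
    ENNReal.toReal_zero, mul_zero, mul_zero, add_zero] at t
  rw [Finset.sum_subset hs fun k _ hk => by rw [z k hk, ENNReal.toReal_zero, mul_zero],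
    HBasic_ech_sum (Finset.Icc (-(L + 1) : ℤ) L) fun k hk => (z' k fun hk' => hk (hs hk')).1,
    ← add_zero (Finset.sum _ _), ← t, ← Finset.sum_add_distrib]
  refine Finset.sum_congr rfl fun k _ => ?_
  obtain ⟨g1, g2⟩ := ENNReal.add_ne_top.1 (f k).2
  rw [e k, ENNReal.toReal_add (f k).1 (f k).2, ENNReal.toReal_add g1 g2, ← mul_add]

theorem h_le_sz (A A' : Submodule B X) (k : ℤ) : C.h μ k A A' ≤ μ.sz (A ⊓ C.deg k) A' := by
  exact μ.sz_mono inf_le_left (C.le_Bd A A')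

theorem le_ech {L : ℕ} {c : ℝ≥0∞} (hc : c ≠ ⊤) (hL : ∀ k : ℤ, (L : ℤ) < |k| → C.H μ k = 0)
    (h0 : C.H μ 0 ≠ ⊤) (h : ∀ k, k ≠ 0 → C.H μ k ≤ c) :
    (C.H μ 0).toReal - 2 * L * c.toReal ≤ C.ech μ ⊤ ⊥ := by
  have h1 : (0 : ℤ) ∈ Finset.Icc (-L : ℤ) L := by
    rw [Finset.mem_Icc]
    omega
  rw [HBasic_ech_sum (Finset.Icc (-L : ℤ) L) fun k hk => hL k (by
    rw [Finset.mem_Icc] at hk
    rw [lt_abs]
    omega), ← Finset.add_sum_erase _ _ h1]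
  have h2 := Finset.card_nsmul_le_sum ((Finset.Icc (-L : ℤ) L).erase 0)
    (fun k => (sg k : ℝ) * (C.h μ k ⊤ ⊥).toReal) (-c.toReal) fun k hk => by
      have h3 := ENNReal.toReal_mono hc (h k (Finset.mem_erase.1 hk).1)
      have h4 := ENNReal.toReal_nonneg (a := C.h μ k ⊤ ⊥)
      rcases Int.units_eq_one_or k.negOnePow with e | e <;> simp only [sg, e] <;> push_cast <;>
        linarith
  have h3 : ((Finset.Icc (-L : ℤ) L).erase 0).card = 2 * L := by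
    rw [Finset.card_erase_of_mem h1, Int.card_Icc]
    omega
  rw [h3, nsmul_eq_mul] at h2
  push_cast at h2
  simp only [sg, Int.negOnePow_zero, Units.val_one, Int.cast_one, one_mul] at h2 ⊢
  linarith

theorem H_le_th (C : DG B X) (μ : LF B) (k : ℤ) : C.H μ k ≤ C.th μ := by
  exact ENNReal.le_tsum (f := fun k => C.H μ k) k

theorem finH_of_th (h : C.th μ ≠ ⊤) : C.FinH μ ⊤ ⊥ := by
  exact fun k => ne_top_of_le_ne_top h (C.H_le_th μ k)

theorem th_ne_top (hC : C.Bdd) (h : C.FinH μ ⊤ ⊥) : C.th μ ≠ ⊤ := by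
  obtain ⟨L, hL⟩ := hC.exists_h_eq_zero
  rw [th, tsum_eq_sum (s := Finset.Icc (-L : ℤ) L) fun k hk => hL μ _ _ k (by
    rw [Finset.mem_Icc] at hk
    rw [lt_abs]
    omega)]
  exact ENNReal.sum_ne_top.2 fun k _ => h k

theorem AcycOn.h_eq_zero {A : Submodule B X} (h : C.AcycOn A) (μ : LF B) (k : ℤ) :
    C.h μ k A ⊥ = 0 := by
  refine μ.sz_eq_zero_of_le fun x hx => ?_
  obtain ⟨⟨h1, h2⟩, h3⟩ := C.mem_Z.1 hx
  obtain ⟨y, hy, rfl⟩ := h k x h1 h2 h3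
  exact C.D_mem_Bd _ hy

theorem h_length_eq_zero_iff (k : ℤ) (A A' : Submodule B X) :
    C.h (LF.length B) k A A' = 0 ↔ C.Z k A A' ≤ C.Bd A A' := by
  rw [h, LF.sz, LF.length_val, ENat.toENNReal_eq_zero, Module.length_eq_zero_iff,
    Submodule.subsingleton_iff_eq_bot, eq_bot_iff, Submodule.map_le_iff_le_comap,
    Submodule.comap_bot, Submodule.ker_mkQ]

theorem acycOn_of_length {A : Submodule B X} (h : ∀ k, C.h (LF.length B) k A ⊥ = 0) :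
    C.AcycOn A := by
  intro k x h1 h2 h3
  obtain ⟨a, ha, b, hb, rfl⟩ :=
    C.mem_Bd.1 ((h_length_eq_zero_iff k A ⊥).1 (h k) (C.mem_Z.2 ⟨⟨h1, h2⟩, h3⟩))
  exact ⟨a, ha, by rw [(Submodule.mem_bot B).1 hb, add_zero]⟩

theorem IsMap.sub_map {f : X →ₗ[B] X'} (hf : IsMap C C' f) {A : Submodule B X} (sA : C.Sub A) :
    C'.Sub (A.map f) := by
  exact ⟨by rintro _ ⟨x, hx, rfl⟩; exact ⟨_, sA.1 x hx, hf.D x⟩,
    by rintro k _ ⟨x, hx, rfl⟩; exact ⟨_, sA.2 k x hx, hf.π k x⟩⟩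

theorem IsMap.sub_comap {f : X →ₗ[B] X'} (hf : IsMap C C' f) {E : Submodule B X'}
    (sE : C'.Sub E) : C.Sub (E.comap f) := by
  exact ⟨fun x hx => by rw [Submodule.mem_comap, hf.D]; exact sE.1 _ hx,
    fun k x hx => by rw [Submodule.mem_comap, hf.π]; exact sE.2 k _ hx⟩

/-- images of subquotients under injective chain maps -/
theorem IsMap.h_map {f : X →ₗ[B] X'} (hf : IsMap C C' f) (hi : Function.Injective f)
    {A A' : Submodule B X} (sA : C.Sub A) (sA' : C.Sub A') (hA : A' ≤ A) (μ : LF B) (k : ℤ) :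
    C'.h μ k (A.map f) (A'.map f) = C.h μ k A A' := by
  have := (C.h_transport μ C' f sA sA' (hf.sub_map sA) (hf.sub_map sA') hA (Submodule.map_mono hA)
    (sup_eq_left.2 (Submodule.map_mono hA))
    (by rw [Submodule.comap_map_eq_of_injective hi, inf_eq_right.2 hA])
    (by simp [hf.D]) 0 (by simp [hf.π]) k).1
  rw [this, add_zero]

/-- preimages of subquotients under surjective chain maps -/
theorem IsMap.h_comap {f : X →ₗ[B] X'} (hf : IsMap C C' f) (hs : Function.Surjective f)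
    {E E' : Submodule B X'} (sE : C'.Sub E) (sE' : C'.Sub E') (hE : E' ≤ E) (μ : LF B) (k : ℤ) :
    C.h μ k (E.comap f) (E'.comap f) = C'.h μ k E E' := by
  have := (C.h_transport μ C' f (hf.sub_comap sE) (hf.sub_comap sE') sE sE'
    (Submodule.comap_mono hE) hE
    (by rw [Submodule.map_comap_eq_of_surjective hs, sup_eq_left.2 hE])
    (inf_eq_right.2 (Submodule.comap_mono hE)) (by simp [hf.D]) 0 (by simp [hf.π]) k).1
  rw [this, add_zero]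

theorem IsMap.id (C : DG B X) : IsMap C C LinearMap.id := by
  exact ⟨fun _ => rfl, fun _ _ => rfl⟩

theorem IsMap.comp {f : X →ₗ[B] X'} {g : X' →ₗ[B] X''} (hf : IsMap C C' f) (hg : IsMap C' C'' g) :
    IsMap C C'' (g ∘ₗ f) := by
  exact ⟨fun x => by rw [LinearMap.comp_apply, hf.D, hg.D, LinearMap.comp_apply],
    fun k x => by rw [LinearMap.comp_apply, hf.π, hg.π, LinearMap.comp_apply]⟩

theorem QI.id (C : DG B X) : QI C C LinearMap.id := by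
  exact ⟨IsMap.id C, fun k y h1 h2 => ⟨y, 0, h1, h2, by simp⟩, fun k x _ _ z h => ⟨z, h⟩⟩

theorem QI.comp {f : X →ₗ[B] X'} {g : X' →ₗ[B] X''} (hf : QI C C' f) (hg : QI C' C'' g) :
    QI C C'' (g ∘ₗ f) := by
  refine ⟨hf.toIsMap.comp hg.toIsMap, fun k y h1 h2 => ?_, fun k x h1 h2 z h => ?_⟩
  · obtain ⟨x', z', a1, a2, rfl⟩ := hg.surj k y h1 h2
    obtain ⟨x, z, b1, b2, rfl⟩ := hf.surj k x' a1 a2
    exact ⟨x, g z + z', b1, b2, by rw [map_add, map_add, hg.D, add_assoc, LinearMap.comp_apply]⟩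
  · obtain ⟨w, hw⟩ := hg.inj k (f x) (by rw [← hf.π, h1]) (by rw [← hf.D, h2, map_zero]) z h
    exact hf.inj k x h1 h2 w hw

theorem QI.of_comp_left {f : X →ₗ[B] X'} {g : X' →ₗ[B] X''} (hf : IsMap C C' f)
    (hg : QI C' C'' g) (h : QI C C'' (g ∘ₗ f)) : QI C C' f := by
  refine ⟨hf, fun k y h1 h2 => ?_, fun k x h1 h2 z hz => ?_⟩
  · obtain ⟨x, z, a1, a2, a3⟩ :=
      h.surj k (g y) (by rw [← hg.π, h1]) (by rw [← hg.D, h2, map_zero])
    obtain ⟨w, hw⟩ := hg.inj k (y - f x) (by rw [map_sub, h1, ← hf.π, a1])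
      (by rw [map_sub, h2, ← hf.D, a2, map_zero, sub_zero]) z
      (by rw [map_sub, a3, LinearMap.comp_apply, add_sub_cancel_left])
    exact ⟨x, w, a1, a2, by rw [← hw, add_sub_cancel]⟩
  · exact h.inj k x h1 h2 (g z) (by rw [LinearMap.comp_apply, hz, hg.D])

theorem QI.of_comp_right {f : X →ₗ[B] X'} {g : X' →ₗ[B] X''} (hf : QI C C' f)
    (hg : IsMap C' C'' g) (h : QI C C'' (g ∘ₗ f)) : QI C' C'' g := by
  refine ⟨hg, fun k y h1 h2 => ?_, fun k y h1 h2 z hz => ?_⟩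
  · obtain ⟨x, z, a1, a2, a3⟩ := h.surj k y h1 h2
    exact ⟨f x, z, by rw [← hf.π, a1], by rw [← hf.D, a2, map_zero], a3⟩
  · obtain ⟨x, z', a1, a2, rfl⟩ := hf.surj k y h1 h2
    obtain ⟨w, rfl⟩ := h.inj k x a1 a2 (z - g z')
      (by rw [map_sub, ← hz, map_add, hg.D, add_sub_cancel_right, LinearMap.comp_apply])
    exact ⟨f w + z', by rw [map_add, hf.D]⟩

theorem QI.H_eq {f : X →ₗ[B] X'} (hf : QI C C' f) (μ : LF B) (k : ℤ) : C.H μ k = C'.H μ k := by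
  have e : C'.H μ k = μ.sz ((C.Z k ⊤ ⊥).map f) (C'.Bd ⊤ ⊥) := by
    refine le_antisymm (DG_le_left μ fun y hy => ?_) (μ.sz_mono ?_ le_rfl)
    · obtain ⟨x, z, a1, a2, rfl⟩ := hf.surj k y (C'.mem_Z.1 hy).1.2 (C'.mem_Z.1 hy).2
      exact Submodule.add_mem_sup ⟨x, C.mem_Z.2 ⟨⟨trivial, a1⟩, a2⟩, rfl⟩ (C'.D_mem_Bd _ trivial)
    · rintro _ ⟨x, hx, rfl⟩
      obtain ⟨⟨-, h1⟩, h2⟩ := C.mem_Z.1 hx
      exact C'.mem_Z.2 ⟨⟨trivial, by rw [← hf.π, h1]⟩,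
        by rw [← hf.D, (Submodule.mem_bot B).1 h2, map_zero]; exact zero_mem _⟩
  rw [e, μ.sz_map_eq]
  refine le_antisymm (DG_le_right μ fun x hx => ?_) (μ.sz_mono le_rfl fun x hx => ?_)
  · obtain ⟨⟨-, h1⟩, h2⟩ := C.mem_Z.1 hx.1
    obtain ⟨a, -, b, hb, h3⟩ := C'.mem_Bd.1 hx.2
    rw [(Submodule.mem_bot B).1 hb, add_zero] at h3
    obtain ⟨w, rfl⟩ := hf.inj k x h1 h2 a h3.symm
    exact C.D_mem_Bd _ trivial
  · obtain ⟨a, -, b, hb, rfl⟩ := C.mem_Bd.1 hx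
    rw [(Submodule.mem_bot B).1 hb, add_zero, Submodule.mem_comap, hf.D]
    exact C'.D_mem_Bd _ trivial

theorem QI.th_eq {f : X →ₗ[B] X'} (hf : QI C C' f) (μ : LF B) : C.th μ = C'.th μ := by
  exact tsum_congr (hf.H_eq μ)

theorem QI.ech_eq {f : X →ₗ[B] X'} (hf : QI C C' f) (μ : LF B) :
    C.ech μ ⊤ ⊥ = C'.ech μ ⊤ ⊥ := by
  exact ech_congr (hf.H_eq μ)

theorem QI.acyc_iff {f : X →ₗ[B] X'} (hf : QI C C' f) : C.Acyc ↔ C'.Acyc := by
  exact ⟨fun h => acycOn_of_length fun k => (hf.H_eq _ k).symm.trans (h.h_eq_zero _ k),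
    fun h => acycOn_of_length fun k => (hf.H_eq _ k).trans (h.h_eq_zero _ k)⟩

theorem QI.of_bijective {f : X →ₗ[B] X'} (hf : IsMap C C' f) (hb : Function.Bijective f) :
    QI C C' f := by
  refine ⟨hf, fun k y h1 h2 => ?_, fun k x h1 h2 z hz => ?_⟩
  · obtain ⟨x, rfl⟩ := hb.2 y
    exact ⟨x, 0, hb.1 (by rw [hf.π, h1]), hb.1 (by rw [hf.D, h2, map_zero]), by simp⟩
  · obtain ⟨w, rfl⟩ := hb.2 z
    exact ⟨w, hb.1 (by rw [hz, hf.D])⟩

theorem QI.of_surjective {f : X →ₗ[B] X'} (hf : IsMap C C' f) (hs : Function.Surjective f)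
    (hk : C.AcycOn (LinearMap.ker f)) : QI C C' f := by
  refine ⟨hf, fun k y h1 h2 => ?_, fun k x h1 h2 z hz => ?_⟩
  · obtain ⟨x, rfl⟩ := hs y
    have e : ∀ u, C.π (k - 1) (C.D u) = C.D (C.π k u) := fun u => by rw [C.πD, sub_add_cancel]
    obtain ⟨w, w1, w2⟩ := hk (k - 1) (C.D (C.π k x))
      (by rw [LinearMap.mem_ker, hf.D, hf.π, h1, h2]) (by rw [e, C.ππ]) (C.DD _)
    refine ⟨C.π k (x - w), 0, C.ππ _ _, ?_, ?_⟩
    · rw [map_sub, map_sub, ← e w, w2, e, C.ππ, sub_self]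
    · rw [hf.π, map_sub, LinearMap.mem_ker.1 w1, sub_zero, h1, map_zero, add_zero]
  · obtain ⟨w, rfl⟩ := hs z
    obtain ⟨y, -, hy⟩ := hk k (C.π k (x - C.D w))
      (by rw [LinearMap.mem_ker, hf.π, map_sub, hz, hf.D, sub_self, map_zero]) (C.ππ _ _)
      (by rw [map_sub, h1, C.πD, map_sub, h2, C.DD, sub_zero])
    exact ⟨y + C.π (k + 1) w, by rw [map_add, hy, map_sub, h1, C.πD, sub_add_cancel]⟩

theorem QI.of_injective {f : X →ₗ[B] X'} (hf : IsMap C C' f) (hi : Function.Injective f)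
    (hk : ∀ k, C'.Z k ⊤ (LinearMap.range f) ≤ C'.Bd ⊤ (LinearMap.range f)) : QI C C' f := by
  refine ⟨hf, fun k y h1 h2 => ?_, fun k x h1 h2 z hz => ?_⟩
  · obtain ⟨a, -, _, ⟨x, rfl⟩, h3⟩ :=
      C'.mem_Bd.1 (hk k (C'.mem_Z.2 ⟨⟨trivial, h1⟩, by rw [h2]; exact zero_mem _⟩))
    have h4 : y = f (C.π k x) + C'.D (C'.π (k + 1) a) := by
      rw [hf.π, ← C'.πD, ← map_add, add_comm, h3, h1]
    refine ⟨C.π k x, _, C.ππ _ _, hi ?_, h4⟩
    rw [h4, map_add, C'.DD, add_zero] at h2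
    rw [hf.D, h2, map_zero]
  · have h3 : C'.D (C'.π (k + 1) z) = f x := by rw [← C'.πD, ← hz, ← hf.π, h1]
    obtain ⟨a, -, _, ⟨w, rfl⟩, h4⟩ :=
      C'.mem_Bd.1 (hk (k + 1) (C'.mem_Z.2 ⟨⟨trivial, C'.ππ _ z⟩, ⟨x, h3.symm⟩⟩))
    exact ⟨w, hi (by rw [← h3, ← h4, map_add, C'.DD, zero_add, hf.D])⟩

theorem Iso.refl (C : DG B X) : C.Iso C := by
  exact ⟨LinearEquiv.refl B X, IsMap.id C⟩

theorem Iso.symm (h : C.Iso C') : C'.Iso C := by
  obtain ⟨e, he⟩ := h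
  refine ⟨e.symm, fun x => e.injective ?_, fun k x => e.injective ?_⟩
  · have := he.D (e.symm x)
    simp only [LinearEquiv.coe_coe, LinearEquiv.apply_symm_apply] at this ⊢
    exact this.symm
  · have := he.π k (e.symm x)
    simp only [LinearEquiv.coe_coe, LinearEquiv.apply_symm_apply] at this ⊢
    exact this.symm

theorem Iso.trans (h : C.Iso C') (h' : C'.Iso C'') : C.Iso C'' := by
  obtain ⟨e, he⟩ := h
  obtain ⟨e', he'⟩ := h'
  exact ⟨e.trans e', he.comp he'⟩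

theorem Iso.qi (h : C.Iso C') : ∃ f, QI C C' f := by
  obtain ⟨e, he⟩ := h
  exact ⟨_, QI.of_bijective he e.bijective⟩

theorem Iso.H_eq (h : C.Iso C') (μ : LF B) (k : ℤ) : C.H μ k = C'.H μ k := by
  exact h.qi.elim fun _ hf => hf.H_eq μ k

theorem Iso.th_eq (h : C.Iso C') (μ : LF B) : C.th μ = C'.th μ := by
  exact h.qi.elim fun _ hf => hf.th_eq μ

theorem Iso.ech_eq (h : C.Iso C') (μ : LF B) : C.ech μ ⊤ ⊥ = C'.ech μ ⊤ ⊥ := by
  exact h.qi.elim fun _ hf => hf.ech_eq μ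

theorem Iso.bdd (h : C.Iso C') (hC : C.Bdd) : C'.Bdd := by
  obtain ⟨e, he⟩ := h
  obtain ⟨L, hL⟩ := hC
  refine ⟨L, fun k hk y => ?_⟩
  obtain ⟨x, rfl⟩ := e.surjective y
  exact (he.π k x).symm.trans (by rw [hL k hk, map_zero])

theorem Iso.nullH (h : C.Iso C') {a : B} (ha : C.NullH a) : C'.NullH a := by
  obtain ⟨e, he⟩ := h
  obtain ⟨s, h1, h2⟩ := ha
  have hD : ∀ x, C'.D (e x) = e (C.D x) := fun x => (he.D x).symm
  have hπ : ∀ k x, C'.π k (e x) = e (C.π k x) := fun k x => (he.π k x).symm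
  refine ⟨e.toLinearMap ∘ₗ s ∘ₗ e.symm.toLinearMap, fun k y => ?_, fun y => ?_⟩ <;>
    obtain ⟨x, rfl⟩ := e.surjective y
  · simp only [LinearMap.comp_apply, LinearEquiv.coe_coe, hπ, LinearEquiv.symm_apply_apply, h1]
  · simp only [LinearMap.comp_apply, LinearEquiv.coe_coe, hD, LinearEquiv.symm_apply_apply]
    rw [← map_add, h2, map_smul]

section single

variable (M : Type) [AddCommGroup M] [Module B M]

theorem single_bdd : (single B M).Bdd := by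
  refine ⟨0, fun k hk x => ?_⟩
  have : k ≠ 0 := abs_pos.1 (by exact_mod_cast hk)
  simp [single, this]

theorem single_h (μ : LF B) (k : ℤ) (P P' : Submodule B M) :
    (single B M).h μ k P P' = if k = 0 then μ.sz P P' else 0 := by
  split_ifs with hk
  · subst hk
    rw [h]
    congr 1
    · ext x
      simp [mem_Z, single]
    · exact (congrArg (· ⊔ P') (Submodule.map_zero P)).trans (bot_sup_eq P')
  · refine μ.sz_eq_zero_of_le fun x hx => ?_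
    have h1 : x = 0 := by simpa [single, hk, eq_comm] using ((mem_Z _).1 hx).1.2
    rw [h1]
    exact zero_mem _

theorem single_H (μ : LF B) (k : ℤ) : (single B M).H μ k = if k = 0 then μ.val M else 0 := by
  rw [H, single_h, μ.sz_bot, μ.val_top]

theorem single_th (μ : LF B) : (single B M).th μ = μ.val M := by
  simp only [th, single_H, tsum_ite_eq]

theorem single_ech (μ : LF B) : (single B M).ech μ ⊤ ⊥ = (μ.val M).toReal := by
  have := single_H M μ 0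
  rw [if_pos rfl] at this
  rw [ech_eq_single 0 fun k hk => (single_H M μ k).trans (if_neg hk), ← this]
  simp [sg]

variable {M} in
theorem single_isMap {M' : Type} [AddCommGroup M'] [Module B M'] (f : M →ₗ[B] M') :
    IsMap (single B M) (single B M') f := by
  refine ⟨fun x => by simp [single], fun k x => ?_⟩
  by_cases hk : k = 0 <;> simp [single, hk]

variable {M} in
theorem single_nullH {a : B} (h : ∀ x : M, a • x = 0) : (single B M).NullH a := by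
  exact ⟨0, fun _ _ => by simp, fun x => by simp [h]⟩

end single

section res

variable (S : Type) [CommRing S] [Algebra S B] [Module S X] [IsScalarTower S B X]

theorem HBasic_sz_res (μ : LF S) (P Q : Submodule B X) :
    (μ.comap (algebraMap S B)).sz P Q = μ.sz (P.restrictScalars S) (Q.restrictScalars S) := by
  have e : Q.restrictScalars S = (⊥ : Submodule S (X ⧸ Q)).comap (Q.mkQ.restrictScalars S) := by
    ext x
    simp
  rw [e, ← μ.sz_map_eq, μ.sz_bot, LF.sz, LF.comap_algebraMap_val]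
  rfl

theorem res_h (C : DG B X) (μ : LF S) (k : ℤ) (A A' : Submodule B X) :
    C.h (μ.comap (algebraMap S B)) k A A' =
      (C.res S).h μ k (A.restrictScalars S) (A'.restrictScalars S) := by
  rw [h, h, HBasic_sz_res]
  congr 1
  ext x
  rw [Submodule.restrictScalars_mem, mem_Bd, mem_Bd]
  rfl

theorem res_H (C : DG B X) (μ : LF S) (k : ℤ) :
    C.H (μ.comap (algebraMap S B)) k = (C.res S).H μ k := by
  exact res_h S C μ k ⊤ ⊥

theorem res_single (M : Type) [AddCommGroup M] [Module B M] [Module S M] [IsScalarTower S B M] :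
    (single B M).res S = single S M := by
  unfold res single
  congr 1
  funext k
  dsimp only
  split_ifs <;> rfl

theorem QI.res [Module S X'] [IsScalarTower S B X'] {f : X →ₗ[B] X'} (hf : QI C C' f) :
    QI (C.res S) (C'.res S) (f.restrictScalars S) := by
  exact ⟨⟨hf.D, hf.π⟩, hf.surj, hf.inj⟩

theorem QI.of_res [Module S X'] [IsScalarTower S B X'] {f : X →ₗ[B] X'}
    (hf : QI (C.res S) (C'.res S) (f.restrictScalars S)) : QI C C' f := by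
  exact ⟨⟨hf.D, hf.π⟩, hf.surj, hf.inj⟩

theorem NullH.res {a : S} (h : C.NullH (algebraMap S B a)) : (C.res S).NullH a := by
  obtain ⟨s, h1, h2⟩ := h
  exact ⟨s.restrictScalars S, h1, fun x => (h2 x).trans (algebraMap_smul B a x)⟩

end res

end DG

end Crest.Agent.R183
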