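import Crest.Agent.R183.DG

/-!
# Row 188 (Serre positivity): homological definitions

* extras on `DG` (row 183): `Bdd`, `H`, `FinH`, `ech`, `th`, `AcycOn`, `IsMap`, `QI`, `NullH`,
  `single`, `cone`, `res`,
* `MC R`: finite free complexes given by a matrix; `app` (tensor product with a `DG`), `cone`,
  `shift`, `map`, `IsRes`, `Null`, `Supp`, `chi`,
* `kos y`: the Koszul complex (iterated cone, index type `KI n` independent of `y`).
-/

set_option autoImplicit false

open scoped ENNReal NNReal TensorProduct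

namespace Crest.Agent.R183

/-- the sign `(-1)^k` -/
abbrev sg (k : ℤ) : ℤ := ((k.negOnePow : ℤˣ) : ℤ)

namespace DG

variable {B : Type} [CommRing B] {X : Type} [AddCommGroup X] [Module B X]
  {X' : Type} [AddCommGroup X'] [Module B X']

/-- bounded complexes -/
def Bdd (C : DG B X) : Prop := ∃ L : ℕ, ∀ k : ℤ, (L : ℤ) < |k| → ∀ x, C.π k x = 0

/-- size of the `k`-th homology -/
noncomputable abbrev H (C : DG B X) (μ : LF B) (k : ℤ) : ℝ≥0∞ := C.h μ k ⊤ ⊥

/-- all homology of the subquotient `A / A'` has finite size -/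
def FinH (C : DG B X) (μ : LF B) (A A' : Submodule B X) : Prop := ∀ k, C.h μ k A A' ≠ ⊤

/-- Euler characteristic of the subquotient `A / A'` -/
noncomputable def ech (C : DG B X) (μ : LF B) (A A' : Submodule B X) : ℝ :=
  ∑ᶠ k : ℤ, (sg k : ℝ) * (C.h μ k A A').toReal

/-- total size of the homology -/
noncomputable def th (C : DG B X) (μ : LF B) : ℝ≥0∞ := ∑' k : ℤ, C.H μ k

/-- the subcomplex `A` is acyclic -/
def AcycOn (C : DG B X) (A : Submodule B X) : Prop :=
  ∀ (k : ℤ) (x : X), x ∈ A → C.π k x = x → C.D x = 0 → ∃ y ∈ A, C.D y = x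

/-- acyclic complexes -/
abbrev Acyc (C : DG B X) : Prop := C.AcycOn ⊤

/-- chain maps of degree zero -/
structure IsMap (C : DG B X) (C' : DG B X') (f : X →ₗ[B] X') : Prop where
  D : ∀ x, f (C.D x) = C'.D (f x)
  π : ∀ k x, f (C.π k x) = C'.π k (f x)

/-- quasi-isomorphisms -/
structure QI (C : DG B X) (C' : DG B X') (f : X →ₗ[B] X') : Prop extends IsMap C C' f where
  surj : ∀ k y, C'.π k y = y → C'.D y = 0 → ∃ x z, C.π k x = x ∧ C.D x = 0 ∧ y = f x + C'.D z
  inj : ∀ k x, C.π k x = x → C.D x = 0 → ∀ z, f x = C'.D z → ∃ w, x = C.D w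

/-- there is an isomorphism of complexes -/
def Iso (C : DG B X) (C' : DG B X') : Prop := ∃ e : X ≃ₗ[B] X', IsMap C C' e.toLinearMap

/-- multiplication by `a` is null-homotopic -/
def NullH (C : DG B X) (a : B) : Prop :=
  ∃ h : X →ₗ[B] X, (∀ k x, h (C.π k x) = C.π (k + 1) (h x)) ∧
    ∀ x, C.D (h x) + h (C.D x) = a • x

variable (B) in
/-- a module as a complex concentrated in degree zero -/
def single (M : Type) [AddCommGroup M] [Module B M] : DG B M where
  D := 0
  π k := if k = 0 then LinearMap.id else 0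
  DD _ := rfl
  πD k x := by simp
  ππ k x := by split_ifs <;> simp
  ππ' k j h x := by
    by_cases hk : k = 0
    · have hj : j ≠ 0 := fun hj => h (hk.trans hj.symm)
      simp [hj]
    · simp [hk]

/-- the mapping cone -/
def cone {C : DG B X} {C' : DG B X'} {f : X →ₗ[B] X'} (hf : IsMap C C' f) : DG B (X' × X) where
  D := LinearMap.prod (C'.D ∘ₗ LinearMap.fst B X' X + f ∘ₗ LinearMap.snd B X' X)
    (-(C.D ∘ₗ LinearMap.snd B X' X))
  π k := LinearMap.prodMap (C'.π k) (C.π (k - 1))
  DD x := by
    ext
    · simp [C'.DD, hf.D]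
    · simp [C.DD]
  πD k x := by
    ext
    · simp [C'.πD, hf.π]
    · simp [C.πD]
  ππ k x := by ext <;> simp [C.ππ, C'.ππ]
  ππ' k j h x := by
    ext
    · simp [C'.ππ' k j h]
    · simp [C.ππ' (k - 1) (j - 1) (by omega)]

theorem isMap_smul (C : DG B X) (a : B) : IsMap C C (LinearMap.lsmul B X a) :=
  ⟨fun x => by simp, fun k x => by simp⟩

/-- the cone of the multiplication by `a` -/
abbrev coneS (C : DG B X) (a : B) : DG B (X × X) := cone (C.isMap_smul a)

/-- restriction of scalars -/
def res (S : Type) [CommRing S] [Algebra S B] [Module S X] [IsScalarTower S B X] (C : DG B X) :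
    DG S X where
  D := C.D.restrictScalars S
  π k := (C.π k).restrictScalars S
  DD := C.DD
  πD := C.πD
  ππ := C.ππ
  ππ' := C.ππ'

end DG

end Crest.Agent.R183

namespace Crest.Agent.R188

open Crest.Agent.R183

/-- A finite free complex: a basis `ι` with degrees and the matrix of the differential
(`(D x) i = ∑ j, d i j • x j`). -/
structure MC (R : Type) [CommRing R] where
  ι : Type
  [fin : Fintype ι]
  [dec : DecidableEq ι]
  deg : ι → ℤ
  d : Matrix ι ι R
  hdeg : ∀ i j, d i j ≠ 0 → deg j = deg i + 1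
  dd : d * d = 0

attribute [instance] MC.fin MC.dec

/-- the action of a matrix on tuples of elements of a module -/
def matApp {B : Type} [CommRing B] {ι κ : Type} [Fintype κ] (f : Matrix ι κ B) (X : Type)
    [AddCommGroup X] [Module B X] : (κ → X) →ₗ[B] (ι → X) where
  toFun x i := ∑ j, f i j • x j
  map_add' x y := by
    funext i
    simp [Finset.sum_add_distrib]
  map_smul' c x := by
    funext i
    simp only [Pi.smul_apply, RingHom.id_apply, Finset.smul_sum]
    exact Finset.sum_congr rfl fun j _ => smul_comm _ _ _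

theorem matApp_apply {B : Type} [CommRing B] {ι κ : Type} [Fintype κ] (f : Matrix ι κ B)
    {X : Type} [AddCommGroup X] [Module B X] (x : κ → X) (i : ι) :
    matApp f X x i = ∑ j, f i j • x j := rfl

theorem matApp_mul {B : Type} [CommRing B] {ι κ σ : Type} [Fintype κ] [Fintype σ]
    (f : Matrix ι κ B) (g : Matrix κ σ B) {X : Type} [AddCommGroup X] [Module B X] (x : σ → X) :
    matApp (f * g) X x = matApp f X (matApp g X x) := by
  funext i
  simp only [matApp_apply, Matrix.mul_apply, Finset.sum_smul, Finset.smul_sum, smul_smul]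
  exact Finset.sum_comm

/-- all components in `P` -/
abbrev cst (ι : Type) {B : Type} [CommRing B] {X : Type} [AddCommGroup X] [Module B X]
    (P : Submodule B X) : Submodule B (ι → X) := Submodule.pi Set.univ fun _ => P

namespace MC

variable {B : Type} [CommRing B] {X : Type} [AddCommGroup X] [Module B X]

/-- the tensor product of a finite free complex with a complex -/
def app (E : MC B) (C : DG B X) : DG B (E.ι → X) where
  D := matApp E.d X + LinearMap.pi fun i => sg (E.deg i) • (C.D ∘ₗ LinearMap.proj i)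
  π k := LinearMap.pi fun i => C.π (k - E.deg i) ∘ₗ LinearMap.proj i
  DD x := by
    funext i
    have h0 : matApp E.d X (matApp E.d X x) = 0 := by
      rw [← matApp_mul, E.dd]
      funext i
      simp [matApp_apply]
    have h1 := congrFun h0 i
    simp only [matApp_apply, Pi.zero_apply] at h1
    change ∑ j, E.d i j • (∑ l, E.d j l • x l + sg (E.deg j) • C.D (x j)) +
      sg (E.deg i) • C.D (∑ j, E.d i j • x j + sg (E.deg i) • C.D (x i)) = 0
    simp only [smul_add, Finset.sum_add_distrib, h1, zero_add, map_add, map_zsmul, C.DD,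
      smul_zero, add_zero, map_sum, map_smul]
    rw [Finset.smul_sum, ← Finset.sum_add_distrib]
    refine Finset.sum_eq_zero fun j _ => ?_
    by_cases h : E.d i j = 0
    · simp [h]
    · rw [E.hdeg i j h, sg, Int.negOnePow_succ, smul_comm (E.d i j)]
      simp
  πD k x := by
    funext i
    simp only [LinearMap.add_apply, Pi.add_apply, matApp_apply, LinearMap.pi_apply,
      LinearMap.smul_apply, LinearMap.comp_apply, LinearMap.proj_apply, map_add, map_sum,
      map_zsmul, map_smul, C.πD]
    congr 1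
    · refine Finset.sum_congr rfl fun j _ => ?_
      by_cases h : E.d i j = 0
      · simp [h]
      · rw [E.hdeg i j h]
        congr 3
        ring
    · congr 4
      ring
  ππ k x := by
    funext i
    simp [C.ππ]
  ππ' k j h x := by
    funext i
    simp [C.ππ' (k - E.deg i) (j - E.deg i) (by omega)]

theorem app_D (E : MC B) (C : DG B X) (x : E.ι → X) (i : E.ι) :
    (E.app C).D x i = ∑ j, E.d i j • x j + sg (E.deg i) • C.D (x i) := rfl

theorem app_π (E : MC B) (C : DG B X) (k : ℤ) (x : E.ι → X) (i : E.ι) :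
    (E.app C).π k x i = C.π (k - E.deg i) (x i) := rfl

/-- the tensor product with a module -/
abbrev ap (E : MC B) (M : Type) [AddCommGroup M] [Module B M] : DG B (E.ι → M) :=
  E.app (DG.single B M)

/-- Euler characteristic of `E ⊗ M` -/
noncomputable abbrev chi (E : MC B) (μ : LF B) (M : Type) [AddCommGroup M] [Module B M] : ℝ :=
  (E.ap M).ech μ ⊤ ⊥

/-- the homology of `E ⊗ M` has finite size -/
abbrev Fin' (E : MC B) (μ : LF B) (M : Type) [AddCommGroup M] [Module B M] : Prop :=
  (E.ap M).FinH μ ⊤ ⊥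

/-- base change -/
def map {B' : Type} [CommRing B'] (E : MC B) (φ : B →+* B') : MC B' where
  ι := E.ι
  deg := E.deg
  d := E.d.map φ
  hdeg i j h := E.hdeg i j fun h0 => h (by simp [h0])
  dd := by
    rw [← Matrix.map_mul, E.dd]
    ext
    simp

/-- chain maps `E → E'` -/
structure IsHom (E E' : MC B) (f : Matrix E'.ι E.ι B) : Prop where
  deg : ∀ i j, f i j ≠ 0 → E'.deg i = E.deg j
  comm : f * E.d = E'.d * f

/-- the mapping cone -/
def cone {E E' : MC B} {f : Matrix E'.ι E.ι B} (hf : IsHom E E' f) : MC B where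
  ι := E'.ι ⊕ E.ι
  deg := Sum.elim E'.deg fun j => E.deg j + 1
  d := Matrix.fromBlocks E'.d f 0 (-E.d)
  hdeg := by
    rintro (i | i) (j | j) h
    · exact E'.hdeg i j h
    · simp [hf.deg i j h]
    · simp at h
    · have := E.hdeg i j (by simpa using h)
      simp [this]
  dd := by
    rw [Matrix.fromBlocks_multiply]
    simp [E.dd, E'.dd, hf.comm]

theorem isHom_scalar (E : MC B) (a : B) : IsHom E E (Matrix.scalar E.ι a) where
  deg i j h := by
    by_cases hij : i = j
    · rw [hij]
    · exact absurd (by simp [Matrix.diagonal_apply_ne _ hij]) h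
  comm := by
    ext i j
    simp [Matrix.diagonal_mul, Matrix.mul_diagonal, mul_comm]

/-- the cone of the multiplication by `a` -/
abbrev coneS (E : MC B) (a : B) : MC B := cone (E.isHom_scalar a)

/-- the shift by `n` -/
def shift (E : MC B) (n : ℤ) : MC B where
  ι := E.ι
  deg i := E.deg i + n
  d := sg n • E.d
  hdeg i j h := by
    have : E.d i j ≠ 0 := fun h0 => h (by simp [h0])
    rw [E.hdeg i j this]
    ring
  dd := by rw [Matrix.smul_mul, Matrix.mul_smul, E.dd, smul_zero, smul_zero]

variable (B) in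
/-- a free module in degree `n` -/
def free (κ : Type) [Fintype κ] [DecidableEq κ] (n : ℤ) : MC B where
  ι := κ
  deg _ := n
  d := 0
  hdeg i j h := absurd rfl h
  dd := by simp

/-- multiplication by `a` is null-homotopic -/
def Null (E : MC B) (a : B) : Prop :=
  ∃ h : Matrix E.ι E.ι B, (∀ i j, h i j ≠ 0 → E.deg i = E.deg j + 1) ∧
    E.d * h + h * E.d = Matrix.scalar E.ι a

/-- `E` is supported on `V(J)` -/
def Supp (E : MC B) (J : Ideal B) : Prop := ∀ a ∈ J, ∃ c : ℕ, E.Null (a ^ c)

/-- `E` is a finite free resolution of `N` -/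
def IsRes (E : MC B) (N : Type) [AddCommGroup N] [Module B N] : Prop :=
  (∀ i, 0 ≤ E.deg i) ∧ ∃ ε : (E.ι → B) →ₗ[B] N, DG.QI (E.ap B) (DG.single B N) ε

end MC

/-- every finite module has a finite free resolution of length `≤ d` -/
def HasRes (R : Type) [CommRing R] (d : ℕ) : Prop :=
  ∀ (N : Type) [AddCommGroup N] [Module R N] [Module.Finite R N],
    ∃ E : MC R, E.IsRes N ∧ ∀ i, E.deg i ≤ d

/-- the maximal ideal is generated by the regular sequence `x` -/
structure RegL (R : Type) [CommRing R] [IsLocalRing R] {d : ℕ} (x : Fin d → R) : Prop where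
  reg : RingTheory.Sequence.IsWeaklyRegular R (List.ofFn x)
  max : sp x = IsLocalRing.maximalIdeal R

/-! ## Koszul complexes -/

/-- the basis of the Koszul complex on `n` elements -/
def KI : ℕ → Type
  | 0 => Unit
  | n + 1 => KI n ⊕ KI n

instance KI.fintype : (n : ℕ) → Fintype (KI n)
  | 0 => inferInstanceAs (Fintype Unit)
  | n + 1 => by
    haveI := KI.fintype n
    exact inferInstanceAs (Fintype (KI n ⊕ KI n))

instance KI.decEq : (n : ℕ) → DecidableEq (KI n)
  | 0 => inferInstanceAs (DecidableEq Unit)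
  | n + 1 => by
    haveI := KI.decEq n
    exact inferInstanceAs (DecidableEq (KI n ⊕ KI n))

/-- degrees -/
def KI.deg : (n : ℕ) → KI n → ℤ
  | 0 => fun _ => 0
  | n + 1 => Sum.elim (KI.deg n) fun j => KI.deg n j + 1

/-- the Koszul differential -/
def kmat {B : Type} [CommRing B] : (n : ℕ) → (Fin n → B) → Matrix (KI n) (KI n) B
  | 0, _ => 0
  | n + 1, y => Matrix.fromBlocks (kmat n (Fin.tail y)) (Matrix.scalar (KI n) (y 0)) 0
      (-kmat n (Fin.tail y))

theorem kmat_spec {B : Type} [CommRing B] : ∀ (n : ℕ) (y : Fin n → B),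
    (∀ i j, kmat n y i j ≠ 0 → KI.deg n j = KI.deg n i + 1) ∧ kmat n y * kmat n y = 0
  | 0, _ => ⟨fun _ _ h => absurd rfl h, by simp [kmat]⟩
  | n + 1, y => by
    obtain ⟨h1, h2⟩ := kmat_spec n (Fin.tail y)
    let E : MC B := ⟨KI n, KI.deg n, kmat n (Fin.tail y), h1, h2⟩
    exact ⟨(E.coneS (y 0)).hdeg, (E.coneS (y 0)).dd⟩

/-- the Koszul complex -/
def kos {B : Type} [CommRing B] {n : ℕ} (y : Fin n → B) : MC B :=
  ⟨KI n, KI.deg n, kmat n y, (kmat_spec n y).1, (kmat_spec n y).2⟩

theorem kos_succ {B : Type} [CommRing B] {n : ℕ} (y : Fin (n + 1) → B) :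
    kos y = (kos (Fin.tail y)).coneS (y 0) := rfl

theorem kos_zero {B : Type} [CommRing B] (y : Fin 0 → B) : kos y = MC.free B Unit 0 := rfl

/-- the Koszul complex of `y` with coefficients in a complex -/
abbrev K {B : Type} [CommRing B] {n : ℕ} (y : Fin n → B) {X : Type} [AddCommGroup X]
    [Module B X] (C : DG B X) : DG B ((kos y).ι → X) := (kos y).app C

end Crest.Agent.R188
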