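import Crest.Agent.R188.HRes

/-!
# The link with Mathlib's `Tor`
-/

set_option autoImplicit false
set_option linter.unusedVariables false

open scoped ENNReal NNReal TensorProduct

namespace Crest.Agent.R188

open Crest.Agent.R183 Crest.Agent.R183.DG

namespace HTor

open CategoryTheory

variable {R : Type} [CommRing R] {X : Type} [AddCommGroup X] [Module R X]
  {X' : Type} [AddCommGroup X'] [Module R X']

/-- the projection onto the elements of degree `k` -/
def pr (C : DG R X) (k : ℤ) : X →ₗ[R] C.deg k := (C.π k).codRestrict _ fun x => C.ππ k x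

theorem pr_coe (C : DG R X) (k : ℤ) (x : C.deg k) : pr C k x = x := Subtype.ext x.2

/-- the components of the differential -/
def dr (C : DG R X) (i j : ℤ) : C.deg i →ₗ[R] C.deg j := pr C j ∘ₗ C.D ∘ₗ (C.deg i).subtype

/-- the chain complex of a differential graded module -/
def cc (C : DG R X) : ChainComplex (ModuleCat.{0} R) ℕ where
  X n := ModuleCat.of R (C.deg n)
  d i j := ModuleCat.ofHom (dr C i j)
  shape i j h := ModuleCat.hom_ext (LinearMap.ext fun x => Subtype.ext (by
    show C.π j (C.D x) = 0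
    rw [C.πD, ← show C.π i x = x from x.2, C.ππ' _ _ fun h' => h (by exact_mod_cast h'), map_zero]))
  d_comp_d' i j k _ _ := ModuleCat.hom_ext (LinearMap.ext fun x => Subtype.ext (by
    show C.π k (C.D (C.π j (C.D x))) = 0
    rw [C.πD j, C.DD, map_zero]))

theorem π_D (C : DG R X) {k : ℤ} {x : X} (hx : C.π (k + 1) x = x) : C.π k (C.D x) = C.D x := by
  rw [C.πD, hx]

theorem D_zero (C : DG R X) (h : ∀ x, C.π (-1) x = 0) {x : X} (hx : C.π 0 x = x) : C.D x = 0 := by
  rw [← π_D C (k := -1) hx, h]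

theorem π_next (C : DG R X) (h : ∀ x, C.π (-1) x = 0) (n : ℕ) {x : X} (hx : C.π n x = x) :
    C.π ((ComplexShape.down ℕ).next n : ℕ) (C.D x) = C.D x := by
  cases n with
  | zero => rw [D_zero C h hx, map_zero]
  | succ n => rw [ChainComplex.next_nat_succ]; exact π_D C hx

theorem quasiIsoAt_zero (K : ChainComplex (ModuleCat.{0} R) ℕ) (N : ModuleCat.{0} R)
    (f : K.X 0 ⟶ N) (hf : K.d 1 0 ≫ f = 0) (he : ∀ x, f.hom x = 0 → ∃ y, (K.d 1 0).hom y = x)
    (hs : Function.Surjective f.hom) :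
    QuasiIsoAt ((ChainComplex.toSingle₀Equiv K N).symm ⟨f, hf⟩) 0 := by
  rw [ChainComplex.quasiIsoAt₀_iff, ShortComplex.quasiIso_iff_of_zeros']
  · refine (ShortComplex.exact_and_epi_g_iff_of_iso (S₂ := ShortComplex.mk _ _ hf) ?_).2
      ⟨(ShortComplex.moduleCat_exact_iff _).2 he, (ModuleCat.epi_iff_surjective _).2 hs⟩
    exact ShortComplex.isoMk (Iso.refl _) (Iso.refl _) (Iso.refl _)
      ((Category.id_comp _).trans (Category.comp_id _).symm)
      ((Category.id_comp _).trans ((Category.comp_id _).trans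
        (ChainComplex.toSingle₀Equiv_symm_apply_f_zero f hf)).symm)
  · exact K.shape 0 0 (by simp)
  all_goals rfl

/-- the projective resolution attached to a quasi-isomorphism -/
noncomputable def res (C : DG R X) [Module.Projective R X] (h : ∀ x, C.π (-1) x = 0)
    (N : ModuleCat.{0} R) {ε : X →ₗ[R] N} (hε : QI C (single R N) ε) : ProjectiveResolution N where
  complex := cc C
  projective n := by
    have : Module.Projective R (C.deg n) :=
      .of_split (C.deg n).subtype (pr C n) (LinearMap.ext (pr_coe C n))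
    exact ModuleCat.projective_of_categoryTheory_projective (ModuleCat.of R (C.deg n))
  π := (ChainComplex.toSingle₀Equiv _ _).symm
    ⟨ModuleCat.ofHom (ε ∘ₗ (C.deg 0).subtype), ModuleCat.hom_ext (LinearMap.ext fun x => by
      show ε (C.π 0 (C.D x.1)) = 0
      rw [C.πD, hε.D]
      rfl)⟩
  quasiIso := ⟨fun n => by
    cases n with
    | zero =>
      refine quasiIsoAt_zero _ _ _ _ (fun x hx => ?_) fun y => ?_
      · obtain ⟨w, hw⟩ := hε.inj 0 x.1 x.2 (D_zero C h x.2) 0 hx
        refine ⟨pr C 1 w, Subtype.ext ?_⟩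
        show C.π 0 (C.D (C.π (0 + 1) w)) = x.1
        rw [← C.πD, C.ππ, ← hw]
        exact x.2
      · obtain ⟨x, z, h1, -, h3⟩ := hε.surj 0 y rfl rfl
        exact ⟨⟨x, h1⟩, (h3.trans (add_zero _)).symm⟩
    | succ n =>
      rw [quasiIsoAt_iff_exactAt' _ _ (ChainComplex.exactAt_succ_single_obj _ _),
        HomologicalComplex.exactAt_iff' _ (n + 2) (n + 1) n (by simp) (by simp)]
      refine (ShortComplex.moduleCat_exact_iff _).2 fun x hx => ?_
      have h1 : C.π (n + 1) x.1 = x.1 := x.2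
      have h2 : C.D x.1 = 0 := (π_D C h1).symm.trans (congrArg Subtype.val hx)
      obtain ⟨w, hw⟩ := hε.inj (n + 1) x.1 h1 h2 0 (by
        rw [← h1, hε.π]
        show (if (n : ℤ) + 1 = 0 then LinearMap.id else 0 : N →ₗ[R] N) _ = 0
        rw [if_neg (by omega)]
        rfl)
      refine ⟨pr C _ w, Subtype.ext ?_⟩
      show C.π (n + 1) (C.D (C.π (n + 1 + 1) w)) = x.1
      rw [← C.πD, C.ππ, ← hw]
      exact h1⟩

theorem val_homology (μ : LF R) (S : ShortComplex (ModuleCat.{0} R)) (C : DG R X) (k : ℤ)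
    (j₁ : S.X₁ →ₗ[R] X) (j₂ : S.X₂ →ₗ[R] X) (hi : Function.Injective j₂)
    (h₁ : LinearMap.range j₁ = C.deg (k + 1)) (h₂ : LinearMap.range j₂ = C.deg k)
    (hf : ∀ x, j₂ (S.f.hom x) = C.D (j₁ x)) (hg : ∀ x, S.g.hom x = 0 ↔ C.D (j₂ x) = 0) :
    μ.val S.homology = C.H μ k := by
  have e1 : C.Z k ⊤ ⊥ = (LinearMap.ker S.g.hom).map j₂ := by
    ext x
    refine ⟨fun hx => ?_, ?_⟩
    · obtain ⟨y, rfl⟩ : x ∈ LinearMap.range j₂ := h₂ ▸ hx.1.2
      exact ⟨y, (hg y).2 hx.2, rfl⟩
    · rintro ⟨y, hy, rfl⟩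
      exact ⟨⟨trivial, h₂ ▸ LinearMap.mem_range_self j₂ y⟩, (hg y).1 hy⟩
  have e2 : ((C.Bd ⊤ ⊥).comap j₂).comap (LinearMap.ker S.g.hom).subtype =
      LinearMap.range S.moduleCatToCycles := by
    ext x
    refine ⟨fun hx => ?_, ?_⟩
    · obtain ⟨a, -, b, hb, h3, -, h4⟩ := exists_of_mem_Bd C.sub_top C.sub_bot (j := k) rfl hx
        (show _ ∈ C.deg k from h₂ ▸ LinearMap.mem_range_self j₂ _)
      obtain ⟨y, rfl⟩ : a ∈ LinearMap.range j₁ := h₁ ▸ h3
      rw [(Submodule.mem_bot R).1 hb, add_zero, ← hf] at h4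
      exact ⟨y, Subtype.ext (hi h4)⟩
    · rintro ⟨y, rfl⟩
      show j₂ (S.f.hom y) ∈ C.Bd ⊤ ⊥
      rw [hf]
      exact C.D_mem_Bd _ trivial
  rw [H, h, e1, LF.sz_map_eq, LF.sz_eq_quot, e2]
  exact μ.congr S.moduleCatHomologyIso.toLinearEquiv

theorem val_tensor (μ : LF R) (M : ModuleCat.{0} R) (C : DG R X) (C' : DG R X')
    (h : ∀ x, C'.π (-1) x = 0) (e : M ⊗[R] X ≃ₗ[R] X')
    (hD : ∀ z, e (C.D.lTensor M z) = C'.D (e z))
    (hπ : ∀ k z, e ((C.π k).lTensor M z) = C'.π k (e z)) (n : ℕ) :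
    μ.val (((((MonoidalCategory.tensoringLeft _).obj M).mapHomologicalComplex _).obj
      (cc C)).homology n) = C'.H μ n := by
  let J : ∀ k : ℤ, M ⊗[R] C.deg k →ₗ[R] X' := fun k => e ∘ₗ (C.deg k).subtype.lTensor M
  have hpr : ∀ (k : ℤ) z, J k ((pr C k).lTensor M z) = C'.π k (e z) := fun k z => by
    rw [← hπ]
    exact congrArg e (LinearMap.lTensor_comp_apply ..).symm
  have hid : ∀ (k : ℤ) (z : M ⊗[R] C.deg k),
      (pr C k).lTensor M ((C.deg k).subtype.lTensor M z) = z := fun k z => by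
    rw [← LinearMap.lTensor_comp_apply,
      show pr C k ∘ₗ (C.deg k).subtype = LinearMap.id from LinearMap.ext (pr_coe C k),
      LinearMap.lTensor_id_apply]
  have hi : ∀ k, Function.Injective (J k) := fun k =>
    e.injective.comp (Function.LeftInverse.injective (hid k))
  have hm : ∀ k z, C'.π k (J k z) = J k z := fun k z =>
    (hpr k _).symm.trans (congrArg (J k) (hid k z))
  have hr : ∀ k, LinearMap.range (J k) = C'.deg k := fun k => by
    ext x
    refine ⟨?_, fun hx => ⟨(pr C k).lTensor M (e.symm x), ?_⟩⟩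
    · rintro ⟨z, rfl⟩
      exact hm k z
    · rw [hpr, e.apply_symm_apply]
      exact hx
  have hd : ∀ (i j : ℤ) z, J j ((dr C i j).lTensor M z) = C'.π j (C'.D (J i z)) := fun i j z => by
    rw [dr, LinearMap.lTensor_comp_apply, LinearMap.lTensor_comp_apply, hpr, hD]
    rfl
  have hp : (((ComplexShape.down ℕ).prev n : ℕ) : ℤ) = n + 1 := by
    rw [ChainComplex.prev]
    rfl
  refine val_homology μ _ C' n (J ((ComplexShape.down ℕ).prev n : ℕ)) (J n) (hi n)
    ((hr _).trans (congrArg _ hp)) (hr n) (fun z => (hd _ _ z).trans (π_D C' ?_)) fun z => ?_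
  · rw [← hp]
    exact hm _ z
  · exact (map_eq_zero_iff _ (hi _)).symm.trans
      (Eq.congr_left ((hd _ _ z).trans (π_next C' h n (hm n z))))

end HTor

theorem tor_length {R : Type} [CommRing R] (M N : ModuleCat.{0} R) (E : MC R) (hE : E.IsRes N)
    (i : ℕ) :
    ((Module.length R (((CategoryTheory.Tor (ModuleCat.{0} R) i).obj M).obj N) : ℕ∞) : ℝ≥0∞) =
      (E.ap M).H (LF.length R) i := by
  obtain ⟨h0, ε, hε⟩ := hE
  have h1 : ∀ (V : Type) [AddCommGroup V] [Module R V] (x : E.ι → V), (E.ap V).π (-1) x = 0 :=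
    fun V _ _ x => funext fun j => by
      rw [MC.ap_π, if_neg (by have := h0 j; omega)]
      rfl
  refine ((LF.length R).congr ((HTor.res (E.ap R) (h1 R) N hε).isoLeftDerivedObj
    ((CategoryTheory.MonoidalCategory.tensoringLeft _).obj M) i).toLinearEquiv).trans
    (HTor.val_tensor _ M (E.ap R) (E.ap M) (h1 M) (TensorProduct.piScalarRight R R M E.ι)
      (fun z => ?_) (fun k z => ?_) i)
  · induction z with
    | zero => simp
    | add x y hx hy => simp only [map_add, hx, hy]
    | tmul m x =>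
      funext j
      simp [MC.ap_D, matApp_apply, Finset.sum_smul, mul_smul]
  · induction z with
    | zero => simp
    | add x y hx hy => simp only [map_add, hx, hy]
    | tmul m x =>
      funext j
      simp [MC.ap_π]

theorem tor_sum {R : Type} [CommRing R] (M N : ModuleCat.{0} R) (E : MC R) (hE : E.IsRes N)
    (d : ℕ) (hd : ∀ i, E.deg i ≤ d) :
    ((∑ i ∈ Finset.range (d + 1), (-1 : ℤ) ^ i *
      ((Module.length R (((CategoryTheory.Tor (ModuleCat.{0} R) i).obj M).obj N)).toNat : ℤ) : ℤ) :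
        ℝ) = E.chi (LF.length R) M := by
  rw [MC.chi, ech_eq_sum ((Finset.range (d + 1)).map ⟨Nat.cast, Nat.cast_injective⟩)
    fun k hk => MC.ap_H_eq_zero E M _ fun j hj => hk (Finset.mem_map.2
      ⟨k.toNat, Finset.mem_range.2 (by have := hd j; omega),
        Int.toNat_of_nonneg (hj ▸ hE.1 j)⟩), Finset.sum_map]
  push_cast
  refine Finset.sum_congr rfl fun i _ => ?_
  show _ = ((sg i : ℤ) : ℝ) * ((E.ap M).H (LF.length R) i).toReal
  rw [← tor_length M N E hE i, sg, Int.coe_negOnePow_natCast]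
  generalize Module.length R (((CategoryTheory.Tor (ModuleCat.{0} R) i).obj M).obj N) = l
  induction l <;> simp

end Crest.Agent.R188
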