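import Crest.Agent.R183.FolnerAux1

/-!
# Følner averaging along a chain of finitely generated subalgebras
-/

set_option autoImplicit false

open scoped ENNReal

namespace Crest.Agent.R188.PLamAux

open Crest.Agent.R183 Crest.Agent.R183.FolnerAux

variable {l Ω : Type} [Field l] [CommRing Ω] [Algebra l Ω]

/-- the underlying subspaces -/
abbrev sb (B : ℕ → Subalgebra l Ω) : ℕ → Submodule l Ω := fun i => (B i).toSubmodule

/-- A chain of finitely generated subalgebras. -/
structure Ch (B : ℕ → Subalgebra l Ω) (n : ℕ → ℕ) : Prop where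
  pos : ∀ i, 0 < n i
  fg : ∀ i, (B i).FG
  le : ∀ i m, i ≤ m → B i ≤ B m
  ext : ∀ i m, i ≤ m → Ext (sb B) n i m

variable {B : ℕ → Subalgebra l Ω} {n : ℕ → ℕ}
  {M M' M'' : Type} [AddCommGroup M] [Module Ω M] [Module l M] [IsScalarTower l Ω M]
  [AddCommGroup M'] [Module Ω M'] [Module l M'] [IsScalarTower l Ω M']
  [AddCommGroup M''] [Module Ω M''] [Module l M''] [IsScalarTower l Ω M'']

theorem div_le (hS : Ch B n) {i m d : ℕ} (hn : n m = d * n i) {x y : ℝ≥0∞}
    (h : x ≤ d * y) : x / n m ≤ y / n i := by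
  have hd : (d : ℝ≥0∞) ≠ 0 := by
    have := hS.pos m
    rw [hn] at this
    exact Nat.cast_ne_zero.2 (Nat.pos_of_mul_pos_right this).ne'
  rw [hn, Nat.cast_mul, ← ENNReal.mul_div_mul_left y (n i) hd (ENNReal.natCast_ne_top d)]
  exact ENNReal.div_le_div_right h _

theorem anti' (hS : Ch B n) (X : Submodule l M) :
    Antitone fun i => (LF.length l).val ↥(sb B i • X) / n i := by
  intro i m h
  obtain ⟨d, b, hn, hb, h⟩ := hS.ext i m h
  have := key hb h X ⊥
  rw [Submodule.smul_bot, LF.sz_bot, LF.sz_bot] at this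
  exact div_le hS hn this

theorem zero' [Subsingleton M] : val0 (sb B) n M = 0 := by
  refine le_antisymm (iSup_le fun X => (iInf_le _ 0).trans ?_) zero_le
  rw [(LF.length l).zero, ENNReal.zero_div]

theorem smul_mem {C C' : Subalgebra l Ω} (h : C' ≤ C) {Y : Submodule l M} {c : Ω} (hc : c ∈ C)
    {x : M} (hx : x ∈ C'.toSubmodule • Y) : c • x ∈ C.toSubmodule • Y := by
  refine Submodule.smul_induction_on hx (fun a ha y hy => ?_) fun x y hx hy => ?_
  · rw [smul_smul]
    exact Submodule.smul_mem_smul (C.mul_mem hc (h ha)) hy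
  · rw [smul_add]
    exact Submodule.add_mem _ hx hy

theorem mem_smul_span (C : Subalgebra l Ω) (s : Set M) (x : M) :
    x ∈ C.toSubmodule • Submodule.span l s ↔ x ∈ Submodule.span C s := by
  constructor
  · intro hx
    refine Submodule.smul_induction_on hx (fun a ha y hy => ?_) fun x y hx hy =>
      Submodule.add_mem _ hx hy
    exact Submodule.smul_mem _ (⟨a, ha⟩ : C) (Submodule.span_subset_span l C s hy)
  · intro hx
    induction hx using Submodule.span_induction with
    | mem y hy =>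
      rw [← one_smul Ω y]
      exact Submodule.smul_mem_smul C.one_mem (Submodule.subset_span hy)
    | zero => exact Submodule.zero_mem _
    | add x y _ _ hx hy => exact Submodule.add_mem _ hx hy
    | smul c x _ hx => exact smul_mem le_rfl c.2 hx

theorem noeth {C : Subalgebra l Ω} (hC : C.FG) (f : M' →ₗ[Ω] M) (hf : Function.Injective f)
    {X : Submodule l M} (hX : X.FG) : ∃ X' : Submodule l M', X'.FG ∧
      C.toSubmodule • X' = (C.toSubmodule • X).comap (f.restrictScalars l) := by
  have := isNoetherianRing_of_fg hC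
  obtain ⟨s, hs, rfl⟩ := Submodule.fg_def.1 hX
  have h1 : ((Submodule.span C s).comap (f.restrictScalars C)).FG :=
    Submodule.fg_of_fg_map_injective (f.restrictScalars C) hf
      ((Submodule.fg_span hs).of_le (Submodule.map_comap_le _ _))
  obtain ⟨s', hs', he⟩ := Submodule.fg_def.1 h1
  refine ⟨Submodule.span l s', Submodule.fg_span hs', ?_⟩
  ext x
  rw [mem_smul_span, he, Submodule.mem_comap, Submodule.mem_comap, mem_smul_span]
  rfl

theorem le_add' (hS : Ch B n) (f : M' →ₗ[Ω] M) (g : M →ₗ[Ω] M'')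
    (hf : Function.Injective f) (h : Function.Exact f g) :
    val0 (sb B) n M ≤ val0 (sb B) n M' + val0 (sb B) n M'' := by
  refine iSup_le ?_
  rintro ⟨X, hX⟩
  refine le_trans ?_ (add_le_add le_rfl (lam_le_val0 (hX.map (g.restrictScalars l))))
  rw [lam, lam, ENNReal.add_iInf]
  refine le_iInf fun i => ?_
  obtain ⟨X', hX', he⟩ := noeth (hS.fg i) f hf hX
  have hmap : sb B i • X'.map (f.restrictScalars l) =
      (sb B i • X) ⊓ LinearMap.ker (g.restrictScalars l) := by
    rw [← map_smul_eq, he, Submodule.map_comap_eq, inf_comm]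
    congr 1
    ext x
    exact (h x).symm
  refine le_trans ?_ (add_le_add (lam_le_val0 hX') le_rfl)
  rw [lam, ENNReal.iInf_add]
  refine le_iInf fun j => ?_
  obtain ⟨d, b, hn, hb, hbi⟩ := hS.ext i (max i j) (le_max_left _ _)
  refine (iInf_le _ (max i j)).trans (le_trans ?_
    (add_le_add (anti' hS X' (le_max_right i j)) (div_le hS hn le_rfl)))
  rw [← ENNReal.add_div]
  refine ENNReal.div_le_div_right ?_ _
  rw [← LF.sz_bot _ (sb B (max i j) • X), add_comm]
  refine ((LF.length l).sz_triangle _ (sb B (max i j) • X'.map (f.restrictScalars l)) _).trans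
    (add_le_add (le_trans ((LF.length l).sz_mono le_rfl ?_)
      ((key hb hbi X (sb B i • X'.map (f.restrictScalars l))).trans (le_of_eq ?_))) (le_of_eq ?_))
  · exact Submodule.smul_le.2 fun c hc x hx => smul_mem (hS.le _ _ (le_max_left i j)) hc hx
  · rw [hmap, LF.sz_inf_right, ← val_map_eq_sz, map_smul_eq]
  · rw [LF.sz_bot, ← map_smul_eq, val_map_of_injective _ hf]

theorem exists_lf' (hS : Ch B n) : ∃ μ : LF Ω,
    ∀ (M : Type) [AddCommGroup M] [Module Ω M] [Module l M] [IsScalarTower l Ω M],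
      μ.val M = val0 (sb B) n M := by
  refine ⟨⟨fun M _ _ => @val0 l Ω ℕ _ _ _ (sb B) n M _ _ (Module.compHom M (algebraMap l Ω))
    (IsScalarTower.of_compHom l Ω M), ?_, ?_, ?_⟩, ?_⟩
  · intro M N _ _ _ _ e
    exact @val0_congr l Ω ℕ _ _ _ (sb B) n M N _ _ (Module.compHom _ (algebraMap l Ω))
      (IsScalarTower.of_compHom l Ω _) _ _ (Module.compHom _ (algebraMap l Ω))
      (IsScalarTower.of_compHom l Ω _) e
  · intro M _ _ P
    exact le_antisymm
      (@le_add' l Ω _ _ _ B n M P (M ⧸ P) _ _ (Module.compHom _ (algebraMap l Ω))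
        (IsScalarTower.of_compHom l Ω _) _ _ (Module.compHom _ (algebraMap l Ω))
        (IsScalarTower.of_compHom l Ω _) _ _ (Module.compHom _ (algebraMap l Ω))
        (IsScalarTower.of_compHom l Ω _) hS P.subtype P.mkQ P.injective_subtype
        (LinearMap.exact_subtype_mkQ P))
      (@add_le_val0 l Ω ℕ _ _ _ (sb B) n M P (M ⧸ P) _ _ (Module.compHom _ (algebraMap l Ω))
        (IsScalarTower.of_compHom l Ω _) _ _ (Module.compHom _ (algebraMap l Ω))
        (IsScalarTower.of_compHom l Ω _) _ _ (Module.compHom _ (algebraMap l Ω))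
        (IsScalarTower.of_compHom l Ω _) P.subtype P.mkQ P.injective_subtype P.mkQ_surjective
        (LinearMap.exact_subtype_mkQ P))
  · intro M _ _ _
    exact @zero' l Ω _ _ _ B n M _ _ (Module.compHom _ (algebraMap l Ω))
      (IsScalarTower.of_compHom l Ω _) _
  · intro M _ _ _ _
    exact @val0_congr l Ω ℕ _ _ _ (sb B) n M M _ _ (Module.compHom _ (algebraMap l Ω))
      (IsScalarTower.of_compHom l Ω _) _ _ _ _ (LinearEquiv.refl Ω M)

theorem semi (hS : Ch B n) (g : Ω →+* Ω) (g₀ : l ≃+* l)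
    (hg : ∀ c, g (algebraMap l Ω c) = algebraMap l Ω (g₀ c)) (φ : M' ≃+ M)
    (hφ : ∀ (x : Ω) (m : M'), φ (x • m) = g x • φ m) (j d : ℕ) (hn : ∀ e, n (e + j) = d * n e)
    (hB : ∀ e, g '' (B (e + j) : Set Ω) = B e) :
    val0 (sb B) n M = d * val0 (sb B) n M' := by
  have hd : (d : ℝ≥0∞) ≠ 0 := by
    have := hS.pos (0 + j)
    rw [hn] at this
    exact Nat.cast_ne_zero.2 (Nat.pos_of_mul_pos_right this).ne'
  let ψ : M' →ₛₗ[(g₀ : l →+* l)] M :=
    { toFun := φ
      map_add' := φ.map_add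
      map_smul' := fun c m => by
        rw [← algebraMap_smul Ω c m, hφ, hg, algebraMap_smul]
        rfl }
  have : RingHomSurjective (g₀ : l →+* l) := ⟨g₀.surjective⟩
  have hψ : Function.Bijective ψ := φ.bijective
  have hlen : ∀ P : Submodule l M', (LF.length l).val (P.map ψ) = (LF.length l).val P := by
    intro P
    rw [LF.length_val, LF.length_val, Module.length_submodule, Module.length_submodule]
    exact congrArg _ (Order.height_orderIso (Submodule.orderIsoMapComapOfBijective ψ hψ) P)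
  have hmap : ∀ e (X : Submodule l M'), (sb B (e + j) • X).map ψ = sb B e • X.map ψ := by
    intro e X
    refine le_antisymm (Submodule.map_le_iff_le_comap.2 (Submodule.smul_le.2 fun c hc x hx => ?_))
      (Submodule.smul_le.2 ?_)
    · rw [Submodule.mem_comap]
      change φ (c • x) ∈ _
      rw [hφ]
      have : g c ∈ (B e : Set Ω) := hB e ▸ Set.mem_image_of_mem g hc
      exact Submodule.smul_mem_smul this ⟨x, hx, rfl⟩
    · rintro c hc _ ⟨x, hx, rfl⟩
      obtain ⟨c', hc', rfl⟩ : c ∈ g '' (B (e + j) : Set Ω) := by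
        rw [hB]
        exact hc
      exact ⟨c' • x, Submodule.smul_mem_smul hc' hx, hφ c' x⟩
  have hlam : ∀ X : Submodule l M', lam (sb B) n (X.map ψ) = d * lam (sb B) n X := by
    intro X
    rw [lam, lam, ← (anti' hS X).iInf_nat_add j,
      ENNReal.mul_iInf_of_ne hd (ENNReal.natCast_ne_top d)]
    refine iInf_congr fun e => ?_
    rw [← hmap, hlen, hn, Nat.cast_mul, ← mul_div_assoc,
      ENNReal.mul_div_mul_left _ _ hd (ENNReal.natCast_ne_top d)]
  rw [val0, val0, ENNReal.mul_iSup]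
  refine le_antisymm (iSup_le fun X => ?_) (iSup_le fun X => ?_)
  · have he : (X.1.comap ψ).map ψ = X.1 := Submodule.map_comap_eq_of_surjective hψ.2 _
    refine le_iSup_of_le ⟨X.1.comap ψ, Submodule.fg_of_fg_map_injective ψ hψ.1 ?_⟩ ?_
    · rw [he]
      exact X.2
    · rw [← hlam, he]
  · rw [← hlam]
    exact lam_le_val0 (X.2.map ψ)

theorem image_adjoin {a : ℕ} (g : Ω →+* Ω) (g₀ : l ≃+* l)
    (hg : ∀ c, g (algebraMap l Ω c) = algebraMap l Ω (g₀ c)) {t t' : Fin a → Ω}
    (h : ∀ i, g (t' i) = t i) :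
    g '' (Algebra.adjoin l (Set.range t') : Set Ω) = Algebra.adjoin l (Set.range t) := by
  refine Set.Subset.antisymm ?_ fun x hx => ?_
  · rintro _ ⟨x, hx, rfl⟩
    induction hx using Algebra.adjoin_induction with
    | mem x hx =>
      obtain ⟨i, rfl⟩ := hx
      exact Algebra.subset_adjoin ⟨i, (h i).symm⟩
    | algebraMap c =>
      rw [hg]
      exact Subalgebra.algebraMap_mem _ _
    | add x y _ _ hx hy =>
      rw [map_add]
      exact Subalgebra.add_mem _ hx hy
    | mul x y _ _ hx hy =>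
      rw [map_mul]
      exact Subalgebra.mul_mem _ hx hy
  · induction hx using Algebra.adjoin_induction with
    | mem x hx =>
      obtain ⟨i, rfl⟩ := hx
      exact ⟨t' i, Algebra.subset_adjoin ⟨i, rfl⟩, h i⟩
    | algebraMap c =>
      exact ⟨_, Subalgebra.algebraMap_mem _ (g₀.symm c), by rw [hg, g₀.apply_symm_apply]⟩
    | add x y _ _ hx hy =>
      obtain ⟨x, hx, rfl⟩ := hx
      obtain ⟨y, hy, rfl⟩ := hy
      exact ⟨x + y, Subalgebra.add_mem _ hx hy, map_add _ _ _⟩
    | mul x y _ _ hx hy =>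
      obtain ⟨x, hx, rfl⟩ := hx
      obtain ⟨y, hy, rfl⟩ := hy
      exact ⟨x * y, Subalgebra.mul_mem _ hx hy, map_mul _ _ _⟩

theorem gen {a q : ℕ} (hq : 0 < q) (C : Subalgebra l Ω) (t : Fin a → Ω) (h : ∀ i, t i ^ q ∈ C) :
    ∃ b : Fin (q ^ a) → Ω, (∀ r, b r ∈ Algebra.adjoin l (Set.range t)) ∧
      ∀ x ∈ Algebra.adjoin l (Set.range t), ∃ c : Fin (q ^ a) → Ω, (∀ r, c r ∈ C) ∧
        x = ∑ r, b r * c r := by
  let b : Fin (q ^ a) → Ω := fun r => ∏ i, t i ^ (finFunctionFinEquiv.symm r i : ℕ)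
  refine ⟨b, fun r => Subalgebra.prod_mem _ fun i _ =>
    Subalgebra.pow_mem _ (Algebra.subset_adjoin (Set.mem_range_self i)) _, fun x hx => ?_⟩
  have h1 : (Algebra.adjoin l (Set.range t)).toSubmodule ≤
      (Submodule.span C (Set.range b)).restrictScalars l := by
    rw [Algebra.adjoin_eq_span, Submodule.span_le]
    intro y hy
    obtain ⟨γ, rfl⟩ := Submonoid.mem_closure_range_iff_of_fintype.1 hy
    have e : ∏ i, t i ^ γ i = (⟨∏ i, (t i ^ q) ^ (γ i / q), C.prod_mem fun i _ =>
        C.pow_mem (h i) _⟩ : C) • b (finFunctionFinEquiv fun i => ⟨γ i % q, Nat.mod_lt _ hq⟩) := by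
      simp only [b, Equiv.symm_apply_apply, Subalgebra.smul_def, smul_eq_mul,
        ← Finset.prod_mul_distrib, ← pow_mul, ← pow_add, Nat.div_add_mod]
    rw [e]
    exact Submodule.smul_mem (Submodule.span C (Set.range b)) _
      (Submodule.subset_span (Set.mem_range_self _))
  obtain ⟨c, hc⟩ := (Submodule.mem_span_range_iff_exists_fun C).1 (h1 hx)
  refine ⟨fun r => c r, fun r => (c r).2, ?_⟩
  rw [← hc]
  exact Finset.sum_congr rfl fun r _ => mul_comm _ _

end Crest.Agent.R188.PLamAux
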