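import Crest.Agent.R188.PDefs
import Crest.Agent.R183.FolnerAux1
import Crest.Agent.R188.PLamAux

/-!
# The normalized length on modules over a perfect ring
-/

set_option autoImplicit false
set_option linter.unusedVariables false

open scoped ENNReal NNReal TensorProduct

namespace Crest.Agent.R188

open Crest.Agent.R183

variable (p : ℕ) [Fact p.Prime] (k : Type) [Field k] {O : Type} [CommRing O] [CharP O p]
  [PerfectRing O p] [Algebra k O] {a : ℕ}

/-- the subalgebra generated by the `p ^ e`-th roots of the `s i` -/
noncomputable def rootAlg (s : Fin a → O) (e : ℕ) : Submodule k O :=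
  (Algebra.adjoin k (Set.range fun i => rt p e (s i))).toSubmodule

/-- the normalized dimension -/
noncomputable def lamV (s : Fin a → O) (M : Type) [AddCommGroup M] [Module O M] [Module k M]
    [IsScalarTower k O M] : ℝ≥0∞ :=
  ⨆ X : {X : Submodule k M // X.FG},
    ⨅ e : ℕ, (LF.length k).val ↥(rootAlg p k s e • X.1) / (p : ℝ≥0∞) ^ (e * a)

omit [Algebra k O] in
theorem PLam_rt (i r : ℕ) (x : O) : rt p (i + r) x ^ p ^ r = rt p i x := by
  rw [rt, add_comm, iterateFrobeniusEquiv_symm_add_apply, ← iterateFrobeniusEquiv_def,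
    RingEquiv.apply_symm_apply]

theorem PLam_ch (s : Fin a → O) : PLamAux.Ch
    (fun e => Algebra.adjoin k (Set.range fun i => rt p e (s i))) fun e => p ^ (e * a) := by
  have hp : 0 < p := (Fact.out : p.Prime).pos
  refine ⟨fun _ => by positivity, fun _ => Subalgebra.fg_def.2 ⟨_, Set.finite_range _, rfl⟩,
    fun i m h => ?_, fun i m h => ?_⟩
  · obtain ⟨r, rfl⟩ := Nat.exists_eq_add_of_le h
    refine Algebra.adjoin_le ?_
    rintro _ ⟨j, rfl⟩
    dsimp only
    rw [← PLam_rt p i r]
    exact Subalgebra.pow_mem _ (Algebra.subset_adjoin (Set.mem_range_self j)) _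
  · obtain ⟨r, rfl⟩ := Nat.exists_eq_add_of_le h
    obtain ⟨b, hb, hb'⟩ := PLamAux.gen (q := p ^ r) (by positivity)
      (Algebra.adjoin k (Set.range fun j => rt p i (s j))) (fun j => rt p (i + r) (s j)) fun j => by
        rw [PLam_rt]
        exact Algebra.subset_adjoin (Set.mem_range_self j)
    exact ⟨_, b, by ring, hb, hb'⟩

variable [CharP k p] [PerfectRing k p]

theorem exists_lam (s : Fin a → O) : ∃ μ : LF O,
    (∀ (M : Type) [AddCommGroup M] [Module O M] [Module k M] [IsScalarTower k O M],
      μ.val M = lamV p k s M) ∧ Scal p a μ ∧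
    ∀ g : O ≃+* O, (∀ c : k, g (algebraMap k O c) = algebraMap k O c) → (∀ i, g (s i) = s i) →
      Inv μ g.toRingHom := by
  have hS := PLam_ch p k s
  obtain ⟨μ, hμ⟩ := PLamAux.exists_lf' hS
  refine ⟨μ, fun M _ _ _ _ => ?_, fun M _ _ => ?_, fun g hg hs M _ _ => ?_⟩
  · rw [hμ]
    simp only [FolnerAux.val0, FolnerAux.lam, lamV, Nat.cast_pow]
    rfl
  · have := @PLamAux.semi k O _ _ _ _ _ M M _ _ (Module.compHom M (algebraMap k O))
      (IsScalarTower.of_compHom k O M) _ (Module.compHom M (frobenius O p))
      (@Module.compHom O k M _ _ (Module.compHom M (frobenius O p)) _ (algebraMap k O))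
      (@IsScalarTower.of_compHom k O M _ _ _
        (Module.compHom M (frobenius O p)).toDistribMulAction.toMulAction)
      hS (frobenius O p) (frobeniusEquiv k p) (fun c => (map_pow (algebraMap k O) c p).symm)
      (AddEquiv.refl M) (fun _ _ => rfl) 1 (p ^ a) (fun e => by ring) fun e =>
        PLamAux.image_adjoin _ (frobeniusEquiv k p) (fun c => (map_pow (algebraMap k O) c p).symm)
          fun i => by
            rw [← PLam_rt p e 1, pow_one]
            rfl
    rw [← @hμ M _ _ (Module.compHom M (algebraMap k O)) (IsScalarTower.of_compHom k O M),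
      ← @hμ M _ (Module.compHom M (frobenius O p)) (_) (_), Nat.cast_pow] at this
    exact this
  · have := @PLamAux.semi k O _ _ _ _ _ M M _ _ (Module.compHom M (algebraMap k O))
      (IsScalarTower.of_compHom k O M) _ (Module.compHom M g.toRingHom)
      (@Module.compHom O k M _ _ (Module.compHom M g.toRingHom) _ (algebraMap k O))
      (@IsScalarTower.of_compHom k O M _ _ _
        (Module.compHom M g.toRingHom).toDistribMulAction.toMulAction)
      hS g.toRingHom (RingEquiv.refl k) hg
      (AddEquiv.refl M) (fun _ _ => rfl) 0 1 (fun e => by ring) fun e =>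
        PLamAux.image_adjoin _ (RingEquiv.refl k) hg fun i => by
          refine (iterateFrobeniusEquiv O p e).injective ?_
          rw [RingEquiv.apply_symm_apply, iterateFrobeniusEquiv_def, ← map_pow,
            ← iterateFrobeniusEquiv_def, add_zero, RingEquiv.apply_symm_apply]
          exact hs i
    rw [← @hμ M _ _ (Module.compHom M (algebraMap k O)) (IsScalarTower.of_compHom k O M),
      ← @hμ M _ (Module.compHom M g.toRingHom) (_) (_), Nat.cast_one, one_mul] at this
    exact this.symm

end Crest.Agent.R188
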