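import Crest.Agent.R188.PDefs
import Crest.Agent.R183.SL

/-!
# Real powers: auxiliary lemmas on the perfect closure
-/

set_option autoImplicit false
set_option linter.unusedVariables false
set_option linter.unusedSectionVars false

open scoped ENNReal NNReal TensorProduct

namespace Crest.Agent.R188

open Crest.Agent.R183 Filter

section general

variable {B : Type} [CommRing B] {a : ℕ}

theorem PRP_D (s : Fin a → B) (x : KI a → B) :
    (K s (DG.single B B)).D x = (kmat a s).mulVec x := by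
  have := MC.ap_D (kos s) (M := B) x
  refine this.trans ?_
  funext i
  rfl

theorem PRP_π (s : Fin a → B) (k : ℤ) (x : KI a → B) :
    (K s (DG.single B B)).π k x = x ↔ ∀ i, KI.deg a i ≠ k → x i = 0 := by
  have h : ∀ i, (K s (DG.single B B)).π k x i = if KI.deg a i = k then x i else 0 :=
    fun i => MC.ap_π (kos s) (M := B) k x i
  constructor
  · intro hx i hi
    have := h i
    rw [hx, if_neg hi] at this
    exact this
  · intro hx
    funext i
    rw [h i]
    split_ifs with hi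
    · rfl
    · exact (hx i hi).symm

theorem PRP_map_D {B' : Type} [CommRing B'] (φ : B →+* B') (s : Fin a → B) (x : KI a → B)
    (i : KI a) :
    φ ((kmat a s).mulVec x i) = (kmat a fun j => φ (s j)).mulVec (fun j => φ (x j)) i := by
  rw [RingHom.map_mulVec, HKos_kmat_map]
  rfl

theorem PRP_mem_strand (κ' : ℕ) (Γ : ℕ → Ideal B) (x : KI a → B) :
    x ∈ strand a κ' Γ ↔ ∀ i, x i ∈ Γ (κ' * (a + 1 - (KI.deg a i).toNat)) := by
  simp [strand, Submodule.mem_pi]

theorem PRP_acyc (s : Fin a → B) (κ' : ℕ) (Γ : ℕ → Ideal B) :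
    (K s (DG.single B B)).AcycOn (strand a κ' Γ) ↔ ∀ (k : ℤ) (x : KI a → B),
      (∀ i, x i ∈ Γ (κ' * (a + 1 - (KI.deg a i).toNat))) → (∀ i, KI.deg a i ≠ k → x i = 0) →
      (kmat a s).mulVec x = 0 → ∃ y : KI a → B,
        (∀ i, y i ∈ Γ (κ' * (a + 1 - (KI.deg a i).toNat))) ∧ (kmat a s).mulVec y = x := by
  constructor
  · intro h k x hx hxk hD
    obtain ⟨y, hy, hyD⟩ := h k x ((PRP_mem_strand _ _ _).2 hx) ((PRP_π _ _ _).2 hxk)
      ((PRP_D _ _).trans hD)
    exact ⟨y, (PRP_mem_strand _ _ _).1 hy, (PRP_D _ _).symm.trans hyD⟩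
  · intro h k x hx hxk hD
    obtain ⟨y, hy, hyD⟩ := h k x ((PRP_mem_strand _ _ _).1 hx) ((PRP_π _ _ _).1 hxk)
      ((PRP_D _ _).symm.trans hD)
    exact ⟨y, (PRP_mem_strand _ _ _).2 hy, (PRP_D _ _).trans hyD⟩

theorem PRP_mem_sp_mul {ι : Type} [Fintype ι] {g : ι → B} {J : Ideal B} {x : B} :
    x ∈ sp g * J ↔ ∃ y : ι → B, (∀ i, y i ∈ J) ∧ x = ∑ i, g i * y i := by
  constructor
  · intro hx
    exact SL_mem_sp_smul (V := B) (g := g) (N := J) hx
  · rintro ⟨y, hy, rfl⟩
    exact Ideal.sum_mem _ fun i _ => Ideal.mul_mem_mul (Ideal.subset_span ⟨i, rfl⟩) (hy i)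

/-- pigeonhole on monomials -/
theorem PRP_pigeon {ι : Type} [Fintype ι] (u : ι → B) {q M : ℕ} (hq : 0 < q)
    (h : Fintype.card ι * q ≤ M) :
    sp u ^ (M + q) ≤ sp (fun i => u i ^ q) * sp u ^ M := by
  classical
  rw [← monI_degGE u (M + q)]
  refine Ideal.span_le.2 ?_
  rintro _ ⟨α, hα, rfl⟩
  have hα' : M + q ≤ ∑ i, α i := hα
  obtain ⟨i, hi⟩ : ∃ i, q ≤ α i := by
    by_contra hc
    push Not at hc
    have : ∑ i, α i ≤ ∑ _i : ι, q := Finset.sum_le_sum fun i _ => (hc i).le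
    rw [Finset.sum_const, Finset.card_univ, smul_eq_mul] at this
    omega
  obtain ⟨β, rfl⟩ : ∃ β : ι → ℕ, α = Pi.single i q + β := by
    refine exists_add_of_le ?_
    intro j
    by_cases hj : j = i
    · subst hj
      simpa using hi
    · simp [hj]
  rw [SetLike.mem_coe, mon_add, SL_mon_single]
  refine Ideal.mul_mem_mul (Ideal.subset_span ⟨i, rfl⟩) ?_
  refine Ideal.pow_le_pow_right ?_ (SL_mon_mem_sp_pow u β)
  simp only [Pi.add_apply, Finset.sum_add_distrib, Finset.sum_pi_single', Finset.mem_univ,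
    if_true] at hα'
  omega

theorem PRP_col_iter {τ : Type} [DecidableEq τ] {I : τ → Ideal B} {γ : B} {C : ℕ}
    {Γ : (τ → ℕ) → Ideal B} (h : Fam I γ C Γ) (t : τ) (E : ℕ) (W : τ → ℕ) (hW : C ≤ W t) :
    ∀ (m : ℕ) (x : B), (∀ b ∈ I t ^ m, x * b ∈ Ideal.span {γ ^ E} * Γ (W + m • Pi.single t 1)) →
      x ∈ Ideal.span {γ ^ E} * Γ W := by
  intro m
  induction m with
  | zero =>
    intro x hx
    simpa using hx 1 (by simp)
  | succ m ih =>
    intro x hx
    refine ih x fun b hb => ?_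
    refine h.col _ t E _ (by simp; omega) fun b' hb' => ?_
    rw [mul_assoc, add_assoc, ← succ_nsmul]
    exact hx _ (by rw [pow_succ]; exact Ideal.mul_mem_mul hb hb')

end general

section perf

variable {p : ℕ} [Fact p.Prime] {C : Type} [CommRing C] [CharP C p] {a : ℕ}

theorem PRP_rt_pow {O : Type} [CommRing O] [CharP O p] [PerfectRing O p] (e : ℕ) (x : O) :
    rt p e x ^ p ^ e = x :=
  (iterateFrobeniusEquiv O p e).apply_symm_apply x

theorem PRP_pow_inj {O : Type} [CommRing O] [CharP O p] [PerfectRing O p] (e : ℕ) {x y : O}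
    (h : x ^ p ^ e = y ^ p ^ e) : x = y :=
  (iterateFrobeniusEquiv O p e).injective h

theorem PRP_exists_pow (x : PerfectClosure C p) :
    ∃ (e : ℕ) (c : C), x ^ p ^ e = PerfectClosure.of C p c := by
  induction x using PerfectClosure.induction_on with
  | h x =>
    refine ⟨x.1, x.2, ?_⟩
    rw [← iterate_frobenius, PerfectClosure.iterate_frobenius_mk]

theorem PRP_of_eq {x y : C} (h : PerfectClosure.of C p x = PerfectClosure.of C p y) :
    ∀ᶠ e in atTop, x ^ p ^ e = y ^ p ^ e := by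
  rw [PerfectClosure.of_apply, PerfectClosure.of_apply, PerfectClosure.mk_eq_iff] at h
  obtain ⟨z, hz⟩ := h
  simp only [zero_add, iterate_frobenius] at hz
  filter_upwards [eventually_ge_atTop z] with e he
  obtain ⟨d, rfl⟩ := exists_add_of_le he
  rw [pow_add, pow_mul, pow_mul, hz]

/-- families of ideals which are compatible with Frobenius -/
def PRP_Cmp (p : ℕ) {C : Type} [CommRing C] (A : ℕ → Ideal C) : Prop :=
  ∀ e y, y ∈ A e → y ^ p ∈ A (e + 1)

theorem PRP_Cmp.pow {A : ℕ → Ideal C} (hA : PRP_Cmp p A) {e : ℕ} {y : C} (hy : y ∈ A e)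
    (d : ℕ) : y ^ p ^ d ∈ A (e + d) := by
  induction d with
  | zero => simpa using hy
  | succ d ih =>
    rw [pow_succ, pow_mul, ← add_assoc]
    exact hA _ _ ih

variable (p) in
/-- the limit ideal -/
def PRP_lim (A : ℕ → Ideal C) : Ideal (PerfectClosure C p) where
  carrier := {x | ∀ᶠ e in atTop, ∃ y ∈ A e, x ^ p ^ e = PerfectClosure.of C p y}
  add_mem' := by
    intro x x' hx hx'
    filter_upwards [hx, hx'] with e ⟨y, hy, h⟩ ⟨y', hy', h'⟩
    exact ⟨y + y', (A e).add_mem hy hy', by rw [add_pow_char_pow, h, h', map_add]⟩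
  zero_mem' := Eventually.of_forall fun e =>
    ⟨0, (A e).zero_mem, by
      rw [map_zero, zero_pow (pow_ne_zero _ (Fact.out : p.Prime).ne_zero)]⟩
  smul_mem' := by
    intro r x hx
    obtain ⟨e0, c, hc⟩ := PRP_exists_pow r
    filter_upwards [hx, eventually_ge_atTop e0] with e ⟨y, hy, h⟩ he
    obtain ⟨d, rfl⟩ := exists_add_of_le he
    refine ⟨c ^ p ^ d * y, (A _).mul_mem_left _ hy, ?_⟩
    rw [smul_eq_mul, mul_pow, h, map_mul, map_pow, ← hc, ← pow_mul, ← pow_add]

theorem PRP_mem_lim {A : ℕ → Ideal C} {x : PerfectClosure C p} :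
    x ∈ PRP_lim p A ↔ ∀ᶠ e in atTop, ∃ y ∈ A e, x ^ p ^ e = PerfectClosure.of C p y := Iff.rfl

theorem PRP_Cmp.mem_lim {A : ℕ → Ideal C} (hA : PRP_Cmp p A) {x : PerfectClosure C p} {e : ℕ}
    {y : C} (hy : y ∈ A e) (h : x ^ p ^ e = PerfectClosure.of C p y) : x ∈ PRP_lim p A := by
  rw [PRP_mem_lim]
  filter_upwards [eventually_ge_atTop e] with e' he
  obtain ⟨d, rfl⟩ := exists_add_of_le he
  exact ⟨y ^ p ^ d, hA.pow hy d, by rw [pow_add, pow_mul, h, map_pow]⟩

theorem PRP_Cmp.rt_mem {A : ℕ → Ideal C} (hA : PRP_Cmp p A) {e : ℕ} {y : C} (hy : y ∈ A e) :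
    rt p e (PerfectClosure.of C p y) ∈ PRP_lim p A :=
  hA.mem_lim hy (PRP_rt_pow e _)

theorem PRP_cmp_top : PRP_Cmp p (fun _ => (⊤ : Ideal C)) := fun _ _ _ => trivial

theorem PRP_lim_top : PRP_lim p (fun _ => (⊤ : Ideal C)) = ⊤ := by
  rw [eq_top_iff]
  intro x _
  obtain ⟨e, c, h⟩ := PRP_exists_pow x
  exact PRP_cmp_top.mem_lim (e := e) trivial h

/-- descent of cycles -/
theorem PRP_desc (s : Fin a → C) (k : ℤ) (x : KI a → PerfectClosure C p)
    (hx : ∀ i, KI.deg a i ≠ k → x i = 0)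
    (hD : (kmat a fun j => PerfectClosure.of C p (s j)).mulVec x = 0)
    (A : KI a → ℕ → Ideal C) (hA : ∀ i, PRP_Cmp p (A i)) (hmem : ∀ i, x i ∈ PRP_lim p (A i)) :
    ∀ᶠ e in atTop, ∃ y : KI a → C, (∀ i, y i ∈ A i e) ∧
      (∀ i, x i ^ p ^ e = PerfectClosure.of C p (y i)) ∧ (∀ i, KI.deg a i ≠ k → y i = 0) ∧
      (kmat a fun j => s j ^ p ^ e).mulVec y = 0 := by
  classical
  have hp : ∀ e, p ^ e ≠ 0 := fun e => pow_ne_zero _ (Fact.out : p.Prime).ne_zero
  obtain ⟨e, he⟩ := (eventually_all.2 fun i => PRP_mem_lim.1 (hmem i)).exists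
  choose y0 hy0 hxy0 using he
  obtain ⟨y, hy, hxy, hyk⟩ : ∃ y : KI a → C, (∀ i, y i ∈ A i e) ∧
      (∀ i, x i ^ p ^ e = PerfectClosure.of C p (y i)) ∧ (∀ i, KI.deg a i ≠ k → y i = 0) := by
    refine ⟨fun i => if KI.deg a i = k then y0 i else 0, fun i => ?_, fun i => ?_, fun i hi => ?_⟩
    · dsimp only
      split_ifs
      · exact hy0 i
      · exact (A i e).zero_mem
    · dsimp only
      split_ifs with hi
      · exact hxy0 i
      · rw [hx i hi, map_zero, zero_pow (hp e)]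
    · exact if_neg hi
  have h1 : ∀ i, PerfectClosure.of C p ((kmat a fun j => s j ^ p ^ e).mulVec y i) =
      PerfectClosure.of C p 0 := by
    intro i
    have h2 := PRP_map_D (iterateFrobenius (PerfectClosure C p) p e)
      (fun j => PerfectClosure.of C p (s j)) x i
    rw [hD, Pi.zero_apply, map_zero] at h2
    rw [PRP_map_D, map_zero, h2]
    simp only [iterateFrobenius_def, hxy, map_pow]
  have h3 := eventually_all.2 fun i => PRP_of_eq (h1 i)
  obtain ⟨d0, hd0⟩ := eventually_atTop.1 h3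
  filter_upwards [eventually_ge_atTop (e + d0)] with e' he'
  obtain ⟨d, rfl⟩ : ∃ d, e' = e + d := ⟨e' - e, by omega⟩
  refine ⟨fun i => y i ^ p ^ d, fun i => (hA i).pow (hy i) d, fun i => ?_, fun i hi => ?_, ?_⟩
  · rw [pow_add, pow_mul, hxy, map_pow]
  · simp only [hyk i hi, zero_pow (hp d)]
  · funext i
    have h4 := hd0 d (by omega) i
    have h2 := PRP_map_D (iterateFrobenius C p d) (fun j => s j ^ p ^ e) y i
    rw [iterateFrobenius_def, h4, zero_pow (hp d)] at h2
    simp only [iterateFrobenius_def, ← pow_mul, ← pow_add] at h2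
    exact h2.symm

/-- ascent of boundaries -/
theorem PRP_asc (s : Fin a → C) (e : ℕ) (u : KI a → C) (i : KI a) :
    ((kmat a fun j => PerfectClosure.of C p (s j)).mulVec
      (fun j => rt p e (PerfectClosure.of C p (u j))) i) ^ p ^ e =
      PerfectClosure.of C p ((kmat a fun j => s j ^ p ^ e).mulVec u i) := by
  have h2 := PRP_map_D (iterateFrobenius (PerfectClosure C p) p e)
    (fun j => PerfectClosure.of C p (s j)) (fun j => rt p e (PerfectClosure.of C p (u j))) i
  rw [iterateFrobenius_def] at h2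
  rw [h2, PRP_map_D]
  simp only [iterateFrobenius_def, PRP_rt_pow, map_pow]

end perf

end Crest.Agent.R188
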