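import Crest.Agent.R188.HDev

/-!
# Koszul estimates for `N ⊗ᴸ M`
-/

set_option autoImplicit false
set_option linter.unusedVariables false

open scoped ENNReal NNReal TensorProduct
open Filter

namespace Crest.Agent.R188

open Crest.Agent.R183 Crest.Agent.R183.DG IsLocalRing

/-- `y` is an asymptotically regular system of parameters of `M / η M` which is generic with
respect to the image of `A` -/
structure AReg {A B : Type} [CommRing A] [CommRing B] (φ : A →+* B) {r n : ℕ} (η : Fin r → A)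
    (y : Fin n → B) (ν : LF B) (M : Type) [AddCommGroup M] [Module B M] : Prop where
  fin : (K y (K (fun j => φ (η j)) (single B M))).FinH ν ⊤ ⊥
  pos : 0 < (K y (K (fun j => φ (η j)) (single B M))).ech ν ⊤ ⊥
  high : ∀ ε : ℝ, 0 < ε → ∀ᶠ κ : ℕ in atTop, ∀ j, 0 < j →
    (K (fun i => y i ^ κ) (K (fun j => φ (η j)) (single B M))).H ν j ≤ ENNReal.ofReal (ε * κ ^ n)
  gen : ∀ w ∉ sp η, ∀ ε : ℝ, 0 < ε → ∀ᶠ κ : ℕ in atTop,
    ν.val (M ⧸ ((sp (fun j => φ (η j)) ⊔ Ideal.span {φ w} ⊔ sp fun i => y i ^ κ) • ⊤ :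
      Submodule B M)) ≤ ENNReal.ofReal (ε * κ ^ n)

section aux

variable {B : Type} [CommRing B] {X : Type} [AddCommGroup X] [Module B X] {M : Type}
  [AddCommGroup M] [Module B M]

/-- `f κ = o(κ ^ n)` -/
def QEst_o (n : ℕ) (f : ℕ → ℝ≥0∞) : Prop :=
  ∀ ε : ℝ, 0 < ε → ∀ᶠ κ : ℕ in atTop, f κ ≤ ENNReal.ofReal (ε * κ ^ n)

/-- the size of the higher homology -/
noncomputable def QEst_hi (C : DG B X) (μ : LF B) : ℝ≥0∞ := ⨆ j : {j : ℤ // 0 < j}, C.H μ j

theorem QEst_hi_le {C : DG B X} {μ : LF B} {c : ℝ≥0∞} :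
    QEst_hi C μ ≤ c ↔ ∀ j, 0 < j → C.H μ j ≤ c :=
  iSup_le_iff.trans Subtype.forall

theorem QEst_le_hi (C : DG B X) (μ : LF B) (j : ℤ) (hj : 0 < j) : C.H μ j ≤ QEst_hi C μ :=
  QEst_hi_le.1 le_rfl j hj

theorem QEst_o.mono {n : ℕ} {f g : ℕ → ℝ≥0∞} (h : QEst_o n g) (hfg : ∀ κ, f κ ≤ g κ) :
    QEst_o n f := fun ε hε => (h ε hε).mono fun κ hκ => (hfg κ).trans hκ

theorem QEst_o.add {n : ℕ} {f g : ℕ → ℝ≥0∞} (hf : QEst_o n f) (hg : QEst_o n g) :
    QEst_o n fun κ => f κ + g κ := fun ε hε => by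
  filter_upwards [hf _ (half_pos hε), hg _ (half_pos hε)] with κ h1 h2
  refine (add_le_add h1 h2).trans (le_of_eq ?_)
  rw [← ENNReal.ofReal_add (by positivity) (by positivity), ← add_mul, add_halves]

theorem QEst_o.const_mul {n : ℕ} {f : ℕ → ℝ≥0∞} (hf : QEst_o n f) (c : ℕ) :
    QEst_o n fun κ => c * f κ := fun ε hε => by
  filter_upwards [hf (ε / (c + 1)) (by positivity)] with κ h1
  refine (mul_le_mul_right h1 _).trans ?_
  rw [← ENNReal.ofReal_natCast, ← ENNReal.ofReal_mul c.cast_nonneg, ← mul_assoc]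
  refine ENNReal.ofReal_le_ofReal (mul_le_mul_of_nonneg_right ?_ (by positivity))
  rw [mul_div_assoc', div_le_iff₀ (by positivity)]
  linarith

theorem QEst_H_eq_zero {C : DG B X} {k : ℤ} (h : ∀ x, C.π k x = 0) (μ : LF B) : C.H μ k = 0 :=
  μ.sz_eq_zero_of_le fun x hx => by
    rw [← (C.mem_Z.1 hx).1.2, h]
    exact zero_mem _

/-- a bound for the length of the Koszul complexes that does not depend on the sequence -/
theorem QEst_K_bdd {C : DG B X} (hC : C.Bdd) (n : ℕ) : ∃ L : ℕ, ∀ (z : Fin n → B) (μ : LF B)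
    (k : ℤ), (L : ℤ) < |k| → (K z C).H μ k = 0 := by
  obtain ⟨L, hL⟩ := hC
  refine ⟨L + n, fun z μ k hk => QEst_H_eq_zero (fun x => funext fun i => ?_) μ⟩
  refine hL (k - KI.deg n i) ?_ (x i)
  have h1 := KI_deg_nonneg n i
  have h2 := KI_deg_le n i
  rw [lt_abs] at hk ⊢
  push_cast at hk
  omega

theorem QEst_single_neg : ∀ k < 0, ∀ x, (single B M).π k x = 0 := fun k hk x => by
  rw [HDev_single_π, if_neg hk.ne]

theorem QEst_ech_le {C : DG B X} {μ : LF B} {L : ℕ} {c : ℝ≥0∞} (hc : c ≠ ⊤)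
    (hL : ∀ k : ℤ, (L : ℤ) < |k| → C.H μ k = 0) (h : ∀ k, k ≠ 0 → C.H μ k ≤ c) :
    C.ech μ ⊤ ⊥ ≤ (C.H μ 0).toReal + 2 * L * c.toReal := by
  have h1 : (0 : ℤ) ∈ Finset.Icc (-L : ℤ) L := by
    rw [Finset.mem_Icc]
    omega
  rw [ech_eq_sum (Finset.Icc (-L : ℤ) L) fun k hk => hL k (by
    rw [Finset.mem_Icc] at hk
    rw [lt_abs]
    omega), ← Finset.add_sum_erase _ _ h1]
  have h2 := Finset.sum_le_card_nsmul ((Finset.Icc (-L : ℤ) L).erase 0)
    (fun k => (sg k : ℝ) * (C.h μ k ⊤ ⊥).toReal) c.toReal fun k hk => by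
      have h3 := ENNReal.toReal_mono hc (h k (Finset.mem_erase.1 hk).1)
      have h4 := ENNReal.toReal_nonneg (a := C.h μ k ⊤ ⊥)
      rcases Int.units_eq_one_or k.negOnePow with e | e <;> simp only [sg, e] <;> push_cast <;>
        linarith
  have h3 : ((Finset.Icc (-L : ℤ) L).erase 0).card = 2 * L := by
    rw [Finset.card_erase_of_mem h1, Int.card_Icc]
    omega
  rw [h3, nsmul_eq_mul] at h2
  push_cast at h2
  simp only [sg, Int.negOnePow_zero, Units.val_one, Int.cast_one, one_mul] at h2 ⊢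
  linarith

theorem QEst_th_le (G : MC B) {r n : ℕ} {a : Fin r → B} (ha : ∀ j, G.Null (a j)) (z : Fin n → B)
    (μ : LF B) :
    (K z (G.ap M)).th μ ≤ Fintype.card G.ι * (K z (K a (single B M))).th μ := by
  refine (th_le_K (fun j => MC.app_nullH _ ((ha j).nullH _)) μ).trans ?_
  rw [((MC.swap_iso _ _ _).trans ((MC.app_iso _ (MC.swap_iso _ _ _)).trans
    (MC.swap_iso _ _ _))).th_eq μ]
  exact G.app_th_le _ μ

/-- comparison of two resolutions after base change -/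
theorem QEst_res_qi {A : Type} [CommRing A] (φ : A →+* B) {N : Type} [AddCommGroup N]
    [Module A N] {G G' : MC A} (h : G.IsRes N) (h' : G'.IsRes N) (C : DG B X) :
    ∃ f, QI ((G.map φ).app C) ((G'.map φ).app C) f := by
  obtain ⟨f, hf, hq⟩ := h.exists_hom h'
  have h1 := (MC.null_one_of_acyc _ ((MC.HApp_iso_acyc (MC.app_cone_iso hf (single A A))).2
    ((cone_acyc_iff _).2 hq))).map φ
  rw [MC.cone_map, map_one] at h1
  exact ⟨_, (cone_acyc_iff _).1 ((MC.HApp_iso_acyc (MC.app_cone_iso (hf.map φ) C)).1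
    (h1.nullH C).acyc)⟩

theorem QEst_res_H {A : Type} [CommRing A] (φ : A →+* B) {N : Type} [AddCommGroup N]
    [Module A N] {G G' : MC A} (h : G.IsRes N) (h' : G'.IsRes N) {n : ℕ} (z : Fin n → B)
    (μ : LF B) (k : ℤ) : (K z ((G.map φ).ap M)).H μ k = (K z ((G'.map φ).ap M)).H μ k := by
  obtain ⟨f, hf⟩ := QEst_res_qi φ h h' (single B M)
  exact (MC.app_qi _ hf).H_eq μ k

theorem QEst_cone_iso {A : Type} [CommRing A] (φ : A →+* B) {G G' : MC A}
    {f : Matrix G'.ι G.ι A} (hf : MC.IsHom G G' f) {n : ℕ} (z : Fin n → B) :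
    (K z (((MC.cone hf).map φ).ap M)).Iso
      (DG.cone ((kos z).app_isMap ((hf.map φ).isMap (single B M)))) := by
  rw [MC.cone_map]
  exact (MC.app_iso _ (MC.app_cone_iso _ _)).trans (MC.cone_app_iso _ _)

end aux

variable {A B : Type} [CommRing A] [IsNoetherianRing A] [CommRing B] {φ : A →+* B} {r n e : ℕ}
  {η : Fin r → A} {y : Fin n → B} {ν : LF B} {M : Type} [AddCommGroup M] [Module B M]
  {N : Type} [AddCommGroup N] [Module A N]

omit [IsNoetherianRing A] in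
theorem AReg.QEst_fin (h : AReg φ η y ν M) (κ : ℕ) :
    (K (fun i => y i ^ κ) (K (fun j => φ (η j)) (single B M))).FinH ν ⊤ ⊥ := fun k =>
  ne_top_of_le_ne_top (ENNReal.mul_ne_top (ENNReal.natCast_ne_top _) (h.fin k))
    (K_H_pow_le y (fun _ => κ) _ ν k)

omit [IsNoetherianRing A] in
theorem AReg.QEst_kos (h : AReg φ η y ν M) (z : Fin n → B) (k : ℤ) :
    (K z (((kos η).map φ).ap M)).H ν k = (K z (K (fun j => φ (η j)) (single B M))).H ν k := by
  rw [kos_map]

omit [IsNoetherianRing A] in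
theorem AReg.QEst_gen (h : AReg φ η y ν M) {G : MC A} (hG : ∀ j, G.Null (η j)) {w : A}
    (hw : w ∉ sp η) (hw' : G.Null w) :
    QEst_o n fun κ => (K (fun i => y i ^ κ) ((G.map φ).ap M)).th ν := by
  obtain ⟨L, hL⟩ := QEst_K_bdd (K_bdd (fun j => φ (η j)) (single_bdd (B := B) M)) n
  have o1 : QEst_o n fun κ =>
      QEst_hi (K (fun i => y i ^ κ) (K (fun j => φ (η j)) (single B M))) ν := fun ε hε =>
    (h.high ε hε).mono fun κ hκ => QEst_hi_le.2 hκ
  have o2 : QEst_o n fun κ => ν.val (M ⧸ ((sp (fun j => φ (η j)) ⊔ Ideal.span {φ w} ⊔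
      sp fun i => y i ^ κ) • ⊤ : Submodule B M)) := h.gen w hw
  refine (((o2.const_mul 2).add (o1.const_mul (2 * L))).const_mul
    (Fintype.card G.ι)).mono fun κ => ?_
  obtain ⟨a, ha⟩ : ∃ a : Fin (r + 1) → B, a = Fin.cons (φ w) fun j => φ (η j) := ⟨_, rfl⟩
  have a0 : a 0 = φ w := by rw [ha]; rfl
  have a1 : Fin.tail a = fun j => φ (η j) := by rw [ha]; rfl
  have i1 : (K (fun i => y i ^ κ) (K a (single B M))).Iso
      ((K (fun i => y i ^ κ) (K (fun j => φ (η j)) (single B M))).coneS (φ w)) := by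
    rw [← a0, ← a1]
    exact (MC.app_iso _ (K_succ_iso a _)).trans (MC.app_coneS_iso _ _ _)
  refine (QEst_th_le (G.map φ) (a := a) (fun j => ?_) _ ν).trans (mul_le_mul_right ?_ _)
  · rw [ha]
    induction j using Fin.cases with
    | zero => exact hw'.map φ
    | succ j => exact (hG j).map φ
  rw [i1.th_eq]
  refine (th_coneS_le (K_π_neg _ (K_π_neg _ QEst_single_neg)) (L := L)
    (fun k hk => hL _ ν k (lt_abs.2 (Or.inl hk))) (h.QEst_fin κ 0) (QEst_le_hi _ ν) _).trans ?_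
  push_cast
  refine add_le_add_left (mul_le_mul_right ?_ _) _
  rw [← i1.H_eq, ← (K_append_iso _ _ _).H_eq, K_H_zero_single]
  refine ν.quot_anti (Submodule.smul_mono_left (sup_le (sup_le ?_ ?_) ?_))
  · refine Ideal.span_mono (Set.range_subset_iff.2 fun j => ⟨Fin.natAdd n j.succ, ?_⟩)
    rw [Fin.append_right, ha]
    rfl
  · refine Ideal.span_mono (Set.singleton_subset_iff.2 ⟨Fin.natAdd n 0, ?_⟩)
    rw [Fin.append_right, a0]
  · exact Ideal.span_mono (Set.range_subset_iff.2 fun i => ⟨Fin.castAdd _ i, Fin.append_left ..⟩)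

theorem AReg.QEst_high (h : AReg φ η y ν M) (hA : HasRes A e)
    (hη : RingTheory.Sequence.IsWeaklyRegular A (List.ofFn η)) (hf : Module.Finite A N) :
    (∀ j (x : N), η j • x = 0) → ∀ G : MC A, G.IsRes N →
      QEst_o n fun κ => QEst_hi (K (fun i => y i ^ κ) ((G.map φ).ap M)) ν := by
  induction hf using IsNoetherianRing.induction_on_isQuotientEquivQuotientPrime A with
  | subsingleton N =>
    intro _ G hG ε hε
    refine Eventually.of_forall fun κ => QEst_hi_le.2 fun j _ => ?_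
    have h1 := hG.null_one.map φ
    rw [map_one] at h1
    have h2 : (K (fun i => y i ^ κ) ((G.map φ).ap M)).H ν j = 0 :=
      (MC.app_nullH _ (h1.nullH _)).acyc.h_eq_zero ν j
    rw [h2]
    exact zero_le
  | quotient N p f =>
    intro hN G hG
    by_cases hp : p.1 ≤ sp η
    · have h1 : sp η = p.1 := by
        refine le_antisymm (Ideal.span_le.2 (Set.range_subset_iff.2 fun j => ?_)) hp
        have := congrArg f (hN j (f.symm 1))
        rw [map_smul, f.apply_symm_apply, map_zero, ← Algebra.algebraMap_eq_smul_one] at this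
        exact Ideal.Quotient.eq_zero_iff_mem.1 this
      have h2 : (kos η).IsRes N :=
        (kos_isRes η hη).congr ((Submodule.quotEquivOfEq _ _ h1).trans f.symm)
      intro ε hε
      refine (h.high ε hε).mono fun κ hκ => QEst_hi_le.2 fun j hj => ?_
      rw [QEst_res_H φ hG h2, h.QEst_kos]
      exact hκ j hj
    · obtain ⟨w, hw, hw'⟩ := SetLike.not_le_iff_exists.1 hp
      refine (h.QEst_gen (fun j => hG.null (hN j)) hw' (hG.null fun x => f.injective ?_)).mono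
        fun κ => QEst_hi_le.2 fun j _ => H_le_th _ ν j
      rw [map_smul, map_zero, Algebra.smul_def, Ideal.Quotient.algebraMap_eq,
        Ideal.Quotient.eq_zero_iff_mem.2 hw, zero_mul]
  | exact N₁ N₂ N₃ f g hf hg hfg i₁ i₃ =>
    intro hN G hG
    obtain ⟨G₁, hG₁, -⟩ := hA N₁
    obtain ⟨u, hu, hc⟩ := hG₁.cone hG hf hg hfg
    refine ((i₁ (fun j x => hf (by rw [map_smul, hN, map_zero])) G₁ hG₁).add
      (i₃ (fun j x => ?_) _ hc)).mono fun κ => QEst_hi_le.2 fun j hj => ?_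
    · obtain ⟨x, rfl⟩ := hg x
      rw [← map_smul, hN, map_zero]
    · have h4 := H_tgt_le_cone
        ((kos fun i => y i ^ κ).app_isMap ((hu.map φ).isMap (single B M))) ν j
      rw [← (QEst_cone_iso φ hu _).H_eq] at h4
      exact h4.trans (add_le_add (QEst_le_hi _ ν j hj) (QEst_le_hi _ ν j hj))

theorem AReg.finH (h : AReg φ η y ν M) {G : MC A} (hG : ∀ j, G.Null (η j)) (κ : ℕ) :
    (K (fun i => y i ^ κ) ((G.map φ).ap M)).FinH ν ⊤ ⊥ := by
  refine finH_of_th (ne_top_of_le_ne_top ?_ (QEst_th_le _ (fun j => (hG j).map φ) _ ν))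
  exact ENNReal.mul_ne_top (ENNReal.natCast_ne_top _)
    (th_ne_top (K_bdd _ (K_bdd _ (single_bdd M))) (h.QEst_fin κ))

theorem AReg.high_res (h : AReg φ η y ν M) (hA : HasRes A e)
    (hη : RingTheory.Sequence.IsWeaklyRegular A (List.ofFn η)) (hp : (sp η).IsPrime)
    (hN : ∀ j (x : N), η j • x = 0) {G : MC A} (hG : G.IsRes N) (ε : ℝ) (hε : 0 < ε) :
    ∀ᶠ κ : ℕ in atTop, ∀ j, 0 < j →
      (K (fun i => y i ^ κ) ((G.map φ).ap M)).H ν j ≤ ENNReal.ofReal (ε * κ ^ n) := by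
  exact (h.QEst_high hA hη hG.finite hN G hG ε hε).mono fun κ hκ => QEst_hi_le.1 hκ

theorem AReg.low_res (h : AReg φ η y ν M) (hA : HasRes A e)
    (hη : RingTheory.Sequence.IsWeaklyRegular A (List.ofFn η)) (hp : (sp η).IsPrime)
    (hN : ∀ j (x : N), η j • x = 0) (x₀ : N) (hx₀ : ∀ a : A, a • x₀ = 0 → a ∈ sp η) {G : MC A}
    (hG : G.IsRes N) : ∃ c : ℝ, 0 < c ∧ ∀ᶠ κ : ℕ in atTop,
      ENNReal.ofReal (c * κ ^ n) ≤ (K (fun i => y i ^ κ) ((G.map φ).ap M)).H ν 0 := by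
  have hk : sp η ≤ LinearMap.ker (LinearMap.toSpanSingleton A N x₀) :=
    Ideal.span_le.2 (Set.range_subset_iff.2 fun j => hN j x₀)
  have hi : Function.Injective ((sp η).liftQ _ hk) :=
    LinearMap.ker_eq_bot.1 (Submodule.ker_liftQ_eq_bot _ _ _ fun a ha => hx₀ a ha)
  obtain ⟨u, hu, hc⟩ := (kos_isRes η hη).cone hG hi (Submodule.mkQ_surjective _)
    (LinearMap.exact_map_mkQ_range _)
  obtain ⟨L, hL⟩ := QEst_K_bdd (K_bdd (fun j => φ (η j)) (single_bdd (B := B) M)) n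
  obtain ⟨E, hE⟩ : ∃ E, E = (K y (K (fun j => φ (η j)) (single B M))).ech ν ⊤ ⊥ := ⟨_, rfl⟩
  have hE0 : 0 < E := hE ▸ h.pos
  have hε : 0 < E / 2 / (2 * L + 1) := by positivity
  refine ⟨E / 2, half_pos hE0, ?_⟩
  filter_upwards [h.high _ hε, h.high_res hA hη hp (fun j x => by
    obtain ⟨x, rfl⟩ := Submodule.mkQ_surjective _ x
    rw [← map_smul, hN, map_zero]) hc _ hε] with κ h1 h2
  have h0 : 0 ≤ E / 2 / (2 * L + 1) * κ ^ n := by positivity
  have h3 := QEst_ech_le ENNReal.ofReal_ne_top (hL (fun i => y i ^ κ) ν) fun k hk => by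
    rcases lt_or_gt_of_ne hk with hk | hk
    · rw [MC.H_neg (K_π_neg _ (K_π_neg _ QEst_single_neg)) ν hk]
      exact zero_le
    · exact h1 k hk
  rw [K_ech_pow y (fun _ => κ) (K_bdd _ (single_bdd M)) h.fin, ← hE, Finset.prod_const,
    Finset.card_univ, Fintype.card_fin, ENNReal.toReal_ofReal h0, Nat.cast_pow] at h3
  have h4 := H_src_le_cone ((kos fun i => y i ^ κ).app_isMap ((hu.map φ).isMap (single B M))) ν 0
  rw [← (QEst_cone_iso φ hu _).H_eq, h.QEst_kos] at h4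
  have h5 := h4.trans (add_le_add_left (h2 (0 + 1) (by norm_num)) _)
  by_cases ht : (K (fun i => y i ^ κ) ((G.map φ).ap M)).H ν 0 = ⊤
  · rw [ht]; exact le_top
  refine ENNReal.ofReal_le_of_le_toReal ?_
  have h6 := ENNReal.toReal_mono (ENNReal.add_ne_top.2 ⟨ENNReal.ofReal_ne_top, ht⟩) h5
  rw [ENNReal.toReal_add ENNReal.ofReal_ne_top ht, ENNReal.toReal_ofReal h0] at h6
  have h7 : (2 * L + 1) * (E / 2 / (2 * L + 1) * (κ : ℝ) ^ n) = E / 2 * κ ^ n := by
    field_simp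
  linarith

end Crest.Agent.R188
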