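import Crest.Agent.R188.CCoord
import Crest.Agent.R188.QPos
import Crest.Agent.R188.RMod
import Crest.Agent.R188.CPres
import Crest.Agent.R188.CEv

/-!
# Positivity in residue characteristic zero
-/

set_option autoImplicit false
set_option linter.unusedVariables false

open scoped ENNReal NNReal TensorProduct

namespace Crest.Agent.R188

open Crest.Agent.R183 IsLocalRing WittVector

section aux

open Crest.Agent.R183.DG Filter

theorem RZero_lf_ext {B : Type} [CommRing B] {μ ν : LF B}
    (h : ∀ (M : Type) [AddCommGroup M] [Module B M], μ.val M = ν.val M) : μ = ν := by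
  obtain ⟨v, _, _, _⟩ := μ
  obtain ⟨v', _, _, _⟩ := ν
  have : @v = @v' := by
    funext M _ _
    exact h M
  subst this
  rfl

theorem RZero_lf {A S : Type} [CommRing A] [CommRing S] [IsLocalRing S] [Algebra A S]
    (hres : ∀ t : S, ∃ r : A, t - algebraMap A S r ∈ maximalIdeal S) :
    (LF.length A).comap (algebraMap A S) = LF.length S := by
  refine RZero_lf_ext fun M _ _ => ?_
  let _ : Module A M := Module.compHom M (algebraMap A S)
  have : IsScalarTower A S M := IsScalarTower.of_algebraMap_smul fun _ _ => rfl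
  rw [LF.comap_algebraMap_val, LF.length_val, LF.length_val]
  congr 1
  by_cases hlen : Module.length S M = ⊤
  · rw [hlen, eq_top_iff, ← hlen, ← WithBot.coe_le_coe, Module.coe_length, Module.coe_length]
    exact Order.krullDim_le_of_orderEmbedding (Submodule.restrictScalarsEmbedding A S M)
  · obtain ⟨c, hc⟩ := RMod_kill (Module.length_ne_top_iff.1 hlen)
    exact length_eq_of_residue_surj (maximalIdeal S) hres M
      ⟨c, fun a ha x => Module.mem_annihilator.1 (hc ha) x⟩

theorem RZero_o (C m : ℕ) : QEst_o (m + 1) fun κ => ((C * (κ + 1) ^ m : ℕ) : ℝ≥0∞) := by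
  intro ε hε
  obtain ⟨N, hN⟩ := exists_nat_ge ((C * 2 ^ m : ℝ) / ε)
  filter_upwards [eventually_ge_atTop N, eventually_ge_atTop 1] with κ h1 h2
  rw [← ENNReal.ofReal_natCast]
  refine ENNReal.ofReal_le_ofReal ?_
  have h3 : (1 : ℝ) ≤ κ := by exact_mod_cast h2
  have h4 : (N : ℝ) ≤ κ := by exact_mod_cast h1
  have h5 : (C * 2 ^ m : ℝ) ≤ ε * κ := by
    rw [div_le_iff₀ hε] at hN
    nlinarith
  have h6 : ((κ : ℝ) + 1) ^ m ≤ (2 * κ) ^ m := pow_le_pow_left₀ (by linarith) (by linarith) m
  push_cast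
  calc (C : ℝ) * (κ + 1) ^ m ≤ C * (2 * κ) ^ m := mul_le_mul_of_nonneg_left h6 C.cast_nonneg
    _ = C * 2 ^ m * κ ^ m := by rw [mul_pow, mul_assoc]
    _ ≤ ε * κ * κ ^ m := mul_le_mul_of_nonneg_right h5 (by positivity)
    _ = ε * κ ^ (m + 1) := by ring

variable {A : Type} [CommRing A] [IsNoetherianRing A] [IsLocalRing A] {n : ℕ} {s : Fin n → A}

theorem RZero_tors (hs : RegL A s) (M : Type) [AddCommGroup M] [Module A M] [Module.Finite A M]
    {a : A} (ha : a ≠ 0) (hM : ∀ x : M, a • x = 0) :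
    QEst_o n fun κ => (K (fun i => s i ^ κ) (single A M)).th (LF.length A) := by
  have := hs.isDomain
  cases n with
  | zero =>
    intro ε hε
    refine Eventually.of_forall fun κ => (MC.app_th_le _ _ _).trans ?_
    obtain ⟨b, hb⟩ := (HReg_isField hs).mul_inv_cancel ha
    have : Subsingleton M := subsingleton_of_forall_eq 0 fun x => by
      rw [← one_smul A x, ← hb, mul_comm, mul_smul, hM, smul_zero]
    rw [single_th, (LF.length A).zero M, mul_zero]
    exact zero_le
  | succ m =>
    have h1 := ringKrullDim_succ_le_of_surjective (Ideal.Quotient.mk (Module.annihilator A M))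
      Ideal.Quotient.mk_surjective (mem_nonZeroDivisors_of_ne_zero ha)
      (Ideal.Quotient.eq_zero_iff_mem.2 (Module.mem_annihilator.2 hM))
    rw [hs.dim] at h1
    have h2 : ringKrullDim (A ⧸ Module.annihilator A M) ≤ m := by
      push_cast at h1
      exact (ENat.WithBot.add_le_add_one_right_iff).1 h1
    obtain ⟨C, hC⟩ := K_th_growth s (c := 1) (by rw [pow_one, hs.max]) M h2
    exact (RZero_o C m).mono hC

theorem RZero_high (hs : RegL A s) (M : Type) [AddCommGroup M] [Module A M]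
    (hf : Module.Finite A M) :
    QEst_o n fun κ => QEst_hi (K (fun i => s i ^ κ) (single A M)) (LF.length A) := by
  induction hf using IsNoetherianRing.induction_on_isQuotientEquivQuotientPrime A with
  | subsingleton N =>
    exact (RZero_tors hs N one_ne_zero fun x => Subsingleton.elim _ _).mono fun κ =>
      QEst_hi_le.2 fun j _ => H_le_th _ _ j
  | quotient N p f =>
    have : Module.Finite A N := Module.Finite.equiv f.symm
    by_cases hp : p.1 = ⊥
    · intro ε hε
      filter_upwards [eventually_ge_atTop 1] with κ hκ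
      refine QEst_hi_le.2 fun j hj => ?_
      have e : N ≃ₗ[A] A := f.trans (Submodule.quotEquivOfEqBot _ hp)
      have h1 := ((kos fun i => s i ^ κ).ap_iso e).H_eq (LF.length A) j
      have h2 : maximalIdeal A ^ (n * κ + 1) ≤ sp fun i => s i ^ κ := by
        have h3 := sp_pow_le_sp_pow s κ
        rwa [Fintype.card_fin, hs.max] at h3
      have h3 := K_H_eq_zero_of_reg (fun i => s i ^ κ) A (hs.reg_of_sop _
        (fun i => Ideal.pow_mem_of_mem _ (hs.mem_max i) _ hκ) h2) (LF.length A) hj.ne'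
      exact (h1.trans h3).le.trans zero_le
    · obtain ⟨a, ha, ha0⟩ := Submodule.exists_mem_ne_zero_of_ne_bot hp
      refine (RZero_tors hs N ha0 fun x => f.injective ?_).mono fun κ =>
        QEst_hi_le.2 fun j _ => H_le_th _ _ j
      rw [map_smul, map_zero, Algebra.smul_def, Ideal.Quotient.algebraMap_eq,
        Ideal.Quotient.eq_zero_iff_mem.2 ha, zero_mul]
  | exact N₁ N₂ N₃ f g hf hg hfg i₁ i₃ =>
    refine (i₁.add i₃).mono fun κ => QEst_hi_le.2 fun j hj => ?_
    refine (ses_mid_le ((kos fun i => s i ^ κ).app_isMap (single_isMap f))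
      ((kos fun i => s i ^ κ).app_isMap (single_isMap g)) ?_ ?_
      (MC.HApp_exact _ hfg) (LF.length A) j).trans
      (add_le_add (QEst_le_hi _ _ j hj) (QEst_le_hi _ _ j hj))
    · exact hf.comp_left
    · exact hg.comp_left

theorem RZero_fin (hs : RegL A s) (M : Type) [AddCommGroup M] [Module A M] [Module.Finite A M] :
    (kos s).Fin' (LF.length A) M :=
  MC.Supp.fin'_length (kos_supp s) ⟨1, by rw [pow_one, hs.max]; exact le_sup_left⟩

theorem RZero_nonneg (hs : RegL A s) (M : Type) [AddCommGroup M] [Module A M]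
    [Module.Finite A M] : 0 ≤ (kos s).chi (LF.length A) M := by
  obtain ⟨L, hL⟩ := QEst_K_bdd (single_bdd (B := A) M) n
  refine le_of_forall_pos_le_add fun δ hδ => ?_
  have hε : 0 < δ / (2 * L + 1) := by positivity
  obtain ⟨κ, h1, h2⟩ := ((RZero_high hs M inferInstance _ hε).and (eventually_ge_atTop 1)).exists
  have h0 : (K (fun i => s i ^ κ) (single A M)).H (LF.length A) 0 ≠ ⊤ :=
    ne_top_of_le_ne_top (ENNReal.mul_ne_top (ENNReal.natCast_ne_top _) (RZero_fin hs M 0))
      (K_H_pow_le s (fun _ => κ) _ _ 0)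
  have h3 := le_ech ENNReal.ofReal_ne_top (hL (fun i => s i ^ κ) (LF.length A)) h0 fun k hk => by
    rcases lt_or_gt_of_ne hk with hk | hk
    · rw [K_single_H_eq_zero _ _ _ (Or.inl hk)]
      exact zero_le
    · exact QEst_hi_le.1 h1 k hk
  rw [K_ech_pow s (fun _ => κ) (single_bdd M) (RZero_fin hs M), Finset.prod_const,
    Finset.card_univ, Fintype.card_fin, ENNReal.toReal_ofReal (by positivity), Nat.cast_pow] at h3
  have h4 : (0 : ℝ) < (κ : ℝ) ^ n := pow_pos (Nat.cast_pos.2 h2) n
  have h5 := ENNReal.toReal_nonneg (a := (K (fun i => s i ^ κ) (single A M)).H (LF.length A) 0)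
  have h6 : (2 * L + 1) * (δ / (2 * L + 1) * (κ : ℝ) ^ n) = δ * κ ^ n := by field_simp
  have h7 : 0 ≤ δ / (2 * L + 1) * (κ : ℝ) ^ n := by positivity
  refine le_of_mul_le_mul_left ?_ h4
  change _ ≤ (κ : ℝ) ^ n * ((K s (single A M)).ech (LF.length A) ⊤ ⊥ + δ)
  nlinarith

theorem RZero_pos (hs : RegL A s) {M : Type} [AddCommGroup M] [Module A M] [Module.Finite A M]
    (f : A →ₗ[A] M) (hf : Function.Injective f) : 0 < (kos s).chi (LF.length A) M := by
  rw [(kos s).chi_ses hf (Submodule.mkQ_surjective _) (LinearMap.exact_map_mkQ_range f)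
    (RZero_fin hs A) (RZero_fin hs _)]
  refine add_pos_of_pos_of_nonneg ?_ (RZero_nonneg hs _)
  have h1 := ech_eq_single (C := K s (single A A)) (μ := LF.length A) (A := ⊤) (A' := ⊥) 0
    fun k hk => K_H_eq_zero_of_reg s A hs.reg _ hk
  have h2 := HReg_H_zero s
  rw [hs.max, LFlength_quot_max] at h2
  change 0 < (K s (single A A)).ech (LF.length A) ⊤ ⊥
  rw [h1]
  change 0 < _ * ((K s (single A A)).H (LF.length A) 0).toReal
  rw [h2]
  simp [sg]

omit [IsNoetherianRing A] [IsLocalRing A] in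
theorem RZero_H {S : Type} [CommRing S] [IsLocalRing S] [Algebra A S]
    (hres : ∀ t : S, ∃ r : A, t - algebraMap A S r ∈ maximalIdeal S) (s : Fin n → A) (M : Type)
    [AddCommGroup M] [Module S M] [Module A M] [IsScalarTower A S M] (κ : ℕ) (k : ℤ) :
    (K (fun i => algebraMap A S (s i) ^ κ) (single S M)).H (LF.length S) k =
      (K (fun i => s i ^ κ) (single A M)).H (LF.length A) k := by
  rw [← RZero_lf hres, QPos_K_res, res_single]

end aux

theorem areg_domain {A₀ S : Type} [CommRing A₀] [IsNoetherianRing A₀] [IsLocalRing A₀] {n : ℕ}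
    {s : Fin n → A₀} (hs : RegL A₀ s) [CommRing S] [IsDomain S] [IsLocalRing S] [Algebra A₀ S]
    [Module.Finite A₀ S] (inj : Function.Injective (algebraMap A₀ S))
    (hres : ∀ t : S, ∃ r : A₀, t - algebraMap A₀ S r ∈ maximalIdeal S) {A : Type} [CommRing A]
    (φ : A →+* S) (hφ : Function.Injective φ) :
    AReg φ (Fin.elim0 : Fin 0 → A) (fun i => algebraMap A₀ S (s i)) (LF.length S) S := by
  have hz : ∀ (z : Fin n → S) (k : ℤ), (K z (K (fun j => φ ((Fin.elim0 : Fin 0 → A) j))
      (DG.single S S))).H (LF.length S) k = (K z (DG.single S S)).H (LF.length S) k :=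
    fun z k => (MC.app_iso _ (K_zero_iso _ _)).H_eq _ k
  have h1 : ∀ k, (K (fun i => algebraMap A₀ S (s i)) (K (fun j => φ ((Fin.elim0 : Fin 0 → A) j))
      (DG.single S S))).H (LF.length S) k = (K s (DG.single A₀ S)).H (LF.length A₀) k := fun k => by
    have h := RZero_H hres s S 1 k
    rw [show (fun i => algebraMap A₀ S (s i) ^ 1) = fun i => algebraMap A₀ S (s i) from
      funext fun i => pow_one _, show (fun i => s i ^ 1) = s from funext fun i => pow_one _] at h
    exact (hz _ k).trans h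
  refine ⟨fun k => (h1 k).trans_ne (RZero_fin hs S k), ?_, fun ε hε => ?_, fun w hw => ?_⟩
  · rw [DG.ech_congr h1]
    exact RZero_pos hs (Algebra.linearMap A₀ S) inj
  · filter_upwards [RZero_high hs S inferInstance ε hε] with κ hκ j hj
    rw [hz, RZero_H hres]
    exact QEst_hi_le.1 hκ j hj
  · have hw0 : φ w ≠ 0 := fun h => hw (by
      rw [hφ (h.trans (map_zero φ).symm)]
      exact zero_mem _)
    have := hs.isDomain
    obtain ⟨a, ha, ha0⟩ := Submodule.exists_mem_ne_zero_of_ne_bot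
      (Ideal.comap_ne_bot_of_integral_mem (R := A₀) hw0 (Ideal.mem_span_singleton_self (φ w))
        (Algebra.IsIntegral.isIntegral _))
    refine (RZero_tors hs (S ⧸ Ideal.span {φ w}) ha0 fun x => ?_).mono fun κ => ?_
    · rw [Algebra.smul_def, IsScalarTower.algebraMap_apply A₀ S (S ⧸ Ideal.span {φ w}),
        Ideal.Quotient.algebraMap_eq, Ideal.Quotient.eq_zero_iff_mem.2 (Ideal.mem_comap.1 ha),
        zero_mul]
    · refine le_trans ?_ (DG.H_le_th _ _ 0)
      rw [← RZero_H hres, K_H_zero_single, ← LF.sz_top, ← LF.sz_top,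
        ← Submodule.range_mkQ (Ideal.span {φ w}), LinearMap.range_eq_map, LF.sz_map_eq]
      refine LF.sz_mono _ le_rfl ?_
      rw [← Submodule.map_smul'', Submodule.comap_map_mkQ]
      refine sup_le (fun x hx => ?_) (Submodule.smul_mono_left le_sup_right)
      exact (Complete_mem_smul_top _).2 (Ideal.mem_sup_left (Ideal.mem_sup_right hx))

theorem RZero_eval {k R : Type} [Field k] [CommRing R] [IsNoetherianRing R] [IsLocalRing R]
    (s : k →+* R) (hs : ∀ r, ∃ a, r - s a ∈ maximalIdeal R) {I : Ideal R} {e : ℕ}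
    (he : ringKrullDim (R ⧸ I) = e) (z : ℕ → R) (hz : ∀ i < e, z i ∈ maximalIdeal R)
    (h : ringKrullDim (R ⧸ (I ⊔ spn z e)) ≤ (e - e : ℕ)) (Φ : MvPowerSeries (Fin e) k →+* R)
    (hC : ∀ a, Φ (MvPowerSeries.C a) = s a) (hX : ∀ i, Φ (MvPowerSeries.X i) = z i) :
    ((Ideal.Quotient.mk I).comp Φ).Finite ∧ Function.Injective ((Ideal.Quotient.mk I).comp Φ) := by
  have := CEv_complete_field k e
  have hA := regL_field_series k e
  have := hA.isDomain
  have hm : (maximalIdeal (MvPowerSeries (Fin e) k)).map Φ = spn z e := by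
    rw [← hA.max, sp_map, CPres_spn_eq, funext hX]
  rw [Nat.sub_self] at h
  have hfin : ((Ideal.Quotient.mk I).comp Φ).Finite := by
    refine finite_of_pow_le Φ ?_ (fun r => ?_) I ?_
    · rw [hm]
      exact Ideal.span_le.2 (by
        rintro _ ⟨i, hi, rfl⟩
        exact hz i hi)
    · obtain ⟨a, ha⟩ := hs r
      exact ⟨MvPowerSeries.C a, hC a ▸ ha⟩
    · rw [hm]
      exact pow_le_of_dim_le_zero h
  exact ⟨hfin, (RingHom.injective_iff_ker_eq_bot _).2 (ker_eq_of_finite _ hfin ⊥ Ideal.isPrime_bot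
    bot_le ((ringKrullDim_quotient_le _).trans hA.dim.le) he.ge)⟩

theorem RZero_main {k R : Type} [Field k] [CommRing R] [IsNoetherianRing R] [IsLocalRing R]
    [IsAdicComplete (maximalIdeal R) R] (s : k →+* R) (hs : ∀ r, ∃ c, r - s c ∈ maximalIdeal R)
    {d : ℕ} {x : Fin d → R}
    (hx : RegL R x) {P Q : Ideal R} (hP : P.IsPrime) (hQ : Q.IsPrime) {a b : ℕ} (hab : a + b = d)
    (hba : b ≤ a) (ha : ringKrullDim (R ⧸ P) = a) (hb : ringKrullDim (R ⧸ Q) = b)
    (hPQ : ∃ c : ℕ, maximalIdeal R ^ c ≤ P ⊔ Q) {F : MC R} (hF : F.IsRes (R ⧸ Q)) :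
    0 < F.chi (LF.length R) (R ⧸ P) := by
  obtain ⟨z, hz, hdim⟩ := coord_gen x hx.max ![P, Q] ![a, b] (Fin.forall_fin_two.2 ⟨ha.le, hb.le⟩)
  have hzm : ∀ i < d, z i ∈ maximalIdeal R := fun i hi => hz ▸ Ideal.subset_span ⟨i, hi, rfl⟩
  have had : a ≤ d := by omega
  have hbd : b ≤ d := by omega
  obtain ⟨π, hπ, hπC, hπX⟩ := exists_pres_field hx s hs z ((add_comm b a).trans hab) hz
  obtain ⟨Φ, hΦC, hΦX⟩ := exists_eval (maximalIdeal R) s (fun i : Fin a => z i)
    fun i => hzm i (i.2.trans_le had)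
  have hCC : ∀ c, (π.comp MvPowerSeries.C) (MvPowerSeries.C c) = s c := hπC
  have hCX : ∀ i : Fin b, (π.comp MvPowerSeries.C) (MvPowerSeries.X i) = z i := fun i => by
    rw [RingHom.comp_apply, ← CEv_tv_left, hπX i (i.2.trans_le hbd)]
  obtain ⟨hPf, hPi⟩ := RZero_eval s hs ha z (fun i hi => hzm i (hi.trans_le had)) (hdim 0 a had)
    Φ hΦC hΦX
  obtain ⟨hQf, hQi⟩ := RZero_eval s hs hb z (fun i hi => hzm i (hi.trans_le hbd)) (hdim 1 b hbd)
    (π.comp MvPowerSeries.C) hCC hCX
  have hre : π.comp MvPowerSeries.C =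
      Φ.comp (MvPowerSeries.rename (R := k) (Fin.castLEEmb hba)).toRingHom := by
    refine mvPowerSeries_hom_ext _ _ (fun c => ?_) (fun i => ?_) ?_
    · rw [hCC]
      exact ((congrArg Φ (MvPowerSeries.rename_C _ _)).trans (hΦC c)).symm
    · rw [hCX]
      exact ((congrArg Φ (MvPowerSeries.rename_X (Fin.castLEEmb hba) i)).trans (hΦX _)).symm
    · refine iInf_pow_eq_bot (maximalIdeal R) (Ideal.span_le.2 (Set.range_subset_iff.2 fun i => ?_))
      rw [hCX]
      exact hzm i (i.2.trans_le hbd)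
  have := CEv_complete_field k b
  have := Ideal.Quotient.nontrivial_iff.2 hP.ne_top
  have : IsLocalRing (R ⧸ P) := IsLocalRing.of_surjective' _ Ideal.Quotient.mk_surjective
  have hmP := map_maximalIdeal_of_surjective (Ideal.Quotient.mk P) Ideal.Quotient.mk_surjective
  have hmπ := map_maximalIdeal_of_surjective π hπ.2
  let e := RingEquiv.ofBijective π hπ
  have he : Q.map e.symm.toRingHom = Q.comap π := by
    change Q.map e.symm = Q.comap e
    exact Ideal.map_symm e
  have hF' := QPos_res_map e.symm.toRingHom (RingHom.Flat.of_bijective e.symm.bijective) Q hF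
  rw [he] at hF'
  have hfin : Module.Finite (MvPowerSeries (Fin b) k)
      (MvPowerSeries (Fin a) (MvPowerSeries (Fin b) k) ⧸ Q.comap π) := by
    have h1 : Q ≤ (Q.comap π).comap e.symm.toRingHom := fun t ht => by
      change e (e.symm t) ∈ Q
      rwa [e.apply_symm_apply]
    have h2 := (RingHom.Finite.of_surjective (Ideal.quotientMap _ _ h1)
      (Ideal.quotientMap_surjective e.symm.surjective)).comp hQf
    refine RingHom.finite_algebraMap.1 ?_
    convert h2 using 1
    refine RingHom.ext fun t => ?_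
    exact congrArg (Ideal.Quotient.mk _) (e.symm_apply_apply (MvPowerSeries.C t)).symm
  have hker : (Q.comap π).comap MvPowerSeries.C =
      sp (Fin.elim0 : Fin 0 → MvPowerSeries (Fin b) k) := by
    rw [HKos_sp_zero, Ideal.comap_comap, ← Ideal.mk_ker (I := Q), RingHom.comap_ker]
    exact (RingHom.injective_iff_ker_eq_bot _).1 hQi
  let _ := ((Ideal.Quotient.mk P).comp Φ).toAlgebra
  have : Module.Finite (MvPowerSeries (Fin a) k) (R ⧸ P) := hPf
  have hA := areg_domain (regL_field_series k a) (S := R ⧸ P) hPi (fun t => by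
      obtain ⟨t, rfl⟩ := Ideal.Quotient.mk_surjective t
      obtain ⟨c, hc⟩ := hs t
      refine ⟨MvPowerSeries.C c, ?_⟩
      rw [← hmP]
      have := Ideal.mem_map_of_mem (Ideal.Quotient.mk P) hc
      rwa [map_sub, ← hΦC] at this)
    (((Ideal.Quotient.mk P).comp π).comp MvPowerSeries.C) (by
      rw [RingHom.comp_assoc, hre, ← RingHom.comp_assoc]
      exact hPi.comp (MvPowerSeries.rename_injective _))
  have h := pos_diag (regL_field_series k b) (Q.comap π) Fin.elim0 (by simp) (by
      rw [HKos_sp_zero]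
      exact Ideal.isPrime_bot) hker hF' ((Ideal.Quotient.mk P).comp π) (LF.length (R ⧸ P)) (R ⧸ P)
    _ (fun t ht => ?_) (fun i => ?_) hA
  · rw [MC.map_map] at h
    have h1 : ((Ideal.Quotient.mk P).comp π).comp e.symm.toRingHom = Ideal.Quotient.mk P :=
      RingHom.ext fun r => congrArg _ (e.apply_symm_apply r)
    rwa [h1, chi_quot] at h
  · have h1 := hdim 0 a had
    rw [Matrix.cons_val_zero, Matrix.cons_val_zero, Nat.sub_self] at h1
    obtain ⟨c, hc⟩ := pow_le_of_dim_le_zero h1
    refine ⟨c, Ideal.mem_sup_left ?_⟩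
    have h2 := Ideal.mem_map_of_mem (Ideal.Quotient.mk P)
      (hc (Ideal.pow_mem_pow (hmπ ▸ Ideal.mem_map_of_mem π ht) c))
    rw [Ideal.map_sup, Ideal.map_quotient_self, bot_sup_eq, CPres_spn_eq, sp_map, map_pow] at h2
    rw [← funext fun i => congrArg (Ideal.Quotient.mk P) (hΦX i)] at h2
    exact h2
  · obtain ⟨c, hc⟩ := hPQ
    refine ⟨c, ?_⟩
    have h2 := Ideal.mem_map_of_mem (Ideal.Quotient.mk P)
      (hc (Ideal.pow_mem_pow (hzm i (i.2.trans_le had)) c))
    rw [Ideal.map_sup, Ideal.map_quotient_self, bot_sup_eq, map_pow, ← hΦX] at h2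
    rw [← Ideal.map_map, Ideal.map_comap_of_surjective π hπ.2]
    exact h2

theorem pos_zero {R : Type} [CommRing R] [IsNoetherianRing R] [IsLocalRing R]
    [IsAdicComplete (maximalIdeal R) R] [CharZero (ResidueField R)] {d : ℕ} {x : Fin d → R}
    (hx : RegL R x) {P Q : Ideal R} (hP : P.IsPrime) (hQ : Q.IsPrime) {a b : ℕ} (hab : a + b = d)
    (hba : b ≤ a) (ha : ringKrullDim (R ⧸ P) = a) (hb : ringKrullDim (R ⧸ Q) = b)
    (hPQ : ∃ c : ℕ, maximalIdeal R ^ c ≤ P ⊔ Q) {F : MC R} (hF : F.IsRes (R ⧸ Q)) :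
    0 < F.chi (LF.length R) (R ⧸ P) := by
  obtain ⟨s, hs⟩ := exists_coeffField_charZero R
  exact RZero_main s (fun r => ⟨residue R r, by
    rw [← residue_eq_zero_iff, map_sub, hs, sub_self]⟩) hx hP hQ hab hba ha hb hPQ hF

end Crest.Agent.R188
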