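import Crest.Agent.R188.CMix
import Crest.Agent.R188.CChp
import Crest.Agent.R188.RZero
import Crest.Agent.R188.HTor

/-!
# Serre positivity
-/

set_option autoImplicit false
set_option linter.unusedVariables false

open scoped ENNReal NNReal TensorProduct

namespace Crest.Agent.R188

open Crest.Agent.R183 IsLocalRing WittVector

theorem pos_dim_zero {R : Type} [CommRing R] [IsNoetherianRing R] [IsLocalRing R] {d : ℕ}
    {x : Fin d → R} (hx : RegL R x) {P Q : Ideal R} (hP : P.IsPrime) (hQ : Q.IsPrime)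
    (ha : ringKrullDim (R ⧸ P) = (0 : ℕ)) (hb : ringKrullDim (R ⧸ Q) = d) {F : MC R}
    (hF : F.IsRes (R ⧸ Q)) : 0 < F.chi (LF.length R) (R ⧸ P) := by
  have := hx.isDomain
  have hQ0 : Q = sp (Fin.elim0 : Fin 0 → R) := by
    rw [HKos_sp_zero]
    by_contra h
    obtain ⟨r, hr, hr0⟩ := Submodule.exists_mem_ne_zero_of_ne_bot h
    have h1 := ringKrullDim_quotient_succ_le_of_nonZeroDivisor (mem_nonZeroDivisors_of_ne_zero hr0)
    have h2 := RMod_dim_anti ((Ideal.span_singleton_le_iff_mem Q).2 hr)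
    rw [hb] at h2
    rw [hx.dim] at h1
    have h3 : ((d : WithBot ℕ∞)) + 1 ≤ d := (add_le_add_left h2 1).trans h1
    have h4 : d + 1 ≤ d := by exact_mod_cast h3
    omega
  subst hQ0
  have : Ring.KrullDimLE 0 (R ⧸ P) := Ring.krullDimLE_iff.2 ha.le
  have : P.IsMaximal := Ideal.Quotient.maximal_of_isField P Ring.KrullDimLE.isField_of_isDomain
  have h1 : (LF.length R).val (R ⧸ P) = 1 := by
    rw [LF.length_val, LFlength_quot_max]
    simp
  rw [hF.chi_eq (kos_isRes _ (by simp)), MC.chi_of_val _ (by rw [h1]; exact ENNReal.one_ne_top),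
    h1]
  change 0 < (∑ i : Unit, ((sg 0 : ℤ) : ℝ)) * (1 : ℝ≥0∞).toReal
  simp

theorem RegL.posP {R : Type} [CommRing R] [IsNoetherianRing R] [IsLocalRing R]
    [IsAdicComplete (maximalIdeal R) R] [IsAlgClosed (ResidueField R)] {d : ℕ} {x : Fin d → R}
    (hx : RegL R x) : PosP R d := by
  intro a b P Q F hab hP hQ ha hb hPQ hF
  obtain ⟨G, hG, -⟩ := hx.hasRes (R ⧸ P)
  have hs := hF.chi_symm hG (LF.length R)
  have hQP : ∃ c : ℕ, maximalIdeal R ^ c ≤ Q ⊔ P := by rwa [sup_comm]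
  rcases a with _ | a
  · obtain rfl : b = d := by omega
    exact pos_dim_zero hx hP hQ ha hb hF
  rcases b with _ | b
  · obtain rfl : a + 1 = d := by omega
    rw [hs]
    exact pos_dim_zero hx hQ hP hb ha hG
  rcases CharP.exists' (ResidueField R) with h0 | ⟨p, hp, h0⟩
  · rcases le_total (b + 1) (a + 1) with h | h
    · exact pos_zero hx hP hQ hab h ha hb hPQ hF
    · rw [hs]
      exact pos_zero hx hQ hP (by omega) h hb ha hQP hG
  by_cases hpP : (p : R) ∈ P <;> by_cases hpQ : (p : R) ∈ Q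
  · rcases le_total (b + 1) (a + 1) with h | h
    · exact pos_chp p hx hP hQ hpP hab h (Or.inr ⟨hpQ, rfl⟩) ha hb hPQ hF
    · rw [hs]
      exact pos_chp p hx hQ hP hpQ (by omega) h (Or.inr ⟨hpP, rfl⟩) hb ha hQP hG
  · rcases le_or_gt b (a + 1) with h | h
    · exact pos_chp p hx hP hQ hpP hab h (Or.inl ⟨hpQ, rfl⟩) ha hb hPQ hF
    · rw [hs]
      exact pos_mix p hx hQ hP hpQ (by omega) h.le (Or.inr ⟨hpP, rfl⟩) hb ha hQP hG
  · rcases le_or_gt a (b + 1) with h | h
    · rw [hs]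
      exact pos_chp p hx hQ hP hpQ (by omega) h (Or.inl ⟨hpP, rfl⟩) hb ha hQP hG
    · exact pos_mix p hx hP hQ hpP hab h.le (Or.inr ⟨hpQ, rfl⟩) ha hb hPQ hF
  · rcases le_total b a with h | h
    · exact pos_mix p hx hP hQ hpP hab h (Or.inl ⟨hpQ, rfl⟩) ha hb hPQ hF
    · rw [hs]
      exact pos_mix p hx hQ hP hpQ (by omega) h (Or.inl ⟨hpP, rfl⟩) hb ha hQP hG

theorem serre_pos (R : Type) [CommRing R]
    [IsRegularLocalRing R] (d : ℕ) (hd : ringKrullDim R = d) (M N : ModuleCat.{0} R)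
    [Module.Finite R M] [Module.Finite R N] [Nontrivial M] [Nontrivial N]
    (hlen : IsFiniteLength R (TensorProduct R M N))
    (hdim : Module.supportDim R M + Module.supportDim R N = d) :
    0 < ∑ i ∈ Finset.range (d + 1), (-1 : ℤ) ^ i *
      ((Module.length R (((CategoryTheory.Tor (ModuleCat.{0} R) i).obj M).obj N)).toNat : ℤ) := by
  obtain ⟨x, hx⟩ := exists_regL R d hd
  obtain ⟨E, hE, hEd⟩ := hx.hasRes N
  have h1 := tor_sum M N E hE d hEd
  obtain ⟨R', _, _, _, _, _, _, hm, _, hx'⟩ := exists_baseChange hx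
  obtain ⟨c, hc⟩ := pow_le_of_finiteLength M N hlen
  have dimle : ∀ (L : Type) [AddCommGroup L] [Module R L] [Module.Finite R L] [Nontrivial L],
      ∃ a : ℕ, ringKrullDim (R ⧸ Module.annihilator R L) = a := by
    intro L _ _ _ _
    have h2 : Module.annihilator R L ≠ ⊤ := fun h => by
      obtain ⟨y, hy⟩ := exists_ne (0 : L)
      have h3 : (1 : R) ∈ Module.annihilator R L := h ▸ Submodule.mem_top
      exact hy (by simpa using Module.mem_annihilator.1 h3 y)
    obtain ⟨a, -, ha⟩ := VAN_exact_dim h2 ((ringKrullDim_quotient_le _).trans hd.le)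
    exact ⟨a, ha⟩
  obtain ⟨a, ha⟩ := dimle M
  obtain ⟨b, hb⟩ := dimle N
  rw [Module.supportDim_eq_ringKrullDim_quotient_annihilator,
    Module.supportDim_eq_ringKrullDim_quotient_annihilator, ha, hb] at hdim
  have hab : a + b = d := by exact_mod_cast hdim
  have h4 := chi_pos_of_posP hx'.hasRes (hx'.van (hasRoots R')) hx'.posP hab (R' ⊗[R] M)
    (R' ⊗[R] N) ((dim_baseChange hm M).trans ha) ((dim_baseChange hm N).trans hb)
    ⟨c, by
      rw [RMod_ann, RMod_ann, ← Ideal.map_sup, ← hm, ← Ideal.map_pow]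
      exact Ideal.map_mono hc⟩ hE.map
  rw [chi_baseChange hm E M (hE.supp.fin'_length ⟨c, by rwa [sup_comm]⟩), ← h1] at h4
  exact_mod_cast h4

end Crest.Agent.R188
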